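import Vale.Agent.P347.Zero.Quad
import Vale.Agent.P347.Zero.Calc.Basic

/-!
Iterated derivatives along a solution curve form a chain, and bounds on the laws at each time pass
to quadratic-mean bounds on the path integral of a member of the chain.
-/

open MeasureTheory Set
open scoped ENNReal

namespace Vale.Agent.P347.Zero

open Calc

variable {K : ℕ → ℝ} {c : Cx K} {v : Pt c → EE c.d × EE c.d} {φ : Pt c → Fin c.d → ℝ}

/-- The components of iterated derivatives, as a vector. -/
noncomputable def alongVec (v : Pt c → EE c.d × EE c.d) (φ : Pt c → Fin c.d → ℝ) (m : ℕ)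
    (p : Pt c) : EE c.d :=
  WithLp.toLp 2 ((along v)^[m] φ p)

/-- The components of every iterate are differentiable at the flow times. -/
def AlongDiff (v : Pt c → EE c.d × EE c.d) (φ : Pt c → Fin c.d → ℝ) : Prop :=
  ∀ (m : ℕ) (p : Pt c), p.1 ∈ times → ∀ k, DifferentiableAt ℝ (fun q => (along v)^[m] φ q k) p

lemma alongVec_deriv (h : AlongDiff v φ) {z : ℝ → EE c.d × EE c.d} {a b : ℝ}
    (hab : Icc a b ⊆ times)
    (hz : ∀ t ∈ Icc a b, HasDerivWithinAt z (v (t, z t)) (Icc a b) t) (m : ℕ) :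
    ∀ t ∈ Icc a b, HasDerivWithinAt (fun t => alongVec v φ m (t, z t))
      (alongVec v φ (m + 1) (t, z t)) (Icc a b) t := by
  intro t ht
  have hΓ : HasDerivWithinAt (fun t => (t, z t)) ((1 : ℝ), v (t, z t)) (Icc a b) t :=
    (hasDerivWithinAt_id t _).prodMk (hz t ht)
  have hk : HasDerivWithinAt (fun t k => (along v)^[m] φ (t, z t) k)
      (fun k => (along v)^[m + 1] φ (t, z t) k) (Icc a b) t := by
    refine hasDerivWithinAt_pi.2 fun k => ?_
    rw [Function.iterate_succ_apply']
    exact (h m (t, z t) (hab ht) k).hasFDerivAt.comp_hasDerivWithinAt (x := t) hΓ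
  exact (PiLp.continuousLinearEquiv 2 ℝ fun _ : Fin c.d => ℝ).symm.toContinuousLinearMap.hasFDerivAt
    |>.comp_hasDerivWithinAt (x := t) hk

lemma alongVec_chain (h : AlongDiff v φ) {z : ℝ → EE c.d × EE c.d} {a b : ℝ}
    (hab : Icc a b ⊆ times)
    (hz : ∀ t ∈ Icc a b, HasDerivWithinAt z (v (t, z t)) (Icc a b) t) (m : ℕ) :
    Chain (fun k t => alongVec v φ k (t, z t)) m a b :=
  ⟨fun k _ => alongVec_deriv h hab hz k, fun t ht =>
    (alongVec_deriv h hab hz m t ht).continuousWithinAt⟩

lemma alongVec_normSq (m : ℕ) (p : Pt c) :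
    ‖alongVec v φ m p‖ ^ 2 = ∑ i, (along v)^[m] φ p i ^ 2 :=
  EuclideanSpace.real_norm_sq_eq _

lemma measurable_alongVec_slice (h : AlongDiff v φ) (m : ℕ) {t : ℝ} (ht : t ∈ times) :
    Measurable fun z : EE c.d × EE c.d => alongVec v φ m (t, z) := by
  refine Continuous.measurable ?_
  unfold alongVec
  refine (PiLp.continuous_toLp 2 _).comp (continuous_pi fun k => continuous_iff_continuousAt.2
    fun z => ?_)
  exact ContinuousAt.comp (g := fun q => (along v)^[m] φ q k) (h m (t, z) ht k).continuousAt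
    (by fun_prop)

/-- The mean square of the path integral of one member of a chain. -/
lemma path_sq_le (h : AlongDiff v φ) (m : ℕ) {Ω : Type*} [MeasurableSpace Ω] (μ : Measure Ω)
    [SFinite μ] {R B : ℝ} (hR : 0 ≤ R) (hsub : Icc 0 R ⊆ times) (z : ℝ → Ω → EE c.d × EE c.d)
    (hzm : ∀ t ∈ Icc 0 R, Measurable (z t))
    (hz : ∀ ω, ∀ t ∈ Icc 0 R, HasDerivWithinAt (fun t => z t ω) (v (t, z t ω)) (Icc 0 R) t)
    (hB : ∀ t ∈ Icc 0 R, ∫⁻ w, ENNReal.ofReal (∑ i, (along v)^[m] φ (t, w) i ^ 2) ∂μ.map (z t) ≤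
      ENNReal.ofReal (B ^ 2)) :
    ∫⁻ ω, ENNReal.ofReal ((∫ t in (0:ℝ)..R, ‖alongVec v φ m (t, z t ω)‖) ^ 2) ∂μ ≤
      ENNReal.ofReal ((R * B) ^ 2) := by
  set g : ℝ → Ω → ℝ := fun t ω =>
    ‖alongVec v φ m ((projIcc 0 R hR t : ℝ), z (projIcc 0 R hR t) ω)‖ with hg
  have hc : ∀ ω, Continuous fun t => g t ω := fun ω => by
    have h1 : ContinuousOn (fun t => alongVec v φ m (t, z t ω)) (Icc 0 R) := fun t ht =>
      (alongVec_deriv h hsub (hz ω) m t ht).continuousWithinAt
    exact (h1.comp_continuous (continuous_subtype_val.comp continuous_projIcc)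
      fun t => (projIcc 0 R hR t).2).norm
  have hm : Measurable (Function.uncurry g) :=
    measurable_uncurry_of_continuous_of_measurable (u := g) hc fun t =>
      (((measurable_alongVec_slice h m (hsub (projIcc 0 R hR t).2)).comp
        (hzm _ (projIcc 0 R hR t).2))).norm
  have e : ∀ ω, ∫ t in (0:ℝ)..R, ‖alongVec v φ m (t, z t ω)‖ = ∫ t in (0:ℝ)..R, g t ω := fun ω =>
    intervalIntegral.integral_congr fun t ht => by
      rw [uIcc_of_le hR] at ht
      simp only [hg, projIcc_of_mem hR ht]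
  simp only [e]
  refine path_lintegral_sq μ hR g hm (fun ω => (hc ω).continuousOn) fun t ht => ?_
  refine le_trans (le_of_eq ?_) (hB t ht)
  have hmm : Measurable fun w => ENNReal.ofReal (∑ i, (along v)^[m] φ (t, w) i ^ 2) := by
    have := ((measurable_alongVec_slice h m (hsub ht)).norm.pow_const 2)
    exact ENNReal.measurable_ofReal.comp (by simpa only [alongVec_normSq] using this)
  rw [lintegral_map hmm (hzm t ht)]
  exact lintegral_congr fun ω => by simp only [hg, projIcc_of_mem hR ht, alongVec_normSq]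

/-- The path integral of a member of a chain is measurable in the path. -/
lemma path_measurable (h : AlongDiff v φ) (m : ℕ) {Ω : Type*} [MeasurableSpace Ω] {R : ℝ}
    (hR : 0 ≤ R) (hsub : Icc 0 R ⊆ times) (z : ℝ → Ω → EE c.d × EE c.d)
    (hzm : ∀ t ∈ Icc 0 R, Measurable (z t))
    (hz : ∀ ω, ∀ t ∈ Icc 0 R, HasDerivWithinAt (fun t => z t ω) (v (t, z t ω)) (Icc 0 R) t) :
    Measurable fun ω => ∫ t in (0:ℝ)..R, ‖alongVec v φ m (t, z t ω)‖ := by
  set g : ℝ → Ω → ℝ := fun t ω =>
    ‖alongVec v φ m ((projIcc 0 R hR t : ℝ), z (projIcc 0 R hR t) ω)‖ with hg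
  have hc : ∀ ω, Continuous fun t => g t ω := fun ω => by
    have h1 : ContinuousOn (fun t => alongVec v φ m (t, z t ω)) (Icc 0 R) := fun t ht =>
      (alongVec_deriv h hsub (hz ω) m t ht).continuousWithinAt
    exact (h1.comp_continuous (continuous_subtype_val.comp continuous_projIcc)
      fun t => (projIcc 0 R hR t).2).norm
  have hm : Measurable (Function.uncurry g) :=
    measurable_uncurry_of_continuous_of_measurable (u := g) hc fun t =>
      (((measurable_alongVec_slice h m (hsub (projIcc 0 R hR t).2)).comp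
        (hzm _ (projIcc 0 R hR t).2))).norm
  have e : (fun ω => ∫ t in (0:ℝ)..R, ‖alongVec v φ m (t, z t ω)‖) =
      fun ω => ∫ t in Ioc 0 R, g t ω := funext fun ω => by
    rw [intervalIntegral.integral_of_le hR]
    exact setIntegral_congr_fun measurableSet_Ioc fun t ht => by
      simp only [hg, projIcc_of_mem hR (Ioc_subset_Icc_self ht)]
  rw [e]
  exact (StronglyMeasurable.integral_prod_right
    (f := fun (ω : Ω) (t : ℝ) => g t ω) (hm.comp measurable_swap).stronglyMeasurable).measurable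

end Vale.Agent.P347.Zero
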