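import Vale.Agent.P347.Zero.Calc.Mat

/-!
Iterated directional derivatives in two groups of variables, and the Leibniz rule for the
operator norms of the resulting tensors.
-/

open scoped ContDiff

namespace Vale.Agent.P347.Zero

open Calc

set_option linter.unusedSectionVars false

variable {d : ℕ} {E : Type*} [NormedAddCommGroup E] [NormedSpace ℝ E]

/-- Iterated derivatives along the directions `w`, the head index taken first. -/
noncomputable def dT (w : Fin d → E) : (n : ℕ) → (Fin n → Fin d) → (E → ℝ) → E → ℝ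
  | 0, _, F => F
  | n + 1, ι, F => dT w n (Fin.tail ι) fun z => fderiv ℝ F z (w (ι 0))

variable {w : Fin d → E}

lemma smooth_deriv {F : E → ℝ} (hF : ContDiff ℝ ∞ F) (u : E) :
    ContDiff ℝ ∞ fun z => fderiv ℝ F z u :=
  (hF.fderiv_right (by simp)).clm_apply contDiff_const

lemma dT_smooth : ∀ (n : ℕ) (ι : Fin n → Fin d) {F : E → ℝ}, ContDiff ℝ ∞ F →
    ContDiff ℝ ∞ (dT w n ι F)
  | 0, _, _, hF => hF
  | n + 1, ι, _, hF => dT_smooth n (Fin.tail ι) (smooth_deriv hF _)

lemma dT_add : ∀ (n : ℕ) (ι : Fin n → Fin d) {F G : E → ℝ}, ContDiff ℝ ∞ F → ContDiff ℝ ∞ G →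
    dT w n ι (fun z => F z + G z) = fun z => dT w n ι F z + dT w n ι G z
  | 0, _, _, _, _, _ => rfl
  | n + 1, ι, F, G, hF, hG => by
    simp only [dT]
    rw [show (fun z => fderiv ℝ (fun z => F z + G z) z (w (ι 0))) =
        fun z => fderiv ℝ F z (w (ι 0)) + fderiv ℝ G z (w (ι 0)) from funext fun z => by
      rw [fderiv_fun_add (hF.differentiable (by simp) z) (hG.differentiable (by simp) z)]; rfl]
    exact dT_add n (Fin.tail ι) (smooth_deriv hF _) (smooth_deriv hG _)

lemma dT_smul : ∀ (n : ℕ) (ι : Fin n → Fin d) (c : ℝ) {F : E → ℝ}, ContDiff ℝ ∞ F →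
    dT w n ι (fun z => c * F z) = fun z => c * dT w n ι F z
  | 0, _, _, _, _ => rfl
  | n + 1, ι, c, F, hF => by
    simp only [dT]
    rw [show (fun z => fderiv ℝ (fun z => c * F z) z (w (ι 0))) =
        fun z => c * fderiv ℝ F z (w (ι 0)) from funext fun z => by
      rw [fderiv_const_mul (hF.differentiable (by simp) z)]; rfl]
    exact dT_smul n (Fin.tail ι) c (smooth_deriv hF _)

lemma dT_const : ∀ (n : ℕ) (ι : Fin (n + 1) → Fin d) (c : ℝ),
    dT w (n + 1) ι (fun _ : E => c) = fun _ => 0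
  | 0, ι, c => by simp [dT]
  | n + 1, ι, c => by
    have h := dT_const n (Fin.tail ι) 0
    simp only [dT, fderiv_fun_const, Pi.zero_apply, zero_apply] at h ⊢
    exact h

lemma dT_affine {E' : Type*} [NormedAddCommGroup E'] [NormedSpace ℝ E'] (L : E →L[ℝ] E') (c : E') :
    ∀ (n : ℕ) (ι : Fin n → Fin d) {F : E' → ℝ}, ContDiff ℝ ∞ F →
      dT w n ι (fun z => F (c + L z)) = fun z => dT (fun i => L (w i)) n ι F (c + L z)
  | 0, _, _, _ => rfl
  | n + 1, ι, F, hF => by
    simp only [dT]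
    rw [show (fun z => fderiv ℝ (fun z => F (c + L z)) z (w (ι 0))) =
        fun z => (fun y => fderiv ℝ F y (L (w (ι 0)))) (c + L z) from funext fun z => by
      have h : HasFDerivAt (fun z => F (c + L z)) ((fderiv ℝ F (c + L z)).comp L) z :=
        (hF.differentiable (by simp) _).hasFDerivAt.comp z (L.hasFDerivAt.const_add c)
      rw [h.fderiv]; rfl]
    exact dT_affine L c n (Fin.tail ι) (smooth_deriv hF _)

/-- Directions of the first group. -/
noncomputable def wA (i : Fin d) : EE d × EE d := (ev i, 0)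

/-- Directions of the second group. -/
noncomputable def wB (i : Fin d) : EE d × EE d := (0, ev i)

/-- The tensor of derivatives, first group with the columns, second with the rows. -/
noncomputable def dTen {I J : Type} (a b : ℕ) (F : I → J → EE d × EE d → ℝ)
    (p : (Fin b → Fin d) × I) (q : (Fin a → Fin d) × J) : ℝ :=
  dT wB b p.1 (dT wA a q.1 (F p.2 q.2)) 0

/-- Operator norm bound on the tensor of derivatives. -/
def DN {I J : Type} [Fintype I] [Fintype J] (a b : ℕ) (F : I → J → EE d × EE d → ℝ) (C : ℝ) :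
    Prop :=
  Calc.Mop (dTen a b F) C

/-- Smooth entries. -/
def Sm2 {I J : Type} (F : I → J → EE d × EE d → ℝ) : Prop := ∀ p q, ContDiff ℝ ∞ (F p q)

/-- Product of two tensor fields. -/
def tmul {I J I' J' : Type} (F : I → J → EE d × EE d → ℝ) (G : I' → J' → EE d × EE d → ℝ) :
    I × I' → J × J' → EE d × EE d → ℝ :=
  fun p q z => F p.1 q.1 z * G p.2 q.2 z

/-- One derivative in the first group. -/
noncomputable def dA {I J : Type} (F : I → J → EE d × EE d → ℝ) :
    I → J × Fin d → EE d × EE d → ℝ :=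
  fun p q z => fderiv ℝ (F p q.1) z (wA q.2)

/-- One derivative in the second group. -/
noncomputable def dB {I J : Type} (F : I → J → EE d × EE d → ℝ) :
    I × Fin d → J → EE d × EE d → ℝ :=
  fun p q z => fderiv ℝ (F p.1 q) z (wB p.2)

section

variable {I J I' J' : Type} [Fintype I] [Fintype J] [Fintype I'] [Fintype J']
  {F : I → J → EE d × EE d → ℝ}

lemma sm2_dA (hF : Sm2 F) : Sm2 (dA F) := fun p q => smooth_deriv (hF p q.1) _

lemma sm2_dB (hF : Sm2 F) : Sm2 (dB F) := fun p q => smooth_deriv (hF p.1 q) _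

lemma sm2_tmul {G : I' → J' → EE d × EE d → ℝ} (hF : Sm2 F) (hG : Sm2 G) : Sm2 (tmul F G) :=
  fun p q => (hF p.1 q.1).mul (hG p.2 q.2)

/-- Separating the first index. -/
def consEquiv (d a : ℕ) (J : Type) : (Fin (a + 1) → Fin d) × J ≃ (Fin a → Fin d) × (J × Fin d) where
  toFun q := (Fin.tail q.1, (q.2, q.1 0))
  invFun r := (Fin.cons r.2.2 r.1, r.2.1)
  left_inv q := by simp
  right_inv r := by simp [Fin.tail_cons]

lemma DN_succA {a b : ℕ} {C : ℝ} : DN (a + 1) b F C ↔ DN a b (dA F) C := by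
  unfold DN
  constructor
  · intro h
    refine (show dTen a b (dA F) = fun p q => dTen (a + 1) b F p ((consEquiv d a J).symm q) from
      funext fun p => funext fun q => ?_) ▸ mop_reindex (Equiv.refl _) (consEquiv d a J).symm h
    simp [dTen, consEquiv, dT, Fin.tail_cons]
    rfl
  · intro h
    exact (show dTen (a + 1) b F = fun p q => dTen a b (dA F) p (consEquiv d a J q) from rfl) ▸
      mop_reindex (Equiv.refl _) (consEquiv d a J) h

lemma DN_succB {b : ℕ} {C : ℝ} : DN 0 (b + 1) F C ↔ DN 0 b (dB F) C := by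
  unfold DN
  constructor
  · intro h
    refine (show dTen 0 b (dB F) = fun p q => dTen 0 (b + 1) F ((consEquiv d b I).symm p) q from
      funext fun p => funext fun q => ?_) ▸ mop_reindex (consEquiv d b I).symm (Equiv.refl _) h
    simp [dTen, consEquiv, dT, Fin.tail_cons]
    rfl
  · intro h
    exact (show dTen 0 (b + 1) F = fun p q => dTen 0 b (dB F) (consEquiv d b I p) q from rfl) ▸
      mop_reindex (consEquiv d b I) (Equiv.refl _) h

lemma DN.mono {a b : ℕ} {C C' : ℝ} (h : DN a b F C) (h0 : 0 ≤ C) (h' : C ≤ C') : DN a b F C' :=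
  mop_mono h h0 h'

lemma DN_add {a b : ℕ} {G : I → J → EE d × EE d → ℝ} (hF : Sm2 F) (hG : Sm2 G) {A B : ℝ}
    (hA : 0 ≤ A) (hB : 0 ≤ B) (ha : DN a b F A) (hb : DN a b G B) :
    DN a b (fun p q z => F p q z + G p q z) (A + B) := by
  unfold DN
  refine (show dTen a b (fun p q z => F p q z + G p q z) =
    fun p q => dTen a b F p q + dTen a b G p q from funext fun p => funext fun q => ?_) ▸
      mop_add hA hB ha hb
  simp only [dTen]
  rw [dT_add a q.1 (hF _ _) (hG _ _), dT_add b p.1 (dT_smooth a q.1 (hF _ _))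
    (dT_smooth a q.1 (hG _ _))]

lemma DN_reindex {a b : ℕ} (eI : I' ≃ I) (eJ : J' ≃ J) {C : ℝ} (h : DN a b F C) :
    DN a b (fun p q => F (eI p) (eJ q)) C := by
  unfold DN at h ⊢
  have h2 := mop_reindex (α' := (Fin b → Fin d) × I') (β' := (Fin a → Fin d) × J')
    ((Equiv.refl (Fin b → Fin d)).prodCongr eI) ((Equiv.refl (Fin a → Fin d)).prodCongr eJ) h
  have e : (fun i j => dTen a b F (((Equiv.refl (Fin b → Fin d)).prodCongr eI) i)
      (((Equiv.refl (Fin a → Fin d)).prodCongr eJ) j)) =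
      dTen a b (fun p q => F (eI p) (eJ q)) := by
    funext i j
    simp [dTen, Equiv.prodCongr_apply]
  rwa [e] at h2

lemma mop_kron {K : I → J → ℝ} {K' : I' → J' → ℝ} {A B : ℝ} (hK : Calc.Mop K A) (hK' : Calc.Mop K' B) :
    Calc.Mop (fun (p : I × I') (q : J × J') => K p.1 q.1 * K' p.2 q.2) (A * B) := by
  intro v
  have e : ∀ p : I × I', ∑ q : J × J', K p.1 q.1 * K' p.2 q.2 * v q =
      ∑ j, K p.1 j * ∑ j', K' p.2 j' * v (j, j') := fun p => by
    rw [Fintype.sum_prod_type]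
    exact Finset.sum_congr rfl fun j _ => by simp only [Finset.mul_sum, mul_assoc]
  calc ∑ p : I × I', (∑ q : J × J', K p.1 q.1 * K' p.2 q.2 * v q) ^ 2
      = ∑ p : I × I', (∑ j, K p.1 j * ∑ j', K' p.2 j' * v (j, j')) ^ 2 :=
        Finset.sum_congr rfl fun p _ => by rw [e p]
    _ = ∑ i', ∑ i, (∑ j, K i j * ∑ j', K' i' j' * v (j, j')) ^ 2 := by
        rw [Fintype.sum_prod_type]; exact Finset.sum_comm
    _ ≤ ∑ i', A ^ 2 * ∑ j, (∑ j', K' i' j' * v (j, j')) ^ 2 :=
        Finset.sum_le_sum fun i' _ => hK fun j => ∑ j', K' i' j' * v (j, j')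
    _ = A ^ 2 * ∑ j, ∑ i', (∑ j', K' i' j' * v (j, j')) ^ 2 := by
        rw [← Finset.mul_sum]; exact congrArg _ Finset.sum_comm
    _ ≤ A ^ 2 * ∑ j, B ^ 2 * ∑ j', v (j, j') ^ 2 :=
        mul_le_mul_of_nonneg_left
          (Finset.sum_le_sum fun j _ => hK' fun j' => v (j, j')) (sq_nonneg A)
    _ = (A * B) ^ 2 * ∑ q : J × J', v q ^ 2 := by
        rw [Fintype.sum_prod_type, ← Finset.mul_sum]; ring

/-- Regrouping an index added to the left factor. -/
def lEquiv (J J' : Type) (d : ℕ) : (J × J') × Fin d ≃ (J × Fin d) × J' where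
  toFun x := ((x.1.1, x.2), x.1.2)
  invFun y := ((y.1.1, y.2), y.1.2)
  left_inv _ := rfl
  right_inv _ := rfl

/-- Regrouping an index added to the right factor. -/
def rEquiv (J J' : Type) (d : ℕ) : (J × J') × Fin d ≃ J × (J' × Fin d) :=
  Equiv.prodAssoc _ _ _

lemma dA_tmul {G : I' → J' → EE d × EE d → ℝ} (hF : Sm2 F) (hG : Sm2 G) :
    dA (tmul F G) = fun p q z => tmul (dA F) G p (lEquiv J J' d q) z +
      tmul F (dA G) p (rEquiv J J' d q) z := by
  funext p q z
  show fderiv ℝ (fun y => F p.1 q.1.1 y * G p.2 q.1.2 y) z (wA q.2) =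
    fderiv ℝ (F p.1 q.1.1) z (wA q.2) * G p.2 q.1.2 z +
      F p.1 q.1.1 z * fderiv ℝ (G p.2 q.1.2) z (wA q.2)
  rw [fderiv_fun_mul ((hF p.1 q.1.1).differentiable (by simp) z)
    ((hG p.2 q.1.2).differentiable (by simp) z)]
  simp only [add_apply, smul_apply, smul_eq_mul]
  ring

lemma dB_tmul {G : I' → J' → EE d × EE d → ℝ} (hF : Sm2 F) (hG : Sm2 G) :
    dB (tmul F G) = fun p q z => tmul (dB F) G (lEquiv I I' d p) q z +
      tmul F (dB G) (rEquiv I I' d p) q z := by
  funext p q z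
  show fderiv ℝ (fun y => F p.1.1 q.1 y * G p.1.2 q.2 y) z (wB p.2) =
    fderiv ℝ (F p.1.1 q.1) z (wB p.2) * G p.1.2 q.2 z +
      F p.1.1 q.1 z * fderiv ℝ (G p.1.2 q.2) z (wB p.2)
  rw [fderiv_fun_mul ((hF p.1.1 q.1).differentiable (by simp) z)
    ((hG p.1.2 q.2).differentiable (by simp) z)]
  simp only [add_apply, smul_apply, smul_eq_mul]
  ring

end

/-- Bounds of geometric type on all derivatives up to (a, b). -/
def UpTo {I J : Type} [Fintype I] [Fintype J] (a b : ℕ) (F : I → J → EE d × EE d → ℝ) (A r : ℝ) :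
    Prop :=
  ∀ a1 b1, a1 ≤ a → b1 ≤ b → DN a1 b1 F (A * r ^ (a1 + b1))

/-- Bounds on all derivatives of lower total order. -/
def Below {I J : Type} [Fintype I] [Fintype J] (a b : ℕ) (F : I → J → EE d × EE d → ℝ) (A r : ℝ) :
    Prop :=
  ∀ a1 b1, a1 ≤ a → b1 ≤ b → a1 + b1 < a + b → DN a1 b1 F (A * r ^ (a1 + b1))

section

variable {I J : Type} [Fintype I] [Fintype J] {F : I → J → EE d × EE d → ℝ} {a b : ℕ} {A r : ℝ}

lemma UpTo.dA (h : UpTo (a + 1) b F A r) : UpTo a b (dA F) (A * r) r := fun a1 b1 ha hb =>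
  DN_succA.1 (by
    have := h (a1 + 1) b1 (by omega) hb
    rwa [show A * r ^ (a1 + 1 + b1) = A * r * r ^ (a1 + b1) by ring] at this)

lemma UpTo.dB (h : UpTo 0 (b + 1) F A r) : UpTo 0 b (dB F) (A * r) r := fun a1 b1 ha hb => by
  obtain rfl : a1 = 0 := by omega
  refine DN_succB.1 ?_
  have := h 0 (b1 + 1) le_rfl (by omega)
  rwa [show A * r ^ (0 + (b1 + 1)) = A * r * r ^ (0 + b1) by ring] at this

lemma Below.dA (h : Below (a + 1) b F A r) : Below a b (dA F) (A * r) r := fun a1 b1 ha hb hl =>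
  DN_succA.1 (by
    have := h (a1 + 1) b1 (by omega) hb (by omega)
    rwa [show A * r ^ (a1 + 1 + b1) = A * r * r ^ (a1 + b1) by ring] at this)

lemma Below.dB (h : Below 0 (b + 1) F A r) : Below 0 b (dB F) (A * r) r := fun a1 b1 ha hb hl => by
  obtain rfl : a1 = 0 := by omega
  refine DN_succB.1 ?_
  have := h 0 (b1 + 1) le_rfl (by omega) (by omega)
  rwa [show A * r ^ (0 + (b1 + 1)) = A * r * r ^ (0 + b1) by ring] at this

end

/-- Leibniz rule for the norms. -/
theorem DN_tmul (r : ℝ) (hr : 0 ≤ r) : ∀ (a b : ℕ) {I J I' J' : Type} [Fintype I] [Fintype J]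
    [Fintype I'] [Fintype J'] {F : I → J → EE d × EE d → ℝ} {G : I' → J' → EE d × EE d → ℝ}
    {A B : ℝ}, 0 ≤ A → 0 ≤ B → Sm2 F → Sm2 G → UpTo a b F A r → UpTo a b G B r →
    DN a b (tmul F G) (2 ^ (a + b) * (A * B) * r ^ (a + b))
  | 0, 0, I, J, I', J', _, _, _, _, F, G, A, B, hA, hB, _, _, hF, hG => by
    have h1 := hF 0 0 le_rfl le_rfl
    have h2 := hG 0 0 le_rfl le_rfl
    simp only [pow_zero, mul_one, one_mul, add_zero] at h1 h2 ⊢
    unfold DN at h1 h2 ⊢
    have h := mop_reindex (α' := (Fin 0 → Fin d) × (I × I')) (β' := (Fin 0 → Fin d) × (J × J'))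
      ((Equiv.uniqueProd _ _).trans (Equiv.prodCongr (Equiv.uniqueProd I (Fin 0 → Fin d)).symm
        (Equiv.uniqueProd I' (Fin 0 → Fin d)).symm))
      ((Equiv.uniqueProd _ _).trans (Equiv.prodCongr (Equiv.uniqueProd J (Fin 0 → Fin d)).symm
        (Equiv.uniqueProd J' (Fin 0 → Fin d)).symm))
      (mop_kron h1 h2)
    convert h using 1
    all_goals rfl
  | 0, b + 1, I, J, I', J', _, _, _, _, F, G, A, B, hA, hB, sF, sG, hF, hG => by
    rw [DN_succB, dB_tmul sF sG]
    have hG' : UpTo 0 b G B r := fun a1 b1 h1 h2 => hG a1 b1 h1 (by omega)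
    have hF' : UpTo 0 b F A r := fun a1 b1 h1 h2 => hF a1 b1 h1 (by omega)
    have t1 := DN_reindex (lEquiv I I' d) (Equiv.refl (J × J'))
      (DN_tmul r hr 0 b (mul_nonneg hA hr) hB (sm2_dB sF) sG hF.dB hG')
    have t2 := DN_reindex (rEquiv I I' d) (Equiv.refl (J × J'))
      (DN_tmul r hr 0 b hA (mul_nonneg hB hr) sF (sm2_dB sG) hF' hG.dB)
    have h := DN_add (fun p q => sm2_tmul (sm2_dB sF) sG _ _)
      (fun p q => sm2_tmul sF (sm2_dB sG) _ _) (by positivity) (by positivity) t1 t2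
    exact h.mono (by positivity) (le_of_eq (by ring))
  | a + 1, b, I, J, I', J', _, _, _, _, F, G, A, B, hA, hB, sF, sG, hF, hG => by
    rw [DN_succA, dA_tmul sF sG]
    have hG' : UpTo a b G B r := fun a1 b1 h1 h2 => hG a1 b1 (by omega) h2
    have hF' : UpTo a b F A r := fun a1 b1 h1 h2 => hF a1 b1 (by omega) h2
    have t1 := DN_reindex (Equiv.refl (I × I')) (lEquiv J J' d)
      (DN_tmul r hr a b (mul_nonneg hA hr) hB (sm2_dA sF) sG hF.dA hG')
    have t2 := DN_reindex (Equiv.refl (I × I')) (rEquiv J J' d)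
      (DN_tmul r hr a b hA (mul_nonneg hB hr) sF (sm2_dA sG) hF' hG.dA)
    have h := DN_add (fun p q => sm2_tmul (sm2_dA sF) sG _ _)
      (fun p q => sm2_tmul sF (sm2_dA sG) _ _) (by positivity) (by positivity) t1 t2
    exact h.mono (by positivity) (le_of_eq (by ring))

/-- Leibniz rule when the right factor vanishes at the origin: the top derivative of the left
factor is not needed. -/
theorem DN_tmul_zero (r : ℝ) (hr : 0 ≤ r) : ∀ (a b : ℕ) {I J I' J' : Type} [Fintype I]
    [Fintype J] [Fintype I'] [Fintype J'] {F : I → J → EE d × EE d → ℝ}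
    {G : I' → J' → EE d × EE d → ℝ} {A B : ℝ}, 0 ≤ A → 0 ≤ B → Sm2 F → Sm2 G →
    (∀ p q, G p q 0 = 0) → Below a b F A r → UpTo a b G B r →
    DN a b (tmul F G) (2 ^ (a + b) * (A * B) * r ^ (a + b))
  | 0, 0, I, J, I', J', _, _, _, _, F, G, A, B, hA, hB, _, _, h0, _, _ => by
    unfold DN
    have : dTen 0 0 (tmul F G) = fun _ _ => (0 : ℝ) :=
      funext fun p => funext fun q => by simp [dTen, dT, tmul, h0]
    rw [this]
    exact mop_zero _
  | 0, b + 1, I, J, I', J', _, _, _, _, F, G, A, B, hA, hB, sF, sG, h0, hF, hG => by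
    rw [DN_succB, dB_tmul sF sG]
    have hG' : UpTo 0 b G B r := fun a1 b1 h1 h2 => hG a1 b1 h1 (by omega)
    have hF' : UpTo 0 b F A r := fun a1 b1 h1 h2 => hF a1 b1 h1 (by omega) (by omega)
    have t1 := DN_reindex (lEquiv I I' d) (Equiv.refl (J × J'))
      (DN_tmul_zero r hr 0 b (mul_nonneg hA hr) hB (sm2_dB sF) sG h0 hF.dB hG')
    have t2 := DN_reindex (rEquiv I I' d) (Equiv.refl (J × J'))
      (DN_tmul r hr 0 b hA (mul_nonneg hB hr) sF (sm2_dB sG) hF' hG.dB)
    have h := DN_add (fun p q => sm2_tmul (sm2_dB sF) sG _ _)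
      (fun p q => sm2_tmul sF (sm2_dB sG) _ _) (by positivity) (by positivity) t1 t2
    exact h.mono (by positivity) (le_of_eq (by ring))
  | a + 1, b, I, J, I', J', _, _, _, _, F, G, A, B, hA, hB, sF, sG, h0, hF, hG => by
    rw [DN_succA, dA_tmul sF sG]
    have hG' : UpTo a b G B r := fun a1 b1 h1 h2 => hG a1 b1 (by omega) h2
    have hF' : UpTo a b F A r := fun a1 b1 h1 h2 => hF a1 b1 (by omega) h2 (by omega)
    have t1 := DN_reindex (Equiv.refl (I × I')) (lEquiv J J' d)
      (DN_tmul_zero r hr a b (mul_nonneg hA hr) hB (sm2_dA sF) sG h0 hF.dA hG')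
    have t2 := DN_reindex (Equiv.refl (I × I')) (rEquiv J J' d)
      (DN_tmul r hr a b hA (mul_nonneg hB hr) sF (sm2_dA sG) hF' hG.dA)
    have h := DN_add (fun p q => sm2_tmul (sm2_dA sF) sG _ _)
      (fun p q => sm2_tmul sF (sm2_dA sG) _ _) (by positivity) (by positivity) t1 t2
    exact h.mono (by positivity) (le_of_eq (by ring))

end Vale.Agent.P347.Zero
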