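import Vale.Agent.P347.Zero.DvBounds
import Vale.Agent.P347.Zero.TensorLeibniz

/-!
Appell functions of the posterior family (derivatives of tilted densities divided by the density),
their L² bounds by iterated Poincare, and their pairings as derivatives in two parameters.
-/

open MeasureTheory ProbabilityTheory
open scoped RealInnerProductSpace ContDiff

namespace Vale.Agent.P347.Zero

open Calc (ev)

variable {d : ℕ} {V : EE d → ℝ} {v : ℝ}

/-- Finite sums of a smooth function of the parameter times a function of exponential growth. -/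
def Fam0 (φ : EE d → EE d → ℝ) : Prop :=
  ∃ (ι : Type) (_ : Fintype ι) (ψ π : ι → EE d → ℝ),
    (∀ t, ContDiff ℝ ∞ (ψ t)) ∧ (∀ t, Gr (π t)) ∧ φ = fun c x => ∑ t, ψ t c * π t x

/-- The same, differentiable in the variable. -/
def Fam1 (φ : EE d → EE d → ℝ) : Prop :=
  ∃ (ι : Type) (_ : Fintype ι) (ψ π : ι → EE d → ℝ),
    (∀ t, ContDiff ℝ ∞ (ψ t)) ∧
    (∀ t, Gr (π t) ∧ ContDiff ℝ 1 (π t) ∧ Gr fun x => fderiv ℝ (π t) x) ∧
    φ = fun c x => ∑ t, ψ t c * π t x

/-- Derivative in the parameter, relative to the tilted density. -/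
noncomputable def stp (V : EE d → ℝ) (v : ℝ) (i : Fin d) (φ : EE d → EE d → ℝ)
    (c x : EE d) : ℝ :=
  fderiv ℝ (fun c => φ c x) c (ev i) + φ c x * (x i - ex V v c fun x => x i)

/-- Iterated step, the head index taken first. -/
noncomputable def pT (V : EE d → ℝ) (v : ℝ) :
    (n : ℕ) → (Fin n → Fin d) → (EE d → EE d → ℝ) → EE d → EE d → ℝ
  | 0, _, φ => φ
  | n + 1, ι, φ => pT V v n (Fin.tail ι) (stp V v (ι 0) φ)

/-- Derivative in the variable. -/
noncomputable def dx (j : Fin d) (φ : EE d → EE d → ℝ) (c x : EE d) : ℝ :=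
  fderiv ℝ (φ c) x (ev j)

lemma Fam1.fam0 {φ : EE d → EE d → ℝ} (h : Fam1 φ) : Fam0 φ := by
  obtain ⟨ι, hι, ψ, π, hψ, hπ, rfl⟩ := h
  exact ⟨ι, hι, ψ, π, hψ, fun t => (hπ t).1, rfl⟩

lemma Fam0.smooth_c {φ : EE d → EE d → ℝ} (h : Fam0 φ) (x : EE d) :
    ContDiff ℝ ∞ fun c => φ c x := by
  obtain ⟨ι, hι, ψ, π, hψ, hπ, rfl⟩ := h
  exact ContDiff.sum fun t _ => (hψ t).mul contDiff_const

lemma Fam0.gr {φ : EE d → EE d → ℝ} (h : Fam0 φ) (c : EE d) : Gr (φ c) := by
  obtain ⟨ι, hι, ψ, π, hψ, hπ, rfl⟩ := h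
  exact gr_sum _ _ fun t _ => (hπ t).const_mul _

lemma Fam1.c1 {φ : EE d → EE d → ℝ} (h : Fam1 φ) (c : EE d) : ContDiff ℝ 1 (φ c) := by
  obtain ⟨ι, hι, ψ, π, hψ, hπ, rfl⟩ := h
  exact ContDiff.sum fun t _ => contDiff_const.mul (hπ t).2.1

lemma Fam1.gr_fderiv {φ : EE d → EE d → ℝ} (h : Fam1 φ) (c : EE d) :
    Gr fun x => fderiv ℝ (φ c) x := by
  obtain ⟨ι, hι, ψ, π, hψ, hπ, rfl⟩ := h
  have e : (fun x => fderiv ℝ (fun x => ∑ t, ψ t c * π t x) x) =
      fun x => ∑ t, ψ t c • fderiv ℝ (π t) x := funext fun x => by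
    rw [fderiv_fun_sum fun t _ => ((hπ t).2.1.differentiable one_ne_zero x).const_mul _]
    exact Finset.sum_congr rfl fun t _ =>
      fderiv_const_mul ((hπ t).2.1.differentiable one_ne_zero x) _
  show Gr fun x => fderiv ℝ (fun x => ∑ t, ψ t c * π t x) x
  rw [e]
  refine gr_sum _ _ fun t _ => gr_of_le ((hπ t).2.2.cont.fun_const_smul _)
    ((hπ t).2.2.norm.const_mul |ψ t c|) fun x => ?_
  rw [norm_smul, Real.norm_eq_abs]

lemma gr_coord_fderiv (i : Fin d) : Gr fun x : EE d => fderiv ℝ (fun x : EE d => x i) x := by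
  have e : (fun x : EE d => fderiv ℝ (fun x : EE d => x i) x) =
      fun _ => (EuclideanSpace.proj i : EE d →L[ℝ] ℝ) :=
    funext fun x => (EuclideanSpace.proj i : EE d →L[ℝ] ℝ).fderiv
  rw [e]
  exact gr_const _

lemma gr_pi_mul_coord {π : EE d → ℝ} (h : Gr π) (hc : ContDiff ℝ 1 π)
    (hd : Gr fun x => fderiv ℝ π x) (i : Fin d) :
    Gr fun x => fderiv ℝ (fun x : EE d => π x * x i) x := by
  have hci : ContDiff ℝ 1 fun x : EE d => x i :=
    (EuclideanSpace.proj i : EE d →L[ℝ] ℝ).contDiff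
  refine gr_of_le ((hc.mul hci).continuous_fderiv one_ne_zero)
    ((h.norm.mul (gr_coord_fderiv i).norm).add ((gr_coord i).norm.mul hd.norm)) fun x => ?_
  rw [fderiv_fun_mul (hc.differentiable one_ne_zero x) (hci.differentiable one_ne_zero x)]
  exact (norm_add_le _ _).trans (le_of_eq (by rw [norm_smul, norm_smul]))

section

variable (hV : Admissible V) (hv : 0 < v)

include hV hv

lemma coord_mean_smooth (i : Fin d) : ContDiff ℝ ∞ fun c => ex V v c fun x => x i :=
  ex_contDiff hV hv (gr_coord i)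

omit hV hv in
lemma stp_rep {ι : Type} [Fintype ι] {ψ π : ι → EE d → ℝ} (hψ : ∀ t, ContDiff ℝ ∞ (ψ t))
    (i : Fin d) (c x : EE d) :
    stp V v i (fun c x => ∑ t, ψ t c * π t x) c x =
      ∑ t, (fderiv ℝ (ψ t) c (ev i) * π t x + ψ t c * (π t x * x i) +
        (-(ψ t c * ex V v c fun x => x i)) * π t x) := by
  rw [stp, fderiv_fun_sum fun t _ => ((hψ t).differentiable (by simp) c).mul_const _]
  simp only [sum_apply, Finset.sum_mul, ← Finset.sum_add_distrib]
  refine Finset.sum_congr rfl fun t _ => ?_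
  rw [fderiv_mul_const ((hψ t).differentiable (by simp) c)]
  simp only [smul_apply, smul_eq_mul]
  ring

lemma Fam0.stp {φ : EE d → EE d → ℝ} (h : Fam0 φ) (i : Fin d) : Fam0 (Zero.stp V v i φ) := by
  obtain ⟨ι, hι, ψ, π, hψ, hπ, rfl⟩ := h
  refine ⟨ι ⊕ ι ⊕ ι, inferInstance,
    Sum.elim (fun t c => fderiv ℝ (ψ t) c (ev i))
      (Sum.elim ψ fun t c => -(ψ t c * ex V v c fun x => x i)),
    Sum.elim π (Sum.elim (fun t x => π t x * x i) π), ?_, ?_, ?_⟩
  · rintro (t | t | t)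
    · exact smooth_deriv (hψ t) _
    · exact hψ t
    · exact ((hψ t).mul (coord_mean_smooth hV hv i)).neg
  · rintro (t | t | t)
    · exact hπ t
    · exact (hπ t).mul (gr_coord i)
    · exact hπ t
  · funext c x
    rw [stp_rep hψ i c x]
    simp [Fintype.sum_sum_type, Finset.sum_add_distrib, add_assoc]

lemma Fam1.stp {φ : EE d → EE d → ℝ} (h : Fam1 φ) (i : Fin d) : Fam1 (Zero.stp V v i φ) := by
  obtain ⟨ι, hι, ψ, π, hψ, hπ, rfl⟩ := h
  refine ⟨ι ⊕ ι ⊕ ι, inferInstance,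
    Sum.elim (fun t c => fderiv ℝ (ψ t) c (ev i))
      (Sum.elim ψ fun t c => -(ψ t c * ex V v c fun x => x i)),
    Sum.elim π (Sum.elim (fun t x => π t x * x i) π), ?_, ?_, ?_⟩
  · rintro (t | t | t)
    · exact smooth_deriv (hψ t) _
    · exact hψ t
    · exact ((hψ t).mul (coord_mean_smooth hV hv i)).neg
  · rintro (t | t | t)
    · exact hπ t
    · exact ⟨(hπ t).1.mul (gr_coord i),
        (hπ t).2.1.mul (EuclideanSpace.proj i : EE d →L[ℝ] ℝ).contDiff,
        gr_pi_mul_coord (hπ t).1 (hπ t).2.1 (hπ t).2.2 i⟩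
    · exact hπ t
  · funext c x
    rw [stp_rep hψ i c x]
    simp [Fintype.sum_sum_type, Finset.sum_add_distrib, add_assoc]

lemma Fam0.pT : ∀ (n : ℕ) (ι : Fin n → Fin d) {φ : EE d → EE d → ℝ}, Fam0 φ →
    Fam0 (Zero.pT V v n ι φ)
  | 0, _, _, h => h
  | n + 1, ι, _, h => Fam0.pT n (Fin.tail ι) (h.stp hV hv (ι 0))

lemma Fam1.pT : ∀ (n : ℕ) (ι : Fin n → Fin d) {φ : EE d → EE d → ℝ}, Fam1 φ →
    Fam1 (Zero.pT V v n ι φ)
  | 0, _, _, h => h
  | n + 1, ι, _, h => Fam1.pT n (Fin.tail ι) (h.stp hV hv (ι 0))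

omit hV hv in
lemma stp_add {φ χ : EE d → EE d → ℝ} (hφ : Fam0 φ) (hχ : Fam0 χ) (i : Fin d) :
    stp V v i (fun c x => φ c x + χ c x) = fun c x => stp V v i φ c x + stp V v i χ c x := by
  funext c x
  simp only [stp]
  rw [fderiv_fun_add ((hφ.smooth_c x).differentiable (by simp) c)
    ((hχ.smooth_c x).differentiable (by simp) c), add_apply]
  ring

omit hV hv in
lemma stp_mul {φ : EE d → EE d → ℝ} (hφ : Fam0 φ) (ρ : EE d → ℝ) (i : Fin d) :
    stp V v i (fun c x => ρ x * φ c x) = fun c x => ρ x * stp V v i φ c x := by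
  funext c x
  simp only [stp]
  rw [fderiv_const_mul ((hφ.smooth_c x).differentiable (by simp) c), smul_apply, smul_eq_mul]
  ring

lemma pT_mul : ∀ (n : ℕ) (ι : Fin n → Fin d) {φ : EE d → EE d → ℝ}, Fam0 φ → ∀ ρ : EE d → ℝ,
    Zero.pT V v n ι (fun c x => ρ x * φ c x) = fun c x => ρ x * Zero.pT V v n ι φ c x
  | 0, _, _, _, _ => rfl
  | n + 1, ι, φ, h, ρ => by
    simp only [Zero.pT]
    rw [stp_mul h ρ]
    exact pT_mul n (Fin.tail ι) (h.stp hV hv (ι 0)) ρ

lemma pT_add : ∀ (n : ℕ) (ι : Fin n → Fin d) {φ χ : EE d → EE d → ℝ}, Fam0 φ → Fam0 χ →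
    Zero.pT V v n ι (fun c x => φ c x + χ c x) =
      fun c x => Zero.pT V v n ι φ c x + Zero.pT V v n ι χ c x
  | 0, _, _, _, _, _ => rfl
  | n + 1, ι, φ, χ, h, h' => by
    simp only [Zero.pT]
    rw [stp_add h h']
    exact pT_add n (Fin.tail ι) (h.stp hV hv (ι 0)) (h'.stp hV hv (ι 0))

omit hV hv in
lemma Fam1.dx {φ : EE d → EE d → ℝ} (h : Fam1 φ) (j : Fin d) : Fam0 (Zero.dx j φ) := by
  obtain ⟨ι, hι, ψ, π, hψ, hπ, rfl⟩ := h
  refine ⟨ι, hι, ψ, fun t x => fderiv ℝ (π t) x (ev j), hψ, fun t =>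
    gr_of_le ((hπ t).2.2.cont.clm_apply continuous_const) ((hπ t).2.2.norm.mul (gr_const ‖ev j‖))
      fun x => ContinuousLinearMap.le_opNorm _ _, ?_⟩
  funext c x
  simp only [Zero.dx]
  rw [fderiv_fun_sum fun t _ => ((hπ t).2.1.differentiable one_ne_zero x).const_mul _]
  simp only [sum_apply]
  refine Finset.sum_congr rfl fun t _ => ?_
  rw [fderiv_const_mul ((hπ t).2.1.differentiable one_ne_zero x)]
  rfl

omit hV hv in
lemma dx_stp {φ : EE d → EE d → ℝ} (h : Fam1 φ) (i j : Fin d) :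
    dx j (stp V v i φ) =
      fun c x => stp V v i (dx j φ) c x + (if i = j then φ c x else 0) := by
  obtain ⟨ι, hι, ψ, π, hψ, hπ, rfl⟩ := h
  have hd : ∀ t, Differentiable ℝ (π t) := fun t => (hπ t).2.1.differentiable one_ne_zero
  have hci : Differentiable ℝ fun x : EE d => x i :=
    (EuclideanSpace.proj i : EE d →L[ℝ] ℝ).differentiable
  have e1 : dx j (fun c x => ∑ t, ψ t c * π t x) =
      fun c x => ∑ t, ψ t c * fderiv ℝ (π t) x (ev j) := by
    funext c x
    simp only [dx]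
    rw [fderiv_fun_sum fun t _ => (hd t x).const_mul _]
    simp only [sum_apply]
    exact Finset.sum_congr rfl fun t _ => by rw [fderiv_const_mul (hd t x)]; rfl
  have e3 : ∀ x : EE d,
      fderiv ℝ (fun x : EE d => x i) x (ev j) = if i = j then (1 : ℝ) else 0 := fun x => by
    rw [show (fun x : EE d => x i) = ⇑(EuclideanSpace.proj i : EE d →L[ℝ] ℝ) from rfl,
      ContinuousLinearMap.fderiv]
    simp [ev, PiLp.single_apply]
  rw [e1]
  funext c x
  rw [stp_rep hψ i c x]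
  have hdd : ∀ t, DifferentiableAt ℝ (fun x => fderiv ℝ (ψ t) c (ev i) * π t x +
      ψ t c * (π t x * x i) + (-(ψ t c * ex V v c fun x => x i)) * π t x) x := fun t =>
    (((hd t x).const_mul _).add (((hd t x).mul (hci x)).const_mul _)).add ((hd t x).const_mul _)
  show fderiv ℝ (stp V v i (fun c x => ∑ t, ψ t c * π t x) c) x (ev j) = _
  rw [show stp V v i (fun c x => ∑ t, ψ t c * π t x) c = fun x => ∑ t,
      (fderiv ℝ (ψ t) c (ev i) * π t x + ψ t c * (π t x * x i) +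
        (-(ψ t c * ex V v c fun x => x i)) * π t x) from funext fun x => stp_rep hψ i c x,
    fderiv_fun_sum fun t _ => hdd t]
  simp only [sum_apply]
  rw [show (if i = j then ∑ t, ψ t c * π t x else 0) =
      ∑ t, ψ t c * (π t x * if i = j then (1 : ℝ) else 0) by split_ifs <;> simp,
    ← Finset.sum_add_distrib]
  refine Finset.sum_congr rfl fun t _ => ?_
  have h1 : DifferentiableAt ℝ (fun x => fderiv ℝ (ψ t) c (ev i) * π t x) x := (hd t x).const_mul _
  have h2 : DifferentiableAt ℝ (fun x => ψ t c * (π t x * x i)) x :=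
    ((hd t x).mul (hci x)).const_mul _
  rw [fderiv_fun_add (h1.fun_add h2) ((hd t x).const_mul _), fderiv_fun_add h1 h2,
    fderiv_const_mul (hd t x), fderiv_const_mul ((hd t x).fun_mul (hci x)),
    fderiv_const_mul (hd t x), fderiv_fun_mul (hd t x) (hci x)]
  simp only [add_apply, smul_apply, smul_eq_mul, e3]
  ring

lemma ex_stp {φ : EE d → EE d → ℝ} (h : Fam0 φ) (i : Fin d) (c : EE d) :
    ex V v c (stp V v i φ c) = fderiv ℝ (fun c => ex V v c (φ c)) c (ev i) := by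
  obtain ⟨ι, hι, ψ, π, hψ, hπ, rfl⟩ := h
  have e : ∀ c, ex V v c (fun x => ∑ t, ψ t c * π t x) = ∑ t, ψ t c * ex V v c (π t) := fun c => by
    rw [ex_sum hV hv _ _ fun t _ => (hπ t).const_mul _]
    exact Finset.sum_congr rfl fun t _ => ex_smul _ _ _
  rw [funext e, show stp V v i (fun c x => ∑ t, ψ t c * π t x) c = fun x => ∑ t,
      (fderiv ℝ (ψ t) c (ev i) * π t x + ψ t c * (π t x * x i) +
        (-(ψ t c * ex V v c fun x => x i)) * π t x) from funext fun x => stp_rep hψ i c x,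
    ex_sum hV hv _ _ fun t _ => (((hπ t).const_mul _).add
      (((hπ t).mul (gr_coord i)).const_mul _)).add ((hπ t).const_mul _),
    fderiv_fun_sum fun t _ => ((hψ t).differentiable (by simp) c).fun_mul
      (ex_hasFDerivAt hV hv (hπ t) c).differentiableAt]
  simp only [sum_apply]
  refine Finset.sum_congr rfl fun t _ => ?_
  rw [ex_add hV hv (((hπ t).const_mul _).add (((hπ t).mul (gr_coord i)).const_mul _))
      ((hπ t).const_mul _),
    ex_add hV hv ((hπ t).const_mul _) (((hπ t).mul (gr_coord i)).const_mul _),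
    fderiv_fun_mul ((hψ t).differentiable (by simp) c)
      (ex_hasFDerivAt hV hv (hπ t) c).differentiableAt]
  simp only [← smul_eq_mul (fderiv ℝ (ψ t) c (ev i)), ← smul_eq_mul (ψ t c),
    ← smul_eq_mul (-(ψ t c • ex V v c fun x => x i)), ex_smul]
  simp only [add_apply, smul_apply, smul_eq_mul, ex_fderiv_apply hV hv (hπ t) c (ev i)]
  have e1 : ∀ x : EE d, ⟪x, ev i⟫ = x i := fun x => by
    simp [ev, EuclideanSpace.inner_single_right]
  have e2 : (fun x : EE d => x i * π t x) = fun x => π t x * x i :=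
    funext fun x => mul_comm _ _
  simp only [e1, e2]
  ring

lemma ex_pT_zero : ∀ (n : ℕ) (ι : Fin n → Fin d) {φ : EE d → EE d → ℝ}, Fam0 φ →
    (∀ c, ex V v c (φ c) = 0) → ∀ c, ex V v c (Zero.pT V v n ι φ c) = 0
  | 0, _, _, _, h0, c => h0 c
  | n + 1, ι, φ, h, h0, c => by
    refine ex_pT_zero n (Fin.tail ι) (h.stp hV hv (ι 0)) (fun c => ?_) c
    rw [ex_stp hV hv h, funext h0]
    simp

end

end Vale.Agent.P347.Zero
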