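import Vale.Agent.P347.Zero.Appell

/-!
L² bounds of contracted Appell functions of one and of the gradient field.
-/

open MeasureTheory ProbabilityTheory
open scoped RealInnerProductSpace ContDiff

namespace Vale.Agent.P347.Zero

open Calc (ev)

variable {d : ℕ} {V : EE d → ℝ} {v : ℝ}

/-- The constant one. -/
def oneF (d : ℕ) : EE d → EE d → ℝ := fun _ _ => 1

/-- The centred component of the gradient. -/
noncomputable def baseF (V : EE d → ℝ) (v : ℝ) (k : Fin d) (c x : EE d) : ℝ :=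
  gradient V x k - ex V v c fun x => gradient V x k

/-- A contracted Appell function. -/
noncomputable def Phi (V : EE d → ℝ) (v : ℝ) (n : ℕ) (S : (Fin n → Fin d) → ℝ)
    (φ : EE d → EE d → ℝ) (c x : EE d) : ℝ :=
  ∑ ι, S ι * pT V v n ι φ c x

/-- Fixing the first index. -/
def slice {n : ℕ} (S : (Fin (n + 1) → Fin d) → ℝ) (i : Fin d) : (Fin n → Fin d) → ℝ :=
  fun ι => S (Fin.cons i ι)

/-- The lowered tensor produced by one derivative in the variable. -/
def low : (n : ℕ) → ((Fin (n + 1) → Fin d) → ℝ) → Fin d → (Fin n → Fin d) → ℝ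
  | 0, S, j => slice S j
  | n + 1, S, j => fun ι => slice S j ι + low n (slice S (ι 0)) j (Fin.tail ι)

lemma sum_cons {n : ℕ} (F : (Fin (n + 1) → Fin d) → ℝ) :
    ∑ ι, F ι = ∑ i, ∑ ρ, F (Fin.cons i ρ) := by
  rw [← (Fin.consEquiv fun _ : Fin (n + 1) => Fin d).sum_comp, Fintype.sum_prod_type]
  rfl

lemma slice_sq {n : ℕ} (S : (Fin (n + 1) → Fin d) → ℝ) :
    ∑ i, ∑ ρ, slice S i ρ ^ 2 = ∑ ι, S ι ^ 2 := (sum_cons fun ι => S ι ^ 2).symm

lemma low_sq : ∀ (n : ℕ) (S : (Fin (n + 1) → Fin d) → ℝ),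
    ∑ j, ∑ ι, low n S j ι ^ 2 ≤ 4 ^ n * ∑ ι, S ι ^ 2
  | 0, S => by
    rw [pow_zero, one_mul, ← slice_sq S]
    exact le_rfl
  | n + 1, S => by
    have h2 : ∑ j, ∑ ι : Fin (n + 1) → Fin d, low n (slice S (ι 0)) j (Fin.tail ι) ^ 2 ≤
        4 ^ n * ∑ ι, S ι ^ 2 := by
      rw [← slice_sq S, Finset.mul_sum]
      calc ∑ j, ∑ ι : Fin (n + 1) → Fin d, low n (slice S (ι 0)) j (Fin.tail ι) ^ 2
          = ∑ j, ∑ i, ∑ ρ, low n (slice S i) j ρ ^ 2 :=
            Finset.sum_congr rfl fun j _ => by rw [sum_cons]; simp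
        _ = ∑ i, ∑ j, ∑ ρ, low n (slice S i) j ρ ^ 2 := Finset.sum_comm
        _ ≤ _ := Finset.sum_le_sum fun i _ => low_sq n (slice S i)
    have hS : 0 ≤ ∑ ι, S ι ^ 2 := Finset.sum_nonneg fun ι _ => sq_nonneg _
    calc ∑ j, ∑ ι, low (n + 1) S j ι ^ 2
        ≤ ∑ j, ∑ ι : Fin (n + 1) → Fin d,
            (2 * slice S j ι ^ 2 + 2 * low n (slice S (ι 0)) j (Fin.tail ι) ^ 2) :=
          Finset.sum_le_sum fun j _ => Finset.sum_le_sum fun ι _ => by
            show (slice S j ι + low n (slice S (ι 0)) j (Fin.tail ι)) ^ 2 ≤ _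
            nlinarith [sq_nonneg (slice S j ι - low n (slice S (ι 0)) j (Fin.tail ι))]
      _ ≤ _ := by
          simp only [Finset.sum_add_distrib, ← Finset.mul_sum, slice_sq]
          nlinarith [one_le_pow₀ (show (1 : ℝ) ≤ 4 by norm_num) (n := n), pow_succ (4 : ℝ) n]

lemma Phi_succ (n : ℕ) (S : (Fin (n + 1) → Fin d) → ℝ) (φ : EE d → EE d → ℝ) (c x : EE d) :
    Phi V v (n + 1) S φ c x = ∑ i, Phi V v n (slice S i) (stp V v i φ) c x := by
  simp only [Phi]
  rw [sum_cons]
  simp [slice, pT, Fin.tail_cons]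

lemma Phi_S_add (n : ℕ) (S T : (Fin n → Fin d) → ℝ) (φ : EE d → EE d → ℝ) (c x : EE d) :
    Phi V v n (fun ι => S ι + T ι) φ c x = Phi V v n S φ c x + Phi V v n T φ c x := by
  simp [Phi, add_mul, Finset.sum_add_distrib]

section

variable (hV : Admissible V) (hv : 0 < v)

omit hV hv in
lemma fam_one : Fam1 (oneF d) :=
  ⟨Unit, inferInstance, fun _ _ => 1, fun _ _ => 1, fun _ => contDiff_const,
    fun _ => ⟨gr_const 1, contDiff_const, by simpa using gr_const (d := d) (0 : EE d →L[ℝ] ℝ)⟩,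
    funext fun c => funext fun x => by simp [oneF]⟩

include hV in
lemma gr_gk (k : Fin d) : Gr fun x => gradient V x k :=
  gr_of_le ((PiLp.continuous_apply 2 _ k).comp (gr_grad hV).cont) (gr_grad hV).norm
    fun x => by simpa using PiLp.norm_apply_le (gradient V x) k

include hV in
lemma gk_smooth (k : Fin d) : ContDiff ℝ 1 fun x => gradient V x k :=
  (EuclideanSpace.proj k : EE d →L[ℝ] ℝ).contDiff.comp (gradClass_gradient hV).smooth

include hV in
lemma gk_fderiv (k : Fin d) (x u : EE d) :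
    fderiv ℝ (fun x => gradient V x k) x u = fderiv ℝ (gradient V) x u k := by
  rw [show (fun x => gradient V x k) =
      ⇑(EuclideanSpace.proj k : EE d →L[ℝ] ℝ) ∘ gradient V from rfl,
    fderiv_comp x (ContinuousLinearMap.differentiableAt _)
      ((gradClass_gradient hV).smooth.differentiable one_ne_zero x), ContinuousLinearMap.fderiv]
  rfl

include hV in
lemma gr_gk_fderiv (k : Fin d) : Gr fun x => fderiv ℝ (fun x => gradient V x k) x := by
  refine gr_of_le ((gk_smooth hV k).continuous_fderiv one_ne_zero) (gr_const 2) fun x => ?_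
  refine ContinuousLinearMap.opNorm_le_bound _ zero_le_two fun u => ?_
  rw [gk_fderiv hV]
  exact (PiLp.norm_apply_le _ k).trans ((ContinuousLinearMap.le_opNorm _ _).trans
    (mul_le_mul_of_nonneg_right (inv_H_le (gradClass_gradient hV) x) (norm_nonneg u)))

include hV hv

lemma fam_base (k : Fin d) : Fam1 (baseF V v k) := by
  refine ⟨Bool, inferInstance, fun t c => if t then 1 else -(ex V v c fun x => gradient V x k),
    fun t x => if t then gradient V x k else 1, fun t => ?_, fun t => ?_, ?_⟩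
  · cases t
    · simpa using (ex_contDiff hV hv (gr_gk hV k)).neg
    · simpa using contDiff_const
  · cases t
    · simpa using ⟨gr_const (d := d) (1 : ℝ), contDiff_const (𝕜 := ℝ) (E := EE d) (n := 1)
        (c := (1 : ℝ)), gr_const (d := d) (0 : EE d →L[ℝ] ℝ)⟩
    · simpa using ⟨gr_gk hV k, gk_smooth hV k, gr_gk_fderiv hV k⟩
  · funext c x
    simp [baseF, sub_eq_add_neg]

lemma Phi_fam (n : ℕ) (S : (Fin n → Fin d) → ℝ) {φ : EE d → EE d → ℝ} (h : Fam1 φ) (c : EE d) :
    Gr (Phi V v n S φ c) ∧ ContDiff ℝ 1 (Phi V v n S φ c) ∧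
      Gr (fun x => fderiv ℝ (Phi V v n S φ c) x) := by
  have hp := fun ι => Fam1.pT hV hv n ι h
  have hd : ∀ ι x, DifferentiableAt ℝ (pT V v n ι φ c) x := fun ι x =>
    ((hp ι).c1 c).differentiable one_ne_zero x
  refine ⟨gr_sum _ _ fun ι _ => ((hp ι).fam0.gr c).const_mul _,
    ContDiff.sum fun ι _ => contDiff_const.mul ((hp ι).c1 c), ?_⟩
  have e : (fun x => fderiv ℝ (Phi V v n S φ c) x) =
      fun x => ∑ ι, S ι • fderiv ℝ (pT V v n ι φ c) x := funext fun x => by
    show fderiv ℝ (fun x => ∑ ι, S ι * pT V v n ι φ c x) x = _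
    rw [fderiv_fun_sum fun ι _ => (hd ι x).const_mul _]
    exact Finset.sum_congr rfl fun ι _ => fderiv_const_mul (hd ι x) _
  rw [e]
  exact gr_sum _ _ fun ι _ => gr_of_le (((hp ι).gr_fderiv c).cont.fun_const_smul _)
    (((hp ι).gr_fderiv c).norm.const_mul |S ι|) fun x => by rw [norm_smul, Real.norm_eq_abs]

lemma Phi_dx : ∀ (n : ℕ) (S : (Fin (n + 1) → Fin d) → ℝ) {φ : EE d → EE d → ℝ}, Fam1 φ →
    ∀ (j : Fin d) (c x : EE d), fderiv ℝ (Phi V v (n + 1) S φ c) x (ev j) =
      Phi V v (n + 1) S (dx j φ) c x + Phi V v n (low n S j) φ c x := by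
  intro n
  induction n with
  | zero =>
    intro S φ h j c x
    have h1 : ∀ i, DifferentiableAt ℝ (stp V v i φ c) x := fun i =>
      ((h.stp hV hv i).c1 c).differentiable one_ne_zero x
    rw [show Phi V v (0 + 1) S φ c = fun x => ∑ i, slice S i Fin.elim0 * stp V v i φ c x from
      funext fun x => by
        rw [Phi_succ]
        simp [Phi, pT, Subsingleton.elim _ (Fin.elim0 : Fin 0 → Fin d)],
      fderiv_fun_sum fun i _ => (h1 i).const_mul _, Phi_succ]
    simp only [sum_apply]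
    have e : ∀ i, fderiv ℝ (stp V v i φ c) x (ev j) =
        stp V v i (dx j φ) c x + if i = j then φ c x else 0 := fun i =>
      congrFun (congrFun (dx_stp h i j) c) x
    simp only [fderiv_const_mul (h1 _), smul_apply, smul_eq_mul, e, mul_add,
      Finset.sum_add_distrib, mul_ite, mul_zero, Finset.sum_ite_eq', Finset.mem_univ, if_true]
    simp [Phi, pT, low, Subsingleton.elim _ (Fin.elim0 : Fin 0 → Fin d)]
  | succ n ih =>
    intro S φ h j c x
    have hφi := fun i => h.stp hV hv i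
    rw [show Phi V v (n + 1 + 1) S φ c =
      fun x => ∑ i, Phi V v (n + 1) (slice S i) (stp V v i φ) c x from
        funext fun x => Phi_succ _ _ _ _ _,
      fderiv_fun_sum fun i _ =>
        ((Phi_fam hV hv (n + 1) (slice S i) (hφi i) c).2.1.differentiable one_ne_zero x)]
    simp only [sum_apply, ih (slice S _) (hφi _)]
    rw [Finset.sum_add_distrib]
    have e1 : ∀ i, Phi V v (n + 1) (slice S i) (dx j (stp V v i φ)) c x =
        Phi V v (n + 1) (slice S i) (stp V v i (dx j φ)) c x +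
          if i = j then Phi V v (n + 1) (slice S i) φ c x else 0 := by
      intro i
      rw [dx_stp h i j]
      rcases eq_or_ne i j with hij | hij
      · subst hij
        simp only [if_true, Phi, ← Finset.sum_add_distrib]
        refine Finset.sum_congr rfl fun ι _ => ?_
        rw [pT_add hV hv _ ι ((Fam1.dx h i).stp hV hv i) h.fam0, mul_add]
      · simp [if_neg hij]
    rw [Phi_succ (n + 1) S (dx j φ)]
    simp only [e1, Finset.sum_add_distrib, Finset.sum_ite_eq', Finset.mem_univ, if_true]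
    rw [add_assoc]
    congr 1
    show _ = Phi V v (n + 1) (fun ι => slice S j ι + low n (slice S (ι 0)) j (Fin.tail ι)) φ c x
    rw [Phi_S_add, Phi_succ n (fun ι => low n (slice S (ι 0)) j (Fin.tail ι))]
    congr 1

lemma ex_Phi_zero (n : ℕ) (S : (Fin n → Fin d) → ℝ) {φ : EE d → EE d → ℝ} (h : Fam1 φ)
    (h0 : ∀ ι c, ex V v c (pT V v n ι φ c) = 0) (c : EE d) :
    ex V v c (Phi V v n S φ c) = 0 := by
  show ex V v c (fun x => ∑ ι, S ι * pT V v n ι φ c x) = 0
  rw [ex_sum hV hv _ _ fun ι _ => ((Fam1.pT hV hv n ι h).fam0.gr c).const_mul _]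
  refine Finset.sum_eq_zero fun ι _ => ?_
  simp only [← smul_eq_mul (S ι), ex_smul, h0, smul_zero]

omit hV hv in
lemma norm_fderiv_sq (f : EE d → ℝ) (x : EE d) :
    ‖fderiv ℝ f x‖ ^ 2 = ∑ j, fderiv ℝ f x (ev j) ^ 2 := by
  set w := (InnerProductSpace.toDual ℝ (EE d)).symm (fderiv ℝ f x) with hw
  have h1 : ‖fderiv ℝ f x‖ = ‖w‖ := by rw [hw, LinearIsometryEquiv.norm_map]
  rw [h1, EuclideanSpace.real_norm_sq_eq]
  refine Finset.sum_congr rfl fun j _ => ?_
  rw [show fderiv ℝ f x (ev j) = ⟪w, ev j⟫ by rw [hw, InnerProductSpace.toDual_symm_apply]]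
  simp [ev, EuclideanSpace.inner_single_right]

omit hV hv in
lemma gr_sum_sq {ι : Type} [Fintype ι] (f : ι → EE d → ℝ) (h : ∀ i, Gr (f i)) :
    Gr fun x => ∑ i, f i x ^ 2 := gr_sum _ _ fun i _ => (h i).sq

lemma ex_sum_sq_le {ι : Type} [Fintype ι] (c : EE d) (f : ι → EE d → ℝ) (h : ∀ i, Gr (f i))
    {K : ℝ} (b : ι → ℝ) (hb : ∀ i, ex V v c (fun x => f i x ^ 2) ≤ K * b i) :
    ex V v c (fun x => ∑ i, f i x ^ 2) ≤ K * ∑ i, b i := by
  rw [ex_sum hV hv _ _ fun i _ => (h i).sq, Finset.mul_sum]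
  exact Finset.sum_le_sum fun i _ => hb i

/-- Poincare for a centred function. -/
lemma centred_bound (hv1 : v ≤ 1 / 16) (c : EE d) {φ : EE d → ℝ} (h : ContDiff ℝ 1 φ) (hg : Gr φ)
    (hd : Gr fun x => fderiv ℝ φ x) (h0 : ex V v c φ = 0) {G : EE d → ℝ} (hG : Gr G)
    (hle : ∀ x, ∑ j, fderiv ℝ φ x (ev j) ^ 2 ≤ G x) :
    ex V v c (fun x => φ x ^ 2) ≤ 5 / 4 * v * ex V v c G := by
  have hp := poincare hV hv hv1 h hg hd c
  rw [h0] at hp
  have hm : ex V v c (fun x => ‖fderiv ℝ φ x‖ ^ 2) ≤ ex V v c G :=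
    ex_mono hV hv hd.norm.sq hG (fun x => by rw [norm_fderiv_sq]; exact hle x) c
  nlinarith [mul_le_mul_of_nonneg_left hm hv.le]

end

/-- Constants of the bound for the constant one. -/
noncomputable def KP : ℕ → ℝ
  | 0 => 1
  | n + 1 => 5 / 4 * 4 ^ n * KP n

/-- Constants of the bound for the centred gradient. -/
noncomputable def KG : ℕ → ℝ
  | 0 => 5
  | n + 1 => 5 / 4 * (8 * KP (n + 1) + 2 * 4 ^ n * KG n)

lemma KP_pos : ∀ n, 0 < KP n
  | 0 => one_pos
  | n + 1 => by have := KP_pos n; unfold KP; positivity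

lemma KG_pos : ∀ n, 0 < KG n
  | 0 => by norm_num [KG]
  | n + 1 => by have := KG_pos n; have := KP_pos (n + 1); unfold KG; positivity

/-- L² bound of the Appell functions of one. -/
theorem Phi_one_bound (hV : Admissible V) (hv : 0 < v) (hv1 : v ≤ 1 / 16) :
    ∀ (n : ℕ) (S : (Fin n → Fin d) → ℝ) (c : EE d),
      ex V v c (fun x => Phi V v n S (oneF d) c x ^ 2) ≤ KP n * v ^ n * ∑ ι, S ι ^ 2
  | 0, S, c => by
    have e : (fun x => Phi V v 0 S (oneF d) c x ^ 2) = fun _ => S Fin.elim0 ^ 2 := by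
      funext x; simp [Phi, pT, oneF, Subsingleton.elim _ (Fin.elim0 : Fin 0 → Fin d)]
    rw [e, ex_const hV hv]
    simp [KP, Subsingleton.elim _ (Fin.elim0 : Fin 0 → Fin d)]
  | n + 1, S, c => by
    obtain ⟨hg, hc, hd⟩ := Phi_fam hV hv (n + 1) S (fam_one (d := d)) c
    have hz : ∀ ι c, ex V v c (pT V v (n + 1) ι (oneF d) c) = 0 := by
      intro ι c
      refine ex_pT_zero hV hv n (Fin.tail ι) (fam_one.fam0.stp hV hv (ι 0)) (fun c => ?_) c
      rw [ex_stp hV hv fam_one.fam0]
      have : (fun c : EE d => ex V v c (oneF d c)) = fun _ => (1 : ℝ) :=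
        funext fun c => ex_const hV hv c 1
      simp [this]
    have hd1 : ∀ j x, fderiv ℝ (Phi V v (n + 1) S (oneF d) c) x (ev j) =
        Phi V v n (low n S j) (oneF d) c x := fun j x => by
      rw [Phi_dx hV hv n S fam_one j c x]
      have : dx j (oneF d) = fun c x => (fun _ : EE d => (0 : ℝ)) x * oneF d c x := by
        funext c x
        show fderiv ℝ (fun _ : EE d => (1 : ℝ)) x (ev j) = 0 * 1
        simp
      have h0 : ∀ ι, pT V v (n + 1) ι (dx j (oneF d)) c x = 0 := fun ι => by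
        rw [this, pT_mul hV hv (n + 1) ι fam_one.fam0 fun _ => (0 : ℝ)]
        simp
      simp only [Phi, h0, mul_zero, Finset.sum_const_zero, zero_add]
    have hgl := fun j => (Phi_fam hV hv n (low n S j) (fam_one (d := d)) c).1
    refine (centred_bound hV hv hv1 c hc hg hd (ex_Phi_zero hV hv _ S fam_one hz c)
      (gr_sum_sq _ hgl) fun x => le_of_eq (Finset.sum_congr rfl fun j _ => by rw [hd1])).trans
      ?_
    refine (mul_le_mul_of_nonneg_left (ex_sum_sq_le hV hv c _ hgl _ fun j =>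
      Phi_one_bound hV hv hv1 n (low n S j) c) (by positivity)).trans ?_
    have := KP_pos n
    calc 5 / 4 * v * (KP n * v ^ n * ∑ j, ∑ ι, low n S j ι ^ 2)
        ≤ 5 / 4 * v * (KP n * v ^ n * (4 ^ n * ∑ ι, S ι ^ 2)) := by
          gcongr; exact low_sq n S
      _ = _ := by rw [KP]; ring

/-- A contracted Appell function of the gradient field. -/
noncomputable def PsiG (V : EE d → ℝ) (v : ℝ) (n : ℕ) (S : (Fin n → Fin d) × Fin d → ℝ)
    (c x : EE d) : ℝ :=
  ∑ k, Phi V v n (fun ι => S (ι, k)) (baseF V v k) c x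

/-- L² bound of the Appell functions of the gradient field. -/
theorem PsiG_bound (hV : Admissible V) (hv : 0 < v) (hv1 : v ≤ 1 / 16) :
    ∀ (n : ℕ) (S : (Fin n → Fin d) × Fin d → ℝ) (c : EE d),
      ex V v c (fun x => PsiG V v n S c x ^ 2) ≤ KG n * v ^ (n + 1) * ∑ q, S q ^ 2 := by
  have hg := gradClass_gradient hV
  have hHadj : ∀ (Y : Fin d → ℝ) (x : EE d),
      ∑ j, (∑ k, fderiv ℝ (fun x => gradient V x k) x (ev j) * Y k) ^ 2 ≤ 4 * ∑ k, Y k ^ 2 := by
    intro Y x
    set w : EE d := WithLp.toLp 2 Y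
    have e : ∀ j, ∑ k, fderiv ℝ (fun x => gradient V x k) x (ev j) * Y k =
        fderiv ℝ (gradient V) x w j := fun j => by
      have h1 := hg.symm x (ev j) w
      have h2 : ∀ z : EE d, ⟪ev j, z⟫ = z j := fun z => by
        simp [ev, EuclideanSpace.inner_single_left]
      rw [h2] at h1
      simp only [PiLp.inner_apply, RCLike.inner_apply, conj_trivial] at h1
      rw [← h1]
      refine Finset.sum_congr rfl fun k _ => ?_
      rw [gk_fderiv hV]
      simp only [w, ev]
      ring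
    simp_rw [e]
    rw [← EuclideanSpace.real_norm_sq_eq, show ∑ k, Y k ^ 2 = ‖w‖ ^ 2 by
      simp [w, EuclideanSpace.real_norm_sq_eq], show (4 : ℝ) * ‖w‖ ^ 2 = (2 * ‖w‖) ^ 2 by ring]
    exact pow_le_pow_left₀ (norm_nonneg _) ((ContinuousLinearMap.le_opNorm _ _).trans
      (mul_le_mul_of_nonneg_right (inv_H_le hg x) (norm_nonneg w))) 2
  have hb0 : ∀ k c, ex V v c (baseF V v k c) = 0 := fun k c => by
    show ex V v c (fun x => gradient V x k - ex V v c fun x => gradient V x k) = 0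
    simp only [sub_eq_add_neg]
    rw [ex_add hV hv (gr_gk hV k) (gr_const _), ex_const hV hv, add_neg_cancel]
  have hdx : ∀ k j, dx j (baseF V v k) = fun c x =>
      (fun x => fderiv ℝ (fun x => gradient V x k) x (ev j)) x * oneF d c x := fun k j => by
    funext c x
    show fderiv ℝ (fun x => gradient V x k - ex V v c fun x => gradient V x k) x (ev j) = _
    rw [fderiv_sub_const]
    simp [oneF]
  have hreg : ∀ n S c, Gr (PsiG V v n S c) ∧ ContDiff ℝ 1 (PsiG V v n S c) ∧
      Gr (fun x => fderiv ℝ (PsiG V v n S c) x) := fun n S c => by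
    have h := fun k => Phi_fam hV hv n (fun ι => S (ι, k)) (fam_base hV hv k) c
    refine ⟨gr_sum _ _ fun k _ => (h k).1, ContDiff.sum fun k _ => (h k).2.1, ?_⟩
    have e : (fun x => fderiv ℝ (PsiG V v n S c) x) = fun x =>
        ∑ k, fderiv ℝ (Phi V v n (fun ι => S (ι, k)) (baseF V v k) c) x := funext fun x =>
      fderiv_fun_sum fun k _ => (h k).2.1.differentiable one_ne_zero x
    rw [e]
    exact gr_sum _ _ fun k _ => (h k).2.2
  have hmean : ∀ n S c, ex V v c (PsiG V v n S c) = 0 := fun n S c => by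
    show ex V v c (fun x => ∑ k, Phi V v n (fun ι => S (ι, k)) (baseF V v k) c x) = 0
    rw [ex_sum hV hv _ _ fun k _ => (Phi_fam hV hv n _ (fam_base hV hv k) c).1]
    exact Finset.sum_eq_zero fun k _ => ex_Phi_zero hV hv n _ (fam_base hV hv k)
      (fun ι c => ex_pT_zero hV hv n ι (fam_base hV hv k).fam0 (hb0 k) c) c
  intro n
  induction n with
  | zero =>
    intro S c
    obtain ⟨hG, hC, hD⟩ := hreg 0 S c
    have hd0 : ∀ j x, fderiv ℝ (PsiG V v 0 S c) x (ev j) =
        ∑ k, fderiv ℝ (fun x => gradient V x k) x (ev j) * S (Fin.elim0, k) := fun j x => by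
      rw [show PsiG V v 0 S c = fun x => ∑ k, S (Fin.elim0, k) * baseF V v k c x from
        funext fun x => by simp [PsiG, Phi, pT, Subsingleton.elim _ (Fin.elim0 : Fin 0 → Fin d)],
        fderiv_fun_sum fun k _ =>
          (((fam_base hV hv k).c1 c).differentiable one_ne_zero x).const_mul _]
      simp only [sum_apply]
      refine Finset.sum_congr rfl fun k _ => ?_
      rw [fderiv_const_mul (((fam_base hV hv k).c1 c).differentiable one_ne_zero x)]
      have := congrFun (congrFun (hdx k j) c) x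
      simp only [dx, oneF, mul_one] at this
      simp [this, mul_comm]
    refine (centred_bound hV hv hv1 c hC hG hD (hmean 0 S c)
      (gr_const (4 * ∑ q, S q ^ 2)) fun x => ?_).trans ?_
    · simp only [hd0]
      refine (hHadj _ x).trans (le_of_eq ?_)
      simp [Fintype.sum_prod_type, Subsingleton.elim _ (Fin.elim0 : Fin 0 → Fin d)]
    · rw [ex_const hV hv]
      simp [KG]; ring_nf; rfl
  | succ n ih =>
    intro S c
    obtain ⟨hG, hC, hD⟩ := hreg (n + 1) S c
    set Y : Fin d → EE d → ℝ := fun k => Phi V v (n + 1) (fun ι => S (ι, k)) (oneF d) c with hY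
    set L : Fin d → (Fin n → Fin d) × Fin d → ℝ :=
      fun j q => low n (fun ι => S (ι, q.2)) j q.1 with hL
    have hd1 : ∀ j x, fderiv ℝ (PsiG V v (n + 1) S c) x (ev j) =
        (∑ k, fderiv ℝ (fun x => gradient V x k) x (ev j) * Y k x) + PsiG V v n (L j) c x :=
      fun j x => by
        rw [show PsiG V v (n + 1) S c = fun x =>
            ∑ k, Phi V v (n + 1) (fun ι => S (ι, k)) (baseF V v k) c x from rfl,
          fderiv_fun_sum fun k _ =>
            (Phi_fam hV hv (n + 1) _ (fam_base hV hv k) c).2.1.differentiable one_ne_zero x]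
        simp only [sum_apply, Phi_dx hV hv n _ (fam_base hV hv _) j c x, Finset.sum_add_distrib]
        congr 1
        refine Finset.sum_congr rfl fun k _ => ?_
        rw [hdx k j]
        simp only [hY, Phi, Finset.mul_sum, pT_mul hV hv _ _ fam_one.fam0]
        exact Finset.sum_congr rfl fun ι _ => by ring
    have gY : ∀ k, Gr (Y k) := fun k => (Phi_fam hV hv (n + 1) _ (fam_one (d := d)) c).1
    have gL : ∀ j, Gr (PsiG V v n (L j) c) := fun j => (hreg n (L j) c).1
    refine (centred_bound hV hv hv1 c hC hG hD (hmean _ S c)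
      (((gr_sum_sq _ gY).const_mul 8).add ((gr_sum_sq _ gL).const_mul 2))
      fun x => ?_).trans ?_
    · simp only [hd1]
      calc ∑ j, ((∑ k, fderiv ℝ (fun x => gradient V x k) x (ev j) * Y k x) +
            PsiG V v n (L j) c x) ^ 2
          ≤ ∑ j, (2 * (∑ k, fderiv ℝ (fun x => gradient V x k) x (ev j) * Y k x) ^ 2 +
              2 * PsiG V v n (L j) c x ^ 2) := Finset.sum_le_sum fun j _ => by
            nlinarith [sq_nonneg ((∑ k, fderiv ℝ (fun x => gradient V x k) x (ev j) * Y k x) -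
              PsiG V v n (L j) c x)]
        _ ≤ _ := by
            rw [Finset.sum_add_distrib, ← Finset.mul_sum, ← Finset.mul_sum]
            linarith [hHadj (fun k => Y k x) x]
    · rw [ex_add hV hv ((gr_sum_sq _ gY).const_mul 8) ((gr_sum_sq _ gL).const_mul 2)]
      simp only [← smul_eq_mul (8 : ℝ), ← smul_eq_mul (2 : ℝ), ex_smul]
      simp only [smul_eq_mul]
      have hS : ∑ q : (Fin (n + 1) → Fin d) × Fin d, S q ^ 2 = ∑ k, ∑ ι, S (ι, k) ^ 2 := by
        rw [Fintype.sum_prod_type, Finset.sum_comm]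
      have b1 := ex_sum_sq_le hV hv c Y gY _ fun k =>
        Phi_one_bound hV hv hv1 (n + 1) (fun ι => S (ι, k)) c
      have b2 := ex_sum_sq_le hV hv c _ gL _ fun j => ih (L j) c
      have b3 : ∑ j, ∑ q, L j q ^ 2 ≤ 4 ^ n * ∑ q, S q ^ 2 := by
        rw [hS, Finset.mul_sum]
        simp only [hL, Fintype.sum_prod_type]
        calc ∑ j, ∑ ι, ∑ k, low n (fun ι => S (ι, k)) j ι ^ 2
            = ∑ k, ∑ j, ∑ ι, low n (fun ι => S (ι, k)) j ι ^ 2 := by
              rw [Finset.sum_congr rfl fun j _ => Finset.sum_comm]; exact Finset.sum_comm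
          _ ≤ _ := Finset.sum_le_sum fun k _ => low_sq n fun ι => S (ι, k)
      rw [← hS] at b1
      have := KG_pos n
      calc 5 / 4 * v * (8 * ex V v c (fun x => ∑ k, Y k x ^ 2) +
            2 * ex V v c (fun x => ∑ j, PsiG V v n (L j) c x ^ 2))
          ≤ 5 / 4 * v * (8 * (KP (n + 1) * v ^ (n + 1) * ∑ q, S q ^ 2) +
              2 * (KG n * v ^ (n + 1) * (4 ^ n * ∑ q, S q ^ 2))) := by
            gcongr
            exact b2.trans (mul_le_mul_of_nonneg_left b3 (by positivity))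
        _ = _ := by rw [KG]; ring

end Vale.Agent.P347.Zero
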