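import Vale.Agent.P347.Zero.AppellBound

/-!
The bound B1: every contiguous bipartition of the n-th derivative tensor of the smoothed drift has
norm at most a constant times v ^ (-n/2), two indices in excess (note 897).
-/

open MeasureTheory ProbabilityTheory
open scoped RealInnerProductSpace ContDiff

namespace Vale.Agent.P347.Zero

open Calc (ev)

variable {d : ℕ} {V : EE d → ℝ} {v : ℝ}

/-- The pairing of two families at parameters displaced by a and by b. -/
noncomputable def Hf (V : EE d → ℝ) (v : ℝ) (c0 : EE d) (φ ψ : EE d → EE d → ℝ)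
    (z : EE d × EE d) : ℝ :=
  ex V v c0 fun x => φ (c0 + z.1) x * ψ (c0 + z.2) x *
    (Real.exp ⟪z.1 + z.2, x⟫ *
      (mass0 V v c0 / mass0 V v (c0 + z.1) * (mass0 V v c0 / mass0 V v (c0 + z.2))))

section

variable (hV : Admissible V) (hv : 0 < v) (c0 : EE d)

include hV hv

omit hV hv in
lemma lap_shift (h : EE d → ℝ) (a c : EE d) :
    lap V v (fun x => h x * Real.exp ⟪a, x⟫) c = lap V v h (c + a) := by
  simp only [lap, smul_eq_mul, inner_add_left, Real.exp_add]
  exact integral_congr_ae (ae_of_all _ fun x => by ring)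

lemma Hf_rep {ι κ : Type} [Fintype ι] [Fintype κ] {ψ π : ι → EE d → ℝ} {χ ρ : κ → EE d → ℝ}
    (hπ : ∀ t, Gr (π t)) (hρ : ∀ s, Gr (ρ s)) (z : EE d × EE d) :
    Hf V v c0 (fun c x => ∑ t, ψ t c * π t x) (fun c x => ∑ s, χ s c * ρ s x) z =
      ∑ t, ∑ s, ψ t (c0 + z.1) * (mass0 V v (c0 + z.1))⁻¹ * (χ s (c0 + z.2) *
        (mass0 V v (c0 + z.2))⁻¹) * mass0 V v c0 *
          lap V v (fun x => π t x * ρ s x) (c0 + (z.1 + z.2)) := by
  have e : (fun x => (∑ t, ψ t (c0 + z.1) * π t x) * (∑ s, χ s (c0 + z.2) * ρ s x) *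
      (Real.exp ⟪z.1 + z.2, x⟫ *
        (mass0 V v c0 / mass0 V v (c0 + z.1) * (mass0 V v c0 / mass0 V v (c0 + z.2))))) =
      fun x => ∑ t, ∑ s, (ψ t (c0 + z.1) * χ s (c0 + z.2) *
        (mass0 V v c0 / mass0 V v (c0 + z.1) * (mass0 V v c0 / mass0 V v (c0 + z.2)))) •
          (π t x * ρ s x * Real.exp ⟪z.1 + z.2, x⟫) := by
    funext x
    simp only [smul_eq_mul, Finset.mul_sum, Finset.sum_mul]
    rw [Finset.sum_comm]
    exact Finset.sum_congr rfl fun s _ => Finset.sum_congr rfl fun t _ => by ring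
  have hgr : ∀ t s, Gr fun x => π t x * ρ s x * Real.exp ⟪z.1 + z.2, x⟫ := fun t s =>
    ((hπ t).mul (hρ s)).mul (gr_expInner _)
  have hgr' : ∀ (a : ℝ) t s, Gr fun x => a • (π t x * ρ s x * Real.exp ⟪z.1 + z.2, x⟫) :=
    fun a t s => by simpa only [smul_eq_mul] using (hgr t s).const_mul a
  have h0 := (mass0_pos hV hv c0).ne'
  simp only [Hf]
  rw [e, ex_sum hV hv _ _ fun t _ => gr_sum _ _ fun s _ => hgr' _ t s]
  refine Finset.sum_congr rfl fun t _ => ?_
  rw [ex_sum hV hv _ _ fun s _ => hgr' _ t s]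
  refine Finset.sum_congr rfl fun s _ => ?_
  rw [ex_smul, ex, lap_shift]
  simp only [smul_eq_mul]
  field_simp

lemma mass0_fderiv (c : EE d) (i : Fin d) :
    fderiv ℝ (mass0 V v) c (ev i) = mass0 V v c * ex V v c fun x => x i := by
  rw [show mass0 V v = lap V v (fun _ => (1 : ℝ)) from rfl,
    (lap_hasFDerivAt hV hv (gr_const 1) c).fderiv]
  have := (mass0_pos hV hv c).ne'
  simp only [sum_apply, smul_apply, PiLp.proj_apply, smul_eq_mul, ev, PiLp.single_apply, mul_ite,
    mul_one, mul_zero, Finset.sum_ite_eq', Finset.mem_univ, if_true, ex]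
  rw [← mul_assoc, ← show mass0 V v c = lap V v (fun _ => (1 : ℝ)) c from rfl,
    mul_inv_cancel₀ this, one_mul]

lemma lap_fderiv {h : EE d → ℝ} (hh : Gr h) (c : EE d) (i : Fin d) :
    fderiv ℝ (lap V v h) c (ev i) = lap V v (fun x => x i * h x) c := by
  rw [(lap_hasFDerivAt hV hv hh c).fderiv]
  simp [ev, PiLp.single_apply]

omit hV hv in
lemma Hf_swap (φ ψ : EE d → EE d → ℝ) :
    Hf V v c0 φ ψ = fun z => Hf V v c0 ψ φ (z.2, z.1) := by
  funext z
  simp only [Hf, add_comm z.2 z.1]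
  congr 1
  funext x
  ring

lemma Hf_contDiff {φ ψ : EE d → EE d → ℝ} (hφ : Fam0 φ) (hψ : Fam0 ψ) :
    ContDiff ℝ ∞ (Hf V v c0 φ ψ) := by
  obtain ⟨ι, hι, α, π, hα, hπ, rfl⟩ := hφ
  obtain ⟨κ, hκ, χ, ρ, hχ, hρ, rfl⟩ := hψ
  rw [funext (Hf_rep hV hv c0 hπ hρ)]
  have h1 : ContDiff ℝ ∞ fun z : EE d × EE d => c0 + z.1 := contDiff_const.add contDiff_fst
  have h2 : ContDiff ℝ ∞ fun z : EE d × EE d => c0 + z.2 := contDiff_const.add contDiff_snd
  have h3 : ContDiff ℝ ∞ fun z : EE d × EE d => c0 + (z.1 + z.2) :=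
    contDiff_const.add (contDiff_fst.add contDiff_snd)
  have hm := mass0_contDiff (d := d) hV hv
  exact ContDiff.sum fun t _ => ContDiff.sum fun s _ =>
    (((((hα t).comp h1).mul ((hm.comp h1).inv fun z => (mass0_pos hV hv _).ne')).mul
      (((hχ s).comp h2).mul ((hm.comp h2).inv fun z => (mass0_pos hV hv _).ne'))).mul
      contDiff_const).mul ((lap_contDiff hV hv ((hπ t).mul (hρ s))).comp h3)

lemma Hf_dA {φ ψ : EE d → EE d → ℝ} (hφ : Fam0 φ) (hψ : Fam0 ψ) (i : Fin d) (z : EE d × EE d) :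
    fderiv ℝ (Hf V v c0 φ ψ) z (wA i) = Hf V v c0 (stp V v i φ) ψ z := by
  obtain ⟨ι, hι, α, π, hα, hπ, rfl⟩ := hφ
  obtain ⟨κ, hκ, χ, ρ, hχ, hρ, rfl⟩ := hψ
  have hrep : stp V v i (fun c x => ∑ t, α t c * π t x) = fun c x => ∑ t : ι ⊕ ι ⊕ ι,
      Sum.elim (fun t c => fderiv ℝ (α t) c (ev i))
        (Sum.elim α fun t c => -(α t c * ex V v c fun x => x i)) t c *
      Sum.elim π (Sum.elim (fun t x => π t x * x i) π) t x := by
    funext c x
    rw [stp_rep hα i c x]
    simp [Fintype.sum_sum_type, Finset.sum_add_distrib, add_assoc]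
  have hπ' : ∀ t : ι ⊕ ι ⊕ ι, Gr (Sum.elim π (Sum.elim (fun t x => π t x * x i) π) t) := by
    rintro (t | t | t)
    · exact hπ t
    · exact (hπ t).mul (gr_coord i)
    · exact hπ t
  rw [funext (Hf_rep hV hv c0 hπ hρ), hrep, Hf_rep hV hv c0 hπ' hρ]
  have hm := mass0_contDiff (d := d) hV hv
  have p1 : HasFDerivAt (fun z : EE d × EE d => c0 + z.1)
      (ContinuousLinearMap.fst ℝ (EE d) (EE d)) z := hasFDerivAt_fst.const_add c0
  have p2 : HasFDerivAt (fun z : EE d × EE d => c0 + z.2)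
      (ContinuousLinearMap.snd ℝ (EE d) (EE d)) z := hasFDerivAt_snd.const_add c0
  have p3 : HasFDerivAt (fun z : EE d × EE d => c0 + (z.1 + z.2))
      (ContinuousLinearMap.fst ℝ (EE d) (EE d) + ContinuousLinearMap.snd ℝ (EE d) (EE d)) z :=
    (hasFDerivAt_fst.add hasFDerivAt_snd).const_add c0
  have hterm : ∀ t s, HasFDerivAt
      (fun z : EE d × EE d => α t (c0 + z.1) * (mass0 V v (c0 + z.1))⁻¹ * (χ s (c0 + z.2) *
        (mass0 V v (c0 + z.2))⁻¹) * mass0 V v c0 *
          lap V v (fun x => π t x * ρ s x) (c0 + (z.1 + z.2))) _ z := fun t s =>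
    ((((((hα t).differentiable (by simp) _).hasFDerivAt.comp z p1).fun_mul
      ((hasDerivAt_inv (mass0_pos hV hv _).ne').comp_hasFDerivAt z
        ((hm.differentiable (by simp) _).hasFDerivAt.comp z p1))).fun_mul
      (((((hχ s).differentiable (by simp) _).hasFDerivAt.comp z p2)).fun_mul
        ((hasDerivAt_inv (mass0_pos hV hv _).ne').comp_hasFDerivAt z
          ((hm.differentiable (by simp) _).hasFDerivAt.comp z p2)))).mul_const
      (mass0 V v c0)).fun_mul
      ((lap_hasFDerivAt hV hv ((hπ t).mul (hρ s)) _).differentiableAt.hasFDerivAt.comp z p3)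
  rw [(HasFDerivAt.fun_sum fun t _ => HasFDerivAt.fun_sum fun s _ => hterm t s).fderiv]
  have hval : wA i = ((ev i, 0) : EE d × EE d) := rfl
  simp only [sum_apply, add_apply, smul_apply, ContinuousLinearMap.comp_apply,
    ContinuousLinearMap.fst, ContinuousLinearMap.snd, hval, smul_eq_mul, Fintype.sum_sum_type,
    Sum.elim_inl, Sum.elim_inr, Function.comp_apply]
  simp only [ContinuousLinearMap.coe_mk', LinearMap.fst_apply, LinearMap.snd_apply, map_zero,
    add_zero, mul_zero, zero_add, mass0_fderiv hV hv,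
    lap_fderiv hV hv ((hπ _).mul (hρ _)), ← Finset.sum_add_distrib]
  refine Finset.sum_congr rfl fun t _ => Finset.sum_congr rfl fun s _ => ?_
  rw [show (fun x : EE d => x i * (π t x * ρ s x)) = fun x => π t x * x i * ρ s x from
    funext fun x => by ring]
  have := (mass0_pos hV hv (c0 + z.1)).ne'
  field_simp
  ring

lemma Hf_dB {φ ψ : EE d → EE d → ℝ} (hφ : Fam0 φ) (hψ : Fam0 ψ) (i : Fin d) (z : EE d × EE d) :
    fderiv ℝ (Hf V v c0 φ ψ) z (wB i) = Hf V v c0 φ (stp V v i ψ) z := by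
  rw [Hf_swap c0 φ ψ, Hf_swap c0 φ (stp V v i ψ)]
  set L : EE d × EE d →L[ℝ] EE d × EE d :=
    (ContinuousLinearMap.snd ℝ (EE d) (EE d)).prod (ContinuousLinearMap.fst ℝ (EE d) (EE d))
  have h : HasFDerivAt (fun z : EE d × EE d => Hf V v c0 ψ φ (z.2, z.1))
      ((fderiv ℝ (Hf V v c0 ψ φ) (z.2, z.1)).comp L) z :=
    ((Hf_contDiff hV hv c0 hψ hφ).differentiable (by simp) _).hasFDerivAt.comp z L.hasFDerivAt
  rw [h.fderiv]
  exact Hf_dA hV hv c0 hψ hφ i (z.2, z.1)

lemma dT_wA_Hf : ∀ (n : ℕ) (ι : Fin n → Fin d) {φ ψ : EE d → EE d → ℝ}, Fam0 φ → Fam0 ψ →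
    dT wA n ι (Hf V v c0 φ ψ) = Hf V v c0 (pT V v n ι φ) ψ
  | 0, _, _, _, _, _ => rfl
  | n + 1, ι, φ, ψ, hφ, hψ => by
    simp only [dT, pT]
    rw [funext (Hf_dA hV hv c0 hφ hψ (ι 0))]
    exact dT_wA_Hf n (Fin.tail ι) (hφ.stp hV hv (ι 0)) hψ

lemma dT_wB_Hf : ∀ (n : ℕ) (ι : Fin n → Fin d) {φ ψ : EE d → EE d → ℝ}, Fam0 φ → Fam0 ψ →
    dT wB n ι (Hf V v c0 φ ψ) = Hf V v c0 φ (pT V v n ι ψ)
  | 0, _, _, _, _, _ => rfl
  | n + 1, ι, φ, ψ, hφ, hψ => by
    simp only [dT, pT]
    rw [funext (Hf_dB hV hv c0 hφ hψ (ι 0))]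
    exact dT_wB_Hf n (Fin.tail ι) hφ (hψ.stp hV hv (ι 0))

lemma Hf_at_zero (φ ψ : EE d → EE d → ℝ) :
    Hf V v c0 φ ψ 0 = ex V v c0 fun x => φ c0 x * ψ c0 x := by
  simp [Hf, div_self (mass0_pos hV hv c0).ne']

lemma dTen_Hf {a b : ℕ} (α : Fin a → Fin d) (β : Fin b → Fin d) {φ ψ : EE d → EE d → ℝ}
    (hφ : Fam0 φ) (hψ : Fam0 ψ) :
    dT wB b β (dT wA a α (Hf V v c0 φ ψ)) 0 =
      ex V v c0 fun x => pT V v a α φ c0 x * pT V v b β ψ c0 x := by
  rw [dT_wA_Hf hV hv c0 a α hφ hψ, dT_wB_Hf hV hv c0 b β (Fam0.pT hV hv a α hφ) hψ,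
    Hf_at_zero hV hv]

end

/-- The gradient pairing, the pairing of one with one, and the drift increment, as tensor
fields. -/
noncomputable def HF (V : EE d → ℝ) (v : ℝ) (c0 : EE d) : Unit → Fin d → EE d × EE d → ℝ :=
  fun _ k => Hf V v c0 (baseF V v k) (oneF d)

/-- The pairing of one with one. -/
noncomputable def KF (V : EE d → ℝ) (v : ℝ) (c0 : EE d) : Unit → Unit → EE d × EE d → ℝ :=
  fun _ _ => Hf V v c0 (oneF d) (oneF d)

/-- The increment of the mean gradient. -/
noncomputable def JF (V : EE d → ℝ) (v : ℝ) (c0 : EE d) : Unit → Fin d → EE d × EE d → ℝ :=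
  fun _ k z => (ex V v (c0 + (z.1 + z.2)) fun x => gradient V x k) -
    ex V v (c0 + z.1) fun x => gradient V x k

section

variable (hV : Admissible V) (hv : 0 < v) (hv1 : v ≤ 1 / 16) (c0 : EE d)

include hV hv

lemma mop_of_pairing {I J : Type} [Fintype I] [Fintype J] {f : I → EE d → ℝ} {g : J → EE d → ℝ}
    (hf : ∀ i, Gr (f i)) (hg : ∀ j, Gr (g j)) {A B : ℝ} (hA : 0 ≤ A) (hB : 0 ≤ B)
    (hfb : ∀ S : I → ℝ, ex V v c0 (fun x => (∑ i, S i * f i x) ^ 2) ≤ A ^ 2 * ∑ i, S i ^ 2)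
    (hgb : ∀ T : J → ℝ, ex V v c0 (fun x => (∑ j, T j * g j x) ^ 2) ≤ B ^ 2 * ∑ j, T j ^ 2) :
    Calc.Mop (fun i j => ex V v c0 fun x => g j x * f i x) (B * A) := by
  intro T
  set w : I → ℝ := fun i => ∑ j, (ex V v c0 fun x => g j x * f i x) * T j with hw
  set F : EE d → ℝ := fun x => ∑ i, w i * f i x
  set G : EE d → ℝ := fun x => ∑ j, T j * g j x
  have gF : Gr F := gr_sum _ _ fun i _ => (hf i).const_mul _
  have gG : Gr G := gr_sum _ _ fun j _ => (hg j).const_mul _
  have h1 : ∑ i, w i ^ 2 = ex V v c0 fun x => G x * F x := by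
    have e : (fun x => G x * F x) = fun x => ∑ i, ∑ j, (w i * T j) • (g j x * f i x) := by
      funext x
      simp only [F, G, Finset.sum_mul, Finset.mul_sum, smul_eq_mul]
      exact Finset.sum_congr rfl fun i _ => Finset.sum_congr rfl fun j _ => by ring
    have hgr : ∀ i j, Gr fun x => (w i * T j) • (g j x * f i x) := fun i j => by
      simpa only [smul_eq_mul] using ((hg j).mul (hf i)).const_mul (w i * T j)
    rw [e, ex_sum hV hv _ _ fun i _ => gr_sum _ _ fun j _ => hgr i j]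
    refine Finset.sum_congr rfl fun i _ => ?_
    rw [ex_sum hV hv _ _ fun j _ => hgr i j, pow_two]
    nth_rewrite 2 [hw]
    rw [Finset.mul_sum]
    refine Finset.sum_congr rfl fun j _ => ?_
    rw [ex_smul, smul_eq_mul]
    ring
  set W := ∑ i, w i ^ 2
  set U := ∑ j, T j ^ 2
  have hW : 0 ≤ W := Finset.sum_nonneg fun i _ => sq_nonneg _
  have hU : 0 ≤ U := Finset.sum_nonneg fun j _ => sq_nonneg _
  have key : ∀ t : ℝ, 0 ≤ ex V v c0 (fun x => (F x + t * G x) ^ 2) := fun t =>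
    ex_nonneg hV hv (fun x => sq_nonneg _) c0
  have e2 : ∀ t : ℝ, ex V v c0 (fun x => (F x + t * G x) ^ 2) =
      ex V v c0 (fun x => F x ^ 2) + 2 * t * W + t ^ 2 * ex V v c0 (fun x => G x ^ 2) := fun t => by
    have e : (fun x => (F x + t * G x) ^ 2) =
        fun x => F x ^ 2 + (2 * t) • (G x * F x) + (t ^ 2) • (G x ^ 2) := funext fun x => by
      simp only [smul_eq_mul]; ring
    rw [e, ex_add hV hv (gF.sq.add (by simpa only [smul_eq_mul] using (gG.mul gF).const_mul (2 * t)))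
      (by simpa only [smul_eq_mul] using gG.sq.const_mul (t ^ 2)),
      ex_add hV hv gF.sq (by simpa only [smul_eq_mul] using (gG.mul gF).const_mul (2 * t)),
      ex_smul, ex_smul, ← h1]
    simp [W, smul_eq_mul]
  show W ≤ (B * A) ^ 2 * U
  have hF2 := hfb w
  have hG2 := hgb T
  rcases eq_or_lt_of_le (mul_nonneg (sq_nonneg B) hU) with h0 | h0
  · have hz : ex V v c0 (fun x => G x ^ 2) = 0 :=
      le_antisymm (hG2.trans_eq h0.symm) (ex_nonneg hV hv (fun x => sq_nonneg _) c0)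
    by_contra hcon
    have hWp : 0 < W := lt_of_le_of_lt (by positivity) (not_le.1 hcon)
    have := key (-(A ^ 2 + 1) / 2)
    rw [e2, hz] at this
    nlinarith [hF2]
  · have := key (-(W / (B ^ 2 * U)))
    rw [e2] at this
    have h3 : (W / (B ^ 2 * U)) ^ 2 * ex V v c0 (fun x => G x ^ 2) ≤
        (W / (B ^ 2 * U)) ^ 2 * (B ^ 2 * U) := mul_le_mul_of_nonneg_left hG2 (sq_nonneg _)
    have h4 : (W / (B ^ 2 * U)) ^ 2 * (B ^ 2 * U) = W * W / (B ^ 2 * U) := by field_simp
    have h5 : W * W / (B ^ 2 * U) ≤ A ^ 2 * W := by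
      have : 2 * (W / (B ^ 2 * U)) * W = 2 * (W * W / (B ^ 2 * U)) := by ring
      nlinarith [hF2]
    rw [div_le_iff₀ h0] at h5
    rcases eq_or_lt_of_le hW with h6 | h6
    · rw [← h6]; positivity
    · nlinarith

include hv1

lemma DN_KF (a b : ℕ) :
    DN a b (KF V v c0) (Real.sqrt (KP a) * Real.sqrt (KP b) * Real.sqrt v ^ (a + b)) := by
  show Calc.Mop _ _
  have h := mop_of_pairing hV hv c0 (I := (Fin b → Fin d) × Unit) (J := (Fin a → Fin d) × Unit)
    (f := fun p => pT V v b p.1 (oneF d) c0) (g := fun q => pT V v a q.1 (oneF d) c0)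
    (A := Real.sqrt (KP b) * Real.sqrt v ^ b) (B := Real.sqrt (KP a) * Real.sqrt v ^ a)
    (fun p => (Fam0.pT hV hv b p.1 fam_one.fam0).gr c0)
    (fun q => (Fam0.pT hV hv a q.1 fam_one.fam0).gr c0) (by positivity) (by positivity)
    (fun S => ?_) (fun T => ?_)
  · rw [show Real.sqrt (KP a) * Real.sqrt (KP b) * Real.sqrt v ^ (a + b) =
      Real.sqrt (KP a) * Real.sqrt v ^ a * (Real.sqrt (KP b) * Real.sqrt v ^ b) by ring]
    convert h using 1
    funext p q
    exact dTen_Hf hV hv c0 q.1 p.1 fam_one.fam0 fam_one.fam0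
  · have := Phi_one_bound hV hv hv1 b (fun ι => S (ι, ())) c0
    rw [mul_pow, Real.sq_sqrt (KP_pos b).le, ← pow_mul, mul_comm b 2, pow_mul,
      Real.sq_sqrt hv.le]
    simpa [Phi, Fintype.sum_prod_type] using this
  · have := Phi_one_bound hV hv hv1 a (fun ι => T (ι, ())) c0
    rw [mul_pow, Real.sq_sqrt (KP_pos a).le, ← pow_mul, mul_comm a 2, pow_mul,
      Real.sq_sqrt hv.le]
    simpa [Phi, Fintype.sum_prod_type] using this

lemma DN_HF (a b : ℕ) :
    DN a b (HF V v c0) (Real.sqrt (KG a) * Real.sqrt (KP b) * Real.sqrt v ^ (a + b + 1)) := by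
  show Calc.Mop _ _
  have h := mop_of_pairing hV hv c0 (I := (Fin b → Fin d) × Unit) (J := (Fin a → Fin d) × Fin d)
    (f := fun p => pT V v b p.1 (oneF d) c0) (g := fun q => pT V v a q.1 (baseF V v q.2) c0)
    (A := Real.sqrt (KP b) * Real.sqrt v ^ b) (B := Real.sqrt (KG a) * Real.sqrt v ^ (a + 1))
    (fun p => (Fam0.pT hV hv b p.1 fam_one.fam0).gr c0)
    (fun q => (Fam0.pT hV hv a q.1 (fam_base hV hv q.2).fam0).gr c0) (by positivity)
    (by positivity) (fun S => ?_) (fun T => ?_)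
  · rw [show Real.sqrt (KG a) * Real.sqrt (KP b) * Real.sqrt v ^ (a + b + 1) =
      Real.sqrt (KG a) * Real.sqrt v ^ (a + 1) * (Real.sqrt (KP b) * Real.sqrt v ^ b) by ring]
    convert h using 1
    funext p q
    exact dTen_Hf hV hv c0 q.1 p.1 (fam_base hV hv q.2).fam0 fam_one.fam0
  · have := Phi_one_bound hV hv hv1 b (fun ι => S (ι, ())) c0
    rw [mul_pow, Real.sq_sqrt (KP_pos b).le, ← pow_mul, mul_comm b 2, pow_mul,
      Real.sq_sqrt hv.le]
    simpa [Phi, Fintype.sum_prod_type] using this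
  · have := PsiG_bound hV hv hv1 a T c0
    have e : ∀ x, ∑ q, T q * pT V v a q.1 (baseF V v q.2) c0 x = PsiG V v a T c0 x := fun x => by
      simp only [PsiG, Phi, Fintype.sum_prod_type]
      exact Finset.sum_comm
    simp only [e]
    rw [mul_pow, Real.sq_sqrt (KG_pos a).le, ← pow_mul, mul_comm (a + 1) 2, pow_mul,
      Real.sq_sqrt hv.le]
    exact this

omit hv1

lemma HF_eq (k : Fin d) (z : EE d × EE d) :
    HF V v c0 () k z = JF V v c0 () k z * KF V v c0 () () z := by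
  have h0 := (mass0_pos hV hv c0).ne'
  have hg := gr_gk hV k
  have e1 : baseF V v k = fun c x => ∑ t : Bool,
      (fun (t : Bool) (c : EE d) => if t then (1 : ℝ) else -(ex V v c fun x => gradient V x k)) t c *
        (fun (t : Bool) (x : EE d) => if t then gradient V x k else 1) t x := by
    funext c x
    simp [baseF, sub_eq_add_neg]
  have e2 : oneF d = fun c x => ∑ _t : Unit,
      (fun (_ : Unit) (_ : EE d) => (1 : ℝ)) () c * (fun (_ : Unit) (_ : EE d) => (1 : ℝ)) () x := by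
    funext c x
    simp [oneF]
  have hπ : ∀ t : Bool, Gr ((fun (t : Bool) (x : EE d) => if t then gradient V x k else 1) t) := by
    intro t
    cases t
    · simpa using gr_const (d := d) (1 : ℝ)
    · simpa using hg
  simp only [HF, KF]
  rw [e1, e2, Hf_rep hV hv c0 hπ (fun _ => gr_const 1),
    Hf_rep hV hv c0 (fun _ => gr_const 1) (fun _ => gr_const 1)]
  simp only [Fintype.sum_bool, if_true, Bool.false_eq_true, if_false, Finset.univ_unique,
    Finset.sum_singleton, mul_one, one_mul, JF, ex, smul_eq_mul]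
  have := (mass0_pos hV hv (c0 + (z.1 + z.2))).ne'
  rw [show lap V v (fun _ => (1 : ℝ)) (c0 + (z.1 + z.2)) = mass0 V v (c0 + (z.1 + z.2)) from rfl]
  have h1 := (mass0_pos hV hv (c0 + z.1)).ne'
  have h2 := (mass0_pos hV hv (c0 + z.2)).ne'
  field_simp
  ring

lemma JF_smooth : Sm2 (JF V v c0) := fun _ k => by
  have h := ex_contDiff hV hv (gr_gk hV k)
  exact (h.comp (contDiff_const.add (contDiff_fst.add contDiff_snd))).sub
    (h.comp (contDiff_const.add contDiff_fst))

lemma HF_smooth : Sm2 (HF V v c0) := fun _ k =>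
  Hf_contDiff hV hv c0 (fam_base hV hv k).fam0 fam_one.fam0

lemma KF_smooth : Sm2 (KF V v c0) := fun _ _ =>
  Hf_contDiff hV hv c0 fam_one.fam0 fam_one.fam0

end

/-- The constants of B1 in natural coordinates. -/
noncomputable def KJ : ℕ → ℝ
  | n => Nat.strongRecOn n fun n ih =>
      (∑ a ∈ Finset.range (n + 1), Real.sqrt (KG a) * Real.sqrt (KP (n - a))) +
        2 ^ n * ((∑ m : Fin n, |ih m m.isLt|) *
          (1 + ∑ a ∈ Finset.range (n + 1), ∑ b ∈ Finset.range (n + 1),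
            Real.sqrt (KP a) * Real.sqrt (KP b)))

lemma KJ_eq (n : ℕ) : KJ n =
    (∑ a ∈ Finset.range (n + 1), Real.sqrt (KG a) * Real.sqrt (KP (n - a))) +
      2 ^ n * ((∑ m : Fin n, |KJ m|) *
        (1 + ∑ a ∈ Finset.range (n + 1), ∑ b ∈ Finset.range (n + 1),
          Real.sqrt (KP a) * Real.sqrt (KP b))) := by
  conv_lhs => rw [KJ, Nat.strongRecOn_eq]
  rfl

lemma KJ_nonneg (n : ℕ) : 0 ≤ KJ n := by rw [KJ_eq]; positivity

/-- B1 in natural coordinates, at all orders. -/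
theorem DN_JF (hV : Admissible V) (hv : 0 < v) (hv1 : v ≤ 1 / 16) (c0 : EE d) :
    ∀ (n a b : ℕ), a + b = n → DN a b (JF V v c0) (KJ n * Real.sqrt v * Real.sqrt v ^ n) := by
  intro n
  induction n using Nat.strong_induction_on with
  | _ n ih =>
  intro a b hab
  set r := Real.sqrt v
  have hr : 0 ≤ r := Real.sqrt_nonneg v
  set A : ℝ := (∑ m : Fin n, |KJ m|) * r
  set B : ℝ := 1 + ∑ a' ∈ Finset.range (n + 1), ∑ b' ∈ Finset.range (n + 1),
    Real.sqrt (KP a') * Real.sqrt (KP b')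
  have hA : 0 ≤ A := by positivity
  have hB : 0 ≤ B := by positivity
  set G : Unit → Unit → EE d × EE d → ℝ := fun p q z => KF V v c0 p q z + (-1) with hG
  have hK0 : KF V v c0 () () 0 = 1 := by
    simp only [KF, Hf_at_zero hV hv]
    simp [oneF, ex_const hV hv]
  have hG0 : ∀ p q, G p q 0 = 0 := fun _ _ => by simp [hG, hK0]
  have sG : Sm2 G := fun p q => (KF_smooth hV hv c0 p q).add contDiff_const
  have sJ := JF_smooth hV hv c0
  have hF : Below a b (JF V v c0) A r := fun a1 b1 h1 h2 h3 => by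
    refine (ih (a1 + b1) (by omega) a1 b1 rfl).mono (by have := KJ_nonneg (a1 + b1); positivity) ?_
    show _ ≤ A * r ^ (a1 + b1)
    refine mul_le_mul_of_nonneg_right (mul_le_mul_of_nonneg_right ?_ hr) (pow_nonneg hr _)
    exact (le_abs_self _).trans (Finset.single_le_sum (f := fun m : Fin n => |KJ m|)
      (fun m _ => abs_nonneg _) (Finset.mem_univ ⟨a1 + b1, by omega⟩))
  have hGb : UpTo a b G B r := fun a1 b1 h1 h2 => by
    have hkb : Real.sqrt (KP a1) * Real.sqrt (KP b1) ≤ B := by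
      refine le_trans ?_ (le_add_of_nonneg_left zero_le_one)
      refine le_trans ?_ (Finset.single_le_sum (f := fun a' => ∑ b' ∈ Finset.range (n + 1),
        Real.sqrt (KP a') * Real.sqrt (KP b')) (fun i _ => by positivity)
        (Finset.mem_range.2 (show a1 < n + 1 by omega)))
      exact Finset.single_le_sum (f := fun b' => Real.sqrt (KP a1) * Real.sqrt (KP b'))
        (fun i _ => by positivity) (Finset.mem_range.2 (show b1 < n + 1 by omega))
    have hle := (DN_KF hV hv hv1 c0 a1 b1).mono (by positivity)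
      (mul_le_mul_of_nonneg_right hkb (pow_nonneg hr (a1 + b1)))
    rcases Nat.eq_zero_or_pos (a1 + b1) with h0 | h0
    · obtain ⟨rfl, rfl⟩ : a1 = 0 ∧ b1 = 0 := by omega
      have : dTen 0 0 G = fun _ _ => (0 : ℝ) :=
        funext fun p => funext fun q => by simp [dTen, dT, hG0]
      show Calc.Mop _ _
      rw [this]
      exact Calc.mop_zero _
    · have : dTen a1 b1 G = dTen a1 b1 (KF V v c0) := by
        funext p q
        simp only [dTen, hG]
        rw [dT_add a1 q.1 (KF_smooth hV hv c0 _ _) contDiff_const]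
        rcases a1 with _ | a1
        · rcases b1 with _ | b1
          · omega
          · simp only [dT]
            rw [show (fun z => fderiv ℝ (fun z => KF V v c0 p.2 q.2 z + (-1)) z (wB (p.1 0))) =
              fun z => fderiv ℝ (KF V v c0 p.2 q.2) z (wB (p.1 0)) from
                funext fun z => by rw [fderiv_add_const]]
        · simp only [dT_const, add_zero]
      show Calc.Mop _ _
      rw [this]
      exact hle
  have h := DN_tmul_zero r hr a b hA hB sJ sG hG0 hF hGb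
  have hneg : DN a b (fun p q z => -(tmul (JF V v c0) G p q z))
      (2 ^ (a + b) * (A * B) * r ^ (a + b)) := by
    have h2 := Calc.mop_smul (-1) h
    rw [abs_neg, abs_one, one_mul] at h2
    show Calc.Mop _ _
    convert h2 using 1
    funext p q
    simp only [dTen, ← neg_one_mul (tmul (JF V v c0) G p.2 q.2 _)]
    rw [dT_smul a q.1 (-1) (sm2_tmul sJ sG p.2 q.2),
      dT_smul b p.1 (-1) (dT_smooth a q.1 (sm2_tmul sJ sG p.2 q.2))]
  have hH := DN_HF hV hv hv1 c0 a b
  have hsum := DN_add (F := fun (p : Unit × Unit) (q : Fin d × Unit) => HF V v c0 p.1 q.1)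
    (fun p q => HF_smooth hV hv c0 p.1 q.1) (fun p q => (sm2_tmul sJ sG p q).neg)
    (by positivity) (by positivity)
    (DN_reindex (Equiv.prodUnique Unit Unit) (Equiv.prodUnique (Fin d) Unit) hH) hneg
  have e : (fun (p : Unit × Unit) (q : Fin d × Unit) (z : EE d × EE d) =>
      HF V v c0 p.1 q.1 z + -(tmul (JF V v c0) G p q z)) =
      fun p q => JF V v c0 p.1 q.1 := by
    funext p q z
    simp only [tmul, hG]
    rw [show p.1 = () from rfl, HF_eq hV hv c0 q.1 z]
    ring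
  rw [e] at hsum
  have hfin := DN_reindex (Equiv.prodUnique Unit Unit).symm (Equiv.prodUnique (Fin d) Unit).symm hsum
  refine DN.mono hfin (by positivity) ?_
  rw [KJ_eq, hab]
  have hs : Real.sqrt (KG a) * Real.sqrt (KP b) ≤
      ∑ a' ∈ Finset.range (n + 1), Real.sqrt (KG a') * Real.sqrt (KP (n - a')) := by
    have h' := Finset.single_le_sum (f := fun a' => Real.sqrt (KG a') * Real.sqrt (KP (n - a')))
      (fun i _ => by positivity) (Finset.mem_range.2 (show a < n + 1 by omega))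
    rwa [show n - a = b by omega] at h'
  have := mul_le_mul_of_nonneg_right hs (pow_nonneg hr (n + 1))
  simp only [A, pow_succ] at this ⊢
  nlinarith

/-- Directions of the sum. -/
lemma dT_JF (hV : Admissible V) (hv : 0 < v) (c0 : EE d) (k : Fin d) {a b : ℕ}
    (α : Fin a → Fin d) (β : Fin (b + 1) → Fin d) :
    dT wB (b + 1) β (dT wA a α (JF V v c0 () k)) 0 =
      dT ev (b + 1) β (dT ev a α fun c => ex V v c fun x => gradient V x k) c0 := by
  have hμ := ex_contDiff hV hv (gr_gk hV k)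
  set μ := fun c => ex V v c fun x => gradient V x k
  set L := ContinuousLinearMap.fst ℝ (EE d) (EE d) + ContinuousLinearMap.snd ℝ (EE d) (EE d)
  set L1 := ContinuousLinearMap.fst ℝ (EE d) (EE d)
  have hs : ContDiff ℝ ∞ fun z => μ (c0 + L z) := hμ.comp (contDiff_const.add L.contDiff)
  have hs1 : ContDiff ℝ ∞ fun z => μ (c0 + L1 z) := hμ.comp (contDiff_const.add L1.contDiff)
  have e : JF V v c0 () k = fun z => μ (c0 + L z) + (-1) * μ (c0 + L1 z) := by
    funext z; simp [JF, μ, L, L1, sub_eq_add_neg]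
  have wa : (fun i => L (wA i)) = (ev : Fin d → EE d) := funext fun i => by simp [L, wA]
  have wa1 : (fun i => L1 (wA i)) = (ev : Fin d → EE d) := funext fun i => by simp [L1, wA]
  have wb : (fun i => L (wB i)) = (ev : Fin d → EE d) := funext fun i => by simp [L, wB]
  have wb1 : (fun i => L1 (wB i)) = fun _ : Fin d => (0 : EE d) :=
    funext fun i => by simp [L1, wB]
  rw [e, dT_add a α hs (contDiff_const.mul hs1), dT_smul a α _ hs1, dT_affine L c0 a α hμ,
    dT_affine L1 c0 a α hμ, wa, wa1]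
  have hν := dT_smooth (w := ev) a α hμ
  set ν := dT ev a α μ
  have hn : ContDiff ℝ ∞ fun z => ν (c0 + L z) := hν.comp (contDiff_const.add L.contDiff)
  have hn1 : ContDiff ℝ ∞ fun z => ν (c0 + L1 z) := hν.comp (contDiff_const.add L1.contDiff)
  rw [dT_add (b + 1) β hn (contDiff_const.mul hn1), dT_smul (b + 1) β _ hn1,
    dT_affine L c0 (b + 1) β hν, dT_affine L1 c0 (b + 1) β hν, wb, wb1]
  have hz : dT (fun _ : Fin d => (0 : EE d)) (b + 1) β ν = fun _ => 0 := by
    rcases b with _ | b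
    · simp [dT]
    · have := dT_const (w := fun _ : Fin d => (0 : EE d)) b (Fin.tail β) 0
      simp only [dT, map_zero] at this ⊢
      exact this
  simp [hz, L]

/-- Lists and tuples: derivatives listed with the innermost last. -/
lemma pd_eq_dT (hV : Admissible V) (hv : 0 < v) : ∀ (a : ℕ) (f : Fin a → Fin d) (l : List (Fin d))
    (k : Fin d), Calc.pd (Dv V) (List.ofFn f ++ (l ++ [k])) v =
      dT ev a (fun i => f i.rev) (Calc.pd (Dv V) (l ++ [k]) v)
  | 0, f, l, k => by simp [dT]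
  | a + 1, f, l, k => by
    have h := pd_eq_dT hV hv a (fun i => f i.castSucc) (f (Fin.last a) :: l) k
    rw [List.ofFn_succ_last, List.append_assoc, List.singleton_append, ← List.cons_append, h]
    simp only [dT]
    congr 1
    · funext i
      simp [Fin.tail, Fin.rev_succ]
    · funext y
      rcases l with _ | ⟨m, l⟩ <;> simp [Calc.pd]

lemma pd_single_smooth (hV : Admissible V) (hv : 0 < v) (k : Fin d) :
    ContDiff ℝ ∞ (Calc.pd (Dv V) [k] v) :=
  (contDiff_euclidean.1 (Dv_contDiff hV hv) k)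

/-- The drift tensor in natural coordinates. -/
lemma pd_scale (hV : Admissible V) (hv : 0 < v) {a b : ℕ} (f : Fin a → Fin d) (g : Fin b → Fin d)
    (k : Fin d) (y : EE d) :
    Calc.pd (Dv V) (List.ofFn f ++ (List.ofFn g ++ [k])) v y =
      v⁻¹ ^ (a + b) * dT ev a (fun i => f i.rev)
        (dT ev b (fun i => g i.rev) fun c => ex V v c fun x => gradient V x k) (v⁻¹ • y) := by
  set μ := fun c => ex V v c fun x => gradient V x k
  have hμ := ex_contDiff hV hv (gr_gk hV k)
  set L := v⁻¹ • ContinuousLinearMap.id ℝ (EE d) with hL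
  have hscale : ∀ (n : ℕ) (ι : Fin n → Fin d) {F : EE d → ℝ}, ContDiff ℝ ∞ F →
      dT (fun i => L (ev i)) n ι F = fun z => v⁻¹ ^ n * dT ev n ι F z := by
    intro n
    induction n with
    | zero => intro ι F _; simp [dT]
    | succ n ih =>
      intro ι F hF
      simp only [dT]
      rw [show (fun z => fderiv ℝ F z (L (ev (ι 0)))) = fun z => v⁻¹ * fderiv ℝ F z (ev (ι 0)) from
        funext fun z => by simp [hL],
        dT_smul n _ _ (smooth_deriv hF _), ih _ (smooth_deriv hF _)]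
      funext z
      ring
  rw [pd_eq_dT hV hv a f (List.ofFn g) k]
  have h0 := pd_eq_dT hV hv b g [] k
  rw [List.nil_append] at h0
  rw [h0, show Calc.pd (Dv V) [k] v = fun y => μ (0 + L y) from funext fun y => by
    show Dv V v y k = _
    rw [Dv_coord hV hv]
    simp [μ, hL]]
  rw [dT_affine L 0 b _ hμ, hscale b _ hμ]
  have hs := dT_smooth (w := ev) b (fun i => g i.rev) hμ
  rw [dT_affine L 0 a _ (contDiff_const.mul hs), hscale a _ (contDiff_const.mul hs),
    dT_smul a _ _ hs]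
  simp [hL, pow_add]
  ring

/-- B1. -/
theorem bip : ∀ n : ℕ, ∃ K : ℝ, 0 ≤ K ∧ BipBound n K := by
  intro n
  refine ⟨KJ (n + 1), KJ_nonneg _, fun d V v hV hv hv1 y a b ha hb hab => ?_⟩
  obtain ⟨a, rfl⟩ : ∃ a', a = a' + 1 := ⟨a - 1, by omega⟩
  obtain ⟨b, rfl⟩ : ∃ b', b = b' + 1 := ⟨b - 1, by omega⟩
  have h : Calc.Mop (dTen b (a + 1) (JF V v (v⁻¹ • y))) _ :=
    DN_JF hV hv hv1 (v⁻¹ • y) (n + 1) b (a + 1) (by omega)
  have h2 := Calc.mop_smul (v⁻¹ ^ (n + 1))
    (Calc.mop_reindex (α' := Fin (a + 1) → Fin d) (β' := Fin (b + 1) → Fin d)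
      ((Equiv.arrowCongr Fin.revPerm (Equiv.refl (Fin d))).trans
        (Equiv.prodUnique (Fin (a + 1) → Fin d) Unit).symm)
      ((Fin.snocEquiv fun _ : Fin (b + 1) => Fin d).symm.trans
        ((Equiv.prodComm _ _).trans
          ((Equiv.arrowCongr Fin.revPerm (Equiv.refl (Fin d))).prodCongr (Equiv.refl (Fin d))))) h)
  have hr : 0 < Real.sqrt v := Real.sqrt_pos.2 hv
  have e : |v⁻¹ ^ (n + 1)| * (KJ (n + 1) * Real.sqrt v * Real.sqrt v ^ (n + 1)) =
      KJ (n + 1) / Real.sqrt v ^ n := by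
    rw [abs_of_nonneg (by positivity), inv_pow,
      show v ^ (n + 1) = (Real.sqrt v ^ (n + 1)) ^ 2 by
        rw [← pow_mul, mul_comm, pow_mul, Real.sq_sqrt hv.le]]
    field_simp
    ring
  rw [e] at h2
  convert h2 using 1
  funext f g
  have hg : List.ofFn g = List.ofFn (fun i => g i.castSucc) ++ [g (Fin.last b)] :=
    List.ofFn_succ_last
  rw [hg, pd_scale hV hv f (fun i => g i.castSucc) (g (Fin.last b)) y]
  rw [show v⁻¹ ^ (a + 1 + b) = v⁻¹ ^ (n + 1) by congr 1; omega]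
  congr 1
  exact (dT_JF hV hv (v⁻¹ • y) (g (Fin.last b)) (fun i => g i.rev.castSucc)
    (fun i => f i.rev)).symm

end Vale.Agent.P347.Zero
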