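import Vale.Agent.P347.Zero.PostPoincare

/-!
The smoothed drift: smoothness, and the bounds of its derivative (the smoothed Hessian).
-/

open MeasureTheory ProbabilityTheory
open scoped RealInnerProductSpace ContDiff

namespace Vale.Agent.P347.Zero

variable {d : ℕ} {V : EE d → ℝ} {v : ℝ}

section

variable (hV : Admissible V) (hv : 0 < v)

include hV

lemma gr_grad : Gr (gradient V) := by
  have hg := gradClass_gradient hV
  refine gr_of_le hg.smooth.continuous ((gr_id (d := d)).norm.const_mul 2) fun x => ?_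
  exact inv_grad_le hg x

lemma gr_grad_inner (w : EE d) : Gr fun x => ⟪gradient V x, w⟫ :=
  gr_of_le ((gradClass_gradient hV).smooth.continuous.inner continuous_const)
    ((gr_grad hV).norm.mul (gr_const ‖w‖)) fun x => norm_inner_le_norm _ _

omit hV in
lemma gr_inner (w : EE d) : Gr fun x : EE d => ⟪x, w⟫ :=
  gr_of_le (by fun_prop) ((gr_id (d := d)).norm.mul (gr_const ‖w‖)) fun x => norm_inner_le_norm x w

lemma gr_hess (u w : EE d) : Gr fun x => ⟪fderiv ℝ (gradient V) x u, w⟫ := by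
  have hg := gradClass_gradient hV
  refine gr_of_le (((hg.smooth.continuous_fderiv one_ne_zero).clm_apply continuous_const).inner
    continuous_const) (gr_const (2 * ‖u‖ * ‖w‖)) fun x => ?_
  exact (norm_inner_le_norm _ _).trans (mul_le_mul_of_nonneg_right
    ((ContinuousLinearMap.le_opNorm _ _).trans
      (mul_le_mul_of_nonneg_right (inv_H_le hg x) (norm_nonneg u))) (norm_nonneg w))

lemma grad_inner_contDiff (w : EE d) : ContDiff ℝ 1 fun x => ⟪gradient V x, w⟫ :=
  (gradClass_gradient hV).smooth.inner ℝ contDiff_const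

lemma grad_inner_fderiv (w x u : EE d) :
    fderiv ℝ (fun x => ⟪gradient V x, w⟫) x u = ⟪fderiv ℝ (gradient V) x u, w⟫ := by
  have h := ((gradClass_gradient hV).smooth.differentiable one_ne_zero x)
  rw [fderiv_inner_apply ℝ h (differentiableAt_const w)]
  simp

include hv

lemma Dv_inner (y w : EE d) :
    ⟪Dv V v y, w⟫ = ex V v (v⁻¹ • y) (fun x => ⟪gradient V x, w⟫) := by
  rw [Dv, if_neg (not_le.2 hv), pE_eq_ex]
  simp only [ex, real_inner_smul_left, smul_eq_mul]
  congr 1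
  rw [real_inner_comm, lap, ← integral_inner (tilt_integrable hV hv (gr_grad hV) _)]
  refine integral_congr_ae (ae_of_all _ fun x => ?_)
  simp only [smul_eq_mul, real_inner_smul_right, real_inner_comm w]

lemma Dv_coord (y : EE d) (i : Fin d) :
    Dv V v y i = ex V v (v⁻¹ • y) (fun x => gradient V x i) := by
  have h := Dv_inner hV hv y (EuclideanSpace.single i (1 : ℝ))
  simp only [EuclideanSpace.inner_single_right, one_mul, conj_trivial] at h
  exact h

/-- The smoothed drift is smooth. -/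
theorem Dv_contDiff : ContDiff ℝ ∞ (Dv V v) := by
  refine contDiff_euclidean.2 fun i => ?_
  simp only [Dv_coord hV hv]
  refine (ex_contDiff hV hv ?_).comp (contDiff_const_smul _)
  exact gr_of_le ((PiLp.continuous_apply 2 _ i).comp (gr_grad hV).cont) (gr_grad hV).norm
    fun x => by simpa using PiLp.norm_apply_le (gradient V x) i

lemma ex_fderiv_apply {φ : EE d → ℝ} (hφ : Gr φ) (c u : EE d) :
    fderiv ℝ (fun c => ex V v c φ) c u =
      ex V v c (fun x => ⟪x, u⟫ * φ x) - ex V v c φ * ex V v c (fun x => ⟪x, u⟫) := by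
  rw [(ex_hasFDerivAt hV hv hφ c).fderiv]
  simp only [sum_apply, smul_apply, PiLp.proj_apply, smul_eq_mul]
  have e1 : ∀ x : EE d, ⟪x, u⟫ = ∑ i, u i * x i := fun x => by
    simp [PiLp.inner_apply]
  simp_rw [e1, Finset.sum_mul]
  rw [ex_sum hV hv _ _ (fun i _ => ((gr_coord i).const_mul (u i)).mul hφ),
    ex_sum hV hv _ _ (fun i _ => (gr_coord i).const_mul (u i)), Finset.mul_sum,
    ← Finset.sum_sub_distrib]
  refine Finset.sum_congr rfl fun i _ => ?_
  rw [show (fun x : EE d => u i * x i * φ x) = fun x => u i • (x i * φ x) from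
      funext fun x => mul_assoc _ _ _, ex_smul,
    show (fun x : EE d => u i * x i) = fun x => u i • x i from rfl, ex_smul]
  simp only [smul_eq_mul]
  ring

/-- The smoothed Hessian as averaged Hessian minus covariance of the gradient. -/
theorem Dv_fderiv_form (y u w : EE d) :
    ⟪fderiv ℝ (Dv V v) y u, w⟫ =
      ex V v (v⁻¹ • y) (fun x => ⟪fderiv ℝ (gradient V) x u, w⟫) -
        (ex V v (v⁻¹ • y) (fun x => ⟪gradient V x, u⟫ * ⟪gradient V x, w⟫) -
          ex V v (v⁻¹ • y) (fun x => ⟪gradient V x, u⟫) *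
            ex V v (v⁻¹ • y) (fun x => ⟪gradient V x, w⟫)) := by
  set c := v⁻¹ • y with hc
  set f : EE d → ℝ := fun x => ⟪gradient V x, w⟫ with hf
  have hd := (Dv_contDiff hV hv).differentiable (by simp) y
  have h1 : ⟪fderiv ℝ (Dv V v) y u, w⟫ = fderiv ℝ (fun y => ⟪Dv V v y, w⟫) y u := by
    rw [fderiv_inner_apply ℝ hd (differentiableAt_const w)]; simp
  have hgf := gr_grad_inner hV w
  have hgu := gr_grad_inner hV u
  have hfd : DifferentiableAt ℝ (fun c => ex V v c f) (v⁻¹ • y) :=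
    (ex_hasFDerivAt hV hv hgf _).differentiableAt
  rw [h1, show (fun y => ⟪Dv V v y, w⟫) = (fun c => ex V v c f) ∘ fun y => v⁻¹ • y from
    funext fun z => Dv_inner hV hv z w,
    fderiv_comp y hfd (differentiableAt_id.const_smul v⁻¹)]
  have hs : fderiv ℝ (fun z : EE d => v⁻¹ • z) y u = v⁻¹ • u := by
    have h : HasFDerivAt (fun z : EE d => v⁻¹ • z) (v⁻¹ • ContinuousLinearMap.id ℝ (EE d)) y :=
      (hasFDerivAt_id y).fun_const_smul v⁻¹
    rw [h.fderiv]; simp
  rw [ContinuousLinearMap.comp_apply, hs, map_smul, ← hc, ex_fderiv_apply hV hv hgf c u]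
  have gx : Gr fun x : EE d => ⟪x, u⟫ := gr_inner u
  have hlin : ∀ x, ⟪gradient V x + v⁻¹ • x - c, u⟫ =
      ⟪gradient V x, u⟫ + v⁻¹ * ⟪x, u⟫ + (-⟪c, u⟫) := fun x => by
    rw [inner_sub_left, inner_add_left, real_inner_smul_left]; ring
  have gsc : Gr fun x : EE d => ⟪gradient V x + v⁻¹ • x - c, u⟫ := by
    simp_rw [hlin]
    exact (hgu.add (gx.const_mul v⁻¹)).add (gr_const _)
  have hfd' : Gr fun x => fderiv ℝ f x u := by
    simp only [hf, grad_inner_fderiv hV]
    exact gr_hess hV u w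
  have i1 := ex_ibp hV hv c u (grad_inner_contDiff hV w) hgf hfd' (hgf.mul gsc)
  have h01 : Gr fun x : EE d => fderiv ℝ (fun _ : EE d => (1 : ℝ)) x u := by
    simpa using gr_const (d := d) (0 : ℝ)
  have i2 := ex_ibp hV hv c u (contDiff_const (c := (1 : ℝ))) (gr_const 1) h01
    (by simpa using gsc)
  simp only [grad_inner_fderiv hV] at i1
  simp only [fderiv_fun_const, Pi.zero_apply, zero_apply, one_mul, ex_const hV hv] at i2
  have e1 : ∀ x, ⟪gradient V x, w⟫ * ⟪gradient V x + v⁻¹ • x - c, u⟫ =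
      ⟪gradient V x, u⟫ * ⟪gradient V x, w⟫ + v⁻¹ * (⟪x, u⟫ * ⟪gradient V x, w⟫) +
        (-⟪c, u⟫) * ⟪gradient V x, w⟫ := fun x => by rw [hlin]; ring
  rw [funext e1, ex_add hV hv ((hgu.mul hgf).add ((gx.mul hgf).const_mul v⁻¹))
    (hgf.const_mul _), ex_add hV hv (hgu.mul hgf) ((gx.mul hgf).const_mul v⁻¹)] at i1
  rw [funext hlin, ex_add hV hv (hgu.add (gx.const_mul v⁻¹)) (gr_const _),
    ex_add hV hv hgu (gx.const_mul v⁻¹), ex_const hV hv] at i2
  simp only [← smul_eq_mul (v⁻¹), ← smul_eq_mul (-⟪c, u⟫), ex_smul] at i1 i2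
  simp only [smul_eq_mul] at i1 i2 ⊢
  simp only [hf]
  linear_combination (-1 : ℝ) * i1 + (ex V v c fun x => ⟪gradient V x, w⟫) * i2

/-- The smoothed Hessian is symmetric. -/
theorem Dv_symm (y u w : EE d) :
    ⟪fderiv ℝ (Dv V v) y u, w⟫ = ⟪u, fderiv ℝ (Dv V v) y w⟫ := by
  rw [real_inner_comm _ u, Dv_fderiv_form hV hv, Dv_fderiv_form hV hv, mul_comm (ex V v _ _)]
  congr 1
  · refine congrArg _ (funext fun x => ?_)
    rw [(gradClass_gradient hV).symm x u w, real_inner_comm]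
  · congr 2
    funext x
    ring

/-- The smoothed Hessian lies between 1 - 5v and 2. -/
theorem Dv_bounds (hv1 : v ≤ 1 / 16) (y w : EE d) :
    (1 - 5 * v) * ‖w‖ ^ 2 ≤ ⟪fderiv ℝ (Dv V v) y w, w⟫ ∧
      ⟪fderiv ℝ (Dv V v) y w, w⟫ ≤ 2 * ‖w‖ ^ 2 := by
  have hg := gradClass_gradient hV
  rw [Dv_fderiv_form hV hv]
  set c := v⁻¹ • y
  have hH := gr_hess hV w w
  have a1 : ‖w‖ ^ 2 ≤ ex V v c (fun x => ⟪fderiv ℝ (gradient V) x w, w⟫) := by
    have := ex_mono hV hv (gr_const (‖w‖ ^ 2)) hH (fun x => hg.lower x w) c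
    rwa [ex_const hV hv] at this
  have a2 : ex V v c (fun x => ⟪fderiv ℝ (gradient V) x w, w⟫) ≤ 2 * ‖w‖ ^ 2 := by
    have := ex_mono hV hv hH (gr_const (2 * ‖w‖ ^ 2)) (fun x => hg.upper x w) c
    rwa [ex_const hV hv] at this
  set f : EE d → ℝ := fun x => ⟪gradient V x, w⟫ with hf
  have hgf := gr_grad_inner hV w
  have hfn : ∀ x, ‖fderiv ℝ f x‖ ≤ 2 * ‖w‖ := fun x => by
    refine ContinuousLinearMap.opNorm_le_bound _ (by positivity) fun u => ?_
    rw [hf, grad_inner_fderiv hV]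
    refine (norm_inner_le_norm _ _).trans ?_
    calc ‖fderiv ℝ (gradient V) x u‖ * ‖w‖ ≤ (2 * ‖u‖) * ‖w‖ :=
          mul_le_mul_of_nonneg_right ((ContinuousLinearMap.le_opNorm _ _).trans
            (mul_le_mul_of_nonneg_right (inv_H_le hg x) (norm_nonneg u))) (norm_nonneg w)
      _ = _ := by ring
  have hdg : Gr fun x => fderiv ℝ f x :=
    gr_of_le ((grad_inner_contDiff hV w).continuous_fderiv one_ne_zero)
      (gr_const (2 * ‖w‖)) hfn
  have hp := poincare hV hv hv1 (grad_inner_contDiff hV w) hgf hdg c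
  have a4 : ex V v c (fun x => ‖fderiv ℝ f x‖ ^ 2) ≤ 4 * ‖w‖ ^ 2 := by
    have := ex_mono hV hv hdg.norm.sq (gr_const (4 * ‖w‖ ^ 2)) (fun x => by
      nlinarith [hfn x, norm_nonneg (fderiv ℝ f x), norm_nonneg w]) c
    rwa [ex_const hV hv] at this
  have a3 : 0 ≤ ex V v c (fun x => f x ^ 2) - ex V v c f ^ 2 := by
    have h0 := ex_nonneg hV hv (φ := fun x => (f x + (-ex V v c f)) ^ 2) (fun x => sq_nonneg _) c
    have e : (fun x => (f x + (-ex V v c f)) ^ 2) =
        fun x => f x ^ 2 + (-2 * ex V v c f) * f x + ex V v c f ^ 2 := funext fun x => by ring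
    rw [e, ex_add hV hv (hgf.sq.add (hgf.const_mul _)) (gr_const _),
      ex_add hV hv hgf.sq (hgf.const_mul _), ex_const hV hv] at h0
    simp only [← smul_eq_mul (-2 * ex V v c f), ex_smul] at h0
    simp only [smul_eq_mul] at h0
    nlinarith
  have e2 : (fun x => ⟪gradient V x, w⟫ * ⟪gradient V x, w⟫) = fun x => f x ^ 2 :=
    funext fun x => (pow_two _).symm
  rw [e2, ← pow_two]
  constructor
  · nlinarith [mul_le_mul_of_nonneg_left a4 hv.le]
  · nlinarith

/-- Norm of the smoothed Hessian. -/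
theorem Dv_norm (hv1 : v ≤ 1 / 16) (y : EE d) : ‖fderiv ℝ (Dv V v) y‖ ≤ 2 :=
  Chain.norm_le_of_form zero_le_two (Dv_symm hV hv y)
    (fun w => le_trans (mul_nonneg (by linarith) (sq_nonneg _)) (Dv_bounds hV hv hv1 y w).1)
    (fun w => (Dv_bounds hV hv hv1 y w).2)

/-- The derivative of a component in a coordinate direction. -/
lemma pd_two (y : EE d) (i k : Fin d) :
    Calc.pd (Dv V) [i, k] v y = ⟪fderiv ℝ (Dv V v) y (Calc.ev i), Calc.ev k⟫ := by
  have hd := (Dv_contDiff hV hv).differentiable (by simp) y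
  rw [show Calc.pd (Dv V) [i, k] v y = fderiv ℝ (fun x => Dv V v x k) y (Calc.ev i) from rfl,
    show (fun x => Dv V v x k) = fun x => ⟪Dv V v x, Calc.ev k⟫ from
      funext fun x => by simp [Calc.ev, EuclideanSpace.inner_single_right],
    fderiv_inner_apply ℝ hd (differentiableAt_const _)]
  simp

/-- Symmetry in the form used by the calculus. -/
theorem Dv_pd_symm (y : EE d) (i k : Fin d) :
    Calc.pd (Dv V) [i, k] v y = Calc.pd (Dv V) [k, i] v y := by
  rw [pd_two hV hv, pd_two hV hv, Dv_symm hV hv, real_inner_comm]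

end

end Vale.Agent.P347.Zero
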