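import Vale.Agent.P347.Zero.Defs

/-!
Derivative of the drift along a curve in the flow variables, and the identity carried by the
rotated flow.
-/

open MeasureTheory Set
open scoped RealInnerProductSpace

namespace Vale.Agent.P347.Zero

variable {d : ℕ} {V : EE d → ℝ}

/-- The heat equation of the drift. -/
def HeatEq (V : EE d → ℝ) : Prop :=
  ∀ v : ℝ, 0 < v → ∀ x, HasDerivAt (fun t => Dv V t x)
    ((1 / 2 : ℝ) • lapD V v x - hess2 V v x (Dv V v x)) v

variable (hs : ContDiffOn ℝ (⊤ : ℕ∞) (fun p : ℝ × EE d => Dv V p.1 p.2) (Ioi 0 ×ˢ univ))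
  (hh : HeatEq V) {s : ℝ} {y : EE d}
include hs hh

lemma dv_curve {v : ℝ → ℝ} {x : ℝ → EE d} {v' : ℝ} {x' : EE d} {I : Set ℝ} {r : ℝ}
    (hv : HasDerivWithinAt v v' I r) (hx : HasDerivWithinAt x x' I r) (hpos : 0 < v r) :
    HasDerivWithinAt (fun t => Dv V (v t) (x t))
      (v' • ((1 / 2 : ℝ) • lapD V (v r) (x r) - hess2 V (v r) (x r) (Dv V (v r) (x r))) +
        hess2 V (v r) (x r) x') I r := by
  set F := fun p : ℝ × EE d => Dv V p.1 p.2 with hF
  have hd : DifferentiableAt ℝ F (v r, x r) :=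
    (hs.contDiffAt ((isOpen_Ioi.prod isOpen_univ).mem_nhds
      (show (v r, x r) ∈ Ioi (0 : ℝ) ×ˢ (univ : Set (EE d)) from ⟨hpos, trivial⟩))).differentiableAt
      (by simp)
  have h1 : fderiv ℝ F (v r, x r) (1, 0) =
      (1 / 2 : ℝ) • lapD V (v r) (x r) - hess2 V (v r) (x r) (Dv V (v r) (x r)) := by
    have := hd.hasFDerivAt.comp_hasDerivAt (v r)
      ((hasDerivAt_id (v r)).prodMk (hasDerivAt_const (v r) (x r)))
    exact this.unique (hh _ hpos _)
  have h2 : ∀ b, fderiv ℝ F (v r, x r) (0, b) = hess2 V (v r) (x r) b := fun b => by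
    have := hd.hasFDerivAt.comp (x r)
      ((hasFDerivAt_const (v r) (x r)).prodMk (hasFDerivAt_id (x r)))
    rw [hess2, show fderiv ℝ (Dv V (v r)) (x r) = _ from this.fderiv]
    simp
  have := hd.hasFDerivAt.comp_hasDerivWithinAt (x := r) (hv.prodMk hx)
  refine this.congr_deriv ?_
  have e : ((v', x') : ℝ × EE d) = v' • (1, 0) + (0, x') := by simp
  rw [e, map_add, map_smul, h1, h2]

lemma hVal_curve {ξ : ℝ → EE d} {ξ' : EE d} {I : Set ℝ} {r : ℝ}
    (hξ : HasDerivWithinAt ξ ξ' I r) (hpos : 0 < s - r ^ 2) :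
    HasDerivWithinAt (fun t => hVal V s y t (ξ t))
      (-(r • lapD V (s - r ^ 2) (y + r • ξ r)) +
        hess2 V (s - r ^ 2) (y + r • ξ r)
          (ξ r + r • ξ' + (2 * r) • Dv V (s - r ^ 2) (y + r • ξ r))) I r := by
  have hv : HasDerivWithinAt (fun t : ℝ => s - t ^ 2) (-(2 * r)) I r :=
    (((hasDerivAt_pow 2 r).const_sub s).congr_deriv (by norm_num)).hasDerivWithinAt
  have hx : HasDerivWithinAt (fun t : ℝ => y + t • ξ t) (ξ r + r • ξ') I r :=
    (((hasDerivWithinAt_id r I).smul hξ).const_add y).congr_deriv (by simp [add_comm])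
  refine (dv_curve hs hh hv hx hpos).congr_deriv ?_
  simp only [map_add, map_smul, neg_smul, smul_sub, smul_smul]
  rw [show (-(2 * r) * (1 / 2) : ℝ) = -r by ring, neg_smul]
  abel

/-- At time 0 the derivative is the Hessian applied to the velocity variable. -/
lemma hVal_curve_zero {ξ : ℝ → EE d} {ξ' : EE d} {I : Set ℝ}
    (hξ : HasDerivWithinAt ξ ξ' I 0) (hpos : 0 < s) :
    HasDerivWithinAt (fun t => hVal V s y t (ξ t)) (hess2 V s y (ξ 0)) I 0 := by
  have := hVal_curve hs hh (y := y) (s := s) hξ (by simpa using hpos)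
  simpa using this

/-- Along the rotated flow σ η + D changes only through the squared Hessian. -/
lemma rot_identity {σ : ℝ} (hσ : σ ≠ 0) {z : ℝ → EE d × EE d} {I : Set ℝ} {r : ℝ}
    (hz : HasDerivWithinAt z (rotField V s y σ r (z r)) I r) (hpos : 0 < s - r ^ 2) :
    HasDerivWithinAt (fun t => σ • (z t).2 + hVal V s y t (z t).1)
      ((σ⁻¹ * r) • ppEta V s y r (z r)) I r := by
  have h1 : HasDerivWithinAt (fun t => (z t).1) (rotField V s y σ r (z r)).1 I r :=
    (ContinuousLinearMap.fst ℝ (EE d) (EE d)).hasFDerivAt.comp_hasDerivWithinAt (x := r) hz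
  have h2 : HasDerivWithinAt (fun t => (z t).2) (rotField V s y σ r (z r)).2 I r :=
    (ContinuousLinearMap.snd ℝ (EE d) (EE d)).hasFDerivAt.comp_hasDerivWithinAt (x := r) hz
  refine ((h2.const_smul σ).add (hVal_curve hs hh h1 hpos)).congr_deriv ?_
  simp only [rotField, fwdField, ppEta, pEta, map_add, map_smul, map_neg, smul_smul,
    mul_inv_cancel₀ hσ, one_smul, smul_add, smul_neg]
  rw [mul_comm σ⁻¹ r, two_mul, add_smul]
  abel

end Vale.Agent.P347.Zero
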