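import Vale.Agent.P347.Zero.Heat

/-!
Crude bounds on the posterior spread and on the smoothed drift.
-/

open MeasureTheory ProbabilityTheory Filter
open scoped RealInnerProductSpace Topology

namespace Vale.Agent.P347.Zero

variable {d : ℕ} {V : EE d → ℝ}

lemma gradClass_shift {g : EE d → EE d} (hg : GradClass g) (p : EE d) :
    GradClass fun z => g (z + p) - g p := by
  have e : ∀ x, fderiv ℝ (fun z => g (z + p) - g p) x = fderiv ℝ g (x + p) := fun x => by
    rw [fderiv_sub_const, fderiv_comp_add_right]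
  refine ⟨(hg.smooth.comp (contDiff_id.add contDiff_const)).sub contDiff_const, by simp,
    fun x u v => ?_, fun x v => ?_, fun x v => ?_⟩
  all_goals rw [e]
  · exact hg.symm _ u v
  · exact hg.lower _ v
  · exact hg.upper _ v

lemma inner_gradient_ge (hV : Admissible V) (x p : EE d) :
    ⟪x - p, gradient V p⟫ ≤ ⟪x - p, gradient V x⟫ := by
  have h := inv_grad_mono (gradClass_shift (gradClass_gradient hV) p) (x - p)
  simp only [sub_add_cancel] at h
  rw [real_inner_comm, inner_sub_right] at h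
  nlinarith [sq_nonneg ‖x - p‖]

lemma norm_gradient_sub_le (hV : Admissible V) (x p : EE d) :
    ‖gradient V x - gradient V p‖ ≤ 2 * ‖x - p‖ := by
  simpa using inv_grad_le (gradClass_shift (gradClass_gradient hV) p) (x - p)

lemma pw_mul_integrable (hV : Admissible V) {v : ℝ} (hv : 0 ≤ v) (p : EE d) {φ : EE d → ℝ}
    (hc : Continuous φ) (A : ℝ) (hb : ∀ x, |φ x| ≤ A * (1 + ‖x‖ ^ 2)) :
    Integrable fun x => pw V v p x * φ x := by
  refine (hPhi_integrable ((gdecay_wt hV).mul_poly hc A hb) hv p).congr (ae_of_all _ fun x => ?_)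
  simp only [pw_eq]; ring

lemma norm_sub_poly (x p : EE d) : ‖x - p‖ ≤ (1 + ‖p‖) * (1 + ‖x‖ ^ 2) := by
  have h := norm_sub_le x p
  nlinarith [sq_nonneg (‖x‖ - 1), norm_nonneg p, mul_nonneg (norm_nonneg p) (sq_nonneg ‖x‖)]

lemma norm_sub_sq_poly (x p : EE d) : ‖x - p‖ ^ 2 ≤ (2 + 2 * ‖p‖ ^ 2) * (1 + ‖x‖ ^ 2) := by
  have h := pow_le_pow_left₀ (norm_nonneg _) (norm_sub_le x p) 2
  nlinarith [sq_nonneg (‖x‖ - ‖p‖), mul_nonneg (sq_nonneg ‖p‖) (sq_nonneg ‖x‖)]

lemma pw_r_integrable (hV : Admissible V) {v : ℝ} (hv : 0 ≤ v) (p : EE d) :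
    Integrable fun x => pw V v p x * ‖x - p‖ :=
  pw_mul_integrable hV hv p (by fun_prop) (1 + ‖p‖) fun x => by
    rw [abs_of_nonneg (norm_nonneg _)]; exact norm_sub_poly x p

lemma pw_r2_integrable (hV : Admissible V) {v : ℝ} (hv : 0 ≤ v) (p : EE d) :
    Integrable fun x => pw V v p x * ‖x - p‖ ^ 2 :=
  pw_mul_integrable hV hv p (by fun_prop) (2 + 2 * ‖p‖ ^ 2) fun x => by
    rw [abs_of_nonneg (sq_nonneg _)]; exact norm_sub_sq_poly x p

lemma pw_integrable (hV : Admissible V) {v : ℝ} (hv : 0 ≤ v) (p : EE d) :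
    Integrable fun x => pw V v p x := by
  simpa [pw_eq] using hPhi_integrable (gdecay_wt hV) hv p

/-- Integration by parts against x - p, summed over coordinates. -/
lemma pw_spread_eq (hV : Admissible V) {v : ℝ} (hv : 0 < v) (p : EE d) :
    ∫ x, pw V v p x * ⟪x - p, gradient V x⟫ =
      (d : ℝ) * pZ V v p - v⁻¹ * ∫ x, pw V v p x * ‖x - p‖ ^ 2 := by
  have hg := gradClass_gradient hV
  set C := (1 + ‖p‖) + 1 + (2 + 2 * ‖p‖ ^ 2) / v with hC
  have hq : 0 ≤ (2 + 2 * ‖p‖ ^ 2) / v := by positivity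
  have hcoord : ∀ (x : EE d) (k : Fin d), |x k - p k| ≤ ‖x - p‖ := fun x k => by
    simpa using PiLp.norm_apply_le (x - p) k
  have hK0 : ∀ x, 0 < hK v p x := fun x => Real.exp_pos _
  have hibp : ∀ k : Fin d,
      ∫ x, pw V v p x * (1 - v⁻¹ * (x k - p k) ^ 2) =
        ∫ x, pw V v p x * ((x k - p k) * gradient V x k) := by
    intro k
    set e : EE d := EuclideanSpace.single k (1 : ℝ) with he
    set f' : EE d → EE d := fun x => hK v p x • e - ((x k - p k) * hK v p x / v) • (x - p) with hf'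
    have hgrad : ∀ x, HasGradientAt (fun x => (x k - p k) * hK v p x) (f' x) x := by
      intro x
      rw [hasGradientAt_iff_hasFDerivAt]
      have h1 : HasFDerivAt (hK v p) _ x :=
        ((((hasFDerivAt_id x).sub_const p).norm_sq).mul_const ((2 * v)⁻¹)).neg.exp
      have h2 : HasFDerivAt (fun x : EE d => x k - p k) (EuclideanSpace.proj (𝕜 := ℝ) k) x :=
        (EuclideanSpace.proj (𝕜 := ℝ) k).hasFDerivAt.sub_const (p k)
      refine (h2.fun_mul h1).congr_fderiv ?_
      ext w
      simp [hf', he, hK, div_eq_mul_inv, InnerProductSpace.toDual_apply_apply,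
        EuclideanSpace.inner_single_left]
      ring
    have hc : Continuous f' := by
      have := hK_continuous v p
      rw [hf']; fun_prop
    have h1 : ∀ x, |(x k - p k) * hK v p x| ≤ C * (1 + ‖x‖ ^ 2) := fun x => by
      rw [abs_mul, abs_of_pos (hK0 x)]
      refine (mul_le_of_le_one_right (abs_nonneg _) (hK_le hv.le p x)).trans ?_
      refine ((hcoord x k).trans (norm_sub_poly x p)).trans ?_
      exact mul_le_mul_of_nonneg_right (by linarith) (by positivity)
    have h2 : ∀ x, ‖f' x‖ ≤ C * (1 + ‖x‖ ^ 2) := fun x => by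
      refine (norm_sub_le _ _).trans ?_
      simp only [norm_smul, he, PiLp.norm_single, norm_one, mul_one, Real.norm_eq_abs, abs_div,
        abs_mul, abs_of_pos (hK0 x), abs_of_pos hv]
      have a1 : |x k - p k| * hK v p x / v * ‖x - p‖ ≤ ‖x - p‖ ^ 2 / v := by
        rw [div_mul_eq_mul_div]
        refine div_le_div_of_nonneg_right ?_ hv.le
        rw [sq]
        exact mul_le_mul_of_nonneg_right ((mul_le_of_le_one_right (abs_nonneg _)
          (hK_le hv.le p x)).trans (hcoord x k)) (norm_nonneg _)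
      have a2 := div_le_div_of_nonneg_right (norm_sub_sq_poly x p) hv.le
      rw [mul_div_right_comm] at a2
      have a4 : 0 ≤ (1 + ‖p‖) * (1 + ‖x‖ ^ 2) := by positivity
      nlinarith [hK_le hv.le p x, sq_nonneg ‖x‖]
    have key := inv_ibp hV e _ f' hgrad hc C 2 h1 h2
    calc ∫ x, pw V v p x * (1 - v⁻¹ * (x k - p k) ^ 2)
        = ∫ x, inv_wt V x * ⟪f' x, e⟫ := integral_congr_ae (ae_of_all _ fun x => by
          simp [hf', he, pw_eq, EuclideanSpace.inner_single_right, div_eq_mul_inv]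
          ring)
      _ = _ := key
      _ = _ := integral_congr_ae (ae_of_all _ fun x => by
          simp only [he, pw_eq, EuclideanSpace.inner_single_right, conj_trivial]
          ring)
  have i0 := pw_integrable hV hv.le p
  have i1 : ∀ k : Fin d, Integrable fun x => pw V v p x * (x k - p k) ^ 2 := fun k =>
    pw_mul_integrable hV hv.le p (by fun_prop) (2 + 2 * ‖p‖ ^ 2) fun x => by
      rw [abs_of_nonneg (sq_nonneg _)]
      refine le_trans ?_ (norm_sub_sq_poly x p)
      simpa using pow_le_pow_left₀ (abs_nonneg _) (hcoord x k) 2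
  have i2 : ∀ k : Fin d, Integrable fun x => pw V v p x * ((x k - p k) * gradient V x k) :=
    fun k => by
      have := (EuclideanSpace.proj (𝕜 := ℝ) k).continuous.comp hg.smooth.continuous
      refine pw_mul_integrable hV hv.le p (Continuous.mul (by fun_prop) this) (2 * (2 + ‖p‖))
        fun x => ?_
      rw [abs_mul]
      have a : |gradient V x k| ≤ 2 * ‖x‖ :=
        le_trans (by simpa using PiLp.norm_apply_le (gradient V x) k) (inv_grad_le hg x)
      refine (mul_le_mul ((hcoord x k).trans (norm_sub_le x p)) a (abs_nonneg _)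
        (by positivity)).trans ?_
      nlinarith [sq_nonneg (‖x‖ - 1), norm_nonneg p, sq_nonneg ‖x‖,
        mul_nonneg (norm_nonneg p) (sq_nonneg ‖x‖), mul_nonneg (norm_nonneg p) (sq_nonneg (‖x‖ - 1))]
  calc ∫ x, pw V v p x * ⟪x - p, gradient V x⟫
      = ∫ x, ∑ k, pw V v p x * ((x k - p k) * gradient V x k) :=
        integral_congr_ae (ae_of_all _ fun x => by
          simp only []
          rw [PiLp.inner_apply, Finset.mul_sum]
          refine Finset.sum_congr rfl fun k _ => ?_
          simp only [PiLp.sub_apply, RCLike.inner_apply, conj_trivial]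
          ring)
    _ = ∑ k, ∫ x, pw V v p x * ((x k - p k) * gradient V x k) :=
        integral_finsetSum _ fun k _ => i2 k
    _ = ∑ k : Fin d, (pZ V v p - v⁻¹ * ∫ x, pw V v p x * (x k - p k) ^ 2) := by
        refine Finset.sum_congr rfl fun k _ => ?_
        rw [← hibp k, pZ, ← integral_const_mul, ← integral_sub i0 ((i1 k).const_mul _)]
        exact integral_congr_ae (ae_of_all _ fun x => by ring)
    _ = _ := by
        rw [Finset.sum_sub_distrib, Finset.sum_const, Finset.card_univ, Fintype.card_fin,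
          nsmul_eq_mul, ← Finset.mul_sum, ← integral_finsetSum _ fun k _ => i1 k]
        congr 2
        exact integral_congr_ae (ae_of_all _ fun x => by
          simp [EuclideanSpace.real_norm_sq_eq, Finset.mul_sum])

lemma pZ_pos (hV : Admissible V) {v : ℝ} (hv : 0 < v) (p : EE d) : 0 < pZ V v p := by
  rw [pZ_eq_hPhi]; exact hPhi_wt_pos hV hv

/-- Second moment of the posterior around its centre. -/
lemma pw_r2_le (hV : Admissible V) {v : ℝ} (hv : 0 < v) (p : EE d) :
    ∫ x, pw V v p x * ‖x - p‖ ^ 2 ≤ (2 * v * d + 4 * v ^ 2 * ‖p‖ ^ 2) * pZ V v p := by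
  set M := ∫ x, pw V v p x * ‖x - p‖ ^ 2 with hM
  have h1 : -(v⁻¹ / 2 * M + 2 * v * ‖p‖ ^ 2 * pZ V v p) ≤
      ∫ x, pw V v p x * ⟪x - p, gradient V x⟫ := by
    rw [hM, pZ, ← integral_const_mul, ← integral_const_mul,
      ← integral_add ((pw_r2_integrable hV hv.le p).const_mul _)
        ((pw_integrable hV hv.le p).const_mul _), ← integral_neg]
    refine integral_mono (((pw_r2_integrable hV hv.le p).const_mul _).add
      ((pw_integrable hV hv.le p).const_mul _)).neg ?_ fun x => ?_
    · refine pw_mul_integrable hV hv.le p ?_ (2 * (2 + ‖p‖)) fun x => ?_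
      · have := (gradClass_gradient hV).smooth.continuous
        fun_prop
      · refine (abs_real_inner_le_norm _ _).trans ((mul_le_mul (norm_sub_le x p)
          (inv_grad_le (gradClass_gradient hV) x) (norm_nonneg _) (by positivity)).trans ?_)
        nlinarith [sq_nonneg (‖x‖ - 1), norm_nonneg p, sq_nonneg ‖x‖,
          mul_nonneg (norm_nonneg p) (sq_nonneg ‖x‖),
          mul_nonneg (norm_nonneg p) (sq_nonneg (‖x‖ - 1))]
    · have h := inner_gradient_ge hV x p
      have h2 : -(‖x - p‖ * (2 * ‖p‖)) ≤ ⟪x - p, gradient V p⟫ :=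
        le_trans (neg_le_neg (mul_le_mul_of_nonneg_left (inv_grad_le (gradClass_gradient hV) p)
          (norm_nonneg _))) (abs_le.1 (abs_real_inner_le_norm _ _)).1
      have h3 : ‖x - p‖ * (2 * ‖p‖) ≤ v⁻¹ / 2 * ‖x - p‖ ^ 2 + 2 * v * ‖p‖ ^ 2 := by
        have : 0 ≤ v⁻¹ / 2 * (‖x - p‖ - 2 * v * ‖p‖) ^ 2 := by positivity
        have e : v⁻¹ / 2 * (‖x - p‖ - 2 * v * ‖p‖) ^ 2 = v⁻¹ / 2 * ‖x - p‖ ^ 2
            - ‖x - p‖ * (2 * ‖p‖) + 2 * v * ‖p‖ ^ 2 := by field_simp; ring
        linarith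
      have hp : 0 ≤ pw V v p x := (Real.exp_pos _).le
      have := mul_le_mul_of_nonneg_left (le_trans (neg_le_neg h3) (h2.trans h)) hp
      linarith
  rw [pw_spread_eq hV hv p] at h1
  have h2 : v⁻¹ / 2 * M ≤ (d + 2 * v * ‖p‖ ^ 2) * pZ V v p := by linarith
  have h3 := mul_le_mul_of_nonneg_left h2 (by positivity : 0 ≤ 2 * v)
  calc M = 2 * v * (v⁻¹ / 2 * M) := by field_simp
    _ ≤ _ := h3
    _ = _ := by ring

/-- First moment of the posterior around its centre. -/
lemma pw_r_le (hV : Admissible V) {v : ℝ} (hv : 0 < v) (p : EE d) :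
    ∫ x, pw V v p x * ‖x - p‖ ≤ (Real.sqrt (2 * v * d) + 2 * v * ‖p‖) * pZ V v p := by
  set c := Real.sqrt (2 * v * d) + 2 * v * ‖p‖ with hc
  rcases Nat.eq_zero_or_pos d with hd | hd
  · subst hd
    have e : ∀ x : EE 0, ‖x - p‖ = 0 := fun x => by rw [Subsingleton.elim x p]; simp
    have := (pZ_pos hV hv p).le
    simp only [e, mul_zero, integral_zero]
    positivity
  · have hc0 : 0 < c := by positivity
    have hm := pw_r2_le hV hv p
    have hsq : 2 * v * d + 4 * v ^ 2 * ‖p‖ ^ 2 ≤ c ^ 2 := by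
      have h := Real.sq_sqrt (show 0 ≤ 2 * v * d by positivity)
      have : 0 ≤ Real.sqrt (2 * v * d) * (2 * v * ‖p‖) := by positivity
      rw [hc]; nlinarith
    have h1 : 2 * c * ∫ x, pw V v p x * ‖x - p‖ ≤
        (∫ x, pw V v p x * ‖x - p‖ ^ 2) + c ^ 2 * pZ V v p := by
      rw [pZ, ← integral_const_mul, ← integral_const_mul,
        ← integral_add (pw_r2_integrable hV hv.le p) ((pw_integrable hV hv.le p).const_mul _)]
      refine integral_mono ((pw_r_integrable hV hv.le p).const_mul _)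
        ((pw_r2_integrable hV hv.le p).add ((pw_integrable hV hv.le p).const_mul _)) fun x => ?_
      have hp : 0 ≤ pw V v p x := (Real.exp_pos _).le
      nlinarith [mul_nonneg hp (sq_nonneg (‖x - p‖ - c))]
    have := mul_le_mul_of_nonneg_right hsq (pZ_pos hV hv p).le
    refine le_of_mul_le_mul_left ?_ (by linarith : 0 < 2 * c)
    nlinarith

/-- The smoothed drift stays close to the gradient at the centre. -/
theorem norm_Dv_sub_gradient_le (hV : Admissible V) {v : ℝ} (hv : 0 < v) (p : EE d) :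
    ‖Dv V v p - gradient V p‖ ≤ 2 * (Real.sqrt (2 * v * d) + 2 * v * ‖p‖) := by
  have hZ := pZ_pos hV hv p
  have hg := (gradClass_gradient hV).smooth.continuous
  have hc : Continuous (pw V v p) := by
    have := hV.1.continuous
    unfold pw; fun_prop
  have hi : Integrable fun x => pw V v p x • (gradient V x - gradient V p) := by
    refine ((pw_r_integrable hV hv.le p).const_mul 2).mono'
      (hc.smul (hg.sub continuous_const)).aestronglyMeasurable (ae_of_all _ fun x => ?_)
    rw [norm_smul, Real.norm_eq_abs, abs_of_nonneg (show 0 ≤ pw V v p x from (Real.exp_pos _).le)]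
    calc pw V v p x * ‖gradient V x - gradient V p‖ ≤ pw V v p x * (2 * ‖x - p‖) :=
          mul_le_mul_of_nonneg_left (norm_gradient_sub_le hV x p) (Real.exp_pos _).le
      _ = _ := by ring
  have e : Dv V v p - gradient V p =
      (pZ V v p)⁻¹ • ∫ x, pw V v p x • (gradient V x - gradient V p) := by
    have hj : Integrable fun x => pw V v p x • gradient V p :=
      (pw_integrable hV hv.le p).smul_const _
    have hk : Integrable fun x => pw V v p x • gradient V x := by
      refine (hi.add hj).congr (ae_of_all _ fun x => ?_)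
      simp [smul_sub]
    simp only [smul_sub]
    rw [Dv, if_neg (not_le.2 hv), pE, integral_sub hk hj, integral_smul_const, ← pZ, smul_sub,
      smul_smul, inv_mul_cancel₀ hZ.ne', one_smul]
  rw [e, norm_smul, norm_inv, Real.norm_of_nonneg hZ.le, inv_mul_le_iff₀ hZ]
  refine (norm_integral_le_integral_norm _).trans ?_
  calc ∫ x, ‖pw V v p x • (gradient V x - gradient V p)‖
      ≤ ∫ x, 2 * (pw V v p x * ‖x - p‖) := by
        refine integral_mono hi.norm ((pw_r_integrable hV hv.le p).const_mul 2) fun x => ?_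
        rw [norm_smul, Real.norm_eq_abs,
          abs_of_nonneg (show 0 ≤ pw V v p x from (Real.exp_pos _).le)]
        calc pw V v p x * ‖gradient V x - gradient V p‖ ≤ pw V v p x * (2 * ‖x - p‖) :=
              mul_le_mul_of_nonneg_left (norm_gradient_sub_le hV x p) (Real.exp_pos _).le
          _ = _ := by ring
    _ ≤ _ := by
        rw [integral_const_mul]
        nlinarith [pw_r_le hV hv p]

theorem norm_Dv_le (hV : Admissible V) {v : ℝ} (hv : 0 < v) (p : EE d) :
    ‖Dv V v p‖ ≤ 2 * ‖p‖ + 4 * (Real.sqrt (v * d) + v * ‖p‖) := by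
  have h1 := norm_Dv_sub_gradient_le hV hv p
  have h2 := inv_grad_le (gradClass_gradient hV) p
  have h3 := norm_le_norm_sub_add (Dv V v p) (gradient V p)
  have h4 : Real.sqrt (2 * v * d) ≤ 2 * Real.sqrt (v * d) := by
    rw [mul_assoc, Real.sqrt_mul zero_le_two]
    refine mul_le_mul_of_nonneg_right ?_ (Real.sqrt_nonneg _)
    exact Real.sqrt_le_iff.2 ⟨zero_le_two, by norm_num⟩
  linarith

/-- The bottom of the recursion: the gradient at a blurred point is the drift up to √s. -/
theorem bottom_bound (hV : Admissible V) {s : ℝ} (hs : 0 < s) (hs1 : s ≤ 1 / 16) (y : EE d) :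
    ∫ ξ, ‖gradient V (y + Real.sqrt s • ξ) - Dv V s y‖ ^ 2 ∂gam d
      ≤ (8 * (Real.sqrt s * (Real.sqrt d + ‖y‖))) ^ 2 := by
  set c := Real.sqrt (2 * s * d) + 2 * s * ‖y‖ with hc
  have hc0 : 0 ≤ c := by positivity
  have hb : ∀ ξ, ‖gradient V (y + Real.sqrt s • ξ) - Dv V s y‖ ^ 2 ≤
      8 * s * ‖ξ‖ ^ 2 + 8 * c ^ 2 := by
    intro ξ
    have h1 : ‖gradient V (y + Real.sqrt s • ξ) - gradient V y‖ ≤ 2 * (Real.sqrt s * ‖ξ‖) := by
      simpa [norm_smul, abs_of_nonneg (Real.sqrt_nonneg s)] using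
        norm_gradient_sub_le hV (y + Real.sqrt s • ξ) y
    have h2 := norm_Dv_sub_gradient_le hV hs y
    rw [norm_sub_rev] at h2
    have h3 := norm_sub_le_norm_sub_add_norm_sub (gradient V (y + Real.sqrt s • ξ))
      (gradient V y) (Dv V s y)
    have h4 := pow_le_pow_left₀ (norm_nonneg _) (h3.trans (add_le_add h1 h2)) 2
    nlinarith [sq_nonneg (2 * (Real.sqrt s * ‖ξ‖) - 2 * c), Real.sq_sqrt hs.le]
  have hi : Integrable (fun ξ : EE d => 8 * s * ‖ξ‖ ^ 2 + 8 * c ^ 2) (gam d) :=
    ((inv_pow_gam 2).const_mul _).add (integrable_const _)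
  refine (integral_mono_of_nonneg (ae_of_all _ fun ξ => sq_nonneg _) hi (ae_of_all _ hb)).trans ?_
  rw [integral_add ((inv_pow_gam 2).const_mul _) (integrable_const _), integral_const_mul,
    second_moment, finrank_euclideanSpace_fin, integral_const, probReal_univ, one_smul]
  have q1 := Real.sq_sqrt hs.le
  have q2 := Real.sq_sqrt (Nat.cast_nonneg (α := ℝ) d)
  have q3 := Real.sq_sqrt (show 0 ≤ 2 * s * d by positivity)
  have q4 : c ^ 2 ≤ 4 * s * d + 8 * s ^ 2 * ‖y‖ ^ 2 := by
    rw [hc]; nlinarith [sq_nonneg (Real.sqrt (2 * s * d) - 2 * s * ‖y‖)]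
  have q5 : s ^ 2 * ‖y‖ ^ 2 ≤ 1 / 16 * s * ‖y‖ ^ 2 := by
    refine mul_le_mul_of_nonneg_right ?_ (sq_nonneg _)
    nlinarith
  have q6 : (8 * (Real.sqrt s * (Real.sqrt d + ‖y‖))) ^ 2 =
      64 * s * (d + 2 * Real.sqrt d * ‖y‖ + ‖y‖ ^ 2) := by
    calc (8 * (Real.sqrt s * (Real.sqrt d + ‖y‖))) ^ 2 = 64 * Real.sqrt s ^ 2 *
          (Real.sqrt d ^ 2 + 2 * Real.sqrt d * ‖y‖ + ‖y‖ ^ 2) := by ring
      _ = _ := by rw [q1, q2]
  have q7 : 0 ≤ s * (Real.sqrt d * ‖y‖) := by positivity
  have q8 : 0 ≤ s * (d : ℝ) := by positivity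
  have q9 : 0 ≤ s * ‖y‖ ^ 2 := by positivity
  nlinarith

end Vale.Agent.P347.Zero
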