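import Vale.Agent.P347.Zero.Heat
import Vale.Agent.P347.Zero.HeatBounds
import Vale.Agent.P347.Gauss

/-!
The density of the law along the plain scale flow: derivative, decay, and what is used of the
Hessian of the potential.
-/

open MeasureTheory ProbabilityTheory Set Filter
open scoped RealInnerProductSpace Topology ContDiff

namespace Vale.Agent.P347.Zero

variable {d : ℕ} {V : EE d → ℝ}

/-- What the flows use of the second and third derivatives at scales up to s. -/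
structure FlowReg (V : EE d → ℝ) (s : ℝ) : Prop where
  nrm : ∀ u, 0 < u → u ≤ s → ∀ x w : EE d, ‖hess2 V u x w‖ ≤ 2 * ‖w‖
  sym : ∀ u, 0 < u → u ≤ s → ∀ x a b : EE d, ⟪hess2 V u x a, b⟫ = ⟪a, hess2 V u x b⟫
  mono : ∀ u, 0 < u → u ≤ s → ∀ x w : EE d, (1 - 5 * u) * ‖w‖ ^ 2 ≤ ⟪hess2 V u x w, w⟫
  lap : ∃ L : ℝ, ∀ u, s / 4 ≤ u → u ≤ s → ∀ x, ‖lapD V u x‖ ≤ L

/-- Time clamped to [0, R]. -/
noncomputable def clamp (R r : ℝ) : ℝ := max 0 (min r R)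

lemma clamp_mem {R : ℝ} (hR : 0 ≤ R) (r : ℝ) : clamp R r ∈ Icc 0 R :=
  ⟨le_max_left _ _, max_le hR (min_le_right _ _)⟩

lemma clamp_eq {R r : ℝ} (hr : r ∈ Icc 0 R) : clamp R r = r := by
  rw [clamp, min_eq_left hr.2, max_eq_right hr.1]

@[fun_prop]
lemma continuous_clamp (R : ℝ) : Continuous (clamp R) := by unfold clamp; fun_prop

/-- The scales met along a sweep. -/
lemma scale_bounds {s R r : ℝ} (hR : R ^ 2 ≤ 3 * s / 4) (hr : r ∈ Icc 0 R) :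
    s / 4 ≤ s - r ^ 2 ∧ s - r ^ 2 ≤ s := by
  have h1 := pow_le_pow_left₀ hr.1 hr.2 2
  constructor <;> nlinarith [sq_nonneg r]

lemma len_le_one {s R : ℝ} (hs1 : s ≤ 1 / 16) (_hR0 : 0 ≤ R) (hR : R ^ 2 ≤ 3 * s / 4) :
    R ≤ 1 / 4 := by
  nlinarith [sq_nonneg (R - 1 / 4)]

lemma contDiffAt_Dv (hV : Admissible V) {p : ℝ × EE d} (hp : 0 < p.1) :
    ContDiffAt ℝ (⊤ : ℕ∞) (fun p : ℝ × EE d => Dv V p.1 p.2) p :=
  (contDiffOn_Dv hV).contDiffAt ((isOpen_Ioi.prod isOpen_univ).mem_nhds ⟨hp, trivial⟩)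

lemma FlowReg.lip {s : ℝ} (hf : FlowReg V s) (hV : Admissible V) {u : ℝ} (hu : 0 < u)
    (hus : u ≤ s) (x z : EE d) : ‖Dv V u x - Dv V u z‖ ≤ 2 * ‖x - z‖ :=
  convex_univ.norm_image_sub_le_of_norm_fderiv_le (fun w _ => differentiableAt_Dv hV hu w)
    (fun w _ => (hess2 V u w).opNorm_le_bound zero_le_two (hf.nrm u hu hus w))
    (mem_univ z) (mem_univ x)

lemma norm_Dv_le_affine (hV : Admissible V) {u : ℝ} (hu : 0 < u) (hu1 : u ≤ 1 / 16) (x : EE d) :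
    ‖Dv V u x‖ ≤ 3 * ‖x‖ + 4 * Real.sqrt d := by
  have h := norm_Dv_le hV hu x
  have h1 : Real.sqrt (u * d) ≤ Real.sqrt d :=
    Real.sqrt_le_sqrt (mul_le_of_le_one_left (by positivity) (by linarith))
  nlinarith [norm_nonneg x]

/-- The derivative of the potential in scale and point. -/
lemma pot_fderiv (hV : Admissible V) {u : ℝ} (hu : 0 < u) (x : EE d) :
    ∃ L : ℝ × EE d →L[ℝ] ℝ, HasFDerivAt (fun p : ℝ × EE d => pot V p.1 p.2) L (u, x) ∧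
      ∀ (a : ℝ) (w : EE d), L (a, w) =
        a * (1 / 2 * (∑ i, ⟪hess2 V u x (Calc.ev i), Calc.ev i⟫) - ‖Dv V u x‖ ^ 2 / 2)
          + ⟪Dv V u x, w⟫ := by
  have hd : DifferentiableAt ℝ (fun p : ℝ × EE d => pot V p.1 p.2) (u, x) :=
    ((contDiffOn_pot hV).contDiffAt ((isOpen_Ioi.prod isOpen_univ).mem_nhds
      (show (u, x) ∈ Ioi (0 : ℝ) ×ˢ (univ : Set (EE d)) from ⟨hu, trivial⟩))).differentiableAt
      (by simp)
  refine ⟨_, hd.hasFDerivAt, fun a w => ?_⟩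
  set L := fderiv ℝ (fun p : ℝ × EE d => pot V p.1 p.2) (u, x)
  have h1 : HasDerivAt (fun t => pot V t x) (L (1, 0)) u :=
    hd.hasFDerivAt.comp_hasDerivAt (f := fun t => (t, x)) u
      ((hasDerivAt_id u).prodMk (hasDerivAt_const u x))
  have h2 : HasFDerivAt (pot V u) (L.comp (ContinuousLinearMap.inr ℝ ℝ (EE d))) x :=
    hd.hasFDerivAt.comp (f := fun z => (u, z)) x (hasFDerivAt_prodMk_right u x)
  have h3 : L (0, w) = ⟪Dv V u x, w⟫ := by
    have := congrArg (fun A => A w) (h2.unique (hasGradientAt_pot hV hu x).hasFDerivAt)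
    simpa [InnerProductSpace.toDual_apply_apply] using this
  have e : (a, w) = a • ((1 : ℝ), (0 : EE d)) + ((0 : ℝ), w) := by simp
  rw [e, map_add, map_smul, h3, h1.unique (heat_pot_hess hV hu x), smul_eq_mul]

lemma hess_trace_bound {s u : ℝ} (hf : FlowReg V s) (hu : 0 < u) (hus : u ≤ s) (x : EE d) :
    |∑ i, ⟪hess2 V u x (Calc.ev i), Calc.ev i⟫| ≤ 2 * d := by
  refine (Finset.abs_sum_le_sum_abs _ _).trans ((Finset.sum_le_card_nsmul _ _ 2 fun i _ => ?_).trans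
    (by simp [mul_comm]))
  refine (abs_real_inner_le_norm _ _).trans ?_
  have h := hf.nrm u hu hus x (Calc.ev i)
  rw [Calc.ev, PiLp.norm_single, norm_one] at *
  simpa using h

/-- The density of the law at time r of the plain flow. -/
noncomputable def qd (V : EE d → ℝ) (s : ℝ) (y : EE d) (r : ℝ) (ξ : EE d) : ℝ :=
  gdens d ξ * Real.exp (-pot V (s - r ^ 2) (y + r • ξ)) / pdens V s y

lemma post_eq_qd (hV : Admissible V) {s r : ℝ} (hu : 0 < s - r ^ 2) (y : EE d) :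
    post V s y r = volume.withDensity fun ξ => ENNReal.ofReal (qd V s y r ξ) := by
  have hp : ∀ ξ : EE d, pdens V (s - r ^ 2) (y + r • ξ) =
      Real.exp (-pot V (s - r ^ 2) (y + r • ξ)) := fun ξ => by
    rw [pot, neg_neg, Real.exp_log (pdens_pos hV hu _)]
  have hc : Continuous fun ξ : EE d => pot V (s - r ^ 2) (y + r • ξ) := by
    have hz : Continuous (pot V (s - r ^ 2)) :=
      continuous_iff_continuousAt.2 fun x => (hasGradientAt_pot hV hu x).continuousAt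
    fun_prop
  rw [post, gam_withDensity, ← withDensity_mul _ continuous_gdens.measurable.ennreal_ofReal]
  · refine withDensity_congr_ae (ae_of_all _ fun ξ => ?_)
    simp only [Pi.mul_apply, qd, hp]
    rw [← ENNReal.ofReal_mul (gdens_nonneg ξ), mul_div_assoc]
  · simp only [hp]
    exact (hc.neg.rexp.div_const _).measurable.ennreal_ofReal

lemma qd_zero (hV : Admissible V) {s : ℝ} (hs : 0 < s) (y : EE d) :
    qd V s y 0 = gdens d := by
  funext ξ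
  have h : Real.exp (-pot V s y) = pdens V s y := by
    rw [pot, neg_neg, Real.exp_log (pdens_pos hV hs y)]
  simp [qd, h, (pdens_pos hV hs y).ne']

lemma qd_nonneg (hV : Admissible V) {s : ℝ} (hs : 0 < s) (y : EE d) (r : ℝ) (ξ : EE d) :
    0 ≤ qd V s y r ξ :=
  div_nonneg (mul_nonneg (gdens_nonneg ξ) (Real.exp_pos _).le) (pdens_pos hV hs y).le

lemma gdens_fderiv (x : EE d) :
    ∃ L : EE d →L[ℝ] ℝ, HasFDerivAt (gdens d) L x ∧ ∀ w, L w = -(gdens d x) * ⟪x, w⟫ := by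
  refine ⟨_, ((((hasStrictFDerivAt_norm_sq x).hasFDerivAt).const_mul (-(1 / 2 : ℝ))).exp.const_mul
    (((Real.pi / (1 / 2)) ^ ((d : ℝ) / 2))⁻¹)), fun w => ?_⟩
  simp [gdens]
  ring

/-- The derivative of the density in time and point. -/
lemma qd_fderiv (hV : Admissible V) {s r : ℝ} (hu : 0 < s - r ^ 2) (y ξ : EE d) :
    ∃ L : ℝ × EE d →L[ℝ] ℝ, HasFDerivAt (Function.uncurry (qd V s y)) L (r, ξ) ∧
      ∀ (a : ℝ) (w : EE d), L (a, w) = qd V s y r ξ * (-⟪ξ, w⟫ + 2 * r * a *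
        (1 / 2 * (∑ i, ⟪hess2 V (s - r ^ 2) (y + r • ξ) (Calc.ev i), Calc.ev i⟫)
          - ‖Dv V (s - r ^ 2) (y + r • ξ)‖ ^ 2 / 2)
        - ⟪Dv V (s - r ^ 2) (y + r • ξ), a • ξ + r • w⟫) := by
  obtain ⟨Lg, hg, hgv⟩ := gdens_fderiv ξ
  obtain ⟨Lp, hp, hpv⟩ := pot_fderiv hV hu (y + r • ξ)
  have hA : HasFDerivAt (fun p : ℝ × EE d => p.1) (ContinuousLinearMap.fst ℝ ℝ (EE d)) (r, ξ) :=
    hasFDerivAt_fst
  have hB : HasFDerivAt (fun p : ℝ × EE d => p.2) (ContinuousLinearMap.snd ℝ ℝ (EE d)) (r, ξ) :=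
    hasFDerivAt_snd
  have hm := ((hA.pow 2).const_sub s).prodMk ((hA.fun_smul hB).const_add y)
  have hc := hp.comp (f := fun p : ℝ × EE d => (s - p.1 ^ 2, y + p.1 • p.2)) (r, ξ) hm
  refine ⟨_, (((hg.comp (f := fun p : ℝ × EE d => p.2) (r, ξ) hB).fun_mul hc.neg.exp).mul_const
    (pdens V s y)⁻¹).congr_of_eventuallyEq (Eventually.of_forall fun p => ?_), fun a w => ?_⟩
  · simp [Function.uncurry, qd, div_eq_mul_inv]
  · simp [hgv, hpv, qd, add_comm (r • w)]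
    ring

lemma exp_poly_le {t : ℝ} (ht : 0 ≤ t) :
    (1 + t) ^ 2 * Real.exp (-(1 / 2) * t ^ 2) ≤ Real.exp 5 * Real.exp (-t) := by
  have h1 : (1 + t) ^ 2 ≤ Real.exp (2 * t) := by
    rw [two_mul, Real.exp_add, ← sq]
    exact pow_le_pow_left₀ (by linarith) (by linarith [Real.add_one_le_exp t]) 2
  refine (mul_le_mul_of_nonneg_right h1 (Real.exp_pos _).le).trans ?_
  rw [← Real.exp_add, ← Real.exp_add, Real.exp_le_exp]
  nlinarith [sq_nonneg (t - 3)]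

/-- Decay of the density and of its derivative. -/
lemma qd_decay (hV : Admissible V) {s R : ℝ} (hf : FlowReg V s) (hs : 0 < s) (hs1 : s ≤ 1 / 16)
    (hR0 : 0 ≤ R) (hR : R ^ 2 ≤ 3 * s / 4) (y : EE d) :
    ∃ C : ℝ, 0 ≤ C ∧ ∀ r ∈ Icc 0 R, ∀ ξ,
      qd V s y r ξ * (1 + ‖ξ‖) ^ 2 ≤ C * Real.exp (-‖ξ‖) ∧
      ‖fderiv ℝ (Function.uncurry (qd V s y)) (r, ξ)‖ ≤ C * Real.exp (-‖ξ‖) := by
  obtain ⟨A, hA⟩ := pot_lower hV (by positivity : 0 < s / 4)
  set G := ((Real.pi / (1 / 2)) ^ ((d : ℝ) / 2))⁻¹ * Real.exp A / pdens V s y * Real.exp 5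
    with hG
  set a := 3 * ‖y‖ + 4 * Real.sqrt d
  set P := 1 + 2 * d + 2 * (3 + a) ^ 2
  have hG0 : 0 ≤ G := by have := pdens_pos hV hs y; positivity
  have hP1 : 1 ≤ P := by simp only [P]; nlinarith [sq_nonneg (3 + a), Nat.cast_nonneg (α := ℝ) d]
  refine ⟨P * G, by positivity, fun r hr ξ => ?_⟩
  obtain ⟨hu1, hu2⟩ := scale_bounds hR hr
  have hu : 0 < s - r ^ 2 := by linarith
  have hq : qd V s y r ξ * (1 + ‖ξ‖) ^ 2 ≤ G * Real.exp (-‖ξ‖) := by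
    have h1 : Real.exp (-pot V (s - r ^ 2) (y + r • ξ)) ≤ Real.exp A :=
      Real.exp_le_exp.2 (by linarith [hA _ hu1 (y + r • ξ)])
    have h2 := exp_poly_le (norm_nonneg ξ)
    have hpd := pdens_pos hV hs y
    simp only [qd, gdens]
    set g := ((Real.pi / (1 / 2)) ^ ((d : ℝ) / 2))⁻¹
    have hg : 0 ≤ g := by positivity
    calc g * Real.exp (-(1 / 2) * ‖ξ‖ ^ 2) * Real.exp (-pot V (s - r ^ 2) (y + r • ξ)) /
          pdens V s y * (1 + ‖ξ‖) ^ 2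
        = g * Real.exp (-pot V (s - r ^ 2) (y + r • ξ)) / pdens V s y *
            ((1 + ‖ξ‖) ^ 2 * Real.exp (-(1 / 2) * ‖ξ‖ ^ 2)) := by ring
      _ ≤ g * Real.exp A / pdens V s y * (Real.exp 5 * Real.exp (-‖ξ‖)) := by gcongr
      _ = G * Real.exp (-‖ξ‖) := by rw [hG]; ring
  have hP0 : (0 : ℝ) ≤ G * Real.exp (-‖ξ‖) := by positivity
  refine ⟨hq.trans (by nlinarith), ?_⟩
  obtain ⟨L, hL, hLv⟩ := qd_fderiv hV hu y ξ
  rw [hL.fderiv]
  refine ContinuousLinearMap.opNorm_le_bound _ (by positivity) ?_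
  rintro ⟨b, w⟩
  rw [hLv, Real.norm_eq_abs, abs_mul, abs_of_nonneg (qd_nonneg hV hs y r ξ)]
  set D := Dv V (s - r ^ 2) (y + r • ξ)
  set T := ∑ i, ⟪hess2 V (s - r ^ 2) (y + r • ξ) (Calc.ev i), Calc.ev i⟫
  set N := ‖(b, w)‖
  have hr1 : r ≤ 1 / 4 := hr.2.trans (len_le_one hs1 hR0 hR)
  have hb : |b| ≤ N := norm_fst_le (b, w)
  have hw : ‖w‖ ≤ N := norm_snd_le (b, w)
  have hN : 0 ≤ N := norm_nonneg _
  have hD : ‖D‖ ≤ (3 + a) * (1 + ‖ξ‖) := by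
    refine (norm_Dv_le_affine hV hu (by linarith) _).trans ?_
    have h1 : ‖y + r • ξ‖ ≤ ‖y‖ + ‖ξ‖ := (norm_add_le _ _).trans (add_le_add le_rfl (by
      rw [norm_smul, Real.norm_eq_abs, abs_of_nonneg hr.1]
      exact mul_le_of_le_one_left (norm_nonneg _) (by linarith)))
    have h2 : 0 ≤ a * ‖ξ‖ := by positivity
    simp only [a] at h2 ⊢
    nlinarith
  have hT : |T| ≤ 2 * d := hess_trace_bound hf hu hu2 _
  have h1 : |⟪ξ, w⟫| ≤ ‖ξ‖ * N :=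
    (abs_real_inner_le_norm _ _).trans (mul_le_mul_of_nonneg_left hw (norm_nonneg _))
  have h2 : |2 * r * b * (1 / 2 * T - ‖D‖ ^ 2 / 2)| ≤ N * (d + ‖D‖ ^ 2 / 2) := by
    rw [abs_mul]
    refine mul_le_mul ?_ ?_ (abs_nonneg _) hN
    · rw [abs_mul, abs_of_nonneg (by linarith [hr.1] : (0 : ℝ) ≤ 2 * r)]
      exact (mul_le_of_le_one_left (abs_nonneg b) (by linarith)).trans hb
    · refine (abs_sub _ _).trans (add_le_add ?_ (le_of_eq (abs_of_nonneg (by positivity))))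
      rw [abs_mul, abs_of_nonneg (by norm_num : (0 : ℝ) ≤ 1 / 2)]
      linarith
  have h3 : |⟪D, b • ξ + r • w⟫| ≤ ‖D‖ * ((1 + ‖ξ‖) * N) := by
    refine (abs_real_inner_le_norm _ _).trans (mul_le_mul_of_nonneg_left ?_ (norm_nonneg _))
    refine (norm_add_le _ _).trans ?_
    rw [norm_smul, norm_smul, Real.norm_eq_abs, Real.norm_eq_abs, abs_of_nonneg hr.1]
    have := mul_le_mul_of_nonneg_right hb (norm_nonneg ξ)
    have := mul_le_mul (show r ≤ 1 by linarith) hw (norm_nonneg _) zero_le_one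
    linarith
  have h4 : |-⟪ξ, w⟫ + 2 * r * b * (1 / 2 * T - ‖D‖ ^ 2 / 2) - ⟪D, b • ξ + r • w⟫| ≤
      P * (1 + ‖ξ‖) ^ 2 * N := by
    refine (abs_sub _ _).trans ((add_le_add ((abs_add_le _ _).trans
      (add_le_add ((abs_neg _).trans_le h1) h2)) h3).trans ?_)
    rw [show P * (1 + ‖ξ‖) ^ 2 * N = N * (P * (1 + ‖ξ‖) ^ 2) by ring,
      show ‖ξ‖ * N + N * (d + ‖D‖ ^ 2 / 2) + ‖D‖ * ((1 + ‖ξ‖) * N) =
        N * (‖ξ‖ + (d + ‖D‖ ^ 2 / 2) + ‖D‖ * (1 + ‖ξ‖)) by ring]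
    refine mul_le_mul_of_nonneg_left ?_ hN
    set t := 1 + ‖ξ‖
    have ht : 1 ≤ t := le_add_of_nonneg_right (norm_nonneg _)
    have h5 := pow_le_pow_left₀ (norm_nonneg D) hD 2
    have h6 : ‖D‖ * t ≤ (3 + a) * t * t := mul_le_mul_of_nonneg_right hD (by linarith)
    have ha : 0 ≤ a := by positivity
    have h7 : (d : ℝ) ≤ d * t ^ 2 := le_mul_of_one_le_right (Nat.cast_nonneg d) (one_le_pow₀ ht)
    have h8 : ‖ξ‖ ≤ t ^ 2 := by simp only [t]; nlinarith [norm_nonneg ξ]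
    have h9 : (3 + a) * t * t ≤ (3 + a) ^ 2 * t ^ 2 := by
      rw [mul_assoc, ← sq t]
      exact mul_le_mul_of_nonneg_right (by nlinarith) (by positivity)
    have h10 : 0 ≤ (3 + a) ^ 2 * t ^ 2 := by positivity
    have h11 : 0 ≤ (d : ℝ) * t ^ 2 := by positivity
    have e : P * t ^ 2 = t ^ 2 + 2 * (d * t ^ 2) + 2 * ((3 + a) ^ 2 * t ^ 2) := by
      simp only [P]; ring
    rw [mul_pow] at h5
    linarith
  calc qd V s y r ξ * _ ≤ qd V s y r ξ * (P * (1 + ‖ξ‖) ^ 2 * N) :=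
        mul_le_mul_of_nonneg_left h4 (qd_nonneg hV hs y r ξ)
    _ = P * (qd V s y r ξ * (1 + ‖ξ‖) ^ 2) * N := by ring
    _ ≤ P * (G * Real.exp (-‖ξ‖)) * N := by gcongr
    _ = _ := by ring

end Vale.Agent.P347.Zero
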