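import Vale.Agent.P347.Zero.Defs

/-!
The maps evaluated by the algorithm at one scale (Picard iterates with Lagrange rules), and the
properties of the exact flows that their analysis uses.
-/

open MeasureTheory ProbabilityTheory
open scoped RealInnerProductSpace ENNReal

namespace Vale.Agent.P347.Zero

variable {d : ℕ}

/-- Nodes in [0,1], weights of the integrals from 0 to each node and to 1, weights of the
derivative at 0. -/
structure Rule where
  n : ℕ
  node : Fin n → ℝ
  W : Fin n → Fin n → ℝ
  tot : Fin n → ℝ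
  der : Fin n → ℝ

/-- The weights have size at most C. -/
structure Rule.Ok (R : Rule) (C : ℝ) : Prop where
  node_nonneg : ∀ i, 0 ≤ R.node i
  node_le : ∀ i, R.node i ≤ 1
  w_abs : ∀ i, ∑ j, |R.W i j| ≤ C
  tot_abs : ∑ j, |R.tot j| ≤ C
  der_abs : ∑ j, |R.der j| ≤ C

/-- The parameters of one step: rules along the scale and at 0, rounds, derivative step,
rotation step. -/
structure Cfg where
  G : Rule
  L : Rule
  k : ℕ
  τ : ℝ
  a : ℝ

variable (V : EE d → ℝ) (c : Cfg) (s σ : ℝ)

/-! ### The derivative of the drift applied to a standard vector -/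

/-- The step of a derivative evaluation at scale v. -/
noncomputable def leafStep (v : ℝ) : ℝ := c.τ * Real.sqrt v

/-- One round for the flow started at (x, X). -/
noncomputable def leafF (v : ℝ) (x X : EE d) (u : Fin c.L.n → EE d) (i : Fin c.L.n) : EE d :=
  X - ∑ j, (leafStep c v * c.L.W i j) •
    Dv V (v - (leafStep c v * c.L.node j) ^ 2) (x + (leafStep c v * c.L.node j) • u j)

/-- The derivative rule along a path. -/
noncomputable def leafOut (v : ℝ) (x : EE d) (u : Fin c.L.n → EE d) : EE d :=
  ∑ j, (c.L.der j / leafStep c v) •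
    Dv V (v - (leafStep c v * c.L.node j) ^ 2) (x + (leafStep c v * c.L.node j) • u j)

/-- The approximate value of `hess2 V v x X`. -/
noncomputable def leaf (v : ℝ) (x X : EE d) : EE d :=
  leafOut V c v x ((leafF V c v x X)^[c.k] fun _ => X)

/-! ### The square of the derivative, by a rotation -/

/-- One round of the rotation of (ζ, η) generated by the derivative at x. -/
noncomputable def turnF (v : ℝ) (x η ζ : EE d) (u : Fin c.L.n → EE d × EE d) (i : Fin c.L.n) :
    EE d × EE d :=
  (ζ + ∑ j, (c.a * c.L.W i j) • leaf V c v x (u j).2,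
   η - ∑ j, (c.a * c.L.W i j) • leaf V c v x (u j).1)

/-- The rotated vectors. -/
noncomputable def turn (v : ℝ) (x η ζ : EE d) : Fin c.L.n → EE d × EE d :=
  (turnF V c v x η ζ)^[c.k] fun _ => (ζ, η)

/-- The approximate value of the squared derivative at x applied to η. -/
noncomputable def sq2 (v : ℝ) (x η ζ : EE d) : EE d :=
  ∑ j, (c.L.der j / c.a) • leaf V c v x (turn V c v x η ζ j).1

/-! ### The forward sweep from s to s/4 -/

/-- The length of the forward sweep. -/
noncomputable def fwdLen : ℝ := Real.sqrt (3 * s / 4)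

/-- One round of the forward sweep. -/
noncomputable def fwdF (y W : EE d) (u : Fin c.G.n → EE d) (i : Fin c.G.n) : EE d :=
  W - ∑ j, (fwdLen s * c.G.W i j) •
    Dv V (s - (fwdLen s * c.G.node j) ^ 2) (y + (fwdLen s * c.G.node j) • u j)

/-- The end of the forward sweep along a path. -/
noncomputable def fwdOut (y W : EE d) (u : Fin c.G.n → EE d) : EE d :=
  W - ∑ j, (fwdLen s * c.G.tot j) •
    Dv V (s - (fwdLen s * c.G.node j) ^ 2) (y + (fwdLen s * c.G.node j) • u j)

/-- The end of the forward sweep. -/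
noncomputable def fwdEnd (y W : EE d) : EE d :=
  fwdOut V c s y W ((fwdF V c s y W)^[c.k] fun _ => W)

/-- The intermediate point at scale s/2: scale s/4 joined to y by a bridge. -/
noncomputable def midPoint (y W N : EE d) : EE d :=
  y + (2 / 3 * fwdLen s) • fwdEnd V c s y W + Real.sqrt (s / 6) • N

/-! ### The backward sweep from s/2 to s -/

/-- The length of the backward sweep. -/
noncomputable def backLen : ℝ := Real.sqrt (s / 2)

/-- The scale at node j of the backward sweep. -/
noncomputable def backScale (j : Fin c.G.n) : ℝ := s - (backLen s * c.G.node j) ^ 2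

/-- The weights of the integrals from a node to the end. -/
noncomputable def backW (i j : Fin c.G.n) : ℝ := backLen s * (c.G.tot j - c.G.W i j)

/-- One round of the backward sweep: points and auxiliary vectors. -/
noncomputable def backF (y Z ηs : EE d) (ζ : Fin c.G.n → EE d)
    (u : Fin c.G.n → EE d × EE d) (i : Fin c.G.n) : EE d × EE d :=
  (c.G.node i • Z + (1 - c.G.node i) • y + (backLen s * c.G.node i) • ∑ j, backW c s i j •
      (Dv V (backScale c s j) (u j).1 - σ⁻¹ • leaf V c (backScale c s j) (u j).1 (u j).2),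
   ηs + σ⁻¹ • (Dv V (s / 2) Z - Dv V (backScale c s i) (u i).1) - (σ ^ 2)⁻¹ •
      ∑ j, (backW c s i j * (backLen s * c.G.node j)) •
        sq2 V c (backScale c s j) (u j).1 (u j).2 (ζ j))

/-- The backward sweep. -/
noncomputable def back (y Z ηs : EE d) (ζ : Fin c.G.n → EE d) : Fin c.G.n → EE d × EE d :=
  (backF V c s σ y Z ηs ζ)^[c.k]
    fun i => (c.G.node i • Z + (1 - c.G.node i) • y, ηs)

/-- The integral correction. -/
noncomputable def qSem (y Z ηs : EE d) (ζ : Fin c.G.n → EE d) : EE d :=
  σ⁻¹ • ∑ j, (backLen s * c.G.tot j * (backLen s * c.G.node j)) •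
    sq2 V c (backScale c s j) (back V c s σ y Z ηs ζ j).1 (back V c s σ y Z ηs ζ j).2 (ζ j)

/-! ### What is used about the exact flows -/

/-- The drift at scales up to S: Lipschitz, with a symmetric derivative. -/
structure DriftOk (S : ℝ) : Prop where
  lip : ∀ v, 0 ≤ v → v ≤ S → ∀ x z : EE d, ‖Dv V v x - Dv V v z‖ ≤ 2 * ‖x - z‖
  sym : ∀ v, 0 < v → v ≤ S → ∀ x a b : EE d, ⟪hess2 V v x a, b⟫ = ⟪a, hess2 V v x b⟫
  nrm : ∀ v, 0 < v → v ≤ S → ∀ x a : EE d, ‖hess2 V v x a‖ ≤ 2 * ‖a‖

/-- The derivative rule is accurate along the exact flow from any point. -/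
def LeafOk (v : ℝ) (res : ℝ≥0∞) : Prop :=
  ∀ x : EE d, ∃ Ξ : EE d → Fin c.L.n → EE d, Measurable Ξ ∧
    (∀ i, eLpNorm (fun X => leafF V c v x X (Ξ X) i - Ξ X i) 2 (gam d) ≤ res) ∧
    eLpNorm (fun X => leafOut V c v x (Ξ X) - hess2 V v x X) 2 (gam d) ≤ res

/-- The forward rule is accurate along the exact flow, whose bridge has the law at scale s/2. -/
def FwdOk (y : EE d) (res : ℝ≥0∞) : Prop :=
  ∃ (Ξ : EE d → Fin c.G.n → EE d) (E : EE d → EE d), Measurable Ξ ∧ Measurable E ∧
    (∀ i, eLpNorm (fun W => fwdF V c s y W (Ξ W) i - Ξ W i) 2 (gam d) ≤ res) ∧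
    eLpNorm (fun W => fwdOut V c s y W (Ξ W) - E W) 2 (gam d) ≤ res ∧
    ((gam d).prod (gam d)).map (fun p => (backLen s)⁻¹ •
      ((2 / 3 * fwdLen s) • E p.1 + Real.sqrt (s / 6) • p.2)) = post V s y (backLen s)

/-- The rotated flow: exactly standard vectors independent of the points of L² size at most M,
the identity, and accurate backward rules with the exact derivative. -/
def RotOk (y : EE d) (res M : ℝ≥0∞) : Prop :=
  ∃ (u : EE d × EE d → Fin c.G.n → EE d × EE d) (η₀ : EE d × EE d → EE d),
    Measurable u ∧ Measurable η₀ ∧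
    ((post V s y (backLen s)).prod (gam d)).map η₀ = gam d ∧
    eLpNorm id 2 (post V s y (backLen s)) ≤ M ∧
    (∀ i, ∃ ν : Measure (EE d), IsProbabilityMeasure ν ∧ eLpNorm id 2 ν ≤ M ∧
      ((post V s y (backLen s)).prod (gam d)).map (fun z => u z i) = ν.prod (gam d)) ∧
    (∀ i, eLpNorm (fun z : EE d × EE d =>
      c.G.node i • (y + backLen s • z.1) + (1 - c.G.node i) • y +
        (backLen s * c.G.node i) • ∑ j, backW c s i j • (Dv V (backScale c s j) (u z j).1 -
          σ⁻¹ • hess2 V (backScale c s j) (u z j).1 (u z j).2) - (u z i).1) 2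
      ((post V s y (backLen s)).prod (gam d)) ≤ res) ∧
    (∀ i, eLpNorm (fun z : EE d × EE d =>
      z.2 + σ⁻¹ • (Dv V (s / 2) (y + backLen s • z.1) - Dv V (backScale c s i) (u z i).1) -
        (σ ^ 2)⁻¹ • (∑ j, (backW c s i j * (backLen s * c.G.node j)) •
          hess2 V (backScale c s j) (u z j).1
            (hess2 V (backScale c s j) (u z j).1 (u z j).2)) - (u z i).2) 2
      ((post V s y (backLen s)).prod (gam d)) ≤ res) ∧
    eLpNorm (fun z : EE d × EE d =>
      σ • z.2 + Dv V (s / 2) (y + backLen s • z.1) -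
        σ⁻¹ • (∑ j, (backLen s * c.G.tot j * (backLen s * c.G.node j)) •
          hess2 V (backScale c s j) (u z j).1
            (hess2 V (backScale c s j) (u z j).1 (u z j).2)) -
        Dv V s y - σ • η₀ z) 2
      ((post V s y (backLen s)).prod (gam d)) ≤ res

end Vale.Agent.P347.Zero
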