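import Vale.Agent.P347.Gauss
import Vale.Agent.P347.Zero.SemDefs

/-!
Tools for the analysis of the semantic maps: iteration of near contractions, L² norms of pointwise
bounds, weighted rules.
-/

open MeasureTheory ProbabilityTheory
open scoped RealInnerProductSpace ENNReal

namespace Vale.Agent.P347.Zero

/-- Iterates of a contraction from nearby starts with perturbed steps stay close. -/
lemma iterate_close {X : Type*} [SeminormedAddCommGroup X] {F G : X → X} {κ δ b : ℝ}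
    (h : ∀ u v, ‖F u - G v‖ ≤ δ + κ * ‖u - v‖) (hκ : 0 ≤ κ) (hb : δ + κ * b ≤ b) {x y : X}
    (h0 : ‖x - y‖ ≤ b) : ∀ k : ℕ, ‖F^[k] x - G^[k] y‖ ≤ b := by
  intro k
  induction k with
  | zero => simpa using h0
  | succ k ih =>
    rw [Function.iterate_succ_apply', Function.iterate_succ_apply']
    exact (h _ _).trans ((add_le_add le_rfl (mul_le_mul_of_nonneg_left ih hκ)).trans hb)

/-- Iterates of a contraction approach any near fixed point geometrically. -/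
lemma iterate_geom {X : Type*} [SeminormedAddCommGroup X] {F : X → X} {κ : ℝ}
    (h : ∀ u v, ‖F u - F v‖ ≤ κ * ‖u - v‖) (hκ : 0 ≤ κ) (hκ' : κ ≤ 1 / 2) (x u : X) (k : ℕ) :
    ‖F^[k] x - u‖ ≤ κ ^ k * ‖x - u‖ + 2 * ‖F u - u‖ := by
  induction k with
  | zero => simp
  | succ n ih =>
    rw [Function.iterate_succ_apply']
    have h1 : F (F^[n] x) - u = (F (F^[n] x) - F u) + (F u - u) := by abel
    have h2 := norm_add_le (F (F^[n] x) - F u) (F u - u)
    rw [← h1] at h2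
    have h3 := (h (F^[n] x) u).trans (mul_le_mul_of_nonneg_left ih hκ)
    rw [pow_succ]
    nlinarith [norm_nonneg (F u - u)]

/-- Iterates of a contraction reach any near fixed point. -/
lemma iterate_near {X : Type*} [SeminormedAddCommGroup X] {F : X → X} {κ : ℝ}
    (h : ∀ u v, ‖F u - F v‖ ≤ κ * ‖u - v‖) (hκ : 0 ≤ κ) (hκ' : κ ≤ 1 / 2) (x u : X) (k : ℕ) :
    ‖F^[k] x - u‖ ≤ 4 * ‖F u - u‖ + 2 * κ ^ k * ‖F x - x‖ := by
  have e0 : ‖x - u‖ ≤ 2 * ‖F x - x‖ + 2 * ‖F u - u‖ := by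
    have h1 : x - u = -(F x - x) + (F x - F u) + (F u - u) := by abel
    have h2 := norm_add₃_le (a := -(F x - x)) (b := F x - F u) (c := F u - u)
    rw [← h1, norm_neg] at h2
    nlinarith [h x u, norm_nonneg (x - u)]
  have hk := iterate_geom h hκ hκ' x u
  have hp : κ ^ k ≤ 1 := pow_le_one₀ hκ (by linarith)
  nlinarith [hk k, mul_le_mul_of_nonneg_left e0 (pow_nonneg hκ k), norm_nonneg (F u - u),
    mul_le_mul_of_nonneg_right hp (norm_nonneg (F u - u))]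

variable {d : ℕ}

/-- A weighted sum of vectors is bounded by the total weight. -/
lemma norm_wsum_le {ι : Type*} [Fintype ι] {f : ι → EE d} {w : ι → ℝ} {C M : ℝ}
    (hw : ∑ j, |w j| ≤ C) (hf : ∀ j, ‖f j‖ ≤ M) (hM : 0 ≤ M) :
    ‖∑ j, w j • f j‖ ≤ C * M := by
  refine (norm_sum_le _ _).trans ?_
  refine le_trans (Finset.sum_le_sum fun j _ => ?_)
    ((Finset.sum_mul _ (fun j => |w j|) M).symm.le.trans (mul_le_mul_of_nonneg_right hw hM))
  rw [norm_smul, Real.norm_eq_abs]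
  exact mul_le_mul_of_nonneg_left (hf j) (abs_nonneg _)

lemma abs_smul_weights {ι : Type*} [Fintype ι] {w : ι → ℝ} {C t : ℝ} (hw : ∑ j, |w j| ≤ C) :
    ∑ j, |t * w j| ≤ |t| * C := by
  simp only [abs_mul, ← Finset.mul_sum]
  exact mul_le_mul_of_nonneg_left hw (abs_nonneg t)

variable {α : Type} [MeasurableSpace α] {μ : Measure α} {G H : Type*} [NormedAddCommGroup G]
  [NormedAddCommGroup H]

/-- The L² norm of the size of a finite family is at most the sum of the sizes. -/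
lemma eLp_pi_le {ι : Type*} [Fintype ι] {f : α → ι → G}
    (hf : ∀ i, AEStronglyMeasurable (fun a => f a i) μ) :
    eLpNorm f 2 μ ≤ ∑ i, eLpNorm (fun a => f a i) 2 μ := by
  refine le_trans (eLpNorm_mono_ae (g := fun a => ∑ i, ‖f a i‖) (ae_of_all _ fun a => ?_)) ?_
  · rw [Real.norm_of_nonneg (by positivity)]
    refine (pi_norm_le_iff_of_nonneg (by positivity)).2 fun i => ?_
    exact Finset.single_le_sum (fun j _ => norm_nonneg (f a j)) (Finset.mem_univ i)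
  · calc eLpNorm (fun a => ∑ i, ‖f a i‖) 2 μ
        = eLpNorm (∑ i, fun a => ‖f a i‖) 2 μ := by congr 1; ext a; simp
      _ ≤ ∑ i, eLpNorm (fun a => ‖f a i‖) 2 μ :=
          eLpNorm_sum_le (fun i _ => (hf i).norm) one_le_two
      _ = _ := by simp [eLpNorm_norm]

/-- A pointwise affine bound passes to L² norms. -/
lemma eLp_le₂ {f : α → G} {g₁ g₂ : α → ℝ} {a b : ℝ} (ha : 0 ≤ a) (hb : 0 ≤ b)
    (h₁ : AEStronglyMeasurable g₁ μ) (h₂ : AEStronglyMeasurable g₂ μ)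
    (h : ∀ x, ‖f x‖ ≤ a * ‖g₁ x‖ + b * ‖g₂ x‖) :
    eLpNorm f 2 μ ≤ ENNReal.ofReal a * eLpNorm g₁ 2 μ + ENNReal.ofReal b * eLpNorm g₂ 2 μ := by
  refine le_trans (eLpNorm_mono_ae
    (g := fun x => a * ‖g₁ x‖ + b * ‖g₂ x‖) (ae_of_all _ fun x => ?_)) ?_
  · rw [Real.norm_of_nonneg (by positivity)]; exact h x
  · refine (eLpNorm_add_le (f := fun x => a * ‖g₁ x‖) (g := fun x => b * ‖g₂ x‖)
      (h₁.norm.const_mul a) (h₂.norm.const_mul b) one_le_two).trans (add_le_add ?_ ?_)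
    · refine (eLpNorm_const_smul_le (c := a) (f := fun x => ‖g₁ x‖) (p := 2) (μ := μ)).trans ?_
      rw [eLpNorm_norm, Real.enorm_eq_ofReal ha]
    · refine (eLpNorm_const_smul_le (c := b) (f := fun x => ‖g₂ x‖) (p := 2) (μ := μ)).trans ?_
      rw [eLpNorm_norm, Real.enorm_eq_ofReal hb]

/-- Three terms, with real bounds. -/
lemma eLp_le₃ {f : α → G} {g₁ g₂ g₃ : α → ℝ} {a b c r₁ r₂ r₃ : ℝ} (ha : 0 ≤ a) (hb : 0 ≤ b)
    (hc : 0 ≤ c) (n₁ : 0 ≤ r₁) (n₂ : 0 ≤ r₂) (n₃ : 0 ≤ r₃)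
    (m₁ : AEStronglyMeasurable g₁ μ) (m₂ : AEStronglyMeasurable g₂ μ)
    (m₃ : AEStronglyMeasurable g₃ μ) (b₁ : eLpNorm g₁ 2 μ ≤ ENNReal.ofReal r₁)
    (b₂ : eLpNorm g₂ 2 μ ≤ ENNReal.ofReal r₂) (b₃ : eLpNorm g₃ 2 μ ≤ ENNReal.ofReal r₃)
    (h : ∀ x, ‖f x‖ ≤ a * ‖g₁ x‖ + b * ‖g₂ x‖ + c * ‖g₃ x‖) :
    eLpNorm f 2 μ ≤ ENNReal.ofReal (a * r₁ + b * r₂ + c * r₃) := by
  refine (eLp_le₂ (g₁ := fun x => a * ‖g₁ x‖ + b * ‖g₂ x‖) (g₂ := g₃) zero_le_one hc
    ((m₁.norm.const_mul a).add (m₂.norm.const_mul b)) m₃ fun x => ?_).trans ?_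
  · rw [Real.norm_of_nonneg (by positivity), one_mul]; exact h x
  · rw [ENNReal.ofReal_one, one_mul, ENNReal.ofReal_add (by positivity) (by positivity),
      ENNReal.ofReal_mul hc]
    refine add_le_add ((eLp_le₂ (g₁ := g₁) (g₂ := g₂) ha hb m₁ m₂ fun x => ?_).trans ?_) (by gcongr)
    · rw [Real.norm_of_nonneg (by positivity)]
    · rw [ENNReal.ofReal_add (by positivity) (by positivity), ENNReal.ofReal_mul ha,
        ENNReal.ofReal_mul hb]
      gcongr

/-- The L² size of a standard Gaussian vector. -/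
lemma eLp_gam : eLpNorm (id : EE d → EE d) 2 (gam d) = ENNReal.ofReal (Real.sqrt d) := by
  have hid : MemLp (id : EE d → EE d) 2 (gam d) := IsGaussian.memLp_id _ 2 (by norm_num)
  rw [hid.eLpNorm_eq_integral_rpow_norm two_ne_zero ENNReal.ofNat_ne_top, ENNReal.toReal_ofNat]
  simp only [id, Real.rpow_two]
  rw [second_moment, finrank_euclideanSpace_fin, Real.sqrt_eq_rpow]
  norm_num

end Vale.Agent.P347.Zero
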