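import Vale.Agent.P347.Zero.Flow

/-!
A solution of the continuity equation is carried by the flow of its vector field: Euler steps,
change of variables and dominated convergence.
-/

open MeasureTheory Set Filter
open scoped NNReal Topology

namespace Vale.Agent.P347.Zero

variable {E : Type*} [NormedAddCommGroup E] [NormedSpace ℝ E] [FiniteDimensional ℝ E]

/-- Trace of an operator. -/
noncomputable def opTrace (A : E →L[ℝ] E) : ℝ := LinearMap.trace ℝ E (A : E →ₗ[ℝ] E)

/-- The matrix in the standard orthonormal basis. -/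
noncomputable def opMatrix (A : E →L[ℝ] E) :
    Matrix (Fin (Module.finrank ℝ E)) (Fin (Module.finrank ℝ E)) ℝ :=
  LinearMap.toMatrix (Module.finBasis ℝ E) (Module.finBasis ℝ E)
    (A : E →ₗ[ℝ] E)

lemma det_one_add_eq (A : E →L[ℝ] E) (τ : ℝ) :
    (ContinuousLinearMap.id ℝ E + τ • A).det = (1 + τ • opMatrix A).det := by
  rw [ContinuousLinearMap.det,
    ← LinearMap.det_toMatrix (Module.finBasis ℝ E)]
  congr 1
  rw [ContinuousLinearMap.toLinearMap_add, ContinuousLinearMap.toLinearMap_smul, map_add, map_smul,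
    ContinuousLinearMap.coe_id, LinearMap.toMatrix_id]
  rfl

lemma opMatrix_le : ∃ c : ℝ, 0 ≤ c ∧ ∀ (A : E →L[ℝ] E) (i j : Fin (Module.finrank ℝ E)),
    |opMatrix A i j| ≤ c * ‖A‖ := by
  set e := Module.finBasis ℝ E
  refine ⟨∑ i, ∑ j, ‖(e.coord i).toContinuousLinearMap‖ * ‖e j‖, by positivity, fun A i j => ?_⟩
  rw [opMatrix, LinearMap.toMatrix_apply]
  have h1 : |e.repr (A (e j)) i| ≤ ‖(e.coord i).toContinuousLinearMap‖ * (‖A‖ * ‖e j‖) :=
    ((e.coord i).toContinuousLinearMap.le_opNorm _).trans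
      (mul_le_mul_of_nonneg_left (A.le_opNorm _) (norm_nonneg _))
  refine h1.trans ?_
  rw [mul_left_comm, mul_comm ‖A‖]
  refine mul_le_mul_of_nonneg_right ?_ (norm_nonneg _)
  exact (Finset.single_le_sum (f := fun j => ‖(e.coord i).toContinuousLinearMap‖ * ‖e j‖)
    (fun _ _ => by positivity) (Finset.mem_univ j)).trans
    (Finset.single_le_sum (f := fun i => ∑ j, ‖(e.coord i).toContinuousLinearMap‖ * ‖e j‖)
      (fun _ _ => by positivity) (Finset.mem_univ i))

/-- The determinant near the identity. -/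
lemma det_near (K0 : ℝ) : ∃ C : ℝ, 0 ≤ C ∧ ∀ (A : E →L[ℝ] E) (τ : ℝ), ‖A‖ ≤ K0 → 0 ≤ τ → τ ≤ 1 →
    |(ContinuousLinearMap.id ℝ E + τ • A).det - 1| ≤ τ * C := by
  classical
  obtain ⟨c0, hc0, hle⟩ := opMatrix_le (E := E)
  set K := c0 * |K0|
  set n := Module.finrank ℝ E
  refine ⟨(Finset.univ : Finset (Equiv.Perm (Fin n))).card * (n * (1 + |K|) ^ n), by positivity,
    fun A τ hA hτ hτ1 => ?_⟩
  set M := opMatrix A
  have hM : ∀ i j, |τ * M i j| ≤ τ * |K| := fun i j => by
    rw [abs_mul, abs_of_nonneg hτ]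
    exact mul_le_mul_of_nonneg_left ((hle A i j).trans ((mul_le_mul_of_nonneg_left (hA.trans (le_abs_self K0)) hc0).trans (le_abs_self K))) hτ
  have hp : ∀ (s : Finset (Fin n)) (σ : Equiv.Perm (Fin n)),
      |∏ i ∈ s, ((1 : Matrix (Fin n) (Fin n) ℝ) (σ i) i + τ * M (σ i) i) -
        ∏ i ∈ s, (1 : Matrix (Fin n) (Fin n) ℝ) (σ i) i| ≤ s.card * τ * (1 + |K|) ^ s.card := by
    intro s σ
    induction s using Finset.induction_on with
    | empty => simp
    | insert k s hk ih =>
      rw [Finset.prod_insert hk, Finset.prod_insert hk, Finset.card_insert_of_notMem hk]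
      set P := ∏ i ∈ s, ((1 : Matrix (Fin n) (Fin n) ℝ) (σ i) i + τ * M (σ i) i)
      set Q := ∏ i ∈ s, (1 : Matrix (Fin n) (Fin n) ℝ) (σ i) i
      set u := (1 : Matrix (Fin n) (Fin n) ℝ) (σ k) k
      have hu : |u| ≤ 1 := by
        simp only [u, Matrix.one_apply]; split_ifs <;> simp
      have hQ : |Q| ≤ 1 := by
        rw [Finset.abs_prod]
        refine Finset.prod_le_one (fun i _ => abs_nonneg _) fun i _ => ?_
        simp only [Matrix.one_apply]; split_ifs <;> simp
      have hK1 : (1 : ℝ) ≤ (1 + |K|) ^ s.card := one_le_pow₀ (by linarith [abs_nonneg K])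
      have e : (u + τ * M (σ k) k) * P - u * Q =
          (u + τ * M (σ k) k) * (P - Q) + τ * M (σ k) k * Q := by ring
      rw [e]
      refine (abs_add_le _ _).trans ?_
      rw [abs_mul, abs_mul]
      have hb : |u + τ * M (σ k) k| ≤ 1 + |K| :=
        (abs_add_le _ _).trans (add_le_add hu ((hM _ _).trans (mul_le_of_le_one_left
          (abs_nonneg K) hτ1)))
      calc |u + τ * M (σ k) k| * |P - Q| + |τ * M (σ k) k| * |Q|
          ≤ (1 + |K|) * (s.card * τ * (1 + |K|) ^ s.card) + τ * (1 + |K|) * 1 := by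
            refine add_le_add (mul_le_mul hb ih (abs_nonneg _) (by positivity))
              (mul_le_mul ((hM _ _).trans (mul_le_mul_of_nonneg_left (by linarith) hτ)) hQ
                (abs_nonneg _) (by positivity))
        _ ≤ _ := by
          push_cast
          rw [pow_succ]
          nlinarith [mul_nonneg (mul_nonneg hτ (by positivity : 0 ≤ 1 + |K|))
            (sub_nonneg.2 hK1)]
  rw [det_one_add_eq, show (1 + τ • M).det - 1 =
      (1 + τ • M).det - (1 : Matrix (Fin n) (Fin n) ℝ).det by rw [Matrix.det_one],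
    Matrix.det_apply', Matrix.det_apply', ← Finset.sum_sub_distrib]
  refine (Finset.abs_sum_le_sum_abs _ _).trans ?_
  refine (Finset.sum_le_card_nsmul _ _ (τ * (n * (1 + |K|) ^ n)) fun σ _ => ?_).trans ?_
  · rw [← mul_sub, abs_mul, show |((Equiv.Perm.sign σ : ℤ) : ℝ)| = 1 by
      rcases Int.units_eq_one_or (Equiv.Perm.sign σ) with h | h <;> simp [h], one_mul]
    simpa [Matrix.add_apply, Matrix.smul_apply, mul_comm, mul_left_comm, mul_assoc] using
      hp Finset.univ σ
  · rw [nsmul_eq_mul]; exact le_of_eq (by ring)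

lemma det_deriv (A : E →L[ℝ] E) :
    HasDerivAt (fun τ : ℝ => (ContinuousLinearMap.id ℝ E + τ • A).det) (opTrace A) 0 := by
  rw [show (fun τ : ℝ => (ContinuousLinearMap.id ℝ E + τ • A).det) = fun τ =>
      1 + (opMatrix A).trace * τ + (Matrix.det (1 + (Polynomial.X : Polynomial ℝ) •
        (opMatrix A).map Polynomial.C)).divX.divX.eval τ * τ ^ 2 from
    funext fun τ => (det_one_add_eq A τ).trans (Matrix.det_one_add_smul τ (opMatrix A))]
  have ht : opTrace A = (opMatrix A).trace := by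
    rw [opTrace, LinearMap.trace_eq_matrix_trace ℝ (Module.finBasis ℝ E)]; rfl
  rw [ht]
  set P := (Matrix.det (1 + (Polynomial.X : Polynomial ℝ) • (opMatrix A).map Polynomial.C)).divX.divX
  have h1 := ((hasDerivAt_id (0 : ℝ)).const_mul (opMatrix A).trace).const_add 1
  exact (h1.add ((P.hasDerivAt 0).mul (hasDerivAt_pow 2 0))).congr_deriv (by simp)

/-- Exponential decay is integrable. -/
lemma integrable_exp_norm [MeasureSpace E] [BorelSpace E]
    [(volume : Measure E).IsAddHaarMeasure] {c : ℝ} (hc : 0 < c) :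
    Integrable (fun x : E => Real.exp (-c * ‖x‖)) := by
  set n := Module.finrank ℝ E + 1
  have h : Integrable (fun x : E => (1 + ‖x‖) ^ (-(n : ℝ))) :=
    integrable_one_add_norm (by simp [n])
  refine (h.const_mul ((1 + n / c) ^ n)).mono' (by fun_prop) (ae_of_all _ fun x => ?_)
  rw [Real.norm_eq_abs, Real.abs_exp]
  have hx : 0 < 1 + ‖x‖ := by positivity
  rw [Real.rpow_neg hx.le, Real.rpow_natCast, ← div_eq_mul_inv, le_div_iff₀ (by positivity)]
  have h1 : 1 + ‖x‖ ≤ (1 + n / c) * Real.exp (c / n * ‖x‖) := by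
    have hn : (0 : ℝ) < n := by positivity
    have h2 := Real.add_one_le_exp (c / n * ‖x‖)
    have h3 : 1 + ‖x‖ ≤ (1 + n / c) * (c / n * ‖x‖ + 1) := by
      have : (1 + n / c) * (c / n * ‖x‖ + 1) = c / n * ‖x‖ + ‖x‖ + 1 + n / c := by field_simp; ring
      rw [this]
      have : 0 ≤ c / n * ‖x‖ := by positivity
      have : (0 : ℝ) ≤ n / c := by positivity
      linarith
    exact h3.trans (mul_le_mul_of_nonneg_left h2 (by positivity))
  calc Real.exp (-c * ‖x‖) * (1 + ‖x‖) ^ n
      ≤ Real.exp (-c * ‖x‖) * ((1 + n / c) * Real.exp (c / n * ‖x‖)) ^ n := by gcongr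
    _ = (1 + n / c) ^ n * (Real.exp (-c * ‖x‖) * Real.exp (c / n * ‖x‖) ^ n) := by
      rw [mul_pow]; ring
    _ = _ := by
      rw [← Real.exp_nat_mul, ← Real.exp_add,
        show -c * ‖x‖ + n * (c / n * ‖x‖) = 0 by
        rw [← mul_assoc, mul_div_cancel₀ _ (by positivity : (n : ℝ) ≠ 0)]; ring, Real.exp_zero, mul_one]

/-- First moment of exponential decay. -/
lemma integrable_norm_exp [MeasureSpace E] [BorelSpace E]
    [(volume : Measure E).IsAddHaarMeasure] {e : ℝ} (he : 0 < e) :
    Integrable fun x : E => ‖x‖ * Real.exp (-e * ‖x‖) := by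
  refine ((integrable_exp_norm (E := E) (half_pos he)).const_mul (2 / e)).mono'
    (by fun_prop) (ae_of_all _ fun x => ?_)
  rw [norm_mul, norm_norm, Real.norm_eq_abs, Real.abs_exp]
  have h11 := Real.add_one_le_exp (e / 2 * ‖x‖)
  have h12 : ‖x‖ ≤ 2 / e * Real.exp (e / 2 * ‖x‖) := by
    rw [div_mul_eq_mul_div, le_div_iff₀ he]; nlinarith
  refine (mul_le_mul_of_nonneg_right h12 (Real.exp_pos _).le).trans_eq ?_
  rw [mul_assoc, ← Real.exp_add]; ring_nf

/-- The envelope of one Euler step. -/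
noncomputable def stepBound (A B M C c Cd L : ℝ) (K : ℝ≥0) (x : E) : ℝ :=
  (Cd + 2) * (C * Real.exp (c * M) * ((2 + M + K * ‖x‖) * Real.exp (-(c / 2) * ‖x‖))) +
    L * (A + M + (B + K) * ‖x‖) * (C * Real.exp (-c * ‖x‖))

lemma integrable_stepBound [MeasureSpace E] [BorelSpace E]
    [(volume : Measure E).IsAddHaarMeasure] (A B M C Cd L : ℝ) (K : ℝ≥0) {c : ℝ}
    (hc : 0 < c) : Integrable (stepBound (E := E) A B M C c Cd L K) := by
  have e1 := integrable_exp_norm (E := E) (half_pos hc)
  have e2 := integrable_norm_exp (E := E) (half_pos hc)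
  have e3 := integrable_norm_exp (E := E) hc
  refine ((((e1.const_mul (2 + M)).add (e2.const_mul (K : ℝ))).const_mul
    (C * Real.exp (c * M))).const_mul (Cd + 2)).add
    ((((integrable_exp_norm (E := E) hc).const_mul ((A + M) * C)).add
      (e3.const_mul ((B + K) * C))).const_mul L)
    |>.congr (ae_of_all _ fun x => ?_)
  simp only [Pi.add_apply, stepBound]; ring

/-- The Gronwall bound is affine in the initial value. -/
lemma gronwallBound_add (δ K ε x : ℝ) :
    gronwallBound δ K ε x = gronwallBound 0 K ε x + δ * Real.exp (K * x) := by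
  rcases eq_or_ne K 0 with rfl | hK
  · simp [gronwallBound_K0, add_comm]
  · simp [gronwallBound_of_K_ne_0 hK, add_comm]

/-- Hypotheses of the transport theorem. -/
structure Transportable (v : ℝ → E → E) (p : ℝ → E → ℝ) (K : ℝ≥0) (a b : ℝ) : Prop where
  le : a ≤ b
  lip : ∀ t ∈ Icc a b, LipschitzWith K (v t)
  cont : Continuous (Function.uncurry v)
  diff : ∀ t ∈ Icc a b, Differentiable ℝ (v t)
  pdiff : ∀ t ∈ Icc a b, ∀ x, DifferentiableAt ℝ (Function.uncurry p) (t, x)
  decay : ∃ C c : ℝ, 0 < c ∧ ∀ t ∈ Icc a b, ∀ x,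
    |p t x| ≤ C * Real.exp (-c * ‖x‖) ∧
      ‖fderiv ℝ (Function.uncurry p) (t, x)‖ ≤ C * Real.exp (-c * ‖x‖)

/-- The continuity equation at a point. -/
def ContEq (v : ℝ → E → E) (p : ℝ → E → ℝ) (t : ℝ) (x : E) : Prop :=
  fderiv ℝ (Function.uncurry p) (t, x) (1, v t x) + opTrace (fderiv ℝ (v t) x) * p t x = 0

variable {v : ℝ → E → E} {p : ℝ → E → ℝ} {K : ℝ≥0} {a b : ℝ}

namespace Transportable

variable (h : Transportable v p K a b)
include h

omit [FiniteDimensional ℝ E] in
lemma speed : ∃ M : ℝ, 0 ≤ M ∧ ∀ t ∈ Icc a b, ∀ x, ‖v t x‖ ≤ M + K * ‖x‖ := by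
  have hc : ContinuousOn (fun t => v t 0) (Icc a b) := by
    have := h.cont; fun_prop
  obtain ⟨M, hM⟩ := isCompact_Icc.exists_bound_of_continuousOn hc
  refine ⟨|M|, abs_nonneg M, fun t ht x => ?_⟩
  have h1 := (h.lip t ht).norm_sub_le x 0
  rw [sub_zero] at h1
  exact (norm_le_norm_add_norm_sub' (v t x) (v t 0)).trans
    (add_le_add ((hM t ht).trans (le_abs_self M)) h1)

/-- Displacement of the flow over a time interval. -/
lemma disp : ∃ A B : ℝ, 0 ≤ A ∧ 0 ≤ B ∧ ∀ r s, a ≤ r → r ≤ s → s ≤ b → ∀ x,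
    ‖flow v r s x - x‖ ≤ (s - r) * (A + B * ‖x‖) := by
  have := FiniteDimensional.complete ℝ E
  obtain ⟨M, hM0, hM⟩ := h.speed
  set e := Real.exp (K * (b - a))
  set g := gronwallBound 0 K M (b - a)
  refine ⟨M + K * |g|, K * e, by positivity, by positivity, fun r s hr hrs hs x => ?_⟩
  have hsub : Icc r s ⊆ Icc a b := Icc_subset_Icc hr hs
  obtain ⟨α, rfl, hα⟩ := exists_solves hrs (fun t ht => h.lip t (hsub ht)) h.cont x
  rw [flow_eq hrs (fun t ht => h.lip t (hsub ht)) hα]
  have hgrow : ∀ t ∈ Icc r s, ‖α t‖ ≤ |g| + e * ‖α r‖ := fun t ht => by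
    have h1 := norm_le_gronwallBound_of_norm_deriv_right_le hα.continuousOn
      (fun u hu => (hα u (Ico_subset_Icc_self hu)).mono_of_mem_nhdsWithin
        (Icc_mem_nhdsGE_of_mem hu)) le_rfl
      (fun u hu => ((hM u (hsub (Ico_subset_Icc_self hu)) (α u)).trans_eq (add_comm _ _))) t ht
    refine h1.trans ?_
    rw [gronwallBound_add]
    have hd : t - r ≤ b - a := by linarith [(hsub ht).2, hr]
    have h0 : 0 ≤ t - r := by linarith [ht.1]
    refine add_le_add ?_ ?_
    · exact (gronwallBound_mono le_rfl hM0 K.coe_nonneg hd).trans (le_abs_self g)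
    · rw [mul_comm]
      gcongr
      exact Real.exp_le_exp.2 (mul_le_mul_of_nonneg_left hd K.coe_nonneg)
  have h2 := norm_image_sub_le_of_norm_deriv_le_segment' (fun t ht => hα t ht)
    (C := M + K * |g| + K * e * ‖α r‖) (fun t ht => ?_) s (right_mem_Icc.2 hrs)
  · exact h2.trans_eq (by ring)
  · refine (hM t (hsub (Ico_subset_Icc_self ht)) (α t)).trans ?_
    have := mul_le_mul_of_nonneg_left (hgrow t (Ico_subset_Icc_self ht)) K.coe_nonneg
    linarith

variable [MeasureSpace E] [BorelSpace E] [(volume : Measure E).IsAddHaarMeasure]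

omit [MeasureSpace E] [BorelSpace E] [(volume : Measure E).IsAddHaarMeasure] in
lemma flow_cont (r : ℝ) (hr : r ∈ Icc a b) : Continuous (flow v r b) := by
  have := FiniteDimensional.complete ℝ E
  refine (LipschitzWith.of_dist_le_mul (K := (Real.exp (K * (b - r))).toNNReal) fun x y => ?_).continuous
  rw [dist_eq_norm, dist_eq_norm, Real.coe_toNNReal _ (Real.exp_pos _).le]
  exact flow_lipschitz hr.2 (fun t ht => h.lip t ⟨hr.1.trans ht.1, ht.2⟩) h.cont x y

omit [MeasureSpace E] [BorelSpace E] [(volume : Measure E).IsAddHaarMeasure]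
  [FiniteDimensional ℝ E] in
lemma p_cont (r : ℝ) (hr : r ∈ Icc a b) : Continuous (p r) :=
  continuous_iff_continuousAt.2 fun x =>
    (h.pdiff r hr x).continuousAt.comp (f := fun y => (r, y)) (by fun_prop)

/-- The tested function at time `r`. -/
noncomputable def ψ (v : ℝ → E → E) (b : ℝ) (φ : E → ℝ) (r : ℝ) (x : E) : ℝ := φ (flow v r b x)

/-- The tested integral at time `r`. -/
noncomputable def I (v : ℝ → E → E) (p : ℝ → E → ℝ) (b : ℝ) (φ : E → ℝ) (r : ℝ) : ℝ :=
  ∫ x, ψ v b φ r x * p r x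

/-- The Euler step applied to the density, pulled back. -/
noncomputable def f (v : ℝ → E → E) (p : ℝ → E → ℝ) (r τ : ℝ) (x : E) : ℝ :=
  (ContinuousLinearMap.id ℝ E + τ • fderiv ℝ (v r) x).det * p (r + τ) (x + τ • v r x)

/-- The error of one Euler step. -/
noncomputable def Q (v : ℝ → E → E) (p : ℝ → E → ℝ) (b : ℝ) (φ : E → ℝ) (L : ℝ) (r τ : ℝ)
    (x : E) : ℝ :=
  |ψ v b φ (r + τ) (x + τ • v r x)| * (|f v p r τ x - p r x| / τ) + L * (‖flow v r (r + τ) x - x - τ • v r x‖ / τ) * |p r x|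

/-- One Euler step. -/
lemma euler_step {r : ℝ} (hr : r ∈ Ico a b) {φ : E → ℝ} {A B M C c Cd L' : ℝ} (hA : 0 ≤ A) (hB : 0 ≤ B)
    (hM0 : 0 ≤ M) (hC0 : 0 ≤ C) (hc : 0 < c) (hCd : 0 ≤ Cd) (hL' : 0 ≤ L')
    (hdisp : ∀ r s, a ≤ r → r ≤ s → s ≤ b → ∀ x, ‖flow v r s x - x‖ ≤ (s - r) * (A + B * ‖x‖))
    (hM : ∀ t ∈ Icc a b, ∀ x, ‖v t x‖ ≤ M + K * ‖x‖)
    (hC : ∀ t ∈ Icc a b, ∀ x, |p t x| ≤ C * Real.exp (-c * ‖x‖) ∧
      ‖fderiv ℝ (Function.uncurry p) (t, x)‖ ≤ C * Real.exp (-c * ‖x‖))
    (hdet : ∀ (A : E →L[ℝ] E) (τ : ℝ), ‖A‖ ≤ K → 0 ≤ τ → τ ≤ 1 →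
      |(ContinuousLinearMap.id ℝ E + τ • A).det - 1| ≤ τ * Cd)
    (hψb : ∀ r x, |ψ v b φ r x| ≤ 1)
    (hψL : ∀ r ∈ Icc a b, ∀ x y, |ψ v b φ r x - ψ v b φ r y| ≤ L' * ‖x - y‖)
    (hψc : ∀ r ∈ Icc a b, Continuous (ψ v b φ r))
    {τ : ℝ} (hτ : 0 < τ)
    (hτle : τ ≤ min (b - r) (min 1 (min (1 / (2 * (K + 1))) (1 / (2 * (Cd + 1)))))) :
    |I v p b φ (r + τ) - I v p b φ r| / τ ≤ ∫ x, Q v p b φ L' r τ x ∧ Integrable (Q v p b φ L' r τ) ∧
      ∀ x, |Q v p b φ L' r τ x| ≤ stepBound A B M C c Cd L' K x := by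
  have := FiniteDimensional.complete ℝ E
  have hr' : r ∈ Icc a b := Ico_subset_Icc_self hr
  have hexp := integrable_exp_norm (E := E) hc
  have hint : ∀ f : E → ℝ, Continuous f → (∀ x, |f x| ≤ 1) →
      Integrable fun x => f x * p r x := fun f hf hfb => by
    refine (hexp.const_mul C).mono' (hf.mul (h.p_cont r hr')).aestronglyMeasurable
      (ae_of_all _ fun x => ?_)
    rw [norm_mul, Real.norm_eq_abs, Real.norm_eq_abs]
    exact (mul_le_of_le_one_left (abs_nonneg _) (hfb x)).trans (hC r hr' x).1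
  simp only [le_min_iff] at hτle
  obtain ⟨h1, h2, h3, h4⟩ := hτle
  have hs : r + τ ∈ Icc a b := ⟨by linarith [hr'.1], by linarith⟩
  have hτK : τ * K ≤ 1 / 2 := by
    have := (le_div_iff₀ (by positivity)).1 h3; linarith
  have hτC : τ * Cd ≤ 1 / 2 := by
    have := (le_div_iff₀ (by positivity)).1 h4; linarith
  set T := fun x => x + τ • v r x
  have hTd : ∀ x, HasFDerivAt T (ContinuousLinearMap.id ℝ E + τ • fderiv ℝ (v r) x) x := fun x =>
    (hasFDerivAt_id x).add ((h.diff r hr' x).hasFDerivAt.const_smul τ)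
  have hTinj : Function.Injective T := fun x y hxy => by
    have e : x - y = τ • (v r y - v r x) := by
      have := hxy; simp only [T] at this
      rw [smul_sub, sub_eq_sub_iff_add_eq_add, this]
      abel
    have : ‖x - y‖ ≤ τ * (K * ‖y - x‖) := by
      rw [e, norm_smul, Real.norm_eq_abs, abs_of_pos hτ]
      exact mul_le_mul_of_nonneg_left ((h.lip r hr').norm_sub_le y x) hτ.le
    rw [norm_sub_rev y x] at this
    refine sub_eq_zero.1 (norm_eq_zero.1 (le_antisymm ?_ (norm_nonneg _)))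
    nlinarith [norm_nonneg (x - y)]
  have hTsurj : Function.Surjective T := fun z => by
    have hct : ContractingWith (τ * K).toNNReal (fun x => z - τ • v r x) := by
      refine ⟨by rw [← NNReal.coe_lt_coe, Real.coe_toNNReal _ (by positivity)]; norm_num; linarith,
        LipschitzWith.of_dist_le_mul fun x y => ?_⟩
      rw [dist_sub_left, dist_smul₀, Real.norm_eq_abs, abs_of_pos hτ,
        Real.coe_toNNReal _ (by positivity), mul_assoc]
      exact mul_le_mul_of_nonneg_left ((h.lip r hr').dist_le_mul x y) hτ.le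
    refine ⟨hct.fixedPoint _, ?_⟩
    have := hct.fixedPoint_isFixedPt
    simp only [T]
    nth_rw 1 [← this]
    simp
  have hdp : ∀ x, |(ContinuousLinearMap.id ℝ E + τ • fderiv ℝ (v r) x).det - 1| ≤ τ * Cd :=
    fun x => hdet _ τ (norm_fderiv_le_of_lipschitz ℝ (h.lip r hr')) hτ.le h2
  have hdpos : ∀ x, |(ContinuousLinearMap.id ℝ E + τ • fderiv ℝ (v r) x).det| =
      (ContinuousLinearMap.id ℝ E + τ • fderiv ℝ (v r) x).det := fun x =>
    abs_of_nonneg (by linarith [(abs_le.1 (hdp x)).1])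
  have hcv : ∀ g : E → ℝ, ∫ z, g z =
      ∫ x, (ContinuousLinearMap.id ℝ E + τ • fderiv ℝ (v r) x).det * g (T x) := fun g => by
    have := integral_image_eq_integral_abs_det_fderiv_smul volume MeasurableSet.univ
      (fun x _ => (hTd x).hasFDerivWithinAt) hTinj.injOn g
    simpa [image_univ, hTsurj.range_eq, hdpos] using this
  -- bounds
  have hshift : ∀ x s : E, ‖s‖ ≤ τ * ‖v r x‖ →
      Real.exp (-c * ‖x + s‖) ≤ Real.exp (c * M) * Real.exp (-(c / 2) * ‖x‖) := fun x s hsn => by
    rw [← Real.exp_add]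
    refine Real.exp_le_exp.2 ?_
    have h5 : τ * ‖v r x‖ ≤ M + ‖x‖ / 2 := by
      have h6 := mul_le_mul_of_nonneg_left (hM r hr' x) hτ.le
      have h7 : τ * M ≤ M := mul_le_of_le_one_left hM0 h2
      have h8 : τ * (K * ‖x‖) ≤ ‖x‖ / 2 := by
        rw [← mul_assoc]; nlinarith [norm_nonneg x]
      linarith
    have h9 : ‖x‖ - ‖s‖ ≤ ‖x + s‖ := by
      have := norm_sub_norm_le x (-s); simpa using this
    nlinarith [hsn.trans h5]
  have hp1 : ∀ x, |p (r + τ) (T x)| ≤ C * (Real.exp (c * M) * Real.exp (-(c / 2) * ‖x‖)) :=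
    fun x => (hC _ hs _).1.trans (mul_le_mul_of_nonneg_left (hshift x _
      (by rw [norm_smul, Real.norm_eq_abs, abs_of_pos hτ])) hC0)
  have hp2 : ∀ x, |p (r + τ) (T x) - p r x| ≤ τ * ((2 + M + K * ‖x‖) *
      (C * (Real.exp (c * M) * Real.exp (-(c / 2) * ‖x‖)))) := fun x => by
    have hseg : ∀ z ∈ segment ℝ (r, x) (r + τ, T x), DifferentiableAt ℝ (Function.uncurry p) z ∧
        ‖fderiv ℝ (Function.uncurry p) z‖ ≤
          C * (Real.exp (c * M) * Real.exp (-(c / 2) * ‖x‖)) := by
      rintro ⟨t, z⟩ hz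
      rw [segment_eq_image'] at hz
      obtain ⟨θ, hθ, he⟩ := hz
      simp only [T, Prod.mk_sub_mk, add_sub_cancel_left, Prod.smul_mk, Prod.mk_add_mk,
        Prod.mk.injEq] at he
      obtain ⟨rfl, rfl⟩ := he
      have ht : r + θ • τ ∈ Icc a b := by
        rw [smul_eq_mul]
        constructor <;> nlinarith [hθ.1, hθ.2, hr'.1, hs.2]
      refine ⟨h.pdiff _ ht _, (hC _ ht _).2.trans (mul_le_mul_of_nonneg_left (hshift x _ ?_) hC0)⟩
      rw [norm_smul, norm_smul, Real.norm_eq_abs, Real.norm_eq_abs, abs_of_pos hτ,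
        abs_of_nonneg hθ.1]
      exact mul_le_of_le_one_left (by positivity) hθ.2
    have h5 := (convex_segment (r, x) (r + τ, T x)).norm_image_sub_le_of_norm_fderiv_le
      (fun z hz => (hseg z hz).1) (fun z hz => (hseg z hz).2) (left_mem_segment ℝ _ _)
      (right_mem_segment ℝ _ _)
    rw [← Real.norm_eq_abs]
    refine h5.trans ?_
    have h6 : ‖(r + τ, T x) - (r, x)‖ ≤ τ * (2 + M + K * ‖x‖) := by
      simp only [T, Prod.mk_sub_mk, add_sub_cancel_left, Prod.norm_def, Real.norm_eq_abs,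
        norm_smul, abs_of_pos hτ]
      refine max_le ?_ (mul_le_mul_of_nonneg_left ((hM r hr' x).trans (by linarith)) hτ.le)
      exact le_mul_of_one_le_right hτ.le (by nlinarith [norm_nonneg x, K.coe_nonneg])
    exact (mul_le_mul_of_nonneg_left h6 (by positivity)).trans_eq (by ring)
  have hbd : ∀ x, |f v p r τ x - p r x| / τ ≤ (Cd + 2) * (C * Real.exp (c * M) * ((2 + M + K * ‖x‖) *
      Real.exp (-(c / 2) * ‖x‖))) := fun x => by
    rw [div_le_iff₀ hτ, show f v p r τ x - p r x =
      ((ContinuousLinearMap.id ℝ E + τ • fderiv ℝ (v r) x).det - 1) * p (r + τ) (T x) +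
        (p (r + τ) (T x) - p r x) by simp only [f, T]; ring]
    refine (abs_add_le _ _).trans ?_
    rw [abs_mul]
    have h7 := mul_le_mul (hdp x) (hp1 x) (abs_nonneg _) (by positivity)
    have h8 := hp2 x
    have h9 : (1 : ℝ) ≤ 2 + M + K * ‖x‖ := by nlinarith [norm_nonneg x, K.coe_nonneg]
    have h10 : 0 ≤ τ * (C * (Real.exp (c * M) * Real.exp (-(c / 2) * ‖x‖))) := by positivity
    nlinarith [mul_le_mul_of_nonneg_left h9 (mul_nonneg hCd h10),
      mul_nonneg (le_trans zero_le_one h9) h10]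
  have hbd2 : ∀ x, L' * (‖flow v r (r + τ) x - x - τ • v r x‖ / τ) * |p r x| ≤
      L' * (A + M + (B + K) * ‖x‖) * (C * Real.exp (-c * ‖x‖)) := fun x => by
    refine mul_le_mul (mul_le_mul_of_nonneg_left ?_ (by positivity)) (hC r hr' x).1
      (abs_nonneg _) (by positivity)
    rw [div_le_iff₀ hτ]
    refine (norm_sub_le _ _).trans ?_
    rw [norm_smul, Real.norm_eq_abs, abs_of_pos hτ]
    have h7 := hdisp r (r + τ) hr'.1 (by linarith) hs.2 x
    have h8 := mul_le_mul_of_nonneg_left (hM r hr' x) hτ.le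
    linarith
  have hQb : ∀ x, |Q v p b φ L' r τ x| ≤ stepBound A B M C c Cd L' K x :=
    fun x => by
      simp only [Q, stepBound]
      rw [abs_of_nonneg (by positivity)]
      exact add_le_add ((mul_le_of_le_one_left (by positivity) (hψb _ _)).trans (hbd x)) (hbd2 x)
  have hfc : AEStronglyMeasurable (f v p r τ) volume := by
    refine AEStronglyMeasurable.mul ?_
      ((h.p_cont _ hs).comp (by have := (h.diff r hr').continuous; fun_prop)).aestronglyMeasurable
    exact ((ContinuousLinearMap.continuous_det.measurable).comp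
      (((measurable_fderiv ℝ (v r)).const_smul τ).const_add _)).aestronglyMeasurable
  have hflow : Continuous (flow v r (r + τ)) := by
    refine (LipschitzWith.of_dist_le_mul (K := (Real.exp (K * τ)).toNNReal) fun x y => ?_).continuous
    rw [dist_eq_norm, dist_eq_norm, Real.coe_toNNReal _ (Real.exp_pos _).le]
    simpa using flow_lipschitz (a := r) (b := r + τ) (by linarith)
      (fun t ht => h.lip t ⟨hr'.1.trans ht.1, ht.2.trans hs.2⟩) h.cont x y
  have hbound := integrable_stepBound (E := E) A B M C Cd L' K hc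
  have hQi : Integrable (Q v p b φ L' r τ) := by
    refine hbound.mono' ?_ (ae_of_all _ hQb)
    have h13 := (h.p_cont r hr').aestronglyMeasurable (μ := volume)
    unfold Q
    refine AEStronglyMeasurable.add ?_ ?_
    · exact ((continuous_abs.comp (g := fun z : ℝ => |z|) ((hψc _ hs).comp
        (by have := (h.diff r hr').continuous; fun_prop : Continuous T))).aestronglyMeasurable).mul
        ((continuous_abs.comp_aestronglyMeasurable (hfc.sub h13)).mul_const _)
    · exact ((((hflow.sub continuous_id).sub ((h.diff r hr').continuous.const_smul τ)).norm.div_const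
        τ).const_mul L').aestronglyMeasurable.mul (continuous_abs.comp_aestronglyMeasurable h13)
  refine ⟨?_, hQi, hQb⟩
  have e1 : I v p b φ (r + τ) = ∫ x, ψ v b φ (r + τ) (T x) * f v p r τ x := by
    simp only [I]
    rw [hcv]
    exact integral_congr_ae (ae_of_all _ fun x => by simp only [f, T]; ring)
  have e2 : I v p b φ r = ∫ x, ψ v b φ (r + τ) (flow v r (r + τ) x) * p r x := by
    simp only [I, ψ]
    refine integral_congr_ae (ae_of_all _ fun x => ?_)
    beta_reduce
    rw [flow_semigroup (by linarith : r ≤ r + τ) hs.2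
      (fun t ht => h.lip t ⟨hr'.1.trans ht.1, ht.2⟩) h.cont]
  have i1 : Integrable fun x => ψ v b φ (r + τ) (T x) * f v p r τ x := by
    refine (hbound.const_mul τ).add ((hexp.const_mul C)) |>.mono'
      (((hψc _ hs).comp (by have := (h.diff r hr').continuous; fun_prop)).aestronglyMeasurable.mul
        hfc) (ae_of_all _ fun x => ?_)
    rw [norm_mul, Real.norm_eq_abs, Real.norm_eq_abs]
    refine (mul_le_of_le_one_left (abs_nonneg _) (hψb _ _)).trans ?_
    simp only [Pi.add_apply, stepBound]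
    have h14 := hbd x
    rw [div_le_iff₀ hτ] at h14
    have h15 : 0 ≤ L' * (A + M + (B + K) * ‖x‖) * (C * Real.exp (-c * ‖x‖)) * τ := by positivity
    have h16 := abs_add_le (f v p r τ x - p r x) (p r x)
    rw [sub_add_cancel] at h16
    have h17 := (hC r hr' x).1
    linarith
  have i2 : Integrable fun x => ψ v b φ (r + τ) (flow v r (r + τ) x) * p r x :=
    hint _ ((hψc _ hs).comp hflow) fun x => hψb _ _
  rw [e1, e2, ← integral_sub i1 i2, div_le_iff₀ hτ, ← integral_mul_const, ← Real.norm_eq_abs]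
  refine (norm_integral_le_integral_norm _).trans (integral_mono (i1.sub i2).norm
    (hQi.mul_const τ) fun x => ?_)
  have e3 : ψ v b φ (r + τ) (T x) * f v p r τ x - ψ v b φ (r + τ) (flow v r (r + τ) x) * p r x =
      ψ v b φ (r + τ) (T x) * (f v p r τ x - p r x) +
        (ψ v b φ (r + τ) (T x) - ψ v b φ (r + τ) (flow v r (r + τ) x)) * p r x := by ring
  simp only [Real.norm_eq_abs, Q]
  rw [e3, add_mul, mul_assoc |ψ v b φ (r + τ) (x + τ • v r x)|, div_mul_cancel₀ _ hτ.ne', show L' * (‖flow v r (r + τ) x - x - τ • v r x‖ / τ) *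
    |p r x| * τ = L' * ‖flow v r (r + τ) x - x - τ • v r x‖ * |p r x| by field_simp]
  refine (abs_add_le _ _).trans (add_le_add ?_ ?_)
  · rw [abs_mul]
  · rw [abs_mul]
    refine mul_le_mul_of_nonneg_right ((hψL _ hs _ _).trans_eq ?_) (abs_nonneg _)
    simp only [T]
    rw [norm_sub_rev, sub_add_eq_sub_sub]

/-- The flow carries `p a` to `p b`, tested on bounded Lipschitz functions: the continuity
equation is needed only where the test is eventually seen. -/
theorem integral_flow {φ : E → ℝ} {L : ℝ≥0} (hφ : LipschitzWith L φ) (hb : ∀ x, |φ x| ≤ 1)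
    {S : Set E} (heqn : ∀ r ∈ Ico a b, ∀ x ∈ S, ContEq v p r x)
    (hloc : ∀ r ∈ Ico a b, ∀ x ∉ S,
      ∀ᶠ τ in 𝓝[>] (0 : ℝ), φ (flow v (r + τ) b (x + τ • v r x)) = 0) :
    ∫ x, φ (flow v a b x) * p a x = ∫ x, φ x * p b x := by
  have := FiniteDimensional.complete ℝ E
  obtain ⟨A, B, hA, hB, hdisp⟩ := h.disp
  obtain ⟨M, hM0, hM⟩ := h.speed
  obtain ⟨C, c, hc, hC⟩ := h.decay
  obtain ⟨Cd, hCd, hdet⟩ := det_near (E := E) K
  have hC0 : 0 ≤ C := by
    have h1 := (abs_nonneg _).trans (hC a (left_mem_Icc.2 h.le) 0).1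
    simpa using h1
  set L' : ℝ := L * Real.exp (K * (b - a))
  have hψb : ∀ r x, |ψ v b φ r x| ≤ 1 := fun r x => hb _
  have hψL : ∀ r ∈ Icc a b, ∀ x y, |ψ v b φ r x - ψ v b φ r y| ≤ L' * ‖x - y‖ := fun r hr x y => by
    rw [← Real.norm_eq_abs]
    refine (hφ.norm_sub_le _ _).trans ?_
    rw [show L' * ‖x - y‖ = L * (Real.exp (K * (b - a)) * ‖x - y‖) by ring]
    refine mul_le_mul_of_nonneg_left ((flow_lipschitz hr.2
      (fun t ht => h.lip t ⟨hr.1.trans ht.1, ht.2⟩) h.cont x y).trans ?_) L.coe_nonneg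
    gcongr
    exact hr.1
  have hψc : ∀ r ∈ Icc a b, Continuous (ψ v b φ r) := fun r hr => hφ.continuous.comp (h.flow_cont r hr)
  have hexp := integrable_exp_norm (E := E) hc
  suffices hconst : ∀ r ∈ Icc a b, I v p b φ r = I v p b φ a by
    have := hconst b (right_mem_Icc.2 h.le)
    simpa [I, ψ, flow_self] using this.symm
  have hIc : ContinuousOn (I v p b φ) (Icc a b) := by
    unfold I
    refine continuousOn_of_dominated (bound := fun x => C * Real.exp (-c * ‖x‖))
      (fun r hr => ((hψc r hr).mul (h.p_cont r hr)).aestronglyMeasurable)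
      (fun r hr => ae_of_all _ fun x => ?_) (hexp.const_mul C) (ae_of_all _ fun x => ?_)
    · rw [norm_mul, Real.norm_eq_abs, Real.norm_eq_abs]
      exact (mul_le_of_le_one_left (abs_nonneg _) (hψb r x)).trans (hC r hr x).1
    · refine ContinuousOn.mul ?_ fun r hr => ((h.pdiff r hr x).continuousAt.comp
        (f := fun s => (s, x)) (by fun_prop)).continuousWithinAt
      refine (LipschitzOnWith.of_dist_le_mul (K := (L' * (A + B * ‖x‖)).toNNReal)
        fun r hr s hs => ?_).continuousOn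
      have key : ∀ r ∈ Icc a b, ∀ s ∈ Icc a b, r ≤ s →
          |ψ v b φ r x - ψ v b φ s x| ≤ L' * (A + B * ‖x‖) * (s - r) := by
        intro r hr s hs hrs
        have e : ψ v b φ r x = ψ v b φ s (flow v r s x) := by
          simp only [ψ]
          rw [flow_semigroup hrs hs.2 (fun t ht => h.lip t ⟨hr.1.trans ht.1, ht.2⟩) h.cont]
        rw [e]
        refine (hψL s hs _ _).trans ?_
        calc L' * ‖flow v r s x - x‖ ≤ L' * ((s - r) * (A + B * ‖x‖)) :=
              mul_le_mul_of_nonneg_left (hdisp r s hr.1 hrs hs.2 x) (by positivity)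
          _ = _ := by ring
      rw [Real.dist_eq, Real.dist_eq, Real.coe_toNNReal _ (by positivity)]
      rcases le_total r s with hrs | hrs
      · rw [abs_sub_comm r s, abs_of_nonneg (sub_nonneg.2 hrs)]
        exact key r hr s hs hrs
      · rw [abs_sub_comm, abs_of_nonneg (sub_nonneg.2 hrs)]
        exact key s hs r hr hrs
  refine constant_of_has_deriv_right_zero hIc fun r hr => ?_
  rw [hasDerivWithinAt_iff_tendsto_slope, Ici_sdiff_left]
  have hr' : r ∈ Icc a b := Ico_subset_Icc_self hr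
  set τ0 : ℝ := min (b - r) (min 1 (min (1 / (2 * (K + 1))) (1 / (2 * (Cd + 1)))))
  have hτ0 : 0 < τ0 := by
    have := sub_pos.2 hr.2
    positivity
  have step := fun (τ : ℝ) (hτ : 0 < τ) (hτle : τ ≤ τ0) =>
    h.euler_step hr (φ := φ) hA hB hM0 hC0 hc hCd (by positivity : 0 ≤ L') hdisp hM hC hdet hψb hψL
      hψc hτ hτle
  -- the limit
  have hpt : ∀ x, Tendsto (fun τ => Q v p b φ L' r τ x) (𝓝[>] 0) (𝓝 0) := by
    intro x
    have hd1 : x ∈ S → HasDerivAt (fun τ => f v p r τ x) 0 0 := by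
      intro hxS
      have h2 : HasDerivAt (fun τ : ℝ => p (r + τ) (x + τ • v r x))
          (fderiv ℝ (Function.uncurry p) (r, x) (1, v r x)) 0 := by
        have h3 : HasDerivAt (fun τ : ℝ => (r + τ, x + τ • v r x)) (1, v r x) 0 :=
          ((hasDerivAt_id (0 : ℝ)).const_add r).prodMk
            ((((hasDerivAt_id (0 : ℝ)).smul_const (v r x)).const_add x).congr_deriv (one_smul _ _))
        exact HasFDerivAt.comp_hasDerivAt (f := fun τ : ℝ => (r + τ, x + τ • v r x)) 0
          (by simpa using (h.pdiff r hr' x).hasFDerivAt) h3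
      exact ((det_deriv (fderiv ℝ (v r) x)).mul h2).congr_deriv (by
        simp only [zero_smul, add_zero, ContinuousLinearMap.det]
        simpa [ContEq, add_comm] using heqn r hr x hxS)
    have h6 : Tendsto (fun τ => |ψ v b φ (r + τ) (x + τ • v r x)| *
        (|f v p r τ x - p r x| / τ)) (𝓝[>] 0) (𝓝 0) := by
      by_cases hxS : x ∈ S
      · have h5 := (hd1 hxS).hasDerivWithinAt (s := Ici 0)
        rw [hasDerivWithinAt_iff_tendsto_slope, Ici_sdiff_left] at h5
        have h7 := h5.abs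
        rw [abs_zero] at h7
        refine squeeze_zero' ?_ ?_ h7
        · filter_upwards [self_mem_nhdsWithin] with τ hτ
          have hτ' : (0 : ℝ) < τ := hτ
          positivity
        · filter_upwards [self_mem_nhdsWithin] with τ hτ
          rw [slope_def_field, sub_zero, abs_div, abs_of_pos (show (0 : ℝ) < τ from hτ)]
          refine (mul_le_of_le_one_left (div_nonneg (abs_nonneg _) (le_of_lt hτ)) (hψb _ _)).trans_eq ?_
          simp [f, ContinuousLinearMap.det]
      · refine tendsto_const_nhds.congr' ?_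
        filter_upwards [hloc r hr x hxS] with τ hτ
        simp [ψ, hτ]
    obtain ⟨α, hα0, hα⟩ := exists_solves hr'.2 (fun t ht => h.lip t ⟨hr'.1.trans ht.1, ht.2⟩)
      h.cont x
    have h8 : Tendsto (fun τ => ‖flow v r (r + τ) x - x - τ • v r x‖ / τ) (𝓝[>] 0) (𝓝 0) := by
      have h9 := (hα r (left_mem_Icc.2 hr'.2)).mono_of_mem_nhdsWithin
        (Icc_mem_nhdsGE hr.2)
      rw [hα0, hasDerivWithinAt_iff_tendsto_slope, Ici_sdiff_left] at h9
      have h10 : Tendsto (fun τ => r + τ) (𝓝[>] (0 : ℝ)) (𝓝[>] r) :=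
        tendsto_nhdsWithin_iff.2 ⟨((continuous_const_add r).tendsto' 0 r (add_zero r)).mono_left
          nhdsWithin_le_nhds, eventually_nhdsWithin_of_forall fun τ (hτ : (0 : ℝ) < τ) =>
            show r < r + τ by linarith⟩
      have h11 := ((h9.comp h10).sub_const (v r x)).norm
      rw [sub_self, norm_zero] at h11
      refine h11.congr' ?_
      filter_upwards [self_mem_nhdsWithin, Ioc_mem_nhdsGT (sub_pos.2 hr.2)] with τ hτ hτb
      have hτ' : (0 : ℝ) < τ := hτ
      have e : flow v r (r + τ) x = α (r + τ) := by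
        rw [← hα0]
        exact flow_eq (by linarith) (fun t ht => h.lip t ⟨hr'.1.trans ht.1,
          ht.2.trans (by linarith [hτb.2])⟩) (hα.mono le_rfl (by linarith [hτb.2]))
      simp only [Function.comp_apply, slope_def_module, add_sub_cancel_left, e, hα0]
      rw [eq_div_iff hτ'.ne', ← abs_of_pos hτ', ← Real.norm_eq_abs, mul_comm, ← norm_smul,
        smul_sub, smul_smul, Real.norm_eq_abs, abs_of_pos hτ', mul_inv_cancel₀ hτ'.ne', one_smul]
    have h12 := h6.add ((h8.const_mul L').mul_const |p r x|)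
    simpa [Q] using h12
  have hQint : Tendsto (fun τ => ∫ x, Q v p b φ L' r τ x) (𝓝[>] 0) (𝓝 0) := by
    have hev : ∀ᶠ τ in 𝓝[>] (0 : ℝ), τ ∈ Ioc 0 τ0 := Ioc_mem_nhdsGT hτ0
    suffices h0 : Tendsto (fun τ => ∫ x, Q v p b φ L' r τ x) (𝓝[>] 0) (𝓝 (∫ _x : E, (0 : ℝ))) by
      simpa using h0
    refine tendsto_integral_filter_of_dominated_convergence (stepBound A B M C c Cd L' K) ?_ ?_ ?_ (ae_of_all _ hpt)
    · filter_upwards [hev] with τ hτ
      exact (step τ hτ.1 hτ.2).2.1.aestronglyMeasurable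
    · filter_upwards [hev] with τ hτ
      exact ae_of_all _ fun x => by rw [Real.norm_eq_abs]; exact (step τ hτ.1 hτ.2).2.2 x
    · exact integrable_stepBound A B M C Cd L' K hc
  have h14 : Tendsto (fun τ => |I v p b φ (r + τ) - I v p b φ r| / τ) (𝓝[>] 0) (𝓝 0) := by
    refine tendsto_of_tendsto_of_tendsto_of_le_of_le' tendsto_const_nhds hQint ?_ ?_
    · filter_upwards [self_mem_nhdsWithin] with τ hτ
      have hτ' : (0 : ℝ) < τ := hτ
      positivity
    · filter_upwards [Ioc_mem_nhdsGT hτ0] with τ hτ using (step τ hτ.1 hτ.2).1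
  have h15 : Tendsto (fun s => s - r) (𝓝[>] r) (𝓝[>] (0 : ℝ)) :=
    tendsto_nhdsWithin_iff.2 ⟨((continuous_sub_right r).tendsto' r 0 (sub_self r)).mono_left
      nhdsWithin_le_nhds, eventually_nhdsWithin_of_forall fun s (hs : r < s) =>
        show (0 : ℝ) < s - r by linarith⟩
  rw [tendsto_zero_iff_abs_tendsto_zero]
  refine (h14.comp h15).congr' ?_
  filter_upwards [self_mem_nhdsWithin] with s hs
  have hs' : r < s := hs
  simp only [Function.comp_apply, add_sub_cancel, slope_def_field, abs_div,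
    abs_of_pos (sub_pos.2 hs')]

/-- The flow pushes the measure with density `p a` to the one with density `p b`. -/
theorem map_flow (heqn : ∀ r ∈ Ico a b, ∀ x, ContEq v p r x)
    (ha : ∀ x, 0 ≤ p a x) (hb' : ∀ x, 0 ≤ p b x) :
    (volume.withDensity fun x => ENNReal.ofReal (p a x)).map (flow v a b) =
      volume.withDensity fun x => ENNReal.ofReal (p b x) := by
  obtain ⟨C, c, hc, hC⟩ := h.decay
  have hint : ∀ t ∈ Icc a b, Integrable (p t) := fun t ht =>
    ((integrable_exp_norm (E := E) hc).const_mul C).mono' (h.p_cont t ht).aestronglyMeasurable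
      (ae_of_all _ fun x => by simpa using (hC t ht x).1)
  have hfin : ∀ t ∈ Icc a b, (∀ x, 0 ≤ p t x) →
      IsFiniteMeasure (volume.withDensity fun x => ENNReal.ofReal (p t x)) := fun t ht h0 =>
    isFiniteMeasure_withDensity_ofReal (hint t ht).2
  have hfa := hfin a (left_mem_Icc.2 h.le) ha
  have hfb := hfin b (right_mem_Icc.2 h.le) hb'
  have hm := (h.flow_cont a (left_mem_Icc.2 h.le)).measurable
  have key : ∀ (φ : E → ℝ) (L : ℝ≥0), LipschitzWith L φ → (∀ x, |φ x| ≤ 1) →
      ∫ x, φ x ∂(volume.withDensity fun x => ENNReal.ofReal (p a x)).map (flow v a b) =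
        ∫ x, φ x ∂volume.withDensity fun x => ENNReal.ofReal (p b x) := fun φ L hL hφ => by
    rw [integral_map hm.aemeasurable hL.continuous.aestronglyMeasurable,
      integral_withDensity_eq_integral_toReal_smul
        (h.p_cont a (left_mem_Icc.2 h.le)).measurable.ennreal_ofReal
        (ae_of_all _ fun x => ENNReal.ofReal_lt_top),
      integral_withDensity_eq_integral_toReal_smul
        (h.p_cont b (right_mem_Icc.2 h.le)).measurable.ennreal_ofReal
        (ae_of_all _ fun x => ENNReal.ofReal_lt_top)]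
    simpa [ENNReal.toReal_ofReal, ha, hb', mul_comm] using h.integral_flow hL hφ
      (S := univ) (fun r hr x _ => heqn r hr x) (fun r _ x hx => absurd (mem_univ x) hx)
  refine ext_of_generate_finite _ (by rw [BorelSpace.measurable_eq (α := E),
    borel_eq_generateFrom_isClosed]) isPiSystem_isClosed (fun F hF => ?_) ?_
  · have hδ : ∀ n : ℕ, (0 : ℝ) < 1 / (n + 1) := fun n => by positivity
    have h1 := tendsto_integral_thickenedIndicator_of_isClosed
      ((volume.withDensity fun x => ENNReal.ofReal (p a x)).map (flow v a b)) hF hδ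
      tendsto_one_div_add_atTop_nhds_zero_nat
    have h2 := tendsto_integral_thickenedIndicator_of_isClosed
      (volume.withDensity fun x => ENNReal.ofReal (p b x)) hF hδ
      tendsto_one_div_add_atTop_nhds_zero_nat
    have e : ∀ n : ℕ, ∫ x, (thickenedIndicator (hδ n) F x : ℝ)
          ∂(volume.withDensity fun x => ENNReal.ofReal (p a x)).map (flow v a b) =
        ∫ x, (thickenedIndicator (hδ n) F x : ℝ)
          ∂volume.withDensity fun x => ENNReal.ofReal (p b x) := fun n => by
      refine key _ _ (LipschitzWith.of_dist_le_mul fun x y => (lipschitzWith_thickenedIndicator (hδ n) F).dist_le_mul x y) fun x => ?_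
      rw [abs_of_nonneg (NNReal.coe_nonneg _)]
      exact NNReal.coe_le_one.2 (thickenedIndicator_le_one (hδ n) F x)
    simp only [e] at h1
    exact (measureReal_eq_measureReal_iff).1 (tendsto_nhds_unique h1 h2)
  · have h1 := key (fun _ => 1) 0 (LipschitzWith.const _) (fun _ => by simp)
    simp only [integral_const, smul_eq_mul, mul_one] at h1
    exact (measureReal_eq_measureReal_iff).1 h1

end Transportable

omit [NormedSpace ℝ E] [FiniteDimensional ℝ E] in
/-- Finite measures that agree on compactly supported Lipschitz tests are equal. -/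
theorem ext_of_compact_tests [MeasurableSpace E] [BorelSpace E] {μ ν : Measure E}
    [IsFiniteMeasure μ] [IsFiniteMeasure ν]
    (h : ∀ (φ : E → ℝ) (L : ℝ≥0) (R : ℝ), LipschitzWith L φ → (∀ x, |φ x| ≤ 1) →
      (∀ x, R < ‖x‖ → φ x = 0) → ∫ x, φ x ∂μ = ∫ x, φ x ∂ν) : μ = ν := by
  have hδ : ∀ n : ℕ, (0 : ℝ) < 1 / (n + 1) := fun n => by positivity
  have hK : ∀ F : Set E, IsClosed F → ∀ R : ℝ, μ (F ∩ Metric.closedBall 0 R) =
      ν (F ∩ Metric.closedBall 0 R) := fun F hF R => by
    have hc : IsClosed (F ∩ Metric.closedBall 0 R) := hF.inter Metric.isClosed_closedBall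
    have e : ∀ n : ℕ, ∫ x, (thickenedIndicator (hδ n) (F ∩ Metric.closedBall 0 R) x : ℝ) ∂μ =
        ∫ x, (thickenedIndicator (hδ n) (F ∩ Metric.closedBall 0 R) x : ℝ) ∂ν := fun n => by
      refine h _ _ (R + 1 / (n + 1)) (LipschitzWith.of_dist_le_mul fun x y =>
        (lipschitzWith_thickenedIndicator (hδ n) _).dist_le_mul x y) (fun x => ?_) (fun x hx => ?_)
      · rw [abs_of_nonneg (NNReal.coe_nonneg _)]
        exact NNReal.coe_le_one.2 (thickenedIndicator_le_one (hδ n) _ x)
      · rw [thickenedIndicator_zero (hδ n) _ ?_, NNReal.coe_zero]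
        intro hmem
        rw [Metric.mem_thickening_iff] at hmem
        obtain ⟨z, hz, hd⟩ := hmem
        have h1 := hz.2
        rw [Metric.mem_closedBall, dist_zero_right] at h1
        have h2 := norm_le_norm_add_norm_sub' x z
        rw [dist_eq_norm] at hd
        linarith
    have h1 := tendsto_integral_thickenedIndicator_of_isClosed μ hc hδ
      tendsto_one_div_add_atTop_nhds_zero_nat
    simp only [e] at h1
    exact (measureReal_eq_measureReal_iff).1 (tendsto_nhds_unique h1
      (tendsto_integral_thickenedIndicator_of_isClosed ν hc hδ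
        tendsto_one_div_add_atTop_nhds_zero_nat))
  have hall : ∀ F : Set E, IsClosed F → μ F = ν F := fun F hF => by
    have hm : Monotone fun n : ℕ => F ∩ Metric.closedBall (0 : E) n := fun m n hmn =>
      inter_subset_inter_right _ (Metric.closedBall_subset_closedBall (Nat.cast_le.2 hmn))
    have hU : ⋃ n : ℕ, F ∩ Metric.closedBall (0 : E) n = F := by
      rw [← inter_iUnion, Metric.iUnion_closedBall_nat, inter_univ]
    rw [← hU, hm.measure_iUnion, hm.measure_iUnion]
    simp only [hK F hF]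
  exact ext_of_generate_finite _ (by rw [BorelSpace.measurable_eq (α := E),
    borel_eq_generateFrom_isClosed]) isPiSystem_isClosed (fun F hF => hall F hF)
    (hall univ isClosed_univ)

end Vale.Agent.P347.Zero
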