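import Vale.Agent.P347.Zero.FlowBasics
import Vale.Agent.P347.Zero.Transport

/-!
The exact plain scale flow, and its contraction in the starting point.
-/

open MeasureTheory ProbabilityTheory Set Filter
open scoped RealInnerProductSpace Topology ContDiff NNReal

namespace Vale.Agent.P347.Zero

variable {d : ℕ} {V : EE d → ℝ} {s R : ℝ}

lemma opTrace_eq_sum (A : EE d →L[ℝ] EE d) :
    opTrace A = ∑ i, ⟪A (Calc.ev i), Calc.ev i⟫ := by
  rw [opTrace, LinearMap.trace_eq_sum_inner (A : EE d →ₗ[ℝ] EE d)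
    (EuclideanSpace.basisFun (Fin d) ℝ)]
  refine Finset.sum_congr rfl fun i _ => ?_
  rw [real_inner_comm, EuclideanSpace.basisFun_apply]
  rfl

/-- The plain field with time clamped to [0, R]. -/
noncomputable def fwdC (V : EE d → ℝ) (s : ℝ) (y : EE d) (R r : ℝ) (ξ : EE d) : EE d :=
  fwdField V s y (clamp R r) ξ

lemma fwdC_lip (hV : Admissible V) (hf : FlowReg V s) (hs : 0 < s) (hR0 : 0 ≤ R)
    (hR : R ^ 2 ≤ 3 * s / 4) (y : EE d) (r : ℝ) :
    LipschitzWith (2 * R).toNNReal (fwdC V s y R r) := by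
  refine LipschitzWith.of_dist_le_mul fun a b => ?_
  obtain ⟨h1, h2⟩ := scale_bounds hR (clamp_mem hR0 r)
  rw [dist_eq_norm, dist_eq_norm, Real.coe_toNNReal _ (by linarith)]
  simp only [fwdC, fwdField]
  rw [neg_sub_neg]
  refine (hf.lip hV (by linarith) h2 _ _).trans ?_
  rw [add_sub_add_left_eq_sub, ← smul_sub, norm_smul, Real.norm_eq_abs,
    abs_of_nonneg (clamp_mem hR0 r).1, norm_sub_rev, ← mul_assoc]
  exact mul_le_mul_of_nonneg_right (by linarith [(clamp_mem hR0 r).2]) (norm_nonneg _)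

lemma fwdC_continuous (hV : Admissible V) (hs : 0 < s) (hR0 : 0 ≤ R) (hR : R ^ 2 ≤ 3 * s / 4)
    (y : EE d) : Continuous (Function.uncurry (fwdC V s y R)) := by
  refine continuous_iff_continuousAt.2 fun p => ContinuousAt.neg ?_
  have h1 := scale_bounds hR (clamp_mem hR0 p.1)
  exact (contDiffAt_Dv hV (p := (s - clamp R p.1 ^ 2, y + clamp R p.1 • p.2))
    (by show (0 : ℝ) < s - clamp R p.1 ^ 2; linarith [h1.1])).continuousAt.comp
      (f := fun p : ℝ × EE d => (s - clamp R p.1 ^ 2, y + clamp R p.1 • p.2)) (by fun_prop)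

lemma fwdC_transportable (hV : Admissible V) (hf : FlowReg V s) (hs : 0 < s) (hs1 : s ≤ 1 / 16)
    (hR0 : 0 ≤ R) (hR : R ^ 2 ≤ 3 * s / 4) (y : EE d) {r : ℝ} (hr : r ∈ Icc 0 R) :
    Transportable (fwdC V s y R) (qd V s y) (2 * R).toNNReal 0 r := by
  obtain ⟨C, hC0, hC⟩ := qd_decay hV hf hs hs1 hR0 hR y
  have hsub : ∀ t ∈ Icc 0 r, t ∈ Icc 0 R := fun t ht => ⟨ht.1, ht.2.trans hr.2⟩
  refine
    { le := hr.1
      lip := fun t _ => fwdC_lip hV hf hs hR0 hR y t
      cont := fwdC_continuous hV hs hR0 hR y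
      diff := fun t _ x => ?_
      pdiff := fun t ht x => ?_
      decay := ⟨C, 1, one_pos, fun t ht x => ?_⟩ }
  · have h1 := scale_bounds hR (clamp_mem hR0 t)
    exact (((differentiableAt_Dv hV (by linarith [h1.1]) _).comp x
      (f := fun ξ : EE d => y + clamp R t • ξ) (by fun_prop))).neg
  · have h1 := scale_bounds hR (hsub t ht)
    obtain ⟨L, hL, -⟩ := qd_fderiv hV (s := s) (r := t) (by linarith [h1.1]) y x
    exact hL.differentiableAt
  · obtain ⟨h1, h2⟩ := hC t (hsub t ht) x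
    rw [neg_mul, one_mul]
    refine ⟨?_, h2⟩
    rw [abs_of_nonneg (qd_nonneg hV hs y t x)]
    exact le_trans (le_mul_of_one_le_right (qd_nonneg hV hs y t x)
      (one_le_pow₀ (le_add_of_nonneg_right (norm_nonneg _)))) h1

lemma fwdC_eqn (hV : Admissible V) (hs : 0 < s) (hR : R ^ 2 ≤ 3 * s / 4) (y : EE d) {t : ℝ}
    (ht : t ∈ Icc 0 R) (x : EE d) : ContEq (fwdC V s y R) (qd V s y) t x := by
  have hu : 0 < s - t ^ 2 := by linarith [(scale_bounds hR ht).1]
  obtain ⟨L, hL, hLv⟩ := qd_fderiv hV hu y x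
  have hfd : fderiv ℝ (fwdC V s y R t) x = -(t • hess2 V (s - t ^ 2) (y + t • x)) := by
    have h1 : HasFDerivAt (fun ξ : EE d => -(Dv V (s - t ^ 2) (y + t • ξ)))
        (-((hess2 V (s - t ^ 2) (y + t • x)).comp (t • ContinuousLinearMap.id ℝ (EE d)))) x :=
      ((differentiableAt_Dv hV hu _).hasFDerivAt.comp (f := fun ξ : EE d => y + t • ξ) x
        (((hasFDerivAt_id x).const_smul t).const_add y)).neg
    rw [show fwdC V s y R t = fun ξ : EE d => -(Dv V (s - t ^ 2) (y + t • ξ)) by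
      funext ξ; rw [fwdC, clamp_eq ht]; rfl, h1.fderiv]
    ext w; simp
  rw [ContEq, hL.fderiv, hLv, hfd, opTrace_eq_sum, fwdC, clamp_eq ht, fwdField]
  simp only [neg_apply, smul_apply, inner_neg_left, real_inner_smul_left, inner_add_right,
    real_inner_smul_right, inner_neg_right, one_smul, Finset.sum_neg_distrib, ← Finset.mul_sum]
  rw [real_inner_comm x, real_inner_self_eq_norm_sq]
  ring

/-- The plain flow exists. -/
theorem exists_fwd (hV : Admissible V) (hf : FlowReg V s) (hs : 0 < s) (hs1 : s ≤ 1 / 16)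
    (hR0 : 0 ≤ R) (hR : R ^ 2 ≤ 3 * s / 4) (y : EE d) : ∃ ξ, IsFwd V s y R ξ := by
  have hc := fwdC_continuous hV hs hR0 hR y
  have hl := fun (t : ℝ) => fwdC_lip hV hf hs hR0 hR y t
  refine ⟨fun r W => flow (fwdC V s y R) 0 r W, fun W => flow_self W, fun W t ht => ?_,
    fun r hr => ?_, fun r hr => ?_⟩
  · obtain ⟨α, h0, hα⟩ := exists_solves hR0 (fun t _ => hl t) hc W
    have e : ∀ u ∈ Icc 0 R, flow (fwdC V s y R) 0 u W = α u := fun u hu => by
      rw [← h0]; exact flow_eq hu.1 (fun t _ => hl t) (hα.mono le_rfl hu.2)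
    have h1 := hα t ht
    rw [fwdC, clamp_eq ht] at h1
    simp only []
    rw [e t ht]
    exact h1.congr e (e t ht)
  · refine (LipschitzWith.of_dist_le_mul (K := (Real.exp ((2 * R).toNNReal * (r - 0))).toNNReal)
      fun a b => ?_).continuous
    rw [dist_eq_norm, dist_eq_norm, Real.coe_toNNReal _ (Real.exp_pos _).le]
    exact flow_lipschitz hr.1 (fun t _ => hl t) hc a b
  · have h := (fwdC_transportable hV hf hs hs1 hR0 hR y hr).map_flow
      (fun t ht x => fwdC_eqn hV hs hR y ⟨ht.1, (le_of_lt ht.2).trans hr.2⟩ x)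
      (fun x => qd_nonneg hV hs y 0 x) (fun x => qd_nonneg hV hs y r x)
    rw [qd_zero hV hs, ← post_eq_qd hV (s := s) (r := r)
      (by linarith [(scale_bounds hR hr).1]) y] at h
    rw [gam_withDensity]
    exact h

/-- Flows from two base points with the same input approach each other. -/
theorem fwd_contract (hV : Admissible V) (hf : FlowReg V s) (hs : 0 < s) (hs1 : s ≤ 1 / 16)
    (hR0 : 0 ≤ R) (hR : R ^ 2 ≤ 3 * s / 4) {y y' : EE d} {ξ ξ' : ℝ → EE d → EE d}
    (h : IsFwd V s y R ξ) (h' : IsFwd V s y' R ξ') (W : EE d) :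
    ‖(y + R • ξ R W) - (y' + R • ξ' R W)‖ ≤ (1 - R ^ 2 / 4) * ‖y - y'‖ := by
  set g := y - y' with hg
  set ζ := fun r => ξ r W - ξ' r W with hζ
  set A := fun r => Dv V (s - r ^ 2) (y + r • ξ r W) - Dv V (s - r ^ 2) (y' + r • ξ' r W) with hA
  have hR14 := len_le_one hs1 hR0 hR
  have hR2 : R ^ 2 ≤ 3 / 64 := by linarith
  have hd : ∀ r ∈ Icc 0 R, HasDerivWithinAt ζ (-(A r)) (Icc 0 R) r := fun r hr => by
    refine ((h.solves W r hr).sub (h'.solves W r hr)).congr_deriv ?_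
    simp only [fwdField, hA]; abel
  have hζ0 : ζ 0 = 0 := by simp [hζ, h.init, h'.init]
  have hζc : ContinuousOn ζ (Icc 0 R) := fun r hr => (hd r hr).continuousWithinAt
  obtain ⟨t0, ht0, hmax⟩ := isCompact_Icc.exists_isMaxOn (nonempty_Icc.2 hR0) hζc.norm
  set m := ‖ζ t0‖
  have hm : ∀ r ∈ Icc 0 R, ‖ζ r‖ ≤ m := fun r hr => hmax hr
  have hu : ∀ r ∈ Icc 0 R, 0 < s - r ^ 2 ∧ s - r ^ 2 ≤ s := fun r hr =>
    ⟨by linarith [(scale_bounds hR hr).1], (scale_bounds hR hr).2⟩
  have hq : ∀ r, (y + r • ξ r W) - (y' + r • ξ' r W) = g + r • ζ r := fun r => by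
    simp only [hg, hζ, smul_sub]; abel
  have hA1 : ∀ r ∈ Icc 0 R, ‖A r‖ ≤ 2 * (‖g‖ + R * m) := fun r hr => by
    refine (hf.lip hV (hu r hr).1 (hu r hr).2 _ _).trans ?_
    rw [hq]
    refine mul_le_mul_of_nonneg_left ((norm_add_le _ _).trans (add_le_add le_rfl ?_)) zero_le_two
    rw [norm_smul, Real.norm_eq_abs, abs_of_nonneg hr.1]
    exact mul_le_mul hr.2 (hm r hr) (norm_nonneg _) hR0
  have hm1 : m ≤ 2 * (‖g‖ + R * m) * R := by
    have := norm_image_sub_le_of_norm_deriv_le_segment' (fun r hr => hd r hr)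
      (fun r hr => by rw [norm_neg]; exact hA1 r (Ico_subset_Icc_self hr)) t0 ht0
    rw [hζ0, sub_zero, sub_zero] at this
    exact this.trans (mul_le_mul_of_nonneg_left ht0.2 (by positivity))
  have hm2 : m ≤ 9 / 4 * R * ‖g‖ := by
    nlinarith [norm_nonneg g, norm_nonneg (ζ t0)]
  -- the component along g
  set c := (11 / 16 - 9 / 2 * R ^ 2) * ‖g‖ ^ 2
  have hAg : ∀ r ∈ Icc 0 R, c ≤ ⟪g, A r⟫ := fun r hr => by
    obtain ⟨h1, h2⟩ := hu r hr
    set x' := y' + r • ξ' r W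
    set B := Dv V (s - r ^ 2) (x' + g) - Dv V (s - r ^ 2) x'
    have hB : (1 - 5 * (s - r ^ 2)) * ‖g‖ ^ 2 ≤ ⟪g, B⟫ := by
      have hder : ∀ τ : ℝ, HasDerivAt (fun τ => ⟪g, Dv V (s - r ^ 2) (x' + τ • g)⟫)
          ⟪g, hess2 V (s - r ^ 2) (x' + τ • g) g⟫ τ := fun τ => by
        have h3 : HasDerivAt (fun τ : ℝ => x' + τ • g) g τ :=
          (((hasDerivAt_id τ).smul_const g).const_add x').congr_deriv (one_smul _ _)
        exact (innerSL ℝ g).hasFDerivAt.comp_hasDerivAt τ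
          ((differentiableAt_Dv hV h1 _).hasFDerivAt.comp_hasDerivAt (f := fun τ : ℝ => x' + τ • g)
            τ h3)
      have := mul_sub_le_image_sub_of_le_deriv
        (fun τ => (hder τ).differentiableAt) (fun τ => by
          rw [(hder τ).deriv, real_inner_comm]; exact hf.mono _ h1 h2 (x' + τ • g) g) zero_le_one
      simpa [B, inner_sub_right] using this
    have hAB : ‖A r - B‖ ≤ 2 * (R * m) := by
      have e : A r - B = Dv V (s - r ^ 2) (x' + g + r • ζ r) - Dv V (s - r ^ 2) (x' + g) := by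
        have : y + r • ξ r W = x' + g + r • ζ r := by
          rw [add_assoc, ← hq r]; simp [x']
        simp only [hA, B, this, x']; abel
      rw [e]
      refine (hf.lip hV h1 h2 _ _).trans (mul_le_mul_of_nonneg_left ?_ zero_le_two)
      rw [add_sub_cancel_left, norm_smul, Real.norm_eq_abs, abs_of_nonneg hr.1]
      exact mul_le_mul hr.2 (hm r hr) (norm_nonneg _) hR0
    have h5 := (abs_le.1 (abs_real_inner_le_norm g (A r - B))).1
    rw [inner_sub_right] at h5
    have h6 := mul_le_mul_of_nonneg_left hAB (norm_nonneg g)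
    have h7 := mul_le_mul_of_nonneg_left hm2 (mul_nonneg hR0 (norm_nonneg g))
    have h8 : (11 / 16 : ℝ) * ‖g‖ ^ 2 ≤ (1 - 5 * (s - r ^ 2)) * ‖g‖ ^ 2 :=
      mul_le_mul_of_nonneg_right (by linarith) (sq_nonneg _)
    simp only [c]
    linarith
  have hgz : ⟪g, ζ R⟫ ≤ -c * R := by
    have hd2 : ∀ r ∈ Icc 0 R,
        HasDerivWithinAt (fun r => ⟪g, ζ r⟫ + c * r) (⟪g, -(A r)⟫ + c) (Icc 0 R) r := fun r hr => by
      have h1 := (innerSL ℝ g).hasFDerivAt.comp_hasDerivWithinAt r (hd r hr)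
      have h2 := ((hasDerivWithinAt_id r (Icc 0 R)).const_mul c).congr_deriv (mul_one c)
      exact h1.add h2
    have := antitoneOn_of_hasDerivWithinAt_nonpos (convex_Icc 0 R)
      (fun r hr => (hd2 r hr).continuousWithinAt)
      (fun r hr => (hd2 r (interior_subset hr)).mono interior_subset)
      (fun r hr => by
        rw [inner_neg_right]; linarith [hAg r (interior_subset hr)])
      (left_mem_Icc.2 hR0) (right_mem_Icc.2 hR0) hR0
    simp [hζ0] at this
    linarith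
  rw [hq]
  have hsq : ‖g + R • ζ R‖ ^ 2 ≤ ((1 - R ^ 2 / 4) * ‖g‖) ^ 2 := by
    rw [norm_add_sq_real, real_inner_smul_right, norm_smul, Real.norm_eq_abs, abs_of_nonneg hR0,
      mul_pow]
    have h1 := mul_le_mul_of_nonneg_left hgz hR0
    have h2 := mul_le_mul_of_nonneg_left
      (pow_le_pow_left₀ (norm_nonneg _) ((hm R (right_mem_Icc.2 hR0)).trans hm2) 2) (sq_nonneg R)
    have h3 := mul_le_mul_of_nonneg_right hR2 (mul_nonneg (sq_nonneg R) (sq_nonneg ‖g‖))
    simp only [c] at h1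
    nlinarith [mul_nonneg (sq_nonneg R) (sq_nonneg ‖g‖)]
  exact (pow_le_pow_iff_left₀ (norm_nonneg _)
    (mul_nonneg (by linarith) (norm_nonneg _)) two_ne_zero).1 hsq

end Vale.Agent.P347.Zero
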