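import Vale.Agent.P347.Zero.RotExists
import Vale.Agent.P347.Zero.FwdExists

/-!
Exact flows that are continuous, hence measurable, jointly in the base point and the input.
-/

open MeasureTheory Set Filter
open scoped RealInnerProductSpace Topology ContDiff NNReal

namespace Vale.Agent.P347.Zero

/-- Solutions of a locally Lipschitz field of linear growth depend continuously on the start. -/
lemma solution_family_continuous {E : Type*} [NormedAddCommGroup E] [NormedSpace ℝ E]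
    {v : ℝ → E → E} {α : E → ℝ → E} {A R : ℝ} (hA : 0 ≤ A)
    (hg : ∀ t ∈ Icc 0 R, ∀ x, ‖v t x‖ ≤ A * (1 + ‖x‖))
    (hl : ∀ ρ : ℝ, ∃ K : ℝ≥0, ∀ t ∈ Icc 0 R, ∀ x, ‖x‖ ≤ ρ → ∀ z, ‖z‖ ≤ ρ →
      ‖v t x - v t z‖ ≤ K * ‖x - z‖)
    (h0 : ∀ x, α x 0 = x) (hα : ∀ x, Solves v 0 R (α x)) {t : ℝ} (ht : t ∈ Icc 0 R) :
    Continuous fun x => α x t := by
  refine continuous_iff_continuousAt.2 fun x => ?_
  set m := ‖x‖ + 1
  set ρ := GrowthTransport.reach A R m
  obtain ⟨K, hK⟩ := hl ρ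
  have hb : ∀ z, ‖z‖ ≤ m → ∀ u ∈ Icc 0 R, ‖α z u‖ ≤ ρ := fun z hz =>
    GrowthTransport.le_reach_of_deriv hA (by simp) ((norm_nonneg _).trans hz) (hα z)
      (by rw [h0]; exact hz) fun u hu => hg u hu _
  have hlip : ∀ z, ‖z‖ ≤ m → ‖α z t - α x t‖ ≤ Real.exp (K * R) * ‖z - x‖ := fun z hz => by
    have h1 := norm_le_gronwallBound_of_norm_deriv_right_le (f := fun u => α z u - α x u)
      (f' := fun u => v u (α z u) - v u (α x u)) (K := (K : ℝ)) (ε := 0) (δ := ‖z - x‖)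
      (fun u hu => ((hα z u hu).sub (hα x u hu)).continuousWithinAt)
      (fun u hu => ((hα z u (Ico_subset_Icc_self hu)).sub
        (hα x u (Ico_subset_Icc_self hu))).mono_of_mem_nhdsWithin (Icc_mem_nhdsGE_of_mem hu))
      (by simp [h0]) (fun u hu => by
        rw [add_zero]
        exact hK u (Ico_subset_Icc_self hu) _ (hb z hz u (Ico_subset_Icc_self hu)) _
          (hb x (by linarith) u (Ico_subset_Icc_self hu))) t ht
    rw [gronwallBound_ε0, sub_zero] at h1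
    refine h1.trans ?_
    rw [mul_comm]
    gcongr
    exact ht.2
  refine tendsto_iff_norm_sub_tendsto_zero.2 ?_
  refine squeeze_zero' (Eventually.of_forall fun z => norm_nonneg _) ?_
    (show Tendsto (fun z => Real.exp (K * R) * ‖z - x‖) (𝓝 x) (𝓝 0) from
      (continuous_const.mul (continuous_id.sub continuous_const).norm).tendsto' x 0 (by simp))
  filter_upwards [(isOpen_lt continuous_norm continuous_const).mem_nhds
    (show ‖x‖ < m from lt_add_one _)] with z hz using hlip z (le_of_lt hz)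

variable {d : ℕ} {V : EE d → ℝ} {s R : ℝ}

lemma norm_shift_le {r : ℝ} (hr : 0 ≤ r) (hr1 : r ≤ 1) (y ξ : EE d) :
    ‖y + r • ξ‖ ≤ ‖y‖ + ‖ξ‖ := (norm_add_le _ _).trans (add_le_add le_rfl (by
  rw [norm_smul, Real.norm_eq_abs, abs_of_nonneg hr]
  exact mul_le_of_le_one_left (norm_nonneg _) hr1))

/-- Plain flows, continuous jointly in the base point and the input. -/
theorem exists_fwd_joint (hV : Admissible V) (hf : FlowReg V s) (hs : 0 < s) (hs1 : s ≤ 1 / 16)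
    (hR0 : 0 ≤ R) (hR : R ^ 2 ≤ 3 * s / 4) :
    ∃ ξ : EE d → ℝ → EE d → EE d, (∀ y, IsFwd V s y R (ξ y)) ∧
      ∀ r ∈ Icc 0 R, Continuous fun p : EE d × EE d => ξ p.1 r p.2 := by
  choose ξ hξ using fun y => exists_fwd hV hf hs hs1 hR0 hR y
  refine ⟨ξ, hξ, fun r hr => ?_⟩
  have hR14 := len_le_one hs1 hR0 hR
  let v : ℝ → EE d × EE d → EE d × EE d := fun t p => (0, fwdField V s p.1 t p.2)
  have hu : ∀ t ∈ Icc 0 R, 0 < s - t ^ 2 ∧ s - t ^ 2 ≤ s := fun t ht =>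
    ⟨by linarith [(scale_bounds hR ht).1], (scale_bounds hR ht).2⟩
  refine ((solution_family_continuous (v := v) (α := fun p t => (p.1, ξ p.1 t p.2))
    (A := 6 + 4 * Real.sqrt d) (by positivity) (fun t ht p => ?_)
    (fun ρ => ⟨3, fun t ht x _ z _ => ?_⟩)
    (fun p => by simp [(hξ p.1).init]) (fun p t ht => ?_) hr).snd)
  · simp only [v, Prod.norm_mk, norm_zero, max_eq_right (norm_nonneg _), fwdField, norm_neg]
    refine (norm_Dv_le_affine hV (hu t ht).1 ((hu t ht).2.trans hs1) _).trans ?_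
    have h1 := norm_shift_le ht.1 (by linarith [ht.2]) p.1 p.2
    have h2 := norm_fst_le p
    have h3 := norm_snd_le p
    have h4 : 0 ≤ Real.sqrt (d : ℝ) * ‖p‖ := by positivity
    nlinarith [norm_nonneg p]
  · simp only [v, Prod.mk_sub_mk, sub_zero, Prod.norm_mk, norm_zero,
      max_eq_right (norm_nonneg _), fwdField, neg_sub_neg]
    refine (hf.lip hV (hu t ht).1 (hu t ht).2 _ _).trans ?_
    rw [show z.1 + t • z.2 - (x.1 + t • x.2) = -((x - z).1 + t • (x - z).2) by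
      simp only [Prod.fst_sub, Prod.snd_sub, smul_sub]; abel, norm_neg, NNReal.coe_ofNat]
    refine (mul_le_mul_of_nonneg_left (norm_add_le _ _) zero_le_two).trans ?_
    rw [norm_smul, Real.norm_eq_abs, abs_of_nonneg ht.1]
    nlinarith [norm_fst_le (x - z), norm_snd_le (x - z), norm_nonneg (x - z).2, ht.2, ht.1]
  · exact (hasDerivWithinAt_const t _ p.1).prodMk ((hξ p.1).solves p.2 t ht)

/-- The rotated field is smooth jointly in time, base point and state. -/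
lemma contDiffAt_rotField_joint (hV : Admissible V) (σ : ℝ) {p : ℝ × EE d × EE d × EE d}
    (hp : 0 < s - p.1 ^ 2) :
    ContDiffAt ℝ (⊤ : ℕ∞) (fun p : ℝ × EE d × EE d × EE d =>
      rotField V s p.2.1 σ p.1 p.2.2) p := by
  set m := fun p : ℝ × EE d × EE d × EE d => (s - p.1 ^ 2, p.2.1 + p.1 • p.2.2.1)
  have hm : ContDiffAt ℝ (⊤ : ℕ∞) m p := by fun_prop
  have h0 : 0 < (m p).1 := hp
  have hD := (contDiffAt_Dv hV h0).comp p hm
  have hH := (contDiffAt_hess2 hV h0).comp p hm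
  have hL := (contDiffAt_lapD hV h0).comp p hm
  have h1 : ContDiffAt ℝ (⊤ : ℕ∞) (fun p : ℝ × EE d × EE d × EE d => p.1) p := contDiffAt_fst
  have h2 : ContDiffAt ℝ (⊤ : ℕ∞) (fun p : ℝ × EE d × EE d × EE d => p.2.2.1) p := by fun_prop
  have h3 : ContDiffAt ℝ (⊤ : ℕ∞) (fun p : ℝ × EE d × EE d × EE d => p.2.2.2) p := by fun_prop
  exact (hD.neg.add ((hH.clm_apply h3).const_smul σ⁻¹)).prodMk
    (((h1.smul hL).sub (hH.clm_apply (h2.add (h1.smul hD)))).const_smul σ⁻¹)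

/-- Growth of the rotated field, uniform in the base point. -/
lemma rotField_growth (hV : Admissible V) (hf : FlowReg V s) (hs : 0 < s) (hs1 : s ≤ 1 / 16)
    (hR0 : 0 ≤ R) (hR : R ^ 2 ≤ 3 * s / 4) {σ : ℝ} (hσ : 0 < σ) :
    ∃ A : ℝ, 0 ≤ A ∧ ∀ u ∈ Icc 0 R, ∀ y : EE d, ∀ z : EE d × EE d,
      ‖rotField V s y σ u z‖ ≤ A * (1 + ‖(y, z)‖) := by
  obtain ⟨L, hL⟩ := hf.lap
  have hL0 : 0 ≤ L := (norm_nonneg _).trans (hL s (by linarith) le_rfl 0)
  have hR14 := len_le_one hs1 hR0 hR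
  set D := 6 + 4 * Real.sqrt (d : ℝ) with hD
  have hi : 0 ≤ σ⁻¹ := (inv_pos.2 hσ).le
  refine ⟨D + σ⁻¹ * (4 + L + 2 * D), by positivity, fun u hu y z => ?_⟩
  obtain ⟨h2, h3⟩ := scale_bounds hR hu
  have h1 : 0 < s - u ^ 2 := by linarith
  set P := ‖(y, z)‖
  have hu1 : u ≤ 1 := by linarith [hu.2]
  have hP : 0 ≤ P := norm_nonneg _
  have hy : ‖y‖ ≤ P := norm_fst_le (y, z)
  have hz : ‖z‖ ≤ P := norm_snd_le (y, z)
  have hz1 : ‖z.1‖ ≤ P := (norm_fst_le z).trans hz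
  have hz2 : ‖z.2‖ ≤ P := (norm_snd_le z).trans hz
  set x := y + u • z.1
  have hd : ‖Dv V (s - u ^ 2) x‖ ≤ D * (1 + P) := by
    refine (norm_Dv_le_affine hV h1 (h3.trans hs1) _).trans ?_
    have := norm_shift_le hu.1 hu1 y z.1
    have : 0 ≤ Real.sqrt (d : ℝ) * P := by positivity
    simp only [hD, x] at *
    nlinarith
  have g1 : ‖fwdField V s y u z.1 + σ⁻¹ • hess2 V (s - u ^ 2) x z.2‖ ≤
      D * (1 + P) + σ⁻¹ * (2 * P) := by
    refine (norm_add_le _ _).trans (add_le_add ?_ ?_)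
    · rw [fwdField, norm_neg]; exact hd
    · rw [norm_smul, Real.norm_eq_abs, abs_of_nonneg hi]
      exact mul_le_mul_of_nonneg_left ((hf.nrm _ h1 h3 _ _).trans
        (mul_le_mul_of_nonneg_left hz2 zero_le_two)) hi
  have g2 : ‖σ⁻¹ • (u • lapD V (s - u ^ 2) x -
      hess2 V (s - u ^ 2) x (z.1 + u • Dv V (s - u ^ 2) x))‖ ≤
      σ⁻¹ * (L + 2 * (P + D * (1 + P))) := by
    rw [norm_smul, Real.norm_eq_abs, abs_of_nonneg hi]
    refine mul_le_mul_of_nonneg_left ?_ hi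
    refine (norm_sub_le _ _).trans (add_le_add ?_ ((hf.nrm _ h1 h3 _ _).trans
      (mul_le_mul_of_nonneg_left ((norm_add_le _ _).trans (add_le_add hz1 ?_)) zero_le_two)))
    · rw [norm_smul, Real.norm_eq_abs, abs_of_nonneg hu.1]
      exact (mul_le_of_le_one_left (norm_nonneg _) hu1).trans (hL _ h2 h3 _)
    · rw [norm_smul, Real.norm_eq_abs, abs_of_nonneg hu.1]
      exact (mul_le_of_le_one_left (norm_nonneg _) hu1).trans hd
  have k1 : 0 ≤ D * (1 + P) := by positivity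
  have k2 : 0 ≤ σ⁻¹ * L * P := by positivity
  have k3 : 0 ≤ σ⁻¹ * (D * (1 + P)) := by positivity
  have k4 : 0 ≤ σ⁻¹ * P := by positivity
  have k5 : 0 ≤ σ⁻¹ * L := by positivity
  simp only [rotField, Prod.norm_mk]
  refine max_le (g1.trans ?_) (g2.trans ?_) <;> nlinarith

/-- Rotated flows, continuous jointly in the base point and the end point. -/
theorem exists_rot_joint (hV : Admissible V) (hf : FlowReg V s) (hs : 0 < s) (hs1 : s ≤ 1 / 16)
    (hR0 : 0 ≤ R) (hR : R ^ 2 ≤ 3 * s / 4) {σ : ℝ} (hσ : 0 < σ) :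
    ∃ Φ : EE d → ℝ → EE d × EE d → EE d × EE d, (∀ y, IsRot V s y σ R (Φ y)) ∧
      ∀ r ∈ Icc 0 R, Continuous fun p : EE d × EE d × EE d => Φ p.1 r p.2 := by
  choose Φ hΦ using fun y => exists_rot hV hf hs hs1 hR0 hR y hσ
  obtain ⟨A, hA0, hA⟩ := rotField_growth hV hf hs hs1 hR0 hR hσ
  refine ⟨Φ, hΦ, fun r hr => ?_⟩
  have hrev : ∀ t ∈ Icc 0 R, R - t ∈ Icc 0 R := fun t ht =>
    ⟨by linarith [ht.2], by linarith [ht.1]⟩
  let v : ℝ → EE d × EE d × EE d → EE d × EE d × EE d := fun t p =>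
    (0, -(rotField V s p.1 σ (R - t) p.2))
  have hgrow : ∀ t ∈ Icc 0 R, ∀ p, ‖v t p‖ ≤ A * (1 + ‖p‖) := fun t ht p => by
    simp only [v, Prod.norm_mk, norm_zero, norm_neg, max_eq_right (norm_nonneg _)]
    exact hA _ (hrev t ht) p.1 p.2
  have hlip : ∀ ρ : ℝ, ∃ K : ℝ≥0, ∀ t ∈ Icc 0 R, ∀ x, ‖x‖ ≤ ρ → ∀ z, ‖z‖ ≤ ρ →
      ‖v t x - v t z‖ ≤ K * ‖x - z‖ := fun ρ => by
    have hS : ContDiffOn ℝ 1
        (fun p : ℝ × EE d × EE d × EE d => rotField V s p.2.1 σ p.1 p.2.2)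
        (Icc 0 R ×ˢ Metric.closedBall 0 ρ) := fun p hp =>
      ((contDiffAt_rotField_joint hV σ (by linarith [(scale_bounds hR hp.1).1])).of_le
        (by simp)).contDiffWithinAt
    obtain ⟨K, hK⟩ := hS.exists_lipschitzOnWith one_ne_zero
      ((convex_Icc 0 R).prod (convex_closedBall 0 ρ))
      (isCompact_Icc.prod (isCompact_closedBall _ _))
    refine ⟨K, fun t ht x hx z hz => ?_⟩
    have h1 := hK.norm_sub_le (x := (R - t, x)) (y := (R - t, z))
      ⟨hrev t ht, by simpa using hx⟩ ⟨hrev t ht, by simpa using hz⟩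
    simp only [v, Prod.mk_sub_mk, Prod.norm_mk, norm_zero, sub_self, neg_sub_neg,
      max_eq_right (norm_nonneg _)] at h1 ⊢
    rw [norm_sub_rev]
    exact h1
  have hc := solution_family_continuous (v := v) (α := fun p t => (p.1, Φ p.1 (R - t) p.2))
    hA0 hgrow hlip (fun p => by simp [(hΦ p.1).final]) (fun p t ht => ?_) (hrev r hr)
  · simpa using hc.snd
  · have h1 := ((hΦ p.1).solves p.2 (R - t) (hrev t ht)).scomp t
      ((hasDerivWithinAt_id t (Icc 0 R)).const_sub R) hrev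
    refine (hasDerivWithinAt_const t _ p.1).prodMk ?_
    simpa [v, Function.comp_def] using h1

end Vale.Agent.P347.Zero
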