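import Mathlib

/-!
Global flows of time-dependent globally Lipschitz vector fields.
-/

open Set Metric
open scoped NNReal Topology

namespace Vale.Agent.P347.Zero

variable {E : Type*} [NormedAddCommGroup E] [NormedSpace ℝ E] [CompleteSpace E]

/-- `α` solves `α' = v(t, α)` on `[a, b]`. -/
def Solves (v : ℝ → E → E) (a b : ℝ) (α : ℝ → E) : Prop :=
  ∀ t ∈ Icc a b, HasDerivWithinAt α (v t (α t)) (Icc a b) t

omit [CompleteSpace E] in
lemma Solves.mono {v : ℝ → E → E} {a b a' b' : ℝ} {α : ℝ → E} (h : Solves v a b α)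
    (ha : a ≤ a') (hb : b' ≤ b) : Solves v a' b' α :=
  fun t ht => (h t ⟨ha.trans ht.1, ht.2.trans hb⟩).mono (Icc_subset_Icc ha hb)

omit [CompleteSpace E] in
lemma Solves.continuousOn {v : ℝ → E → E} {a b : ℝ} {α : ℝ → E} (h : Solves v a b α) :
    ContinuousOn α (Icc a b) := fun t ht => (h t ht).continuousWithinAt

omit [CompleteSpace E] in
/-- Gronwall: two solutions stay close. -/
lemma Solves.dist_le {v : ℝ → E → E} {K : ℝ≥0} {a b : ℝ} {α β : ℝ → E}
    (hK : ∀ t ∈ Icc a b, LipschitzWith K (v t)) (hα : Solves v a b α) (hβ : Solves v a b β) :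
    ∀ t ∈ Icc a b, dist (α t) (β t) ≤ dist (α a) (β a) * Real.exp (K * (t - a)) := by
  refine dist_le_of_trajectories_ODE_of_mem (v := v) (s := fun _ => univ)
    (fun t ht => (hK t (Ico_subset_Icc_self ht)).lipschitzOnWith) hα.continuousOn ?_ (by simp)
    hβ.continuousOn ?_ (by simp) le_rfl
  · exact fun t ht => (hα t (Ico_subset_Icc_self ht)).mono_of_mem_nhdsWithin
      (Icc_mem_nhdsGE_of_mem ht)
  · exact fun t ht => (hβ t (Ico_subset_Icc_self ht)).mono_of_mem_nhdsWithin
      (Icc_mem_nhdsGE_of_mem ht)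

omit [CompleteSpace E] in
lemma Solves.eq {v : ℝ → E → E} {K : ℝ≥0} {a b : ℝ} {α β : ℝ → E}
    (hK : ∀ t ∈ Icc a b, LipschitzWith K (v t)) (hα : Solves v a b α) (hβ : Solves v a b β)
    (h : α a = β a) : ∀ t ∈ Icc a b, α t = β t := fun t ht => by
  simpa [h] using hα.dist_le hK hβ t ht

omit [CompleteSpace E] in
lemma Solves.glue {v : ℝ → E → E} {a c b : ℝ} {α β : ℝ → E} (hac : a ≤ c) (hcb : c ≤ b)
    (hα : Solves v a c α) (hβ : Solves v c b β) (h : α c = β c) :
    Solves v a b (fun t => if t ≤ c then α t else β t) := by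
  set γ := fun t => if t ≤ c then α t else β t
  have e1 : ∀ t ∈ Icc a c, γ t = α t := fun t ht => if_pos ht.2
  have e2 : ∀ t ∈ Icc c b, γ t = β t := fun t ht => by
    by_cases hc : t ≤ c
    · rw [show t = c from le_antisymm hc ht.1]; simp [γ, h]
    · exact if_neg hc
  intro t ht
  rw [← Icc_union_Icc_eq_Icc hac hcb]
  refine HasDerivWithinAt.union ?_ ?_
  · by_cases hc : t ≤ c
    · rw [e1 t ⟨ht.1, hc⟩]
      exact (hα t ⟨ht.1, hc⟩).congr e1 (e1 t ⟨ht.1, hc⟩)
    · exact hasDerivWithinAt_iff_hasFDerivWithinAt.2 (.of_not_accPt fun h => hc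
        (by
          have h2 := mem_closure_iff_clusterPt.2 h.clusterPt
          simp only [closure_Icc, mem_Icc] at h2
          tauto))
  · by_cases hc : c ≤ t
    · rw [e2 t ⟨hc, ht.2⟩]
      exact (hβ t ⟨hc, ht.2⟩).congr e2 (e2 t ⟨hc, ht.2⟩)
    · exact hasDerivWithinAt_iff_hasFDerivWithinAt.2 (.of_not_accPt fun h => hc
        (by
          have h2 := mem_closure_iff_clusterPt.2 h.clusterPt
          simp only [closure_Icc, mem_Icc] at h2
          tauto))

/-- Short intervals have solutions from every point. -/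
lemma exists_solves_short {v : ℝ → E → E} {K : ℝ≥0} {a b : ℝ} (hab : a ≤ b)
    (hK : ∀ t ∈ Icc a b, LipschitzWith K (v t)) (hc : Continuous (Function.uncurry v))
    (hsmall : K * (b - a) ≤ 1 / 2) (x : E) : ∃ α, α a = x ∧ Solves v a b α := by
  obtain ⟨M, hM⟩ := isCompact_Icc.exists_bound_of_continuousOn
    (s := Icc a b) (f := fun t => v t x) (by fun_prop)
  set N : ℝ≥0 := ⟨|M|, abs_nonneg M⟩
  set R : ℝ≥0 := 2 * N * (b - a).toNNReal
  have hp : IsPicardLindelof v ⟨a, left_mem_Icc.2 hab⟩ x R 0 (N + K * R) K :=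
    { lipschitzOnWith := fun t ht => (hK t ht).lipschitzOnWith
      continuousOn := fun y _ => by fun_prop
      norm_le := fun t ht y hy => by
        have h1 := (hK t ht).norm_sub_le y x
        have h2 : ‖y - x‖ ≤ R := by simpa [dist_eq_norm] using hy
        push_cast
        have h3 : ‖v t x‖ ≤ (N : ℝ) := (hM t ht).trans (le_abs_self M)
        calc ‖v t y‖ ≤ ‖v t x‖ + ‖v t y - v t x‖ := norm_le_norm_add_norm_sub' _ _
          _ ≤ (N : ℝ) + K * R := add_le_add h3 (h1.trans (mul_le_mul_of_nonneg_left h2 K.2))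
      mul_max_le := by
        simp only [sub_self, max_eq_left (sub_nonneg.2 hab), NNReal.coe_zero, sub_zero]
        push_cast [R, Real.coe_toNNReal _ (sub_nonneg.2 hab)]
        have h1 := mul_le_mul_of_nonneg_left hsmall (mul_nonneg zero_le_two N.coe_nonneg)
        have h2 := mul_le_mul_of_nonneg_right
          (show (N : ℝ) + K * (2 * N * (b - a)) ≤ 2 * N by linarith) (sub_nonneg.2 hab)
        linarith }
  exact hp.exists_eq_forall_mem_Icc_hasDerivWithinAt₀

/-- Solutions exist on every interval. -/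
lemma exists_solves {v : ℝ → E → E} {K : ℝ≥0} {a b : ℝ} (hab : a ≤ b)
    (hK : ∀ t ∈ Icc a b, LipschitzWith K (v t)) (hc : Continuous (Function.uncurry v)) (x : E) :
    ∃ α, α a = x ∧ Solves v a b α := by
  obtain ⟨n, hn⟩ := exists_nat_ge (2 * K * (b - a))
  set m : ℝ := n + 1
  have hm : 0 < m := by positivity
  set s := (b - a) / m
  have hs : 0 ≤ s := div_nonneg (sub_nonneg.2 hab) hm.le
  suffices H : ∀ j : ℕ, j ≤ n + 1 → ∃ α, α a = x ∧ Solves v a (a + j * s) α by
    obtain ⟨α, h0, h1⟩ := H (n + 1) le_rfl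
    refine ⟨α, h0, ?_⟩
    rwa [show a + ((n + 1 : ℕ) : ℝ) * s = b by
      rw [show ((n + 1 : ℕ) : ℝ) = m by simp [m], mul_div_cancel₀ _ hm.ne']; ring] at h1
  intro j
  induction j with
  | zero =>
    refine fun _ => ⟨fun _ => x, rfl, fun t ht => ?_⟩
    have : t = a := le_antisymm (by simpa using ht.2) ht.1
    subst this
    simp only [CharP.cast_eq_zero, zero_mul, add_zero, Icc_self]
    exact hasDerivWithinAt_iff_hasFDerivWithinAt.2 (.of_not_accPt fun h => by
      obtain ⟨y, hy, hne⟩ := (accPt_iff_frequently.1 h).exists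
      exact hy (by simpa using hne))
  | succ j ih =>
    intro hj
    obtain ⟨α, h0, h1⟩ := ih (by omega)
    have hle : a + j * s ≤ a + (j + 1 : ℕ) * s := by push_cast; linarith
    have hjb : a + (j + 1 : ℕ) * s ≤ b := by
      have h2 : ((j + 1 : ℕ) : ℝ) ≤ m := by
        simp only [m]; exact_mod_cast hj
      have h3 := mul_le_mul_of_nonneg_right h2 hs
      rw [mul_div_cancel₀ _ hm.ne'] at h3
      linarith
    have haj : a ≤ a + j * s := by have := mul_nonneg (Nat.cast_nonneg (α := ℝ) j) hs; linarith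
    obtain ⟨β, g0, g1⟩ := exists_solves_short hle
      (fun t ht => hK t ⟨haj.trans ht.1, ht.2.trans hjb⟩) hc (by
        push_cast
        rw [show a + (j + 1) * s - (a + j * s) = s by ring, show (K : ℝ) * s = K * (b - a) / m by
          simp only [s]; ring, div_le_iff₀ hm]
        simp only [m]; linarith) (α (a + j * s))
    refine ⟨fun t => if t ≤ a + j * s then α t else β t, by simp [haj, h0], ?_⟩
    exact h1.glue haj hle g1 g0.symm

variable (v : ℝ → E → E)

open Classical in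
/-- The flow from time `a` to time `b`. -/
noncomputable def flow (a b : ℝ) (x : E) : E :=
  if h : ∃ α, α a = x ∧ Solves v a b α then h.choose b else x

variable {v} {K : ℝ≥0} {a c b : ℝ}

omit [CompleteSpace E] in
lemma flow_eq (hab : a ≤ b) (hK : ∀ t ∈ Icc a b, LipschitzWith K (v t)) {α : ℝ → E}
    (hα : Solves v a b α) : flow v a b (α a) = α b := by
  have h : ∃ β, β a = α a ∧ Solves v a b β := ⟨α, rfl, hα⟩
  rw [flow, dif_pos h]
  exact h.choose_spec.2.eq hK hα h.choose_spec.1 b (right_mem_Icc.2 hab)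

omit [CompleteSpace E] in
lemma flow_self (x : E) : flow v a a x = x := by
  by_cases h : ∃ α, α a = x ∧ Solves v a a α
  · rw [flow, dif_pos h]; exact h.choose_spec.1
  · rw [flow, dif_neg h]

lemma flow_semigroup (hac : a ≤ c) (hcb : c ≤ b) (hK : ∀ t ∈ Icc a b, LipschitzWith K (v t))
    (hc : Continuous (Function.uncurry v)) (x : E) :
    flow v c b (flow v a c x) = flow v a b x := by
  obtain ⟨α, h0, hα⟩ := exists_solves (hac.trans hcb) hK hc x
  subst h0
  rw [flow_eq hac (fun t ht => hK t ⟨ht.1, ht.2.trans hcb⟩) (hα.mono le_rfl hcb),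
    flow_eq hcb (fun t ht => hK t ⟨hac.trans ht.1, ht.2⟩) (hα.mono hac le_rfl),
    flow_eq (hac.trans hcb) hK hα]

lemma flow_lipschitz (hab : a ≤ b) (hK : ∀ t ∈ Icc a b, LipschitzWith K (v t))
    (hc : Continuous (Function.uncurry v)) (x y : E) :
    ‖flow v a b x - flow v a b y‖ ≤ Real.exp (K * (b - a)) * ‖x - y‖ := by
  obtain ⟨α, rfl, hα⟩ := exists_solves hab hK hc x
  obtain ⟨β, rfl, hβ⟩ := exists_solves hab hK hc y
  rw [flow_eq hab hK hα, flow_eq hab hK hβ, ← dist_eq_norm, ← dist_eq_norm, mul_comm]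
  exact hα.dist_le hK hβ b (right_mem_Icc.2 hab)

/-- Growth of a solution. -/
lemma flow_growth (hab : a ≤ b) (hK : ∀ t ∈ Icc a b, LipschitzWith K (v t))
    (hc : Continuous (Function.uncurry v)) {M : ℝ} (hM : ∀ t ∈ Icc a b, ‖v t 0‖ ≤ M) (x : E) :
    ‖flow v a b x‖ ≤ gronwallBound ‖x‖ K M (b - a) := by
  obtain ⟨α, rfl, hα⟩ := exists_solves hab hK hc x
  rw [flow_eq hab hK hα]
  refine norm_le_gronwallBound_of_norm_deriv_right_le hα.continuousOn
    (fun t ht => (hα t (Ico_subset_Icc_self ht)).mono_of_mem_nhdsWithin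
      (Icc_mem_nhdsGE_of_mem ht)) le_rfl (fun t ht => ?_) b (right_mem_Icc.2 hab)
  have h1 := (hK t (Ico_subset_Icc_self ht)).norm_sub_le (α t) 0
  rw [sub_zero] at h1
  calc ‖v t (α t)‖ ≤ ‖v t 0‖ + ‖v t (α t) - v t 0‖ := norm_le_norm_add_norm_sub' _ _
    _ ≤ M + K * ‖α t‖ := add_le_add (hM t (Ico_subset_Icc_self ht)) h1
    _ = _ := by ring

end Vale.Agent.P347.Zero
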