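import Vale.Agent.P347.Zero.PostDefs
import Vale.Agent.P347.Zero.Flow

/-!
Objects shared by the modules of the proof that the dimension exponent is zero: the smoothed
density and potential, the laws along the scale flows, and the two flows.
-/

open MeasureTheory ProbabilityTheory Set
open scoped RealInnerProductSpace

namespace Vale.Agent.P347.Zero

variable {d : ℕ}

/-- Density of the convolution of exp(-V) with the Gaussian of variance v. -/
noncomputable def pdens (V : EE d → ℝ) (v : ℝ) (y : EE d) : ℝ :=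
  pZ V v y / Real.sqrt (2 * Real.pi * v) ^ d

/-- The potential at scale v; its gradient is `Dv V v`. -/
noncomputable def pot (V : EE d → ℝ) (v : ℝ) (y : EE d) : ℝ := -Real.log (pdens V v y)

/-- The Hessian of the potential at scale v. -/
noncomputable def hess2 (V : EE d → ℝ) (v : ℝ) (x : EE d) : EE d →L[ℝ] EE d :=
  fderiv ℝ (Dv V v) x

/-- The Laplacian of the drift at scale v. -/
noncomputable def lapD (V : EE d → ℝ) (v : ℝ) (x : EE d) : EE d :=
  ∑ i : Fin d, fderiv ℝ (fun z => fderiv ℝ (Dv V v) z (EuclideanSpace.single i (1 : ℝ))) x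
    (EuclideanSpace.single i (1 : ℝ))

/-- Law of ξ in x = y + rξ, for x distributed as the state at scale s - r² given y at scale s. -/
noncomputable def post (V : EE d → ℝ) (s : ℝ) (y : EE d) (r : ℝ) : Measure (EE d) :=
  (gam d).withDensity fun ξ => ENNReal.ofReal (pdens V (s - r ^ 2) (y + r • ξ) / pdens V s y)

/-- The plain scale flow. -/
noncomputable def fwdField (V : EE d → ℝ) (s : ℝ) (y : EE d) (r : ℝ) (ξ : EE d) : EE d :=
  -(Dv V (s - r ^ 2) (y + r • ξ))

/-- The value of the drift at time r of a scale flow. -/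
noncomputable def hVal (V : EE d → ℝ) (s : ℝ) (y : EE d) (r : ℝ) (ξ : EE d) : EE d :=
  Dv V (s - r ^ 2) (y + r • ξ)

/-- The scale flow rotated against the output noise. -/
noncomputable def rotField (V : EE d → ℝ) (s : ℝ) (y : EE d) (σ r : ℝ) (z : EE d × EE d) :
    EE d × EE d :=
  let u := s - r ^ 2
  let x := y + r • z.1
  (fwdField V s y r z.1 + σ⁻¹ • hess2 V u x z.2,
    σ⁻¹ • (r • lapD V u x - hess2 V u x (z.1 + r • Dv V u x)))

/-- The first power of the Hessian on the auxiliary variable, along a flow. -/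
noncomputable def pEta (V : EE d → ℝ) (s : ℝ) (y : EE d) (r : ℝ) (z : EE d × EE d) : EE d :=
  hess2 V (s - r ^ 2) (y + r • z.1) z.2

/-- The second power of the Hessian on the auxiliary variable, along a flow. -/
noncomputable def ppEta (V : EE d → ℝ) (s : ℝ) (y : EE d) (r : ℝ) (z : EE d × EE d) : EE d :=
  hess2 V (s - r ^ 2) (y + r • z.1) (pEta V s y r z)

/-- An exact plain flow on [0, R]: it carries the Gaussian law to `post`. -/
structure IsFwd (V : EE d → ℝ) (s : ℝ) (y : EE d) (R : ℝ) (ξ : ℝ → EE d → EE d) : Prop where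
  init : ∀ W, ξ 0 W = W
  solves : ∀ W, Solves (fwdField V s y) 0 R (fun r => ξ r W)
  cont : ∀ r ∈ Icc 0 R, Continuous (ξ r)
  law : ∀ r ∈ Icc 0 R, (gam d).map (ξ r) = post V s y r

/-- An exact rotated flow on [0, R], parametrised by its end point: it carries
`post` ⊗ Gaussian at R to `post` ⊗ Gaussian at every earlier time. -/
structure IsRot (V : EE d → ℝ) (s : ℝ) (y : EE d) (σ R : ℝ)
    (Φ : ℝ → EE d × EE d → EE d × EE d) : Prop where
  final : ∀ z, Φ R z = z
  solves : ∀ z, Solves (rotField V s y σ) 0 R (fun r => Φ r z)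
  meas : ∀ r ∈ Icc 0 R, Measurable (Φ r)
  law : ∀ r ∈ Icc 0 R,
    ((post V s y R).prod (gam d)).map (Φ r) = (post V s y r).prod (gam d)

end Vale.Agent.P347.Zero
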