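import Vale.Agent.P347.Zero.Along
import Vale.Agent.P347.Zero.Defs

/-!
The calculus at scale one read in the original units: values, derivatives, velocities and laws.
A datum `c : Cx K` stands for (V, y, σ) at scale s by x ↦ x/√s.
-/

open MeasureTheory Set
open scoped ENNReal RealInnerProductSpace

namespace Vale.Agent.P347.Zero

open Calc

variable {K : ℕ → ℝ} {c : Cx K}

/-- `c` is the rescaling of (V, y, σ) at scale s. -/
structure Scales (c : Cx K) (V : EE c.d → ℝ) (s : ℝ) (y : EE c.d) (σ : ℝ) : Prop where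
  pos : 0 < s
  field : ∀ u x, c.D u x = Real.sqrt s • Dv V (s * u) (Real.sqrt s • x)
  potential : ∀ u x, c.V u x = pot V (s * u) (Real.sqrt s • x)
  base : c.y = (Real.sqrt s)⁻¹ • y
  noise : c.sig = Real.sqrt s * σ
  smooth : ContDiffOn ℝ (⊤ : ℕ∞) (fun p : ℝ × EE c.d => Dv V p.1 p.2) (Ioi 0 ×ˢ univ)

variable {V : EE c.d → ℝ} {s σ : ℝ} {y : EE c.d}

lemma Scales.sqrt_ne (h : Scales c V s y σ) : Real.sqrt s ≠ 0 := (Real.sqrt_pos.2 h.pos).ne'

lemma Scales.pos_eq (h : Scales c V s y σ) (t : ℝ) (ξ : EE c.d) :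
    Real.sqrt s • posAt c t ξ = y + (Real.sqrt s * t) • ξ := by
  rw [posAt, h.base, smul_add, smul_smul, smul_smul, mul_inv_cancel₀ h.sqrt_ne, one_smul]

lemma Scales.scale_eq (h : Scales c V s y σ) (t : ℝ) :
    s * scaleAt t = s - (Real.sqrt s * t) ^ 2 := by
  rw [scaleAt, mul_pow, Real.sq_sqrt h.pos.le]; ring

lemma scaleAt_pos {t : ℝ} (ht : t ∈ times) : 0 < scaleAt t := by
  have h1 : -(9 / 10 : ℝ) < t := ht.1
  have h2 : t < 9 / 10 := ht.2
  unfold scaleAt
  nlinarith

lemma Scales.dv_contDiff (h : Scales c V s y σ) {v : ℝ} (hv : 0 < v) :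
    ContDiff ℝ (⊤ : ℕ∞) (Dv V v) :=
  h.smooth.comp_contDiff (f := fun z : EE c.d => (v, z)) (by fun_prop) fun z => ⟨hv, trivial⟩

lemma Scales.hval_eq (h : Scales c V s y σ) (t : ℝ) (z : EE c.d × EE c.d) :
    WithLp.toLp 2 (hval c (t, z)) = Real.sqrt s • hVal V s y (Real.sqrt s * t) z.1 := by
  rw [show hval c (t, z) = WithLp.ofLp (c.D (scaleAt t) (posAt c t z.1)) from rfl, WithLp.toLp_ofLp,
    h.field, h.scale_eq, h.pos_eq, hVal]

lemma Scales.pd_two (h : Scales c V s y σ) {u : ℝ} (hu : 0 < u) (x : EE c.d) (l k : Fin c.d) :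
    Calc.pd c.D [l, k] u x = s * hess2 V (s * u) (Real.sqrt s • x) (ev l) k := by
  set f := Dv V (s * u)
  have hf : Differentiable ℝ f := (h.dv_contDiff (mul_pos h.pos hu)).differentiable (by simp)
  have e : Calc.pd c.D [k] u = fun z => Real.sqrt s * f (Real.sqrt s • z) k := by
    funext z; simp [Calc.pd, h.field, f]
  have hd : HasFDerivAt (fun z => Real.sqrt s * f (Real.sqrt s • z) k)
      (Real.sqrt s • ((EuclideanSpace.proj k).comp ((fderiv ℝ f (Real.sqrt s • x)).comp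
        (Real.sqrt s • ContinuousLinearMap.id ℝ (EE c.d))))) x :=
    (((EuclideanSpace.proj k).hasFDerivAt).comp x
      ((hf _).hasFDerivAt.comp x ((hasFDerivAt_id x).const_smul (Real.sqrt s)))).const_mul _
  rw [show Calc.pd c.D [l, k] u x = fderiv ℝ (Calc.pd c.D [k] u) x (ev l) from rfl, e, hd.fderiv]
  simp [hess2, f]
  rw [← mul_assoc, Real.mul_self_sqrt h.pos.le]

lemma Scales.pd_diag (h : Scales c V s y σ) {u : ℝ} (hu : 0 < u) (x : EE c.d) (i k : Fin c.d) :
    Calc.pd c.D [i, i, k] u x = s * Real.sqrt s *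
      fderiv ℝ (fun z => fderiv ℝ (Dv V (s * u)) z (ev i)) (Real.sqrt s • x) (ev i) k := by
  set f := Dv V (s * u)
  have hf : ContDiff ℝ (⊤ : ℕ∞) f := h.dv_contDiff (mul_pos h.pos hu)
  set g := fun z => fderiv ℝ f z (ev i)
  have hg : Differentiable ℝ g :=
    ((hf.fderiv_right (m := (⊤ : ℕ∞)) (by simp)).clm_apply contDiff_const).differentiable (by simp)
  have e : Calc.pd c.D [i, k] u = fun z => s * g (Real.sqrt s • z) k := by
    funext z; rw [h.pd_two hu]; rfl
  have hd : HasFDerivAt (fun z => s * g (Real.sqrt s • z) k)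
      (s • ((EuclideanSpace.proj k).comp ((fderiv ℝ g (Real.sqrt s • x)).comp
        (Real.sqrt s • ContinuousLinearMap.id ℝ (EE c.d))))) x :=
    (((EuclideanSpace.proj k).hasFDerivAt).comp x
      ((hg _).hasFDerivAt.comp x ((hasFDerivAt_id x).const_smul (Real.sqrt s)))).const_mul _
  rw [show Calc.pd c.D [i, i, k] u x = fderiv ℝ (Calc.pd c.D [i, k] u) x (ev i) from rfl, e,
    hd.fderiv]
  simp [g]
  ring

lemma apply_sum_ev {d : ℕ} (A : EE d →L[ℝ] EE d) (η : EE d) (k : Fin d) :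
    A η k = ∑ l, A (ev l) k * η l := by
  conv_lhs => rw [show η = ∑ l, η l • ev l by
    simpa [ev, EuclideanSpace.basisFun_apply] using
      ((EuclideanSpace.basisFun (Fin d) ℝ).sum_repr η).symm]
  simp [map_sum, Finset.sum_apply, mul_comm]

lemma Scales.peta_eq (h : Scales c V s y σ) {t : ℝ} (ht : t ∈ times) (z : EE c.d × EE c.d) :
    WithLp.toLp 2 (Peta c (t, z)) = s • pEta V s y (Real.sqrt s * t) z := by
  ext k
  simp only [Peta, PiLp.smul_apply, smul_eq_mul, pEta, h.pd_two (scaleAt_pos ht), h.scale_eq,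
    h.pos_eq]
  rw [apply_sum_ev _ z.2, Finset.mul_sum]
  exact Finset.sum_congr rfl fun l _ => by ring

lemma Scales.ppeta_eq (h : Scales c V s y σ) {t : ℝ} (ht : t ∈ times) (z : EE c.d × EE c.d) :
    WithLp.toLp 2 (PPeta c (t, z)) = s ^ 2 • ppEta V s y (Real.sqrt s * t) z := by
  have hp : ∀ l, Peta c (t, z) l = s * pEta V s y (Real.sqrt s * t) z l := fun l => by
    simpa using congrArg (fun v : EE c.d => v l) (h.peta_eq ht z)
  ext k
  simp only [PPeta, hp, PiLp.smul_apply, smul_eq_mul, ppEta, h.pd_two (scaleAt_pos ht), h.scale_eq,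
    h.pos_eq]
  rw [apply_sum_ev _ (pEta V s y (Real.sqrt s * t) z), Finset.mul_sum]
  exact Finset.sum_congr rfl fun l _ => by ring

lemma Scales.vel1_eq (h : Scales c V s y σ) (t : ℝ) (z : EE c.d × EE c.d) :
    vel1 c (t, z) = (Real.sqrt s • fwdField V s y (Real.sqrt s * t) z.1, 0) := by
  simp only [vel1, h.field, h.scale_eq, h.pos_eq, fwdField, smul_neg]

lemma Scales.vel2_eq (h : Scales c V s y σ) {t : ℝ} (ht : t ∈ times) (z : EE c.d × EE c.d) :
    vel2 c (t, z) = Real.sqrt s • rotField V s y σ (Real.sqrt s * t) z := by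
  have hsq : Real.sqrt s * Real.sqrt s = s := Real.mul_self_sqrt h.pos.le
  have hcoef : c.sig⁻¹ * s = Real.sqrt s * σ⁻¹ := by
    rw [h.noise, mul_inv]
    conv_lhs => arg 2; rw [← hsq]
    field_simp [h.sqrt_ne]
  refine Prod.ext ?_ ?_
  · simp only [vel2, rotField, fwdField, Prod.smul_fst, smul_add, smul_neg, h.field, h.scale_eq,
      h.pos_eq, h.peta_eq ht, pEta, smul_smul, hcoef]
  · simp only [vel2, rotField, Prod.smul_snd, smul_smul, ← hcoef]
    rw [mul_smul]
    congr 1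
    ext k
    simp only [PiLp.smul_apply, PiLp.sub_apply, smul_eq_mul, h.pd_two (scaleAt_pos ht),
      h.pd_diag (scaleAt_pos ht), h.field, h.scale_eq, h.pos_eq, lapD, WithLp.ofLp_sum,
      Finset.sum_apply, mul_sub]
    congr 1
    · simp only [Finset.mul_sum]
      exact Finset.sum_congr rfl fun i _ => by rw [ev]; ring
    · rw [apply_sum_ev, Finset.mul_sum]
      refine Finset.sum_congr rfl fun l _ => ?_
      simp only [PiLp.add_apply, PiLp.smul_apply, smul_eq_mul]
      ring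

end Vale.Agent.P347.Zero
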