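import Vale.Agent.P347.Zero.Heat
import Vale.Agent.P347.Zero.DvBounds
import Vale.Agent.P347.Zero.Scaled

/-!
The datum of the calculus at scale one belonging to (V, y, σ) at scale s.
-/

open MeasureTheory Set
open scoped RealInnerProductSpace

namespace Vale.Agent.P347.Zero

variable {d : ℕ} {V : EE d → ℝ}

/-- Bipartition constants after rescaling, from the constants B of `BipBound`. -/
noncomputable def cxK (B : ℕ → ℝ) (m : ℕ) : ℝ :=
  if m < 2 then 1 else B (m - 2) * Real.sqrt 20 ^ (m - 2)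

/-- The rescaled drift. -/
noncomputable def cxD (V : EE d → ℝ) (s u : ℝ) (x : EE d) : EE d :=
  Real.sqrt s • Dv V (s * u) (Real.sqrt s • x)

/-- The rescaled potential. -/
noncomputable def cxV (V : EE d → ℝ) (s u : ℝ) (x : EE d) : ℝ :=
  pot V (s * u) (Real.sqrt s • x)

lemma pd_cxD (s u : ℝ) : ∀ (L : List (Fin d)) (x : EE d),
    Calc.pd (cxD V s) L u x =
      Real.sqrt s ^ L.length * Calc.pd (Dv V) L (s * u) (Real.sqrt s • x)
  | [], x => by simp [Calc.pd]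
  | [k], x => by simp [Calc.pd, cxD]
  | i :: k :: l, x => by
    show fderiv ℝ (Calc.pd (cxD V s) (k :: l) u) x (Calc.ev i) = _
    rw [show Calc.pd (cxD V s) (k :: l) u = fun z => Real.sqrt s ^ (k :: l).length •
        Calc.pd (Dv V) (k :: l) (s * u) (Real.sqrt s • z) from
      funext fun z => by rw [pd_cxD s u (k :: l) z, smul_eq_mul]]
    have e := fderiv_comp_smul (𝕜 := ℝ) (f := Calc.pd (Dv V) (k :: l) (s * u)) (x := x)
      (Real.sqrt s)
    rw [show (fun z => Real.sqrt s ^ (k :: l).length • Calc.pd (Dv V) (k :: l) (s * u)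
        (Real.sqrt s • z)) = Real.sqrt s ^ (k :: l).length •
          fun z => Calc.pd (Dv V) (k :: l) (s * u) (Real.sqrt s • z) from rfl,
      fderiv_const_smul_field, Pi.smul_apply, e]
    show _ = Real.sqrt s ^ (i :: k :: l).length *
      fderiv ℝ (Calc.pd (Dv V) (k :: l) (s * u)) (Real.sqrt s • x) (Calc.ev i)
    simp [pow_succ]
    ring

lemma mop_scale {α β : Type} [Fintype α] [Fintype β] {M : α → β → ℝ} {C : ℝ}
    (h : Calc.Mop M C) (c : ℝ) {C' : ℝ} (hC : 0 ≤ |c| * C) (hC' : |c| * C ≤ C') :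
    Calc.Mop (fun i j => c * M i j) C' := by
  intro w
  calc ∑ i, (∑ j, c * M i j * w j) ^ 2 = c ^ 2 * ∑ i, (∑ j, M i j * w j) ^ 2 := by
        rw [Finset.mul_sum]
        refine Finset.sum_congr rfl fun i _ => ?_
        rw [← mul_pow, Finset.mul_sum]
        congr 1
        exact Finset.sum_congr rfl fun j _ => by ring
    _ ≤ c ^ 2 * (C ^ 2 * ∑ j, w j ^ 2) := mul_le_mul_of_nonneg_left (h w) (sq_nonneg _)
    _ = (|c| * C) ^ 2 * ∑ j, w j ^ 2 := by rw [mul_pow, sq_abs]; ring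
    _ ≤ _ := mul_le_mul_of_nonneg_right (pow_le_pow_left₀ hC hC' 2)
        (Finset.sum_nonneg fun j _ => sq_nonneg _)

lemma scales_pos {u : ℝ} (hu : u ∈ Calc.scales) : 1 / 20 < u ∧ u < 2 ∧ 0 < u :=
  ⟨hu.1, hu.2, by linarith [hu.1]⟩

lemma cx_scale {s : ℝ} (hs : 0 < s) (hs1 : s ≤ 1 / 32) {u : ℝ} (hu : u ∈ Calc.scales) :
    0 < s * u ∧ s * u ≤ 1 / 16 := by
  obtain ⟨-, h2, h0⟩ := scales_pos hu
  exact ⟨mul_pos hs h0, by nlinarith⟩

lemma cx_bip (hV : Admissible V) {B : ℕ → ℝ} (hB0 : ∀ n, 0 ≤ B n) (hB : ∀ n, BipBound n (B n))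
    {s : ℝ} (hs : 0 < s) (hs1 : s ≤ 1 / 32) (a b : ℕ) (ha : 1 ≤ a) (hb : 1 ≤ b) {u : ℝ}
    (hu : u ∈ Calc.scales) (x : EE d) :
    Calc.Mop (fun (f : Fin a → Fin d) (g : Fin b → Fin d) =>
      Calc.pd (cxD V s) (List.ofFn f ++ List.ofFn g) u x) (s * cxK B (a + b)) := by
  obtain ⟨n, hn⟩ : ∃ n, a + b = n + 2 := ⟨a + b - 2, by omega⟩
  obtain ⟨h20, -, hu0⟩ := scales_pos hu
  obtain ⟨hsu, hsu1⟩ := cx_scale hs hs1 hu
  have h := hB n d V (s * u) hV hsu hsu1 (Real.sqrt s • x) a b ha hb hn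
  simp only [pd_cxD, List.length_append, List.length_ofFn, hn]
  have hq : Real.sqrt s ^ (n + 2) * (B n / Real.sqrt (s * u) ^ n) =
      s * (B n / Real.sqrt u ^ n) := by
    have h1 := (Real.sqrt_pos.2 hs).ne'
    rw [Real.sqrt_mul hs.le, mul_pow, pow_add, Real.sq_sqrt hs.le]
    field_simp
  refine mop_scale h (Real.sqrt s ^ (n + 2)) ?_ ?_ <;>
    rw [abs_of_nonneg (pow_nonneg (Real.sqrt_nonneg _) _), hq]
  · exact mul_nonneg hs.le (div_nonneg (hB0 n) (by positivity))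
  · refine mul_le_mul_of_nonneg_left ?_ hs.le
    rw [cxK, if_neg (by omega), show n + 2 - 2 = n by omega, div_eq_mul_inv, ← inv_pow,
      ← Real.sqrt_inv]
    refine mul_le_mul_of_nonneg_left (pow_le_pow_left₀ (Real.sqrt_nonneg _) ?_ n) (hB0 n)
    refine Real.sqrt_le_sqrt ?_
    rw [inv_le_comm₀ hu0 (by norm_num)]
    linarith

/-- The datum at scale one of (V, y, σ) at scale s. -/
noncomputable def mkCx (hV : Admissible V) {B : ℕ → ℝ} (hB0 : ∀ n, 0 ≤ B n)
    (hB : ∀ n, BipBound n (B n)) {s σ : ℝ} (hs : 0 < s) (hs1 : s ≤ 1 / 32)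
    (hσ : Real.sqrt s ≤ σ) (y : EE d) : Calc.Cx (cxK B) where
  d := d
  V := cxV V s
  D := cxD V s
  y := (Real.sqrt s)⁻¹ • y
  sig := Real.sqrt s * σ
  sig_pos := mul_pos (Real.sqrt_pos.2 hs) ((Real.sqrt_pos.2 hs).trans_le hσ)
  lam := s
  lam_pos := hs
  lam_le := by linarith
  sig_inv := by
    have h0 := Real.sqrt_pos.2 hs
    have h1 : Real.sqrt s * Real.sqrt s ≤ Real.sqrt s * σ := mul_le_mul_of_nonneg_left hσ h0.le
    rw [Real.mul_self_sqrt hs.le] at h1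
    have hp : 0 < Real.sqrt s * σ := mul_pos h0 (h0.trans_le hσ)
    simp only [cxK, show (0 : ℕ) < 2 by norm_num, if_true]
    rw [← div_eq_mul_inv, div_le_one hp]
    exact h1
  grad := fun u hu x => by
    have h := (hasGradientAt_pot hV (cx_scale hs hs1 hu).1 (Real.sqrt s • x)).hasFDerivAt.comp x
      ((hasFDerivAt_id x).const_smul (Real.sqrt s))
    rw [hasGradientAt_iff_hasFDerivAt]
    refine h.congr_fderiv ?_
    ext w
    simp [cxD, InnerProductSpace.toDual_apply_apply]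
  lower := fun u hu => by
    obtain ⟨A, hA⟩ := pot_lower hV (cx_scale hs hs1 hu).1
    exact ⟨A, fun x => hA _ le_rfl _⟩
  smooth := by
    show ContDiffOn ℝ (⊤ : ℕ∞) (fun p : ℝ × EE d => cxD V s p.1 p.2) (Calc.scales ×ˢ univ)
    refine ContDiffOn.const_smul _ ((contDiffOn_Dv hV).comp
      (f := fun p : ℝ × EE d => (s * p.1, Real.sqrt s • p.2))
      (((contDiff_const.mul contDiff_fst).prodMk (contDiff_snd.const_smul _))).contDiffOn ?_)
    exact fun p hp => ⟨(cx_scale hs hs1 hp.1).1, trivial⟩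
  symm := fun u hu x i k => by
    rw [pd_cxD, pd_cxD, Dv_pd_symm hV (cx_scale hs hs1 hu).1]
    rfl
  heat := fun u hu x k => by
    have hsu := (cx_scale hs hs1 hu).1
    have h := ((heat_Dv hV hsu (Real.sqrt s • x) k).comp u
      ((hasDerivAt_id u).const_mul s)).const_mul (Real.sqrt s)
    refine (HasDerivAt.congr_of_eventuallyEq h (Filter.Eventually.of_forall fun t => ?_)).deriv.trans ?_
    · simp [cxD]
    simp only [pd_cxD, cxD, PiLp.smul_apply, smul_eq_mul, List.length_cons, List.length_nil,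
      ← Finset.mul_sum]
    have e : ∑ i, Real.sqrt s * Dv V (s * u) (Real.sqrt s • x) i * (Real.sqrt s ^ (0 + 1 + 1) *
        Calc.pd (Dv V) [i, k] (s * u) (Real.sqrt s • x)) =
      Real.sqrt s * s * ∑ i, Dv V (s * u) (Real.sqrt s • x) i *
        Calc.pd (Dv V) [i, k] (s * u) (Real.sqrt s • x) := by
      rw [Finset.mul_sum]
      refine Finset.sum_congr rfl fun i _ => ?_
      rw [show Real.sqrt s ^ (0 + 1 + 1) = s by rw [zero_add, one_add_one_eq_two, Real.sq_sqrt hs.le]]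
      ring
    rw [e, show Real.sqrt s ^ (0 + 1 + 1 + 1) = Real.sqrt s * s by
      rw [show (0 + 1 + 1 + 1 : ℕ) = 2 + 1 from rfl, pow_succ, Real.sq_sqrt hs.le]; ring]
    ring
  bip := fun a b ha hb u hu x => cx_bip hV hB0 hB hs hs1 a b ha hb hu x

theorem mkCx_scales (hV : Admissible V) {B : ℕ → ℝ} (hB0 : ∀ n, 0 ≤ B n)
    (hB : ∀ n, BipBound n (B n)) {s σ : ℝ} (hs : 0 < s) (hs1 : s ≤ 1 / 32)
    (hσ : Real.sqrt s ≤ σ) (y : EE d) :
    @Scales (cxK B) (mkCx hV hB0 hB hs hs1 hσ y) V s y σ :=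
  ⟨hs, fun _ _ => rfl, fun _ _ => rfl, rfl, rfl, contDiffOn_Dv hV⟩

end Vale.Agent.P347.Zero
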