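import Vale.Agent.P347.Zero.Quad
import Vale.Agent.P347.Zero.SemDefs

/-!
Rules of every order: the composite one along the scale and the short one for derivatives.
-/

open MeasureTheory Set

namespace Vale.Agent.P347.Zero

/-- The rule integrates every path with m derivatives to the accuracy C h^m. -/
def Rule.Exact (Q : Rule) (m : ℕ) (C h : ℝ) : Prop :=
  ∀ {E : Type} [NormedAddCommGroup E] [NormedSpace ℝ E] [CompleteSpace E]
    (F : ℕ → ℝ → E) (R : ℝ), 0 ≤ R → Chain F m 0 R →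
    (∀ i, ‖(∫ t in (0:ℝ)..R * Q.node i, F 0 t) - R • ∑ j, Q.W i j • F 0 (R * Q.node j)‖ ≤
      C * (R * h) ^ m * ∫ t in (0:ℝ)..R, ‖F m t‖) ∧
    ‖(∫ t in (0:ℝ)..R, F 0 t) - R • ∑ j, Q.tot j • F 0 (R * Q.node j)‖ ≤
      C * (R * h) ^ m * ∫ t in (0:ℝ)..R, ‖F m t‖

/-- The rule differentiates at 0 every path with m derivatives. -/
def Rule.ExactDer (Q : Rule) (m : ℕ) (C : ℝ) : Prop :=
  ∀ {E : Type} [NormedAddCommGroup E] [NormedSpace ℝ E] [CompleteSpace E]
    (F : ℕ → ℝ → E) (R : ℝ), 0 < R → Chain F m 0 R →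
    ‖F 1 0 - R⁻¹ • ∑ j, Q.der j • F 0 (R * Q.node j)‖ ≤
      C * R ^ (m - 2) * ∫ t in (0:ℝ)..R, ‖F m t‖

/-- The rule built from weights on an equally spaced grid. -/
noncomputable def gridRule (n : ℕ) (w : Fin (n + 1) → Fin (n + 1) → ℝ) (δ : Fin (n + 1) → ℝ) :
    Rule where
  n := n + 1
  node := fun i => (i : ℕ) / (n : ℝ)
  W := w
  tot := w (Fin.last n)
  der := δ

lemma gridRule_node_le (n : ℕ) (i : Fin (n + 1)) : (i : ℕ) / (n : ℝ) ≤ 1 :=
  div_le_one_of_le₀ (by exact_mod_cast Nat.lt_succ_iff.1 i.2) (Nat.cast_nonneg n)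

/-- Composite rules with n = N m + 1 nodes, accurate to C N^(-m). -/
theorem exists_rule (m : ℕ) (hm : 1 ≤ m) :
    ∃ C : ℝ, 0 ≤ C ∧ ∀ N : ℕ, 1 ≤ N →
      ∃ Q : Rule, Q.n = N * m + 1 ∧ Q.Ok C ∧ Q.Exact m C ((N : ℝ))⁻¹ := by
  obtain ⟨C, hC, h⟩ := quad_path m hm
  refine ⟨C, hC, fun N hN => ?_⟩
  obtain ⟨w, hw, hq⟩ := h N hN
  have hn : ((N * m : ℕ) : ℝ) ≠ 0 := by
    exact_mod_cast (Nat.mul_pos hN hm).ne'
  refine ⟨gridRule (N * m) w 0, rfl, ⟨fun i => ?_, fun i => gridRule_node_le _ i, hw, hw _, ?_⟩,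
    fun {E} _ _ _ F R hR hF => ?_⟩
  · show (0 : ℝ) ≤ (i : ℕ) / ((N * m : ℕ) : ℝ)
    positivity
  · simp [gridRule, hC]
  · have key : ∀ i : Fin (N * m + 1), R * ((i : ℕ) / ((N * m : ℕ) : ℝ)) = R * i / (N * m : ℕ) :=
      fun i => (mul_div_assoc _ _ _).symm
    constructor
    · intro i
      simp only [gridRule, ← mul_div_assoc]
      rw [← div_eq_mul_inv]
      exact hq F R hR hF i
    · have := hq F R hR hF (Fin.last (N * m))
      simp only [Fin.val_last, mul_div_cancel_right₀ _ hn] at this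
      simp only [gridRule, ← mul_div_assoc]
      rw [← div_eq_mul_inv]
      exact this

/-- Short rules with m + 1 nodes for integrals and the derivative. -/
theorem exists_leaf_rule (m : ℕ) (hm : 2 ≤ m) :
    ∃ C : ℝ, 0 ≤ C ∧ ∃ Q : Rule, Q.n = m + 1 ∧ Q.Ok C ∧ Q.Exact m C 1 ∧ Q.ExactDer m C := by
  obtain ⟨C₁, hC₁, h⟩ := quad_path m (by omega)
  obtain ⟨C₂, c, hC₂, hc, hd⟩ := deriv_path m hm
  refine ⟨C₁ + m * C₂ + C₂ * m, by positivity, ?_⟩
  obtain ⟨w, hw, hq⟩ : ∃ w : Fin (m + 1) → Fin (m + 1) → ℝ, (∀ j, ∑ i, |w j i| ≤ C₁) ∧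
      ∀ {E : Type} [NormedAddCommGroup E] [NormedSpace ℝ E] [CompleteSpace E]
        (F : ℕ → ℝ → E) (R : ℝ), 0 ≤ R → Chain F m 0 R → ∀ j : Fin (m + 1),
        ‖(∫ t in (0:ℝ)..R * j / (m : ℕ), F 0 t) - R • ∑ i, w j i • F 0 (R * i / (m : ℕ))‖ ≤
          C₁ * R ^ m * ∫ t in (0:ℝ)..R, ‖F m t‖ := by
    have := h 1 le_rfl
    rw [one_mul] at this
    simpa only [Nat.cast_one, div_one] using this
  set δ : Fin (m + 1) → ℝ := Fin.snoc (fun i => (m : ℝ) * c i) 0 with hδ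
  have hm0 : (0 : ℝ) < m := by exact_mod_cast (by omega : 0 < m)
  refine ⟨gridRule m w δ, rfl, ⟨fun i => ?_, fun i => gridRule_node_le _ i, fun i => ?_, ?_, ?_⟩,
    fun {E} _ _ _ F R hR hF => ?_, fun {E} _ _ _ F R hR hF => ?_⟩
  · show (0 : ℝ) ≤ (i : ℕ) / (m : ℝ)
    positivity
  · exact (hw i).trans (by nlinarith)
  · exact (hw _).trans (by nlinarith)
  · show ∑ j : Fin (m + 1), |δ j| ≤ _
    rw [Fin.sum_univ_castSucc]
    simp only [hδ, Fin.snoc_castSucc, Fin.snoc_last, abs_zero, add_zero, abs_mul, Nat.abs_cast]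
    rw [← Finset.mul_sum]
    nlinarith
  · have key : ∀ i : Fin (m + 1), R * ((i : ℕ) / (m : ℝ)) = R * i / (m : ℕ) :=
      fun i => (mul_div_assoc _ _ _).symm
    have hI : 0 ≤ ∫ t in (0:ℝ)..R, ‖F m t‖ :=
      intervalIntegral.integral_nonneg hR fun t _ => norm_nonneg _
    constructor
    · intro i
      simp only [gridRule, ← mul_div_assoc, mul_one]
      refine (hq F R hR hF i).trans ?_
      gcongr
      nlinarith
    · have := hq F R hR hF (Fin.last m)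
      simp only [Fin.val_last, mul_div_cancel_right₀ _ hm0.ne'] at this
      simp only [gridRule, ← mul_div_assoc, mul_one]
      refine this.trans ?_
      gcongr
      nlinarith
  · have ht : 0 < R / m := by positivity
    have hmt : (m : ℝ) * (R / m) = R := by field_simp
    have := hd F (R / m) ht (by rw [hmt]; exact hF)
    rw [hmt] at this
    have e : R⁻¹ • ∑ j : Fin (m + 1), δ j • F 0 (R * ((j : ℕ) / (m : ℝ))) =
        (R / m)⁻¹ • ∑ i : Fin m, c i • F 0 ((i : ℕ) * (R / m)) := by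
      rw [Fin.sum_univ_castSucc]
      simp only [hδ, Fin.snoc_castSucc, Fin.snoc_last, zero_smul, add_zero, Finset.smul_sum,
        smul_smul, Fin.val_castSucc]
      refine Finset.sum_congr rfl fun i _ => ?_
      congr 1
      · field_simp
      · congr 1; ring
    refine le_trans (le_of_eq (congrArg (fun z => ‖F 1 0 - z‖) e)) ?_
    refine this.trans ?_
    have hI : 0 ≤ ∫ t in (0:ℝ)..R, ‖F m t‖ :=
      intervalIntegral.integral_nonneg hR.le fun t _ => norm_nonneg _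
    have : (R / m) ^ (m - 2) ≤ R ^ (m - 2) :=
      pow_le_pow_left₀ ht.le (div_le_self hR.le (by exact_mod_cast (by omega : 1 ≤ m))) _
    have hm1 : (1 : ℝ) ≤ m := by exact_mod_cast (by omega : 1 ≤ m)
    gcongr
    nlinarith

end Vale.Agent.P347.Zero
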