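import Vale.Agent.P347.Gauss
import Vale.Agent.P347.Zero.SemTools
import Vale.Agent.P347.Zero.Rule

/-!
The exact rotation generated by a symmetric derivative, and the accuracy of a rule along it.
-/

open MeasureTheory ProbabilityTheory Set
open scoped RealInnerProductSpace ENNReal

namespace Vale.Agent.P347.Zero

/-- A rule is accurate of order m on paths with m derivatives. -/
def Rule.Acc (R : Rule) (d m : ℕ) (C : ℝ) : Prop :=
  ∀ (F : ℕ → ℝ → EE d) (T : ℝ), 0 < T → T ≤ 1 → Chain F m 0 T →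
    (∀ i, ‖(∫ t in (0:ℝ)..T * R.node i, F 0 t) - ∑ j, (T * R.W i j) • F 0 (T * R.node j)‖ ≤
      C * T ^ (m - 2) * ∫ t in (0:ℝ)..T, ‖F m t‖) ∧
    ‖F 1 0 - ∑ j, (R.der j / T) • F 0 (T * R.node j)‖ ≤
      C * T ^ (m - 2) * ∫ t in (0:ℝ)..T, ‖F m t‖

lemma Rule.acc_of {R : Rule} {d m : ℕ} {C : ℝ} (hC : 0 ≤ C) (h : R.Exact m C 1)
    (h' : R.ExactDer m C) : R.Acc d m C := by
  intro F T hT hT1 hF
  have hI : 0 ≤ ∫ t in (0:ℝ)..T, ‖F m t‖ :=
    intervalIntegral.integral_nonneg hT.le fun t _ => norm_nonneg _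
  refine ⟨fun i => ?_, ?_⟩
  · have := (h F T hT.le hF).1 i
    simp only [Finset.smul_sum, smul_smul, mul_one] at this
    refine this.trans ?_
    have := pow_le_pow_of_le_one hT.le hT1 (Nat.sub_le m 2)
    gcongr
  · have := h' F T hT hF
    simpa only [Finset.smul_sum, smul_smul, div_eq_inv_mul] using this

variable {d : ℕ} (b : OrthonormalBasis (Fin d) ℝ (EE d))

/-- The operator with eigenvalues g in the basis b. -/
noncomputable def diag (g : Fin d → ℝ) : EE d →L[ℝ] EE d :=
  ∑ i, g i • (innerSL ℝ (b i)).smulRight (b i)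

lemma diag_apply (g : Fin d → ℝ) (p : EE d) : diag b g p = ∑ i, (g i * ⟪b i, p⟫) • b i := by
  simp [diag, smul_smul]

lemma inner_diag (g : Fin d → ℝ) (p : EE d) (j : Fin d) : ⟪b j, diag b g p⟫ = g j * ⟪b j, p⟫ := by
  rw [diag_apply]; exact b.orthonormal.inner_right_fintype _ j

lemma diag_norm_le {g : Fin d → ℝ} {M : ℝ} (hM : 0 ≤ M) (hg : ∀ i, |g i| ≤ M) (p : EE d) :
    ‖diag b g p‖ ≤ M * ‖p‖ := by
  refine abs_le_of_sq_le_sq' ?_ (by positivity) |>.2
  rw [← b.sum_sq_inner_right, mul_pow, ← b.sum_sq_inner_right p, Finset.mul_sum]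
  refine Finset.sum_le_sum fun i _ => ?_
  rw [inner_diag, mul_pow]
  exact mul_le_mul_of_nonneg_right (sq_le_sq' (abs_le.1 (hg i)).1 (abs_le.1 (hg i)).2) (sq_nonneg _)

lemma diag_adjoint (g : Fin d → ℝ) : ContinuousLinearMap.adjoint (diag b g) = diag b g := by
  refine ((ContinuousLinearMap.eq_adjoint_iff _ _).2 fun p q => ?_).symm
  simp only [diag_apply, sum_inner, inner_sum, real_inner_smul_left, real_inner_smul_right]
  refine Finset.sum_congr rfl fun i _ => ?_
  rw [real_inner_comm p (b i)]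
  ring

lemma diag_comp (g g' : Fin d → ℝ) (p : EE d) :
    diag b g (diag b g' p) = diag b (fun i => g i * g' i) p := by
  rw [diag_apply, diag_apply b (fun i => g i * g' i)]
  refine Finset.sum_congr rfl fun i _ => ?_
  rw [inner_diag]; congr 1; ring

variable (l : Fin d → ℝ)

/-- The rotated vector. -/
noncomputable def rotU (p q : EE d) (r : ℝ) : EE d :=
  diag b (fun i => Real.cos (r * l i)) p + diag b (fun i => Real.sin (r * l i)) q

/-- The derivatives of the image of the rotated vector. -/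
noncomputable def rotP (p q : EE d) (k : ℕ) (r : ℝ) : EE d :=
  diag b (fun i => l i ^ (k + 1) * Real.cos (r * l i + k * (Real.pi / 2))) p +
    diag b (fun i => l i ^ (k + 1) * Real.sin (r * l i + k * (Real.pi / 2))) q

lemma rotP_zero (p q : EE d) (r : ℝ) : rotP b l p q 0 r = diag b l (rotU b l p q r) := by
  simp [rotP, rotU, diag_comp]

lemma diag_deriv {g g' : ℝ → Fin d → ℝ} {r : ℝ}
    (h : ∀ i, HasDerivAt (fun t => g t i) (g' r i) r) (p : EE d) :
    HasDerivAt (fun t => diag b (g t) p) (diag b (g' r) p) r := by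
  simp only [diag_apply]
  exact HasDerivAt.fun_sum fun i _ => ((h i).mul_const _).smul_const _

lemma rotP_deriv (p q : EE d) (k : ℕ) (r : ℝ) :
    HasDerivAt (rotP b l p q k) (rotP b l p q (k + 1) r) r := by
  refine (diag_deriv b (g' := fun r i =>
      l i ^ (k + 1 + 1) * Real.cos (r * l i + ((k + 1 : ℕ) : ℝ) * (Real.pi / 2))) (fun i => ?_) p).add
    (diag_deriv b (g' := fun r i =>
      l i ^ (k + 1 + 1) * Real.sin (r * l i + ((k + 1 : ℕ) : ℝ) * (Real.pi / 2))) (fun i => ?_) q)
  · refine ((((hasDerivAt_id r).mul_const (l i)).add_const _).cos.const_mul _).congr_deriv ?_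
    push_cast
    rw [add_one_mul, ← add_assoc, Real.cos_add_pi_div_two]
    simp only [id_eq]; ring
  · refine ((((hasDerivAt_id r).mul_const (l i)).add_const _).sin.const_mul _).congr_deriv ?_
    push_cast
    rw [add_one_mul, ← add_assoc, Real.sin_add_pi_div_two]
    simp only [id_eq]; ring

lemma rotU_deriv (p q : EE d) (r : ℝ) :
    HasDerivAt (rotU b l p q) (rotP b l q (-p) 0 r) r := by
  refine ((diag_deriv b (g' := fun r i => -(l i * Real.sin (r * l i))) (fun i => ?_) p).add
    (diag_deriv b (g' := fun r i => l i * Real.cos (r * l i)) (fun i => ?_) q)).congr_deriv ?_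
  · exact ((hasDerivAt_id r).mul_const (l i)).cos.congr_deriv (by simp; ring)
  · exact ((hasDerivAt_id r).mul_const (l i)).sin.congr_deriv (by simp; ring)
  · simp [rotP, diag_apply, add_comm]

lemma rotP_bound {M : ℝ} (hM : 0 ≤ M) (hl : ∀ i, |l i| ≤ M) (p q : EE d) (k : ℕ) (r : ℝ) :
    ‖rotP b l p q k r‖ ≤ M ^ (k + 1) * (‖p‖ + ‖q‖) := by
  rw [mul_add]
  refine (norm_add_le _ _).trans (add_le_add ?_ ?_) <;>
    refine diag_norm_le b (by positivity) (fun i => ?_) _ <;>
    rw [abs_mul, abs_pow]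
  · exact (mul_le_of_le_one_right (by positivity) (Real.abs_cos_le_one _)).trans
      (pow_le_pow_left₀ (abs_nonneg _) (hl i) _)
  · exact (mul_le_of_le_one_right (by positivity) (Real.abs_sin_le_one _)).trans
      (pow_le_pow_left₀ (abs_nonneg _) (hl i) _)

lemma rotU_bound (p q : EE d) (r : ℝ) : ‖rotU b l p q r‖ ≤ ‖p‖ + ‖q‖ := by
  refine (norm_add_le _ _).trans (add_le_add ?_ ?_)
  · simpa using diag_norm_le b zero_le_one (fun i => Real.abs_cos_le_one _) p
  · simpa using diag_norm_le b zero_le_one (fun i => Real.abs_sin_le_one _) q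

lemma rotU_continuous (r : ℝ) : Continuous fun z : EE d × EE d => rotU b l z.1 z.2 r := by
  unfold rotU; fun_prop

lemma rotU_law (r : ℝ) :
    ((gam d).prod (gam d)).map (fun z => rotU b l z.1 z.2 r) = gam d := by
  refine map_prod_coisometry (diag b fun i => Real.cos (r * l i))
    (diag b fun i => Real.sin (r * l i)) ?_
  ext1 p
  simp only [diag_adjoint, add_apply, ContinuousLinearMap.comp_apply,
    diag_comp, ContinuousLinearMap.id_apply]
  rw [diag_apply, diag_apply, ← Finset.sum_add_distrib]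
  conv_rhs => rw [← b.sum_repr p]
  refine Finset.sum_congr rfl fun i _ => ?_
  rw [← add_smul, b.repr_apply_apply, ← add_mul, ← pow_two, ← pow_two, Real.cos_sq_add_sin_sq,
    one_mul]

/-- A rule along the rotation. -/
lemma rotU_rule {R : Rule} {m : ℕ} {C a : ℝ} (hR : R.Acc d m C) (hm : 2 ≤ m) (hC : 0 ≤ C)
    (ha : 0 < a) (ha1 : a ≤ 1) {M : ℝ} (hM : 0 ≤ M) (hl : ∀ i, |l i| ≤ M) (p q : EE d) :
    (∀ i, ‖(∑ j, (a * R.W i j) • diag b l (rotU b l q (-p) (a * R.node j))) -
        (rotU b l p q (a * R.node i) - p)‖ ≤ C * M ^ 3 * (M * a) ^ (m - 2) * (‖p‖ + ‖q‖)) ∧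
    ‖(∑ j, (R.der j / a) • diag b l (rotU b l p q (a * R.node j))) - diag b l (diag b l q)‖ ≤
      C * M ^ 3 * (M * a) ^ (m - 2) * (‖p‖ + ‖q‖) := by
  have hchain : ∀ p q : EE d, Chain (rotP b l p q) m 0 a := fun p q =>
    ⟨fun k _ t _ => (rotP_deriv b l p q k t).hasDerivWithinAt,
      fun t _ => (rotP_deriv b l p q m t).continuousAt.continuousWithinAt⟩
  have hint : ∀ p q : EE d, ∫ t in (0:ℝ)..a, ‖rotP b l p q m t‖ ≤
      M ^ (m + 1) * (‖p‖ + ‖q‖) := fun p q => by
    refine (Real.le_norm_self _).trans ?_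
    refine (intervalIntegral.norm_integral_le_of_norm_le_const fun t _ => ?_).trans
      (le_of_le_of_eq (mul_le_of_le_one_right (by positivity) ?_) rfl)
    · rw [norm_norm]; exact rotP_bound b l hM hl p q m t
    · rw [sub_zero, abs_of_pos ha]; exact ha1
  have hM' : C * a ^ (m - 2) * M ^ (m + 1) = C * M ^ 3 * (M * a) ^ (m - 2) := by
    rw [mul_pow, show m + 1 = 3 + (m - 2) by omega, pow_add]; ring
  refine ⟨fun i => ?_, ?_⟩
  · have h1 := (hR _ a ha ha1 (hchain q (-p))).1 i
    rw [intervalIntegral.integral_eq_sub_of_hasDerivAt (fun t _ => rotU_deriv b l p q t)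
      (Continuous.intervalIntegrable (continuous_iff_continuousAt.2 fun t =>
        (rotP_deriv b l q (-p) 0 t).continuousAt) _ _), norm_sub_rev] at h1
    simp only [rotP_zero] at h1
    have e : rotU b l p q 0 = p := by
      rw [rotU, diag_apply, diag_apply]; simpa using b.sum_repr' p
    rw [e] at h1
    refine h1.trans ((mul_le_mul_of_nonneg_left (hint _ _) (by positivity)).trans ?_)
    rw [norm_neg, add_comm ‖q‖, ← mul_assoc, hM']
  · have h1 := (hR _ a ha ha1 (hchain p q)).2
    rw [norm_sub_rev] at h1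
    simp only [rotP_zero] at h1
    have e : rotP b l p q 1 0 = diag b l (diag b l q) := by
      simp [rotP, diag_comp, pow_two]; simp [diag_apply]
    rw [e] at h1
    refine h1.trans ((mul_le_mul_of_nonneg_left (hint _ _) (by positivity)).trans ?_)
    rw [← mul_assoc, hM']

/-- A symmetric bounded operator is diagonal in an orthonormal basis. -/
lemma exists_diag (P : EE d →L[ℝ] EE d) (hs : ∀ p q, ⟪P p, q⟫ = ⟪p, P q⟫) {M : ℝ}
    (hP : ∀ p, ‖P p‖ ≤ M * ‖p‖) :
    ∃ (b : OrthonormalBasis (Fin d) ℝ (EE d)) (l : Fin d → ℝ),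
      (∀ i, |l i| ≤ M) ∧ ∀ p, P p = diag b l p := by
  have hT : (P : EE d →ₗ[ℝ] EE d).IsSymmetric := fun p q => hs p q
  have hn : Module.finrank ℝ (EE d) = d := finrank_euclideanSpace_fin
  refine ⟨hT.eigenvectorBasis hn, hT.eigenvalues hn, fun i => ?_, fun p => ?_⟩
  · have h1 := hP (hT.eigenvectorBasis hn i)
    have h2 := hT.apply_eigenvectorBasis hn i
    simp only [ContinuousLinearMap.coe_coe] at h2
    rw [h2, norm_smul, (hT.eigenvectorBasis hn).orthonormal.1 i, mul_one, mul_one] at h1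
    exact h1
  · conv_lhs => rw [← (hT.eigenvectorBasis hn).sum_repr p]
    rw [map_sum, diag_apply]
    refine Finset.sum_congr rfl fun i _ => ?_
    have h2 := hT.apply_eigenvectorBasis hn i
    simp only [ContinuousLinearMap.coe_coe, RCLike.ofReal_real_eq_id, id_eq] at h2
    rw [map_smul, OrthonormalBasis.repr_apply_apply, h2, smul_smul, mul_comm]

end Vale.Agent.P347.Zero
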