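import Vale.Agent.P347.Gauss

/-!
The Gaussian Poincare inequality for scalar functions, with the averaged gradient on the right.
-/

open MeasureTheory ProbabilityTheory Filter
open scoped RealInnerProductSpace Topology

namespace Vale.Agent.P347.Zero

variable {G : Type*} [NormedAddCommGroup G] [InnerProductSpace ℝ G] [FiniteDimensional ℝ G]
  [MeasurableSpace G] [BorelSpace G]

lemma zg_memLp (F : G → ℝ) (L : NNReal) (hF : LipschitzWith L F) :
    MemLp F 2 (stdGaussian G) := by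
  have hid : MemLp (fun x : G => x) 2 (stdGaussian G) :=
    IsGaussian.memLp_id _ 2 (by norm_num)
  have hg : MemLp (fun x : G => ‖F 0‖ + (L : ℝ) * ‖x‖) 2 (stdGaussian G) :=
    MemLp.add (memLp_const (‖F 0‖)) (hid.norm.const_mul (L : ℝ))
  refine hg.of_le hF.continuous.aestronglyMeasurable (Eventually.of_forall fun x => ?_)
  rw [Real.norm_eq_abs (‖F 0‖ + _), abs_of_nonneg (by positivity)]
  have h := hF.norm_sub_le x 0
  rw [sub_zero] at h
  linarith [norm_le_insert' (F x) (F 0)]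

/-- Gaussian Poincare inequality in its rotation form. -/
lemma gauss_var (F : G → ℝ) (L : ℝ) (hF : ContDiff ℝ 1 F)
    (hL : ∀ ω, ‖fderiv ℝ F ω‖ ≤ L)
    :
    ∫ ω, ‖F ω - ∫ ω', F ω' ∂stdGaussian G‖ ^ 2 ∂stdGaussian G ≤
      5 / 4 * ∫ ω, ‖fderiv ℝ F ω‖ ^ 2 ∂stdGaussian G := by
  set γ := stdGaussian G with hγ
  have hL0 : 0 ≤ L := le_trans (norm_nonneg _) (hL 0)
  have hlip : LipschitzWith L.toNNReal F :=
    lipschitzWith_of_nnnorm_fderiv_le (hF.differentiable one_ne_zero)
      (fun x => by rw [← NNReal.coe_le_coe, coe_nnnorm, Real.coe_toNNReal _ hL0]; exact hL x)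
  have hlip' : ∀ x y, ‖F x - F y‖ ≤ L * ‖x - y‖ := fun x y => by
    have h := hlip.norm_sub_le x y
    rwa [Real.coe_toNNReal _ hL0] at h
  have hFc := hlip.continuous
  have hMem : MemLp F 2 γ := zg_memLp F _ hlip
  have hid : MemLp (fun x : G => x) 2 γ := IsGaussian.memLp_id _ 2 (by norm_num)
  have hbd : Integrable (fun p : G × G => (L * (‖p.1‖ + ‖p.2‖)) ^ 2) (γ.prod γ) :=
    (((hid.norm.comp_fst γ).add (hid.norm.comp_snd γ)).const_mul L).integrable_sq
  have hint0 : Integrable (fun p : G × G => ‖F p.1 - F p.2‖ ^ 2) (γ.prod γ) :=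
    (((hMem.comp_fst γ).sub (hMem.comp_snd γ))).norm.integrable_sq
  set m := ∫ ω, F ω ∂γ with hm
  -- the symmetrised form of the variance
  have hvar : ∫ p : G × G, ‖F p.1 - F p.2‖ ^ 2 ∂(γ.prod γ) = 2 * ∫ ω, ‖F ω - m‖ ^ 2 ∂γ := by
    have hc : MemLp (fun ω => F ω - m) 2 γ := hMem.sub (memLp_const m)
    have h2 : Integrable (fun ω => ‖F ω - m‖ ^ 2) γ := hc.norm.integrable_sq
    have hc1 : Integrable (fun ω => F ω - m) γ := hc.integrable (by norm_num)
    have h0 : ∫ ω, (F ω - m) ∂γ = 0 := by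
      rw [integral_sub (hMem.integrable (by norm_num)) (integrable_const m), integral_const]
      simp [hm]
    have he : ∀ x y, ‖F x - F y‖ ^ 2 =
        ‖F x - m‖ ^ 2 + ‖F y - m‖ ^ 2 - 2 * ⟪F x - m, F y - m⟫ := by
      intro x y
      rw [show F x - F y = (F x - m) - (F y - m) by abel, norm_sub_sq_real]
      ring
    rw [integral_prod _ hint0]
    have hin : ∀ x, ∫ y, ‖F x - F y‖ ^ 2 ∂γ = ‖F x - m‖ ^ 2 + ∫ ω, ‖F ω - m‖ ^ 2 ∂γ := by
      intro x
      simp_rw [he]
      have e1 : Integrable (fun y => ‖F x - m‖ ^ 2 + ‖F y - m‖ ^ 2) γ :=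
        (integrable_const _).fun_add h2
      rw [integral_sub e1 ((hc1.const_inner _).const_mul 2),
        integral_add (integrable_const _) h2, integral_const_mul, integral_inner hc1, h0]
      simp
    simp_rw [hin]
    rw [integral_add h2 (integrable_const _)]
    simp; ring
  -- angles
  have hstep : ∀ n : ℕ, 0 < n → ∫ p : G × G, ‖F p.1 - F p.2‖ ^ 2 ∂(γ.prod γ) ≤
      (n : ℝ) ^ 2 * ∫ p : G × G, ‖F (Real.cos (Real.pi / 2 / n) • p.1 +
        Real.sin (Real.pi / 2 / n) • p.2) - F p.1‖ ^ 2 ∂(γ.prod γ) := by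
    intro n hn
    set δ := Real.pi / 2 / n with hδ
    set D : G × G → ℝ := fun p =>
      ‖F (Real.cos δ • p.1 + Real.sin δ • p.2) - F p.1‖ ^ 2 with hD
    set c : ℕ → G × G → G := fun k p => Real.cos (k * δ) • p.1 + Real.sin (k * δ) • p.2 with hc
    have hDc : Continuous D := by simp only [hD]; fun_prop
    have hrot : ∀ k : ℕ, (γ.prod γ).map (ContinuousLinearMap.rotation (k * δ : ℝ)) = γ.prod γ :=
      fun k => IsGaussian.map_rotation_eq_self (by simp [hγ]) _
    have hDk : ∀ (k : ℕ) (p : G × G),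
        D (ContinuousLinearMap.rotation (k * δ : ℝ) p) = ‖F (c (k + 1) p) - F (c k p)‖ ^ 2 := by
      intro k p
      simp only [hD, hc, ContinuousLinearMap.rotation_apply]
      have h1 : ((k + 1 : ℕ) : ℝ) * δ = (k : ℝ) * δ + δ := by push_cast; ring
      rw [h1, Real.cos_add, Real.sin_add]
      have e1 : Real.cos δ • (Real.cos (k * δ) • p.1 + Real.sin (k * δ) • p.2) +
          Real.sin δ • (-Real.sin (k * δ) • p.1 + Real.cos (k * δ) • p.2) =
          (Real.cos (k * δ) * Real.cos δ - Real.sin (k * δ) * Real.sin δ) • p.1 +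
          (Real.sin (k * δ) * Real.cos δ + Real.cos (k * δ) * Real.sin δ) • p.2 := by module
      rw [← e1]
    have hDi : Integrable D (γ.prod γ) := by
      refine (hbd.const_mul 4).mono' hDc.aestronglyMeasurable (Eventually.of_forall fun p => ?_)
      rw [Real.norm_eq_abs, abs_of_nonneg (by simp only [hD]; positivity)]
      have h1 := hlip' (Real.cos δ • p.1 + Real.sin δ • p.2) p.1
      have h2 : ‖Real.cos δ • p.1 + Real.sin δ • p.2 - p.1‖ ≤ 2 * (‖p.1‖ + ‖p.2‖) := by
        refine (norm_sub_le _ _).trans ?_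
        have h3 := norm_add_le (Real.cos δ • p.1) (Real.sin δ • p.2)
        rw [norm_smul, norm_smul, Real.norm_eq_abs, Real.norm_eq_abs] at h3
        nlinarith [Real.abs_cos_le_one δ, Real.abs_sin_le_one δ, norm_nonneg p.1, norm_nonneg p.2]
      calc D p ≤ (L * (2 * (‖p.1‖ + ‖p.2‖))) ^ 2 :=
            pow_le_pow_left₀ (norm_nonneg _) (h1.trans (mul_le_mul_of_nonneg_left h2 hL0)) 2
        _ = 4 * (L * (‖p.1‖ + ‖p.2‖)) ^ 2 := by ring
    have hDik : ∀ k : ℕ, Integrable (fun p => D (ContinuousLinearMap.rotation (k * δ : ℝ) p))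
        (γ.prod γ) := by
      intro k
      refine Integrable.comp_measurable (g := D) ?_ (by fun_prop)
      rw [hrot k]; exact hDi
    have hDint : ∀ k : ℕ,
        ∫ p, D (ContinuousLinearMap.rotation (k * δ : ℝ) p) ∂(γ.prod γ) = ∫ p, D p ∂(γ.prod γ) := by
      intro k
      rw [← integral_map (f := D) (by fun_prop) (by fun_prop), hrot k]
    have hpt : ∀ p : G × G, ‖F p.1 - F p.2‖ ^ 2 ≤
        (n : ℝ) * ∑ k ∈ Finset.range n, D (ContinuousLinearMap.rotation (k * δ : ℝ) p) := by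
      intro p
      simp_rw [hDk]
      have h0 : c 0 p = p.1 := by simp [hc]
      have hn' : c n p = p.2 := by
        have : (n : ℝ) * δ = Real.pi / 2 := by rw [hδ]; field_simp
        simp [hc, this]
      rw [norm_sub_rev, ← hn', ← h0, ← Finset.sum_range_sub (fun k => F (c k p))]
      refine (pow_le_pow_left₀ (norm_nonneg _) (norm_sum_le _ _) 2).trans ?_
      simpa using sq_sum_le_card_mul_sum_sq (s := Finset.range n)
        (f := fun k => ‖F (c (k + 1) p) - F (c k p)‖)
    calc ∫ p : G × G, ‖F p.1 - F p.2‖ ^ 2 ∂(γ.prod γ)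
        ≤ ∫ p, (n : ℝ) * ∑ k ∈ Finset.range n, D (ContinuousLinearMap.rotation (k * δ : ℝ) p)
            ∂(γ.prod γ) :=
          integral_mono hint0 ((integrable_finsetSum _ fun k _ => hDik k).const_mul _) hpt
      _ = (n : ℝ) ^ 2 * ∫ p, D p ∂(γ.prod γ) := by
          rw [integral_const_mul, integral_finsetSum _ fun k _ => hDik k]
          simp only [hDint, Finset.sum_const, Finset.card_range, nsmul_eq_mul]
          ring
  -- the limit
  set u : ℕ → G × G → ℝ := fun n p => (n : ℝ) ^ 2 *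
    ‖F (Real.cos (Real.pi / 2 / n) • p.1 + Real.sin (Real.pi / 2 / n) • p.2) - F p.1‖ ^ 2 with hu
  have hlim : Tendsto (fun n => ∫ p, u n p ∂(γ.prod γ)) atTop
      (𝓝 (∫ p : G × G, (Real.pi / 2) ^ 2 * ‖fderiv ℝ F p.1 p.2‖ ^ 2 ∂(γ.prod γ))) := by
    refine tendsto_integral_of_dominated_convergence
      (fun p => (2 * Real.pi / 2) ^ 2 * (L * (‖p.1‖ + ‖p.2‖)) ^ 2) ?_ (hbd.const_mul _) ?_ ?_
    · intro n; exact (by simp only [hu]; fun_prop : Continuous (u n)).aestronglyMeasurable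
    · intro n
      refine Eventually.of_forall fun p => ?_
      rcases Nat.eq_zero_or_pos n with rfl | hn
      · simp [hu]; positivity
      simp only [hu]
      set δ := Real.pi / 2 / n with hδ
      have hδ0 : 0 ≤ δ := by positivity
      have hnδ : (n : ℝ) * δ = Real.pi / 2 := by rw [hδ]; field_simp
      rw [Real.norm_eq_abs, abs_of_nonneg (by positivity)]
      have h1 := hlip' (Real.cos δ • p.1 + Real.sin δ • p.2) p.1
      have h2 : ‖Real.cos δ • p.1 + Real.sin δ • p.2 - p.1‖ ≤ 2 * δ * (‖p.1‖ + ‖p.2‖) := by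
        rw [show Real.cos δ • p.1 + Real.sin δ • p.2 - p.1 =
          (Real.cos δ - Real.cos 0) • p.1 + (Real.sin δ - Real.sin 0) • p.2 by
            simp only [Real.cos_zero, Real.sin_zero, sub_zero]; module]
        refine (norm_add_le _ _).trans ?_
        rw [norm_smul, norm_smul, Real.norm_eq_abs, Real.norm_eq_abs]
        have a1 := Real.abs_cos_sub_cos_le δ 0
        have a2 := Real.abs_sin_sub_sin_le δ 0
        rw [sub_zero, abs_of_nonneg hδ0] at a1 a2
        nlinarith [norm_nonneg p.1, norm_nonneg p.2]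
      calc (n : ℝ) ^ 2 * ‖F (Real.cos δ • p.1 + Real.sin δ • p.2) - F p.1‖ ^ 2
          ≤ (n : ℝ) ^ 2 * (L * (2 * δ * (‖p.1‖ + ‖p.2‖))) ^ 2 := by
            gcongr
            exact h1.trans (mul_le_mul_of_nonneg_left h2 hL0)
        _ = (2 * ((n : ℝ) * δ)) ^ 2 * (L * (‖p.1‖ + ‖p.2‖)) ^ 2 := by ring
        _ = _ := by rw [hnδ]; ring
    · refine Eventually.of_forall fun p => ?_
      set cur : ℝ → G := fun t => Real.cos t • p.1 + Real.sin t • p.2 with hcur
      have hd : HasDerivAt cur p.2 0 := by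
        simpa [hcur] using ((Real.hasDerivAt_cos 0).smul_const p.1).fun_add
          ((Real.hasDerivAt_sin 0).smul_const p.2)
      have hd' : HasDerivAt (fun t => F (cur t)) (fderiv ℝ F p.1 p.2) 0 :=
        HasFDerivAt.comp_hasDerivAt_of_eq 0
          (hF.differentiable one_ne_zero p.1).hasFDerivAt hd (by simp [hcur])
      have hs := hd'.tendsto_slope_zero
      have ht : Tendsto (fun n : ℕ => Real.pi / 2 / n) atTop (𝓝[≠] 0) := by
        refine tendsto_nhdsWithin_iff.2 ⟨tendsto_const_div_atTop_nhds_zero_nat _, ?_⟩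
        filter_upwards [eventually_gt_atTop 0] with n hn
        simp [Real.pi_ne_zero, hn.ne']
      have h := ((hs.comp ht).norm.pow 2).const_mul ((Real.pi / 2) ^ 2)
      refine h.congr' ?_
      filter_upwards [eventually_gt_atTop 0] with n hn
      simp only [Function.comp_apply, hu, hcur, zero_add, Real.cos_zero, Real.sin_zero, one_smul,
        zero_smul, add_zero, norm_smul, Real.norm_eq_abs, mul_pow, sq_abs, inv_pow]
      field_simp
  have hle : ∫ p : G × G, ‖F p.1 - F p.2‖ ^ 2 ∂(γ.prod γ) ≤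
      ∫ p : G × G, (Real.pi / 2) ^ 2 * ‖fderiv ℝ F p.1 p.2‖ ^ 2 ∂(γ.prod γ) := by
    refine ge_of_tendsto hlim ?_
    filter_upwards [eventually_gt_atTop 0] with n hn
    simpa [hu, integral_const_mul] using hstep n hn
  have hDi : Integrable (fun p : G × G => (Real.pi / 2) ^ 2 * ‖fderiv ℝ F p.1 p.2‖ ^ 2)
      (γ.prod γ) := by
    have hc : Continuous (fun p : G × G => fderiv ℝ F p.1 p.2) :=
      ((hF.continuous_fderiv one_ne_zero).comp continuous_fst).clm_apply continuous_snd
    refine (hbd.const_mul ((Real.pi / 2) ^ 2)).mono'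
      ((hc.norm.pow 2).const_mul _).aestronglyMeasurable
      (Eventually.of_forall fun p => ?_)
    rw [Real.norm_eq_abs, abs_of_nonneg (by positivity)]
    gcongr
    calc ‖fderiv ℝ F p.1 p.2‖ ≤ L * ‖p.2‖ :=
          ((fderiv ℝ F p.1).le_opNorm _).trans (mul_le_mul_of_nonneg_right (hL _) (norm_nonneg _))
      _ ≤ _ := mul_le_mul_of_nonneg_left (by simp) hL0
  have hfin : ∫ p : G × G, (Real.pi / 2) ^ 2 * ‖fderiv ℝ F p.1 p.2‖ ^ 2 ∂(γ.prod γ)
      = (Real.pi / 2) ^ 2 * ∫ ω, ‖fderiv ℝ F ω‖ ^ 2 ∂γ := by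
    rw [integral_prod _ hDi, ← integral_const_mul]
    refine integral_congr_ae (Eventually.of_forall fun x => ?_)
    simp only [integral_const_mul]
    congr 1
    set w := (InnerProductSpace.toDual ℝ G).symm (fderiv ℝ F x) with hw
    have e : ∀ u, fderiv ℝ F x u = ⟪w, u⟫ := fun u => by
      rw [hw, InnerProductSpace.toDual_symm_apply]
    simp only [e, Real.norm_eq_abs, sq_abs, hγ, integral_inner_sq]
    rw [hw, LinearIsometryEquiv.norm_map]
  have hpi : (Real.pi / 2) ^ 2 ≤ 5 / 2 := by nlinarith [Real.pi_lt_d2, Real.pi_pos]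
  have h0 : 0 ≤ ∫ ω, ‖fderiv ℝ F ω‖ ^ 2 ∂γ := integral_nonneg fun ω => sq_nonneg _
  nlinarith [hvar, hle, hfin, mul_le_mul_of_nonneg_right hpi h0]

end Vale.Agent.P347.Zero
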