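import Vale.Agent.P347.Zero.Expo
import Vale.Agent.P347.Zero.GaussVar
import Vale.Agent.P347.Chain
import Vale.Agent.P347.Invariant

/-!
The fine proximal chain started at y converges to the posterior given y, for each fixed y.
-/

open MeasureTheory ProbabilityTheory Filter
open scoped RealInnerProductSpace Topology

namespace Vale.Agent.P347.Zero

variable {d : ℕ} {V : EE d → ℝ} {η : ℝ}

/-- Step size of the n-th chain. -/
noncomputable def hSeq (η : ℝ) (n : ℕ) : ℝ := η / (4 * ((n : ℝ) + 1) ^ 4)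

/-- Length of the n-th chain. -/
noncomputable def nSeq (η : ℝ) (n : ℕ) : ℕ := (n + 1) ^ 4 * (n + ⌈32 / η⌉₊)

lemma hSeq_pos (hη : 0 < η) (n : ℕ) : 0 < hSeq η n := by unfold hSeq; positivity

lemma hSeq_le (hη : 0 < η) (n : ℕ) : hSeq η n ≤ η / 4 := by
  refine div_le_div_of_nonneg_left hη.le (by norm_num) ?_
  exact le_mul_of_one_le_right (by norm_num) (one_le_pow₀ (by simp))

lemma hSeq_mul (n : ℕ) :
    hSeq η n * (nSeq η n : ℝ) = η / 4 * ((n : ℝ) + ⌈32 / η⌉₊) := by
  unfold hSeq nSeq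
  push_cast
  have : ((n : ℝ) + 1) ^ 4 ≠ 0 := by positivity
  field_simp

lemma seq_long (hη : 0 < η) (n : ℕ) : 8 ≤ hSeq η n * (nSeq η n : ℝ) := by
  rw [hSeq_mul]
  have h1 : 32 / η ≤ (⌈32 / η⌉₊ : ℝ) := Nat.le_ceil _
  have h2 : (8 : ℝ) = η / 4 * (32 / η) := by field_simp; norm_num
  rw [h2]
  exact mul_le_mul_of_nonneg_left (h1.trans (le_add_of_nonneg_left (Nat.cast_nonneg n)))
    (by positivity)

lemma seq_ok (hV : Admissible V) (hη : 0 < η) (hη1 : η ≤ 1 / 16) (n : ℕ) :
    Chain.Ok (gradient V) η (hSeq η n) (nSeq η n) :=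
  ⟨gradClass_gradient hV, hη, hη1, hSeq_pos hη n, hSeq_le hη n, seq_long hη n⟩

lemma seq_err_tendsto (hη : 0 < η) :
    Tendsto (fun n => hSeq η n * (nSeq η n : ℝ) * Real.sqrt (hSeq η n) +
      Real.exp (-(hSeq η n * (nSeq η n : ℝ)) / 4)) atTop (𝓝 0) := by
  rw [← add_zero (0 : ℝ)]
  refine Tendsto.add ?_ ?_
  · set K : ℝ := (⌈32 / η⌉₊ : ℝ)
    have hs : ∀ n : ℕ, Real.sqrt (hSeq η n) = Real.sqrt η / 2 / ((n : ℝ) + 1) ^ 2 := fun n => by
      rw [hSeq, Real.sqrt_div hη.le,
        show (4 : ℝ) * ((n : ℝ) + 1) ^ 4 = (2 * ((n : ℝ) + 1) ^ 2) ^ 2 by ring,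
        Real.sqrt_sq (by positivity), div_div]
    refine squeeze_zero (fun n => ?_) (fun n => ?_)
      ((tendsto_one_div_add_atTop_nhds_zero_nat (𝕜 := ℝ)).const_mul
        (η / 4 * (1 + K) * (Real.sqrt η / 2)) |>.trans (by simp))
    · have := hSeq_pos hη n
      positivity
    · rw [hSeq_mul, hs]
      have h1 : (n : ℝ) + K ≤ (1 + K) * ((n : ℝ) + 1) := by
        nlinarith [Nat.cast_nonneg (α := ℝ) n, Nat.cast_nonneg (α := ℝ) ⌈32 / η⌉₊]
      calc η / 4 * ((n : ℝ) + K) * (Real.sqrt η / 2 / ((n : ℝ) + 1) ^ 2)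
          ≤ η / 4 * ((1 + K) * ((n : ℝ) + 1)) * (Real.sqrt η / 2 / ((n : ℝ) + 1) ^ 2) := by
            gcongr
        _ = _ := by field_simp
  · refine Real.tendsto_exp_atBot.comp ?_
    simp only [neg_div]
    refine tendsto_neg_atTop_atBot.comp ?_
    simp only [hSeq_mul]
    refine Tendsto.atTop_div_const (by norm_num) (Tendsto.const_mul_atTop (by positivity) ?_)
    exact tendsto_atTop_add_const_right _ _ tendsto_natCast_atTop_atTop

/-- The joint estimate of the invariance proof, weighted by a function of the centre. -/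
lemma joint_estimate (hV : Admissible V) (hη : 0 < η) (hη1 : η ≤ 1 / 16) {h : ℝ} (hh : 0 < h)
    (hh1 : h ≤ η / 4) (N : ℕ) {φ : EE d → ℝ} {Ψ : EE d → EE d} {B : ℝ}
    (hφ : ∀ x, HasGradientAt φ (Ψ x) x) (hc : Continuous Ψ) (hB : ∀ x, ‖Ψ x‖ ≤ B)
    (h1 : ∀ x, |φ x| ≤ 1) {ψ : EE d → ℝ} (hψ : Continuous ψ) (hψ1 : ∀ y, |ψ y| ≤ 1) :
    |∫ q, inv_w V q * (ψ (inv_Y η q) * (Rop (gradient V) η h N φ (inv_Y η q) - φ q.1))| ≤
      25 * ((d : ℝ) + 1) ^ 3 * B * (∫ x, inv_wt V x) *
        ((h * N * Real.sqrt h) + Real.exp (-(h * N) / 4)) := by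
  have hg := gradClass_gradient hV
  set g := gradient V
  set Z := ∫ x, inv_wt V x
  have hZ : 0 < Z := inv_Z_pos hV
  have hB0 : 0 ≤ B := (norm_nonneg _).trans (hB 0)
  have hd0 : (0 : ℝ) ≤ d := Nat.cast_nonneg d
  have hP := inv_P_continuous (d := d) η
  have hYc : Continuous (inv_Y (d := d) η) := by unfold inv_Y; fun_prop
  have hlin : ∀ (k : ℕ) (p : EE d × EE d), inv_upd g η h
      (fun q => ψ q.1 * inv_Phi g η h φ k q) p = ψ p.1 * inv_Phi g η h φ (k + 1) p := fun k p => by
    simp only [inv_upd, inv_Phi, Gs, integral_const_mul]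
  set J := fun k => ∫ q, inv_w V q * (ψ (inv_Y η q) * inv_Phi g η h φ k (inv_P η q))
  have hh0 : 0 ≤ 1 - h := by linarith
  have hh2 : 1 - h ≤ 1 := by linarith
  have hstep : ∀ k, |J (k + 1) - J k| ≤ 25 * ((d : ℝ) + 1) ^ 3 * (B * (h * Real.sqrt h)) * Z := by
    intro k
    obtain ⟨Ψ', hS⟩ := inv_Phi_slice hg hη hη1 hh hh1 hφ hc hB h1 k
    have hS' : InvSlice (fun q => ψ q.1 * inv_Phi g η h φ k q) (fun q => ψ q.1 • Ψ' q)
        ((1 - h) ^ k * B) := by
      refine ⟨(hψ.comp continuous_fst).mul hS.cont,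
        (hψ.comp continuous_fst).smul hS.contGrad, fun p => ?_, fun p => ?_, fun y x => ?_⟩
      · rw [abs_mul]; exact mul_le_one₀ (hψ1 _) (abs_nonneg _) (hS.le_one p)
      · rw [norm_smul, Real.norm_eq_abs]
        exact (mul_le_of_le_one_left (norm_nonneg _) (hψ1 _)).trans (hS.bound p)
      · refine hasGradientAt_iff_hasFDerivAt.2 ?_
        rw [map_smul]
        exact (hS.grad y x).hasFDerivAt.const_mul (ψ y)
    have := inv_step hV hη hη1 hh hh1 hS'
    rw [show gradient V = g from rfl] at this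
    simp only [hlin] at this
    refine this.trans ?_
    gcongr
    exact mul_le_of_le_one_left hB0 (pow_le_one₀ hh0 hh2)
  have htel : |J N - J 0| ≤ N * (25 * ((d : ℝ) + 1) ^ 3 * (B * (h * Real.sqrt h)) * Z) := by
    rw [← Finset.sum_range_sub J N]
    refine (Finset.abs_sum_le_sum_abs _ _).trans ((Finset.sum_le_sum fun k _ => hstep k).trans ?_)
    simp
  obtain ⟨ΨN, hSN⟩ := inv_Phi_slice hg hη hη1 hh hh1 hφ hc hB h1 N
  have hRc : Continuous (Rop g η h N φ) := by
    rw [funext (inv_Rop_eq hg hη hη1 hh hh1 hφ hc hB h1 N)]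
    have := hSN.cont
    exact continuous_of_dominated (bound := fun _ => 1)
      (fun y => (by fun_prop :
        Continuous fun ξ => inv_Phi g η h φ N (y, y + Real.sqrt η • ξ)).aestronglyMeasurable)
      (fun y => ae_of_all _ fun ξ => hSN.le_one _) (integrable_const _)
      (ae_of_all _ fun ξ => by fun_prop)
  have hφc : Continuous φ :=
    continuous_iff_continuousAt.2 fun x => (hφ x).hasFDerivAt.continuousAt
  have hRb : ∀ y, |Rop g η h N φ y| ≤ 1 := fun y => by
    rw [inv_Rop_eq hg hη hη1 hh hh1 hφ hc hB h1 N y, ← Real.norm_eq_abs]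
    exact (norm_integral_le_of_norm_le_const (ae_of_all _ fun ξ => hSN.le_one _)).trans_eq (by simp)
  have hb1 : ∀ a b : ℝ, |a| ≤ 1 → |b| ≤ 1 → |a * b| ≤ 1 := fun a b ha hb => by
    rw [abs_mul]; exact mul_le_one₀ ha (abs_nonneg b) hb
  have hRi := inv_joint_int hV (fun q => ψ (inv_Y η q) * Rop g η h N φ (inv_Y η q))
    ((hψ.comp hYc).mul (hRc.comp hYc)) 1 fun q => hb1 _ _ (hψ1 _) (hRb _)
  have hNi := inv_joint_int hV (fun q => ψ (inv_Y η q) * inv_Phi g η h φ N (inv_P η q))
    ((hψ.comp hYc).mul (hSN.cont.comp hP)) 1 fun q => hb1 _ _ (hψ1 _) (hSN.le_one _)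
  have h0i := inv_joint_int hV (fun q => ψ (inv_Y η q) * φ q.1)
    ((hψ.comp hYc).mul (hφc.comp continuous_fst)) 1 fun q => hb1 _ _ (hψ1 _) (h1 _)
  set E := Real.exp (-(h * N) / 4)
  have hE : (1 - h) ^ N ≤ E := by
    calc (1 - h) ^ N ≤ Real.exp (-h) ^ N :=
          pow_le_pow_left₀ hh0 (by linarith [Real.add_one_le_exp (-h)]) N
      _ = Real.exp (-(h * N)) := by rw [← Real.exp_nat_mul]; congr 1; ring
      _ ≤ E := Real.exp_le_exp.2 (by linarith [mul_nonneg hh.le (Nat.cast_nonneg (α := ℝ) N)])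
  have hsη : Real.sqrt η ≤ 1 := Real.sqrt_le_one.2 (by linarith)
  have hn1 : Integrable fun q : EE d × EE d => inv_w V q * ‖q.2‖ :=
    inv_w_integrable hV (fun q => ‖q.2‖) (by fun_prop) 1 1 fun q => by
      rw [norm_norm]; nlinarith [norm_nonneg q.1, norm_nonneg q.2,
        mul_nonneg (norm_nonneg q.1) (norm_nonneg q.2)]
  have hn2 : ∫ q : EE d × EE d, inv_w V q * ‖q.2‖ ≤ Z * (d + 1) := by
    simp only [inv_w, mul_assoc, Measure.volume_eq_prod]
    refine (integral_prod_mul (inv_wt V) (fun x => inv_gd x * ‖x‖)).trans_le ?_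
    refine mul_le_mul_of_nonneg_left (le_of_eq_of_le ?_ inv_gam_norm) hZ.le
    rw [inv_integral_gam]
    rfl
  have htail : |(∫ q, inv_w V q * (ψ (inv_Y η q) * Rop g η h N φ (inv_Y η q))) - J N| ≤
      B * E * (2 * (d + 1)) * Z := by
    rw [← integral_sub hRi hNi, ← Real.norm_eq_abs]
    refine (norm_integral_le_integral_norm _).trans ((integral_mono_of_nonneg
      (ae_of_all _ fun q => norm_nonneg _)
      ((hn1.const_mul (B * E)).add ((inv_w_int hV).const_mul (B * E * (d + 1))))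
      (ae_of_all _ fun q => ?_)).trans ?_)
    · simp only [Pi.add_apply, ← mul_sub, norm_mul, Real.norm_eq_abs,
        abs_of_nonneg (inv_w_pos q)]
      have h2 : |Rop g η h N φ (inv_Y η q) - inv_Phi g η h φ N (inv_P η q)| ≤
          B * (1 - h) ^ N * (‖q.2‖ + (d + 1)) := by
        refine (inv_Rop_near hg hη hη1 hh hh1 hφ hc hB h1 N (inv_Y η q) q.1).trans ?_
        refine mul_le_mul_of_nonneg_left ?_ (mul_nonneg hB0 (pow_nonneg hh0 N))
        simp only [inv_Y, add_sub_cancel_left, norm_smul, Real.norm_eq_abs,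
          abs_of_nonneg (Real.sqrt_nonneg η)]
        exact add_le_add (mul_le_of_le_one_left (norm_nonneg _) hsη)
          (mul_le_of_le_one_left (by positivity) hsη)
      refine (mul_le_mul_of_nonneg_left ((mul_le_of_le_one_left (abs_nonneg _) (hψ1 _)).trans
        (h2.trans (mul_le_mul_of_nonneg_right (mul_le_mul_of_nonneg_left hE hB0) (by positivity))))
        (inv_w_pos q)).trans_eq ?_
      ring
    · simp only [Pi.add_apply]
      rw [integral_add (hn1.const_mul _) ((inv_w_int hV).const_mul _), integral_const_mul,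
        integral_const_mul, inv_w_total hV]
      nlinarith [mul_le_mul_of_nonneg_left hn2 (mul_nonneg hB0 (Real.exp_nonneg (-(h * N) / 4)))]
  have e0 : ∫ q, inv_w V q * (ψ (inv_Y η q) * φ q.1) = J 0 := rfl
  simp only [mul_sub]
  rw [integral_sub hRi h0i, e0]
  refine ((abs_sub_le _ (J N) _).trans (add_le_add htail htel)).trans ?_
  have hp1 : 2 * ((d : ℝ) + 1) ≤ 25 * ((d : ℝ) + 1) ^ 3 := by
    nlinarith [le_self_pow₀ (show (1 : ℝ) ≤ d + 1 by linarith) (three_ne_zero (α := ℕ))]
  have a1 := mul_le_mul_of_nonneg_left hp1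
    (by positivity : 0 ≤ B * Real.exp (-(h * N) / 4) * Z)
  linarith

/-- Moving from (state, noise) to (centre, state). -/
lemma joint_to_centre (hV : Admissible V) (hη : 0 < η) :
    ∃ c : ℝ, c ≠ 0 ∧ ∀ H : EE d → EE d → ℝ, Continuous (Function.uncurry H) →
      (∃ K, ∀ y x, |H y x| ≤ K) →
      ∫ q, inv_w V q * H (inv_Y η q) q.1 = c * ∫ y, ∫ x, pw V η y x * H y x := by
  set k : ℝ := ((Real.sqrt (2 * Real.pi))⁻¹) ^ d
  have hs : 0 < Real.sqrt η := Real.sqrt_pos.2 hη
  set t : ℝ := (Real.sqrt η) ^ d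
  refine ⟨k / t, by positivity, fun H hH ⟨K, hK⟩ => ?_⟩
  have hYc : Continuous (inv_Y (d := d) η) := by unfold inv_Y; fun_prop
  have hi : Integrable fun q => inv_w V q * H (inv_Y η q) q.1 :=
    inv_joint_int hV (fun q => H (inv_Y η q) q.1) (hH.comp (hYc.prodMk continuous_fst)) K
      fun q => hK _ _
  have hVc := hV.1.continuous
  have hinner : ∀ x, ∫ ξ, inv_w V (x, ξ) * H (inv_Y η (x, ξ)) x
      = k / t * ∫ y, pw V η y x * H y x := by
    intro x
    set F : EE d → ℝ := fun y => pw V η (x + y) x * H (x + y) x with hF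
    have e : ∀ ξ, inv_w V (x, ξ) * H (inv_Y η (x, ξ)) x = k * F (Real.sqrt η • ξ) := fun ξ => by
      simp only [inv_w, inv_wt, inv_Y, hF, pw, inv_gd, norm_smul, sub_add_cancel_left, norm_neg,
        Real.norm_eq_abs, mul_pow, sq_abs, Real.sq_sqrt hη.le]
      rw [show -V x - η * ‖ξ‖ ^ 2 / (2 * η) = -V x + -(‖ξ‖ ^ 2 / 2) by field_simp; ring,
        Real.exp_add]
      ring
    simp_rw [e]
    rw [integral_const_mul, Measure.integral_comp_smul volume F (Real.sqrt η)]
    simp only [finrank_euclideanSpace_fin, smul_eq_mul, hF]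
    rw [integral_add_left_eq_self (fun y => pw V η y x * H y x) x,
      abs_of_pos (by positivity : 0 < ((Real.sqrt η) ^ d)⁻¹)]
    ring
  have hYpw : Continuous fun q : EE d × EE d => pw V η q.2 q.1 * H q.2 q.1 := by
    have h1 : Continuous fun q : EE d × EE d => H q.2 q.1 :=
      hH.comp (continuous_snd.prodMk continuous_fst)
    unfold pw
    fun_prop
  rw [Measure.volume_eq_prod, integral_prod _ hi]
  simp_rw [hinner]
  rw [integral_const_mul, integral_integral_swap]
  have hg0 : Integrable fun z : EE d => Real.exp (-(‖z‖ ^ 2 / (2 * η))) := by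
    have h : Integrable fun x : EE d => Real.exp (-(‖x‖ ^ 2 / 2)) := by
      simpa using inv_pow_exp_integrable (d := d) 0
    refine ((integrable_comp_smul_iff volume _ (inv_ne_zero hs.ne')).2 h).congr
      (ae_of_all _ fun x => ?_)
    simp only [norm_smul, Real.norm_eq_abs, mul_pow, sq_abs, inv_pow, Real.sq_sqrt hη.le]
    congr 1; field_simp
  have hI := (measurePreserving_prod_sub (volume : Measure (EE d)) (volume : Measure (EE d))
    ).integrable_comp_of_integrable ((inv_wt_integrable₀ hV).mul_prod hg0)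
  refine (hI.const_mul |K|).mono' hYpw.aestronglyMeasurable (ae_of_all _ fun q => ?_)
  simp only [Function.comp_apply, Function.uncurry, norm_mul, Real.norm_eq_abs]
  rw [show pw V η q.2 q.1 = inv_wt V q.1 * Real.exp (-(‖q.2 - q.1‖ ^ 2 / (2 * η))) by
    rw [inv_wt, pw, ← Real.exp_add, norm_sub_rev]; congr 1]
  rw [abs_of_nonneg (by unfold inv_wt; positivity), mul_comm |K|]
  exact mul_le_mul_of_nonneg_left ((hK _ _).trans (le_abs_self K)) (by unfold inv_wt; positivity)

/-- Starting the chain elsewhere moves it by at most as much. -/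
lemma zchain_lip (hV : Admissible V) (hη : 0 < η) (hη1 : η ≤ 1 / 16) (n : ℕ)
    (ω : Path d (nSeq η n)) (y y' : EE d) :
    ‖zchain (gradient V) η (hSeq η n) (nSeq η n) y (nSeq η n) ω -
      zchain (gradient V) η (hSeq η n) (nSeq η n) y' (nSeq η n) ω‖ ≤ ‖y - y'‖ := by
  have ok := seq_ok hV hη hη1 n
  have := convex_univ.norm_image_sub_le_of_norm_fderiv_le (s := (Set.univ : Set (EE d)))
    (f := fun z => zchain (gradient V) η (hSeq η n) (nSeq η n) z (nSeq η n) ω) (C := 1)
    (fun z _ => (Chain.hasFDerivAt_z ok.cls.smooth ω _ z).differentiableAt)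
    (fun z _ => by
      rw [(Chain.hasFDerivAt_z ok.cls.smooth ω _ z).fderiv]
      exact Chain.norm_J_le_one ok z ω _)
    (Set.mem_univ y') (Set.mem_univ y)
  simpa using this

/-- The chain reaches the posterior, for test functions with bounded gradient. -/
theorem chain_limit (hV : Admissible V) (hη : 0 < η) (hη1 : η ≤ 1 / 16) {φ : EE d → ℝ}
    (hφ : ContDiff ℝ 1 φ) {B : ℝ} (hB : ∀ x, ‖fderiv ℝ φ x‖ ≤ B) (h1 : ∀ x, |φ x| ≤ 1)
    (y0 : EE d) :
    Tendsto (fun n => ∫ ω, φ (zchain (gradient V) η (hSeq η n) (nSeq η n) y0 (nSeq η n) ω)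
      ∂pgam d (nSeq η n)) atTop (𝓝 (pE V η y0 φ)) := by
  set R : ℕ → EE d → ℝ := fun n y => Rop (gradient V) η (hSeq η n) (nSeq η n) φ y with hR
  show Tendsto (fun n => R n y0) atTop _
  have hB0 : 0 ≤ B := (norm_nonneg _).trans (hB 0)
  have hg : ∀ x, HasGradientAt φ (gradient φ x) x := fun x =>
    (hφ.differentiable one_ne_zero x).hasGradientAt
  have hgc : Continuous (gradient φ) :=
    (InnerProductSpace.toDual ℝ (EE d)).symm.continuous.comp (hφ.continuous_fderiv one_ne_zero)
  have hgn : ∀ x, ‖gradient φ x‖ ≤ B := fun x => by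
    rw [gradient, LinearIsometryEquiv.norm_map]; exact hB x
  have hφl : ∀ a b, |φ a - φ b| ≤ B * ‖a - b‖ := fun a b => by
    rw [← Real.norm_eq_abs]
    exact convex_univ.norm_image_sub_le_of_norm_fderiv_le
      (fun z _ => hφ.differentiable one_ne_zero z) (fun z _ => hB z) (Set.mem_univ b)
      (Set.mem_univ a)
  have hRi : ∀ n y, Integrable (fun ω => φ (zchain (gradient V) η (hSeq η n) (nSeq η n) y
      (nSeq η n) ω)) (pgam d (nSeq η n)) := fun n y =>
    Chain.int_z (seq_ok hV hη hη1 n) ⟨hφ.continuous, 1, h1⟩ y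
  have hRl : ∀ n y y', |R n y - R n y'| ≤ B * ‖y - y'‖ := fun n y y' => by
    simp only [hR, Rop]
    rw [← integral_sub (hRi n y) (hRi n y'), ← Real.norm_eq_abs]
    refine (norm_integral_le_of_norm_le_const (C := B * ‖y - y'‖) (ae_of_all _ fun ω => ?_)).trans
      (by simp)
    rw [Real.norm_eq_abs]
    exact (hφl _ _).trans (mul_le_mul_of_nonneg_left (zchain_lip hV hη hη1 n ω y y') hB0)
  have hRc : ∀ n, Continuous (R n) := fun n =>
    (LipschitzWith.of_dist_le_mul (K := ⟨B, hB0⟩) fun a b => by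
      rw [dist_eq_norm, dist_eq_norm, Real.norm_eq_abs]; exact hRl n a b).continuous
  have hR1 : ∀ n y, |R n y| ≤ 1 := fun n y => by
    simp only [hR, Rop]
    rw [← Real.norm_eq_abs]
    exact (norm_integral_le_of_norm_le_const (C := 1) (ae_of_all _ fun ω => h1 _)).trans (by simp)
  have hVc := hV.1.continuous
  have hgr : Gr φ := gr_of_le hφ.continuous (gr_const (1 : ℝ)) fun x => h1 x
  have hone : Gr fun _ : EE d => (1 : ℝ) := gr_const 1
  have hEc : Continuous fun y => pE V η y φ := by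
    simp_rw [pE_eq_ex]
    exact (ex_contDiff hV hη hgr).continuous.comp (continuous_const_smul _)
  have hZc : ∀ y, pZ V η y = Real.exp (-(‖y‖ ^ 2 / (2 * η))) * mass0 V η (η⁻¹ • y) := fun y => by
    simp only [pZ, mass0, lap, smul_eq_mul, mul_one]
    rw [← integral_const_mul]
    refine integral_congr_ae (ae_of_all _ fun x => ?_)
    simp only [pw, w0, ← Real.exp_add, real_inner_smul_left]
    congr 1
    rw [norm_sub_sq_real, real_inner_comm]
    ring
  have hZpos : ∀ y, 0 < pZ V η y := fun y => by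
    rw [hZc]; exact mul_pos (Real.exp_pos _) (mass0_pos hV hη _)
  have hZcont : Continuous (pZ V η) := by
    rw [funext hZc]
    have := (mass0_contDiff (d := d) hV hη).continuous
    fun_prop
  obtain ⟨c, hc, hjc⟩ := joint_to_centre (η := η) hV hη
  refine Metric.tendsto_atTop.2 fun ε hε => ?_
  obtain ⟨δ, hδ, hδE⟩ := Metric.continuousAt_iff.1 (hEc.continuousAt (x := y0)) (ε / 4) (by linarith)
  set r := min δ (ε / (4 * (B + 1))) with hr
  have hr0 : 0 < r := lt_min hδ (by positivity)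
  set ψ : EE d → ℝ := fun y => max 0 (1 - ‖y - y0‖ / r) with hψ
  have hψc : Continuous ψ := by simp only [hψ]; fun_prop
  have hψ0 : ∀ y, 0 ≤ ψ y := fun y => le_max_left _ _
  have hψ1 : ∀ y, |ψ y| ≤ 1 := fun y => by
    rw [abs_of_nonneg (hψ0 y)]
    exact max_le zero_le_one (sub_le_self _ (by positivity))
  have hψs : ∀ y, ψ y ≠ 0 → ‖y - y0‖ < r := fun y hy => by
    by_contra hcon
    refine hy (max_eq_left ?_)
    rw [sub_nonpos, le_div_iff₀ hr0]
    linarith [not_lt.1 hcon]
  have hψz : Integrable fun y => ψ y * pZ V η y := by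
    refine (hψc.mul hZcont).integrable_of_hasCompactSupport
      (HasCompactSupport.of_support_subset_isCompact (isCompact_closedBall y0 r) fun y hy => ?_)
    rw [Metric.mem_closedBall, dist_eq_norm]
    exact (hψs y (left_ne_zero_of_mul hy)).le
  set M := ∫ y, ψ y * pZ V η y
  have hM : 0 < M := by
    refine (hψc.mul hZcont).integral_pos_of_hasCompactSupport_nonneg_nonzero ?_
      (fun y => mul_nonneg (hψ0 y) (hZpos y).le) (x := y0) ?_
    · exact HasCompactSupport.of_support_subset_isCompact (isCompact_closedBall y0 r) fun y hy => by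
        rw [Metric.mem_closedBall, dist_eq_norm]
        exact (hψs y (left_ne_zero_of_mul hy)).le
    · exact mul_ne_zero (by simp [hψ]) (hZpos y0).ne'
  set A : ℕ → ℝ := fun n => ∫ y, ψ y * pZ V η y * (R n y - pE V η y φ) with hA
  have hAi : ∀ n, Integrable fun y => ψ y * pZ V η y * (R n y - pE V η y φ) := fun n => by
    refine ((hψc.mul hZcont).mul ((hRc n).sub hEc)).integrable_of_hasCompactSupport
      (HasCompactSupport.of_support_subset_isCompact (isCompact_closedBall y0 r) fun y hy => ?_)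
    rw [Metric.mem_closedBall, dist_eq_norm]
    exact (hψs y (left_ne_zero_of_mul (left_ne_zero_of_mul hy))).le
  have hA0 : Tendsto A atTop (𝓝 0) := by
    have hin : ∀ n y, ∫ x, pw V η y x * (ψ y * (R n y - φ x)) =
        ψ y * pZ V η y * (R n y - pE V η y φ) := fun n y => by
      have i1 : Integrable fun x => pw V η y x := by
        have := tilt_integrable hV hη hone (η⁻¹ • y)
        refine (this.const_mul (Real.exp (-(‖y‖ ^ 2 / (2 * η))))).congr (ae_of_all _ fun x => ?_)
        simp only [pw, w0, smul_eq_mul, mul_one, ← Real.exp_add, real_inner_smul_left]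
        congr 1
        rw [norm_sub_sq_real, real_inner_comm]
        ring
      have i2 : Integrable fun x => pw V η y x * φ x :=
        i1.mul_bdd hφ.continuous.aestronglyMeasurable (ae_of_all _ fun x => h1 x)
      have e : ∀ x, pw V η y x * (ψ y * (R n y - φ x)) =
          ψ y * R n y * pw V η y x - ψ y * (pw V η y x * φ x) := fun x => by ring
      simp_rw [e]
      rw [integral_sub (i1.const_mul _) (i2.const_mul _), integral_const_mul, integral_const_mul]
      have hZne : (∫ x, pw V η y x) ≠ 0 := (hZpos y).ne'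
      simp only [pE, pZ, smul_eq_mul]
      field_simp
    have hb : ∀ n, |c * A n| ≤ 25 * ((d : ℝ) + 1) ^ 3 * B * (∫ x, inv_wt V x) *
        ((hSeq η n * (nSeq η n : ℝ) * Real.sqrt (hSeq η n)) +
          Real.exp (-(hSeq η n * (nSeq η n : ℝ)) / 4)) := fun n => by
      have hje := joint_estimate hV hη hη1 (hSeq_pos hη n) (hSeq_le hη n) (nSeq η n) hg hgc hgn h1
        hψc hψ1
      rw [hjc (fun y x => ψ y * (R n y - φ x))
        ((hψc.comp continuous_fst).mul (((hRc n).comp continuous_fst).sub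
          (hφ.continuous.comp continuous_snd))) ⟨2, fun y x => ?_⟩] at hje
      · simp only [hin] at hje
        exact hje
      · rw [abs_mul]
        refine (mul_le_of_le_one_left (abs_nonneg _) (hψ1 y)).trans ?_
        linarith [abs_sub (R n y) (φ x), hR1 n y, h1 x]
    have hlim := (seq_err_tendsto hη).const_mul (25 * ((d : ℝ) + 1) ^ 3 * B * ∫ x, inv_wt V x)
    rw [mul_zero] at hlim
    have h0 := squeeze_zero_norm (f := fun n => c * A n) hb hlim
    have := h0.const_mul c⁻¹
    simpa [← mul_assoc, inv_mul_cancel₀ hc] using this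
  obtain ⟨n0, hn0⟩ := Metric.tendsto_atTop.1 hA0 (ε / 4 * M) (by positivity)
  refine ⟨n0, fun n hn => ?_⟩
  rw [Real.dist_eq]
  have hAn := hn0 n hn
  rw [Real.dist_eq, sub_zero] at hAn
  set D0 := R n y0 - pE V η y0 φ
  have hclose : |A n - M * D0| ≤ ε / 2 * M := by
    simp only [hA]
    rw [← integral_mul_const, ← integral_sub (hAi n) (hψz.mul_const D0), ← Real.norm_eq_abs,
      ← integral_const_mul]
    refine (norm_integral_le_integral_norm _).trans (integral_mono_of_nonneg
      (ae_of_all _ fun y => norm_nonneg _) (hψz.const_mul _) (ae_of_all _ fun y => ?_))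
    show ‖_‖ ≤ _
    rw [← mul_sub, norm_mul, Real.norm_eq_abs, Real.norm_eq_abs,
      abs_of_nonneg (mul_nonneg (hψ0 y) (hZpos y).le)]
    refine le_of_le_of_eq ?_ (mul_comm (ψ y * pZ V η y) (ε / 2))
    rcases eq_or_ne (ψ y) 0 with h0 | h0
    · simp [h0]
    refine mul_le_mul_of_nonneg_left ?_ (mul_nonneg (hψ0 y) (hZpos y).le)
    have hy := hψs y h0
    have hE := hδE (x := y) (by rw [dist_eq_norm]; exact hy.trans_le (min_le_left _ _))
    rw [Real.dist_eq] at hE
    have hRy : |R n y - R n y0| ≤ ε / 4 := by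
      refine (hRl n y y0).trans ?_
      calc B * ‖y - y0‖ ≤ (B + 1) * (ε / (4 * (B + 1))) :=
            mul_le_mul (by linarith) (hy.le.trans (min_le_right _ _)) (norm_nonneg _) (by linarith)
        _ = ε / 4 := by field_simp
    calc |R n y - pE V η y φ - D0| = |(R n y - R n y0) - (pE V η y φ - pE V η y0 φ)| := by
          simp only [D0]; ring_nf
      _ ≤ |R n y - R n y0| + |pE V η y φ - pE V η y0 φ| := abs_sub _ _
      _ ≤ ε / 2 := by linarith
  have h2 : M * |D0| ≤ |A n| + ε / 2 * M := by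
    rw [← abs_of_pos hM, ← abs_mul, abs_of_pos hM]
    have := abs_sub_abs_le_abs_sub (M * D0) (A n)
    rw [abs_sub_comm] at this
    linarith
  nlinarith [hM]

end Vale.Agent.P347.Zero
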