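import Vale.Agent.P347.Zero.SemTools

/-!
The derivative evaluation and the forward sweep: Lipschitz bounds and accuracy.
-/

open MeasureTheory ProbabilityTheory
open scoped RealInnerProductSpace ENNReal

namespace Vale.Agent.P347.Zero

variable {d : ℕ}

/-- The standing hypotheses on drift and parameters, at scales up to S. -/
structure SemOk (V : EE d → ℝ) (c : Cfg) (S C κ : ℝ) : Prop where
  drift : DriftOk V S
  gOk : c.G.Ok C
  lOk : c.L.Ok C
  one_le : 1 ≤ C
  S_nonneg : 0 ≤ S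
  S_small : 4 * C * S ≤ κ
  τ_pos : 0 < c.τ
  τ_le : c.τ ≤ 1
  τ_small : 8 * C * c.τ ^ 2 ≤ κ
  a_pos : 0 < c.a
  a_le : c.a ≤ 1
  a_small : 8 * c.a * C ^ 2 ≤ κ
  κ_le : κ ≤ 1 / 2

variable {V : EE d → ℝ} {c : Cfg} {S C κ : ℝ}

lemma SemOk.κ_nonneg (h : SemOk V c S C κ) : 0 ≤ κ :=
  le_trans (by have := h.one_le; positivity) h.τ_small

lemma SemOk.S_le (h : SemOk V c S C κ) : S ≤ 1 := by
  nlinarith [h.one_le, h.S_small, h.κ_le, h.S_nonneg]

lemma scale_mem {v t r : ℝ} (hr : 0 ≤ r) (hr1 : r ≤ 1) (ht : t ^ 2 ≤ v) :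
    0 ≤ v - (t * r) ^ 2 ∧ v - (t * r) ^ 2 ≤ v := by
  have h1 : (t * r) ^ 2 ≤ t ^ 2 := by
    rw [mul_pow]; exact mul_le_of_le_one_right (sq_nonneg t) (pow_le_one₀ hr hr1)
  exact ⟨by linarith, by linarith [sq_nonneg (t * r)]⟩

/-- Weighted sums of drifts along two paths. -/
lemma drift_sum_lip (hD : DriftOk V S) {R : Rule} {w : Fin R.n → ℝ} {W t v : ℝ}
    (hw : ∑ j, |w j| ≤ W) (hn0 : ∀ i, 0 ≤ R.node i) (hn1 : ∀ i, R.node i ≤ 1) (ht0 : 0 ≤ t)
    (ht : t ^ 2 ≤ v) (hv : v ≤ S) (x x' : EE d) (u u' : Fin R.n → EE d) :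
    ‖(∑ j, w j • Dv V (v - (t * R.node j) ^ 2) (x + (t * R.node j) • u j)) -
        ∑ j, w j • Dv V (v - (t * R.node j) ^ 2) (x' + (t * R.node j) • u' j)‖ ≤
      W * (2 * (‖x - x'‖ + t * ‖u - u'‖)) := by
  rw [← Finset.sum_sub_distrib]
  simp only [← smul_sub]
  refine norm_wsum_le hw (fun j => ?_) (by positivity)
  obtain ⟨h0, h1⟩ := scale_mem (hn0 j) (hn1 j) ht
  refine (hD.lip _ h0 (h1.trans hv) _ _).trans (mul_le_mul_of_nonneg_left ?_ two_pos.le)
  have e : x + (t * R.node j) • u j - (x' + (t * R.node j) • u' j) =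
      (x - x') + (t * R.node j) • (u - u') j := by
    simp only [Pi.sub_apply, smul_sub]; abel
  rw [e]
  refine (norm_add_le _ _).trans (add_le_add le_rfl ?_)
  rw [norm_smul, Real.norm_of_nonneg (mul_nonneg ht0 (hn0 j))]
  exact mul_le_mul (mul_le_of_le_one_right ht0 (hn1 j)) (norm_le_pi_norm _ j) (norm_nonneg _) ht0

lemma SemOk.step (h : SemOk V c S C κ) {v : ℝ} (hv : 0 < v) :
    0 < leafStep c v ∧ leafStep c v ^ 2 ≤ v ∧ leafStep c v ^ 2 = c.τ ^ 2 * v := by
  have e : leafStep c v ^ 2 = c.τ ^ 2 * v := by rw [leafStep, mul_pow, Real.sq_sqrt hv.le]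
  refine ⟨mul_pos h.τ_pos (Real.sqrt_pos.2 hv), ?_, e⟩
  rw [e]
  exact mul_le_of_le_one_left hv.le (pow_le_one₀ h.τ_pos.le h.τ_le)

lemma leafF_lip (h : SemOk V c S C κ) {v : ℝ} (hv : 0 < v) (hvS : v ≤ S) (x x' X X' : EE d)
    (u u' : Fin c.L.n → EE d) :
    ‖leafF V c v x X u - leafF V c v x' X' u'‖ ≤
      ‖X - X'‖ + 2 * C * leafStep c v * ‖x - x'‖ + κ * ‖u - u'‖ := by
  obtain ⟨ht, ht2, hte⟩ := h.step hv
  have hC := h.one_le
  have hκ := h.κ_nonneg
  refine (pi_norm_le_iff_of_nonneg (by positivity)).2 fun i => ?_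
  have h1 := drift_sum_lip h.drift (R := c.L) (w := fun j => leafStep c v * c.L.W i j)
    ((abs_smul_weights (h.lOk.w_abs i)).trans_eq (by rw [abs_of_pos ht]))
    h.lOk.node_nonneg h.lOk.node_le ht.le ht2 hvS x x' u u'
  simp only [Pi.sub_apply, leafF]
  rw [sub_sub_sub_comm]
  refine (norm_sub_le _ _).trans ((add_le_add le_rfl h1).trans ?_)
  have h2 : 2 * C * leafStep c v ^ 2 ≤ κ := by
    have := h.S_le
    have : c.τ ^ 2 * v ≤ c.τ ^ 2 := mul_le_of_le_one_right (by positivity) (by linarith)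
    nlinarith [h.τ_small, sq_nonneg c.τ]
  nlinarith [mul_le_mul_of_nonneg_right h2 (norm_nonneg (u - u'))]

lemma leafOut_lip (h : SemOk V c S C κ) {v : ℝ} (hv : 0 < v) (hvS : v ≤ S) (x x' : EE d)
    (u u' : Fin c.L.n → EE d) :
    ‖leafOut V c v x u - leafOut V c v x' u'‖ ≤
      2 * C / leafStep c v * ‖x - x'‖ + 2 * C * ‖u - u'‖ := by
  obtain ⟨ht, ht2, -⟩ := h.step hv
  have hw : ∑ j, |c.L.der j / leafStep c v| ≤ C / leafStep c v := by
    simp only [abs_div, abs_of_pos ht, ← Finset.sum_div]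
    gcongr; exact h.lOk.der_abs
  have h1 := drift_sum_lip h.drift (R := c.L) hw
    h.lOk.node_nonneg h.lOk.node_le ht.le ht2 hvS x x' u u'
  refine h1.trans (le_of_eq ?_)
  field_simp

/-- The derivative evaluation is Lipschitz in both arguments. -/
lemma leaf_lip (h : SemOk V c S C κ) {v : ℝ} (hv : 0 < v) (hvS : v ≤ S) (x x' X X' : EE d) :
    ‖leaf V c v x X - leaf V c v x' X'‖ ≤
      3 * C / (c.τ * Real.sqrt v) * ‖x - x'‖ + 4 * C * ‖X - X'‖ := by
  obtain ⟨ht, -, hte⟩ := h.step hv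
  have hC := h.one_le
  have hκ := h.κ_nonneg
  have hκ' := h.κ_le
  set δ := ‖X - X'‖ + 2 * C * leafStep c v * ‖x - x'‖ with hδ
  have hδ0 : 0 ≤ δ := by positivity
  have h1 := iterate_close (b := 2 * δ) (fun u u' => leafF_lip h hv hvS x x' X X' u u') hκ
    (by nlinarith) (x := fun _ => X) (y := fun _ => X')
    ((pi_norm_le_iff_of_nonneg (by positivity)).2 fun _ => by
      show ‖X - X'‖ ≤ _
      rw [hδ]; nlinarith [norm_nonneg (X - X'), norm_nonneg (x - x'), mul_pos ht (by linarith : 0 < C)])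
    c.k
  refine (leafOut_lip h hv hvS x x' _ _).trans ?_
  refine (add_le_add le_rfl (mul_le_mul_of_nonneg_left h1 (by positivity))).trans ?_
  have h2 : 8 * C * leafStep c v ^ 2 ≤ 1 / 2 := by
    have := h.S_le
    have : c.τ ^ 2 * v ≤ c.τ ^ 2 := mul_le_of_le_one_right (by positivity) (by linarith)
    nlinarith [h.τ_small, sq_nonneg c.τ]
  have h3 : 8 * C ^ 2 * leafStep c v ≤ C / leafStep c v := by
    rw [le_div_iff₀ ht]; nlinarith
  have h4 := mul_le_mul_of_nonneg_right h3 (norm_nonneg (x - x'))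
  change _ ≤ 3 * C / leafStep c v * _ + _
  rw [hδ, mul_div_assoc, mul_div_assoc]
  linarith

lemma Dv_continuous (hD : DriftOk V S) {v : ℝ} (h0 : 0 ≤ v) (hv : v ≤ S) :
    Continuous (Dv V v) :=
  (LipschitzWith.of_dist_le_mul (K := 2) fun x z => by
    simpa [dist_eq_norm] using hD.lip v h0 hv x z).continuous

/-- The derivative evaluation is continuous. -/
lemma leaf_continuous (h : SemOk V c S C κ) {v : ℝ} (hv : 0 < v) (hvS : v ≤ S) :
    Continuous fun p : EE d × EE d => leaf V c v p.1 p.2 := by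
  have hC := h.one_le
  refine (LipschitzWith.of_dist_le_mul
    (K := Real.toNNReal (3 * C / (c.τ * Real.sqrt v) + 4 * C)) fun p q => ?_).continuous
  have := h.τ_pos
  rw [dist_eq_norm, dist_eq_norm, Real.coe_toNNReal _ (by positivity), add_mul]
  refine (leaf_lip h hv hvS _ _ _ _).trans (add_le_add ?_ ?_)
  · exact mul_le_mul_of_nonneg_left (norm_fst_le (p - q)) (by positivity)
  · exact mul_le_mul_of_nonneg_left (norm_snd_le (p - q)) (by positivity)

lemma hess2_apply_measurable (V : EE d → ℝ) (v : ℝ) :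
    Measurable fun p : EE d × EE d => hess2 V v p.1 p.2 := by
  have hc : Continuous fun p : (EE d →L[ℝ] EE d) × EE d => p.1 p.2 := by fun_prop
  exact hc.measurable.comp
    (((measurable_fderiv ℝ (Dv V v)).comp measurable_fst).prodMk measurable_snd)

/-- One Picard system near an exact path: the error of its output. -/
lemma picard_L2 {ι : Type} [Fintype ι] {μ : Measure (EE d)} [IsFiniteMeasure μ]
    {F : EE d → (ι → EE d) → ι → EE d} {out : EE d → (ι → EE d) → EE d}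
    {u₀ Ξ : EE d → ι → EE d} {T : EE d → EE d} {L : ℝ} (k : ℕ) (hκ : 0 ≤ κ) (hκ' : κ ≤ 1 / 2)
    (hL : 0 ≤ L) (hF : ∀ a u v, ‖F a u - F a v‖ ≤ κ * ‖u - v‖)
    (ho : ∀ a u v, ‖out a u - out a v‖ ≤ L * ‖u - v‖)
    (hFc : Continuous fun p : EE d × (ι → EE d) => F p.1 p.2)
    (hoc : Continuous fun p : EE d × (ι → EE d) => out p.1 p.2)
    (hu : Continuous u₀) (hΞ : Measurable Ξ) (hT : Measurable T) {res st : ℝ} (hres : 0 ≤ res)
    (hst : 0 ≤ st)
    (h1 : ∀ i, eLpNorm (fun a => F a (Ξ a) i - Ξ a i) 2 μ ≤ ENNReal.ofReal res)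
    (h2 : eLpNorm (fun a => out a (Ξ a) - T a) 2 μ ≤ ENNReal.ofReal res)
    (h3 : eLpNorm (fun a => F a (u₀ a) - u₀ a) 2 μ ≤ ENNReal.ofReal st) :
    eLpNorm (fun a => out a ((F a)^[k] (u₀ a)) - T a) 2 μ ≤
      ENNReal.ofReal ((1 + 4 * L * Fintype.card ι) * res + 2 * L * κ ^ k * st) := by
  have hm1 : Measurable fun a => F a (Ξ a) - Ξ a :=
    (hFc.measurable.comp (measurable_id.prodMk hΞ)).sub hΞ
  have hm3 : Measurable fun a => F a (u₀ a) - u₀ a :=
    (hFc.measurable.comp (measurable_id.prodMk hu.measurable)).sub hu.measurable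
  have hr : eLpNorm (fun a => F a (Ξ a) - Ξ a) 2 μ ≤
      ENNReal.ofReal (Fintype.card ι * res) := by
    refine (eLp_pi_le fun i => ((measurable_pi_apply i).comp hm1).aestronglyMeasurable).trans ?_
    refine (Finset.sum_le_sum fun i _ => h1 i).trans (le_of_eq ?_)
    simp [ENNReal.ofReal_mul]
  refine (eLp_le₃ (g₁ := fun a => ‖out a (Ξ a) - T a‖) (g₂ := fun a => ‖F a (Ξ a) - Ξ a‖)
    (g₃ := fun a => ‖F a (u₀ a) - u₀ a‖) (a := 1) (b := 4 * L) (c := 2 * L * κ ^ k)
    (r₁ := res) (r₂ := Fintype.card ι * res) (r₃ := st)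
    zero_le_one (by positivity) (by positivity) hres (by positivity) hst
    (((hoc.measurable.comp (measurable_id.prodMk hΞ)).sub hT).norm.aestronglyMeasurable)
    hm1.norm.aestronglyMeasurable hm3.norm.aestronglyMeasurable
    (by rwa [eLpNorm_norm]) (by rwa [eLpNorm_norm]) (by rwa [eLpNorm_norm]) fun a => ?_).trans
    (le_of_eq (by ring_nf))
  simp only [norm_norm]
  have := norm_sub_le_norm_sub_add_norm_sub (out a ((F a)^[k] (u₀ a))) (out a (Ξ a)) (T a)
  have := (ho a ((F a)^[k] (u₀ a)) (Ξ a)).trans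
    (mul_le_mul_of_nonneg_left (iterate_near (hF a) hκ hκ' (u₀ a) (Ξ a) k) hL)
  linarith

/-- The derivative evaluation is accurate at every point. -/
theorem leaf_err (h : SemOk V c S C κ) {v : ℝ} (hv : 0 < v) (hvS : v ≤ S) {res G₀ : ℝ}
    (hres : 0 ≤ res) (hG : 0 ≤ G₀)
    (hgrow : ∀ w, 0 ≤ w → w ≤ S → ∀ x : EE d, ‖Dv V w x‖ ≤ G₀ * (‖x‖ + Real.sqrt d))
    (hok : LeafOk V c v (ENNReal.ofReal res)) (x : EE d) :
    eLpNorm (fun X => leaf V c v x X - hess2 V v x X) 2 (gam d) ≤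
      ENNReal.ofReal (9 * C * (c.L.n + 1) * res +
        4 * C ^ 2 * G₀ * κ ^ c.k * (‖x‖ + 2 * Real.sqrt d)) := by
  obtain ⟨Ξ, hΞ, h1, h2⟩ := hok x
  obtain ⟨ht, ht2, hte⟩ := h.step hv
  have hC := h.one_le
  have hκ := h.κ_nonneg
  have ht1 : leafStep c v ≤ 1 := by
    nlinarith [h.S_le]
  have hcont : ∀ j, Continuous (Dv V (v - (leafStep c v * c.L.node j) ^ 2)) := fun j => by
    obtain ⟨a, b⟩ := scale_mem (h.lOk.node_nonneg j) (h.lOk.node_le j) ht2
    exact Dv_continuous h.drift a (b.trans hvS)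
  have hFc : Continuous fun p : EE d × (Fin c.L.n → EE d) => leafF V c v x p.1 p.2 := by
    unfold leafF; fun_prop
  have hoc : Continuous fun p : EE d × (Fin c.L.n → EE d) => leafOut V c v x p.2 := by
    unfold leafOut; fun_prop
  have key := picard_L2 (μ := gam d) (F := fun X => leafF V c v x X)
    (out := fun _ u => leafOut V c v x u) (u₀ := fun X _ => X) (T := fun X => hess2 V v x X)
    (L := 2 * C) (res := res) (st := C * G₀ * (‖x‖ + 2 * Real.sqrt d)) c.k hκ h.κ_le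
    (by positivity)
    (fun X u u' => by simpa using leafF_lip h hv hvS x x X X u u')
    (fun _ u u' => by simpa using leafOut_lip h hv hvS x x u u')
    hFc hoc (by fun_prop) hΞ (hess2 V v x).continuous.measurable hres (by positivity) h1 h2 ?_
  · refine key.trans (ENNReal.ofReal_le_ofReal ?_)
    simp only [Fintype.card_fin]
    nlinarith [mul_nonneg hres (Nat.cast_nonneg c.L.n : (0:ℝ) ≤ c.L.n),
      mul_nonneg (sub_nonneg.2 hC) hres,
      mul_nonneg (mul_nonneg (sub_nonneg.2 hC) hres) (Nat.cast_nonneg c.L.n : (0:ℝ) ≤ c.L.n)]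
  · refine (eLp_le₃ (g₁ := fun _ => ‖x‖ + Real.sqrt d) (g₂ := fun X => ‖X‖) (g₃ := fun _ => (0 : ℝ))
      (a := C * G₀) (b := C * G₀) (c := 0) (r₁ := ‖x‖ + Real.sqrt d) (r₂ := Real.sqrt d) (r₃ := 0)
      (by positivity) (by positivity) le_rfl (by positivity) (by positivity) le_rfl
      aestronglyMeasurable_const measurable_norm.aestronglyMeasurable aestronglyMeasurable_const
      ?_ ?_ ?_ fun X => ?_).trans (ENNReal.ofReal_le_ofReal (le_of_eq (by ring)))
    · rw [eLpNorm_const' _ two_ne_zero ENNReal.ofNat_ne_top, measure_univ, ENNReal.one_rpow,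
        mul_one, Real.enorm_eq_ofReal (by positivity)]
    · rw [eLpNorm_norm]; exact eLp_gam.le
    · simp
    · simp only [norm_norm, zero_mul, add_zero]
      rw [Real.norm_of_nonneg (by positivity), ← mul_add]
      refine (pi_norm_le_iff_of_nonneg (by positivity)).2 fun i => ?_
      simp only [Pi.sub_apply, leafF, sub_sub_cancel_left, norm_neg]
      refine (norm_wsum_le (M := G₀ * (‖x‖ + Real.sqrt d + ‖X‖))
        ((abs_smul_weights (h.lOk.w_abs i)).trans ?_) (fun j => ?_) (by positivity)).trans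
        (le_of_eq (mul_assoc _ _ _).symm)
      · rw [abs_of_pos ht]; exact mul_le_of_le_one_left (by positivity) ht1
      · obtain ⟨a, b⟩ := scale_mem (h.lOk.node_nonneg j) (h.lOk.node_le j) ht2
        refine (hgrow _ a (b.trans hvS) _).trans (mul_le_mul_of_nonneg_left ?_ hG)
        have := norm_add_le x ((leafStep c v * c.L.node j) • X)
        rw [norm_smul, Real.norm_of_nonneg (mul_nonneg ht.le (h.lOk.node_nonneg j))] at this
        have := mul_le_of_le_one_left (norm_nonneg X)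
          (mul_le_one₀ ht1 (h.lOk.node_nonneg j) (h.lOk.node_le j))
        linarith

/-! ### The forward sweep -/

lemma fwdLen_facts {s : ℝ} (hs : 0 ≤ s) :
    0 ≤ fwdLen s ∧ fwdLen s ^ 2 ≤ s := by
  refine ⟨Real.sqrt_nonneg _, ?_⟩
  rw [fwdLen, Real.sq_sqrt (by linarith)]; linarith

lemma fwdF_lip (h : SemOk V c S C κ) {s : ℝ} (hs : 0 ≤ s) (hsS : s ≤ S) (y W W' : EE d)
    (u u' : Fin c.G.n → EE d) :
    ‖fwdF V c s y W u - fwdF V c s y W' u'‖ ≤ ‖W - W'‖ + κ * ‖u - u'‖ := by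
  obtain ⟨ht, ht2⟩ := fwdLen_facts hs
  have hκ := h.κ_nonneg
  refine (pi_norm_le_iff_of_nonneg (by positivity)).2 fun i => ?_
  have h1 := drift_sum_lip h.drift (R := c.G) (w := fun j => fwdLen s * c.G.W i j)
    ((abs_smul_weights (h.gOk.w_abs i)).trans_eq (by rw [abs_of_nonneg ht]))
    h.gOk.node_nonneg h.gOk.node_le ht ht2 hsS y y u u'
  simp only [Pi.sub_apply, fwdF]
  rw [sub_sub_sub_comm]
  refine (norm_sub_le _ _).trans ((add_le_add le_rfl h1).trans ?_)
  have hC := h.one_le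
  have h2 : 2 * C * fwdLen s ^ 2 ≤ κ := by
    nlinarith [h.S_small, sq_nonneg (fwdLen s)]
  simp only [sub_self, norm_zero, zero_add]
  nlinarith [mul_le_mul_of_nonneg_right h2 (norm_nonneg (u - u'))]

lemma fwdOut_lip (h : SemOk V c S C κ) {s : ℝ} (hs : 0 ≤ s) (hsS : s ≤ S) (y W : EE d)
    (u u' : Fin c.G.n → EE d) :
    ‖fwdOut V c s y W u - fwdOut V c s y W u'‖ ≤ 2 * C * ‖u - u'‖ := by
  obtain ⟨ht, ht2⟩ := fwdLen_facts hs
  have h1 := drift_sum_lip h.drift (R := c.G) (w := fun j => fwdLen s * c.G.tot j)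
    ((abs_smul_weights h.gOk.tot_abs).trans_eq (by rw [abs_of_nonneg ht]))
    h.gOk.node_nonneg h.gOk.node_le ht ht2 hsS y y u u'
  simp only [fwdOut]
  rw [sub_sub_sub_cancel_left, norm_sub_rev]
  refine h1.trans ?_
  have := h.S_le
  simp only [sub_self, norm_zero, zero_add]
  have : fwdLen s * (fwdLen s * (2 * C)) ≤ 1 * (2 * C) := by
    have hC := h.one_le
    rw [← mul_assoc, ← pow_two]
    gcongr
    linarith
  nlinarith [mul_le_mul_of_nonneg_right this (norm_nonneg (u - u'))]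

/-- The forward sweep is accurate. -/
theorem fwd_err (h : SemOk V c S C κ) {s : ℝ} (hs : 0 ≤ s) (hsS : s ≤ S) {res G₀ : ℝ}
    (hres : 0 ≤ res) (hG : 0 ≤ G₀)
    (hgrow : ∀ w, 0 ≤ w → w ≤ S → ∀ x : EE d, ‖Dv V w x‖ ≤ G₀ * (‖x‖ + Real.sqrt d))
    {y : EE d} {Ξ : EE d → Fin c.G.n → EE d} {T : EE d → EE d} (hΞ : Measurable Ξ)
    (hT : Measurable T)
    (h1 : ∀ i, eLpNorm (fun W => fwdF V c s y W (Ξ W) i - Ξ W i) 2 (gam d) ≤ ENNReal.ofReal res)
    (h2 : eLpNorm (fun W => fwdOut V c s y W (Ξ W) - T W) 2 (gam d) ≤ ENNReal.ofReal res) :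
    eLpNorm (fun W => fwdEnd V c s y W - T W) 2 (gam d) ≤
      ENNReal.ofReal (9 * C * (c.G.n + 1) * res +
        4 * C ^ 2 * G₀ * κ ^ c.k * (‖y‖ + 2 * Real.sqrt d)) := by
  obtain ⟨ht, ht2⟩ := fwdLen_facts hs
  have hC := h.one_le
  have hκ := h.κ_nonneg
  have ht1 : fwdLen s ≤ 1 := by nlinarith [h.S_le]
  have hcont : ∀ j, Continuous (Dv V (s - (fwdLen s * c.G.node j) ^ 2)) := fun j => by
    obtain ⟨a, b⟩ := scale_mem (h.gOk.node_nonneg j) (h.gOk.node_le j) ht2
    exact Dv_continuous h.drift a (b.trans hsS)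
  have hFc : Continuous fun p : EE d × (Fin c.G.n → EE d) => fwdF V c s y p.1 p.2 := by
    unfold fwdF; fun_prop
  have hoc : Continuous fun p : EE d × (Fin c.G.n → EE d) => fwdOut V c s y p.1 p.2 := by
    unfold fwdOut; fun_prop
  have key := picard_L2 (μ := gam d) (F := fun W => fwdF V c s y W)
    (out := fun W u => fwdOut V c s y W u) (u₀ := fun W _ => W) (T := T)
    (L := 2 * C) (res := res) (st := C * G₀ * (‖y‖ + 2 * Real.sqrt d)) c.k hκ h.κ_le
    (by positivity)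
    (fun W u u' => by simpa using fwdF_lip h hs hsS y W W u u')
    (fun W u u' => fwdOut_lip h hs hsS y W u u')
    hFc hoc (by fun_prop) hΞ hT hres (by positivity) h1 h2 ?_
  · refine key.trans (ENNReal.ofReal_le_ofReal ?_)
    simp only [Fintype.card_fin]
    nlinarith [mul_nonneg hres (Nat.cast_nonneg c.G.n : (0:ℝ) ≤ c.G.n),
      mul_nonneg (sub_nonneg.2 hC) hres,
      mul_nonneg (mul_nonneg (sub_nonneg.2 hC) hres) (Nat.cast_nonneg c.G.n : (0:ℝ) ≤ c.G.n)]
  · refine (eLp_le₃ (g₁ := fun _ => ‖y‖ + Real.sqrt d) (g₂ := fun X => ‖X‖) (g₃ := fun _ => (0 : ℝ))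
      (a := C * G₀) (b := C * G₀) (c := 0) (r₁ := ‖y‖ + Real.sqrt d) (r₂ := Real.sqrt d) (r₃ := 0)
      (by positivity) (by positivity) le_rfl (by positivity) (by positivity) le_rfl
      aestronglyMeasurable_const measurable_norm.aestronglyMeasurable aestronglyMeasurable_const
      ?_ ?_ ?_ fun X => ?_).trans (ENNReal.ofReal_le_ofReal (le_of_eq (by ring)))
    · rw [eLpNorm_const' _ two_ne_zero ENNReal.ofNat_ne_top, measure_univ, ENNReal.one_rpow,
        mul_one, Real.enorm_eq_ofReal (by positivity)]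
    · rw [eLpNorm_norm]; exact eLp_gam.le
    · simp
    · simp only [norm_norm, zero_mul, add_zero]
      rw [Real.norm_of_nonneg (by positivity), ← mul_add]
      refine (pi_norm_le_iff_of_nonneg (by positivity)).2 fun i => ?_
      simp only [Pi.sub_apply, fwdF, sub_sub_cancel_left, norm_neg]
      refine (norm_wsum_le (M := G₀ * (‖y‖ + Real.sqrt d + ‖X‖))
        ((abs_smul_weights (h.gOk.w_abs i)).trans ?_) (fun j => ?_) (by positivity)).trans
        (le_of_eq (mul_assoc _ _ _).symm)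
      · rw [abs_of_nonneg ht]; exact mul_le_of_le_one_left (by positivity) ht1
      · obtain ⟨a, b⟩ := scale_mem (h.gOk.node_nonneg j) (h.gOk.node_le j) ht2
        refine (hgrow _ a (b.trans hsS) _).trans (mul_le_mul_of_nonneg_left ?_ hG)
        have := norm_add_le y ((fwdLen s * c.G.node j) • X)
        rw [norm_smul, Real.norm_of_nonneg (mul_nonneg ht (h.gOk.node_nonneg j))] at this
        have := mul_le_of_le_one_left (norm_nonneg X)
          (mul_le_one₀ ht1 (h.gOk.node_nonneg j) (h.gOk.node_le j))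
        linarith

end Vale.Agent.P347.Zero
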