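import Vale.Agent.P347.Zero.Sim
import Vale.Agent.P347.Zero.SemLeaf

/-!
Simulated vectors with explicit size, error, noise and cost, in a fixed environment.
-/

open MeasureTheory ProbabilityTheory
open scoped RealInnerProductSpace ENNReal

namespace Vale.Agent.P347.Zero

variable {d : ℕ}

/-- An environment with a reference size, the error of the input and the cost of the input. -/
structure Ctx (d : ℕ) (Env : Type) where
  base : (EE d → ℝ) → Env → ℝ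
  err : (EE d → ℝ) → Env → ℝ≥0∞
  cost : ℕ
  base_ge : ∀ V w, Real.sqrt d ≤ base V w

lemma Ctx.base_nonneg {Env : Type} (X : Ctx d Env) (V : EE d → ℝ) (w : Env) : 0 ≤ X.base V w :=
  (Real.sqrt_nonneg _).trans (X.base_ge V w)

/-- A vector simulated at noise at most κ, with error γ base + α err, size M base, cost factor Q. -/
structure Val {Env : Type} [MeasurableSpace Env] (X : Ctx d Env)
    (p : (EE d → ℝ) → Env → EE d) (κ α γ M : ℝ) (Q : ℕ) : Prop where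
  sim : ∃ (q : ℕ) (κ' : ℝ), |κ'| ≤ κ ∧ q + 1 ≤ Q * (X.cost + 1) ∧
    Sim p κ' q (fun V w => ENNReal.ofReal (γ * X.base V w) + ENNReal.ofReal α * X.err V w)
  meas : ∀ V, Admissible V → Measurable (p V)
  size : ∀ V, Admissible V → ∀ w, ‖p V w‖ ≤ M * X.base V w
  α_nonneg : 0 ≤ α
  γ_nonneg : 0 ≤ γ
  M_nonneg : 0 ≤ M

variable {Env : Type} [MeasurableSpace Env] {X : Ctx d Env}
  {p p₁ p₂ : (EE d → ℝ) → Env → EE d} {κ κ₁ κ₂ α α₁ α₂ γ γ₁ γ₂ M M₁ M₂ : ℝ} {Q Q₁ Q₂ : ℕ}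

lemma Val.cost_pos (h : Val X p κ α γ M Q) : 1 ≤ Q := by
  obtain ⟨q, κ', -, hq, -⟩ := h.sim
  rcases Nat.eq_zero_or_pos Q with h0 | h0
  · subst h0; simp at hq
  · exact h0

lemma Val.noise_nonneg (h : Val X p κ α γ M Q) : 0 ≤ κ := by
  obtain ⟨q, κ', hκ, -⟩ := h.sim
  exact (abs_nonneg _).trans hκ

lemma Val.mono (h : Val X p κ α γ M Q) {κ' α' γ' M' : ℝ} {Q' : ℕ} (hκ : κ ≤ κ') (hα : α ≤ α')
    (hγ : γ ≤ γ') (hM : M ≤ M') (hQ : Q ≤ Q') : Val X p κ' α' γ' M' Q' := by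
  obtain ⟨q, k, hk, hq, hs⟩ := h.sim
  refine ⟨⟨q, k, hk.trans hκ, hq.trans (Nat.mul_le_mul_right _ hQ),
    hs.congr (fun _ _ _ => rfl) fun V _ w => ?_⟩, h.meas, fun V hV w => (h.size V hV w).trans
      (mul_le_mul_of_nonneg_right hM (X.base_nonneg V w)), h.α_nonneg.trans hα,
      h.γ_nonneg.trans hγ, h.M_nonneg.trans hM⟩
  gcongr
  exact X.base_nonneg V w

lemma Val.congr (h : Val X p κ α γ M Q) {p' : (EE d → ℝ) → Env → EE d}
    (he : ∀ V, Admissible V → ∀ w, p V w = p' V w) : Val X p' κ α γ M Q := by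
  obtain ⟨q, k, hk, hq, hs⟩ := h.sim
  refine ⟨⟨q, k, hk, hq, hs.congr he fun _ _ _ => le_rfl⟩, fun V hV => ?_,
    fun V hV w => he V hV w ▸ h.size V hV w, h.α_nonneg, h.γ_nonneg, h.M_nonneg⟩
  rw [← funext (he V hV)]
  exact h.meas V hV

/-- A known vector. -/
lemma val_num {f : Env → EE d} (hf : Measurable f) {M : ℝ} (hM : 0 ≤ M)
    (hs : ∀ V, Admissible V → ∀ w, ‖f w‖ ≤ M * X.base V w) :
    Val X (fun _ w => f w) 0 0 0 M 1 :=
  ⟨⟨0, 0, by simp, by simp, (sim_num hf 0).congr (fun _ _ _ => rfl) fun _ _ _ => zero_le⟩,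
    fun _ _ => hf, hs, le_rfl, le_rfl, hM⟩

/-- A scalar multiple. -/
lemma Val.smul (h : Val X p κ α γ M Q) (c : ℝ) :
    Val X (fun V w => c • p V w) (|c| * κ) (|c| * α) (|c| * γ) (|c| * M) Q := by
  obtain ⟨q, k, hk, hq, hs⟩ := h.sim
  refine ⟨⟨q, c * k, ?_, hq, (hs.smul c).congr (fun _ _ _ => rfl) fun V _ w => le_of_eq ?_⟩,
    fun V hV => (h.meas V hV).const_smul c, fun V hV w => ?_, mul_nonneg (abs_nonneg c) h.α_nonneg,
    mul_nonneg (abs_nonneg c) h.γ_nonneg, mul_nonneg (abs_nonneg c) h.M_nonneg⟩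
  · rw [abs_mul]; exact mul_le_mul_of_nonneg_left hk (abs_nonneg c)
  · rw [Real.enorm_eq_ofReal_abs, mul_add, ← mul_assoc, ← ENNReal.ofReal_mul (abs_nonneg c),
      ← ENNReal.ofReal_mul (abs_nonneg c), mul_assoc]
  · rw [norm_smul, Real.norm_eq_abs, mul_assoc]
    exact mul_le_mul_of_nonneg_left (h.size V hV w) (abs_nonneg c)

/-- A sum of two. -/
lemma Val.add (h₁ : Val X p₁ κ₁ α₁ γ₁ M₁ Q₁) (h₂ : Val X p₂ κ₂ α₂ γ₂ M₂ Q₂)
    (hκ : 0 < κ₁ + κ₂) :
    Val X (fun V w => p₁ V w + p₂ V w) (κ₁ + κ₂) (α₁ + α₂) (γ₁ + γ₂) (M₁ + M₂) (Q₁ + Q₂) := by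
  have n1 := h₁.noise_nonneg
  have n2 := h₂.noise_nonneg
  obtain ⟨q₁, k₁, hk₁, hq₁, hs₁⟩ := h₁.sim
  obtain ⟨q₂, k₂, hk₂, hq₂, hs₂⟩ := h₂.sim
  have herr : ∀ V w, ENNReal.ofReal (γ₁ * X.base V w) + ENNReal.ofReal α₁ * X.err V w +
      (ENNReal.ofReal (γ₂ * X.base V w) + ENNReal.ofReal α₂ * X.err V w) =
      ENNReal.ofReal ((γ₁ + γ₂) * X.base V w) + ENNReal.ofReal (α₁ + α₂) * X.err V w := by
    intro V w
    rw [add_mul γ₁, ENNReal.ofReal_add (mul_nonneg h₁.γ_nonneg (X.base_nonneg V w))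
      (mul_nonneg h₂.γ_nonneg (X.base_nonneg V w)), ENNReal.ofReal_add h₁.α_nonneg h₂.α_nonneg,
      add_mul]
    abel
  have hq : q₁ + q₂ + 1 ≤ (Q₁ + Q₂) * (X.cost + 1) := by rw [add_mul]; omega
  refine ⟨⟨q₁ + q₂, κ₁ + κ₂, le_of_eq (abs_of_pos hκ), hq, ?_⟩,
    fun V hV => (h₁.meas V hV).add (h₂.meas V hV), fun V hV w => ?_,
    add_nonneg h₁.α_nonneg h₂.α_nonneg, add_nonneg h₁.γ_nonneg h₂.γ_nonneg,
    add_nonneg h₁.M_nonneg h₂.M_nonneg⟩
  · by_cases h0 : k₁ = 0 ∧ k₂ = 0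
    · have := hs₁.add (hs₂.noise (κ' := κ₁ + κ₂) (by rw [h0.2]; simpa using hκ.le) hκ)
        (κ := κ₁ + κ₂) (by rw [h0.1]; ring) hκ.ne'
      exact this.congr (fun _ _ _ => rfl) fun V _ w => (herr V w).le
    · have hpos : 0 < k₁ ^ 2 + k₂ ^ 2 := by
        rcases not_and_or.1 h0 with h | h <;> positivity
      have := hs₁.add hs₂ (κ := Real.sqrt (k₁ ^ 2 + k₂ ^ 2)) (by rw [Real.sq_sqrt hpos.le])
        (Real.sqrt_pos.2 hpos).ne'
      refine (this.noise (κ' := κ₁ + κ₂) ?_ hκ).congr (fun _ _ _ => rfl)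
        fun V _ w => (herr V w).le
      rw [abs_of_nonneg (Real.sqrt_nonneg _), Real.sqrt_le_left hκ.le]
      nlinarith [sq_abs k₁, sq_abs k₂, abs_nonneg k₁, abs_nonneg k₂]
  · rw [add_mul]
    exact (norm_add_le _ _).trans (add_le_add (h₁.size V hV w) (h₂.size V hV w))

/-- A sum with weights of total size W. -/
lemma val_wsum {ι : Type} [Fintype ι] {p : ι → (EE d → ℝ) → Env → EE d} {w : ι → ℝ} {W : ℝ}
    (hw : ∑ j, |w j| ≤ W) (h : ∀ j, Val X (p j) κ α γ M Q) (hW : 0 < W) (hκ : 0 < κ) (hα : 0 ≤ α)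
    (hγ : 0 ≤ γ) (hM : 0 ≤ M) :
    Val X (fun V v => ∑ j, w j • p j V v) (2 * W * κ) (W * α) (W * γ) (W * M)
      (Fintype.card ι * Q + 1) := by
  choose q k hk hq hs using fun j => (h j).sim
  have h2 : ∑ j, (w j * k j) ^ 2 ≤ (W * κ) ^ 2 := by
    calc ∑ j, (w j * k j) ^ 2 ≤ ∑ j, (|w j| * κ) ^ 2 := Finset.sum_le_sum fun j _ => by
          rw [← sq_abs (w j * k j), abs_mul]
          exact pow_le_pow_left₀ (by positivity) (mul_le_mul_of_nonneg_left (hk j) (abs_nonneg _)) 2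
      _ ≤ (∑ j, |w j| * κ) ^ 2 :=
          Finset.sum_sq_le_sq_sum_of_nonneg fun j _ => mul_nonneg (abs_nonneg _) hκ.le
      _ ≤ _ := by
          rw [← Finset.sum_mul]
          exact pow_le_pow_left₀ (mul_nonneg (Finset.sum_nonneg fun j _ => abs_nonneg _) hκ.le)
            (mul_le_mul_of_nonneg_right hw hκ.le) 2
  have hlt : ∑ j, (w j * k j) ^ 2 < (2 * W * κ) ^ 2 := by
    nlinarith [mul_pos hW hκ]
  have hsum := sim_sum Finset.univ (fun j _ => (hs j).smul (w j)) (mul_pos (mul_pos two_pos hW) hκ) hlt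
  refine ⟨⟨∑ j, q j, 2 * W * κ, le_of_eq (abs_of_pos (by positivity)), ?_,
    hsum.congr (fun _ _ _ => rfl) fun V _ v => ?_⟩,
    fun V hV => Finset.measurable_sum _ fun j _ => ((h j).meas V hV).const_smul (w j),
    fun V hV v => ?_, by positivity, by positivity, by positivity⟩
  · rw [add_mul, one_mul]
    have : ∑ j, q j ≤ Fintype.card ι * (Q * (X.cost + 1)) := by
      rw [← smul_eq_mul, ← Finset.card_univ, ← Finset.sum_const]
      exact Finset.sum_le_sum fun j _ => by have := hq j; omega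
    rw [mul_assoc]; omega
  · rw [mul_assoc W γ, ENNReal.ofReal_mul hW.le, ENNReal.ofReal_mul hW.le (q := α), mul_assoc,
      ← mul_add]
    simp only [Real.enorm_eq_ofReal_abs, ← Finset.sum_mul]
    refine mul_le_mul_left ?_ _
    rw [← ENNReal.ofReal_sum_of_nonneg fun j _ => abs_nonneg _]
    exact ENNReal.ofReal_le_ofReal hw
  · rw [mul_assoc]
    exact norm_wsum_le hw (fun j => (h j).size V hV v) (mul_nonneg hM (X.base_nonneg V v))

/-- An evaluation of the drift at scale v: noise σ, error E times the size, cost factor N. -/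
def Eval (d : ℕ) (v c σ E : ℝ) (N : ℕ) : Prop :=
  ∀ (Env : Type) [MeasurableSpace Env] (p : (EE d → ℝ) → Env → EE d) (κ : ℝ) (q : ℕ)
    (e : (EE d → ℝ) → Env → ℝ≥0∞),
    |κ| ≤ c * Real.sqrt v → (∀ V, Admissible V → Measurable (p V)) → Sim p κ q e →
    ∃ q', q' + 1 ≤ N * (q + 1) ∧ Sim (fun V w => Dv V v (p V w)) σ q'
      (fun V w => ENNReal.ofReal (E * (Real.sqrt d + ‖p V w‖)) + 3 * e V w)

/-- The drifts up to S are Lipschitz and grow at most linearly, for every admissible potential. -/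
def DriftAll (d : ℕ) (S : ℝ) : Prop :=
  ∀ V : EE d → ℝ, Admissible V → DriftOk V S ∧
    ∀ v, 0 ≤ v → v ≤ S → ∀ x : EE d, ‖Dv V v x‖ ≤ 3 * (‖x‖ + Real.sqrt d)

/-- The drift at a simulated point. -/
lemma Val.eval (h : Val X p κ α γ M Q) {S v c σ E : ℝ} {N : ℕ} (hD : DriftAll d S) (hv : 0 ≤ v)
    (hvS : v ≤ S) (hE : Eval d v c σ E N) (hκ : κ ≤ c * Real.sqrt v) (hσ : 0 ≤ σ) (hE0 : 0 ≤ E) :
    Val X (fun V w => Dv V v (p V w)) σ (3 * α) (E * (1 + M) + 3 * γ) (3 * (1 + M)) (N * Q) := by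
  obtain ⟨q, k, hk, hq, hs⟩ := h.sim
  obtain ⟨q', hq', hs'⟩ := hE Env p k q _ (hk.trans hκ) h.meas hs
  have hM := h.M_nonneg
  have hb : ∀ V, Admissible V → ∀ w,
      Real.sqrt d + ‖p V w‖ ≤ (1 + M) * X.base V w := fun V hV w => by
    rw [add_mul, one_mul]; exact add_le_add (X.base_ge V w) (h.size V hV w)
  refine ⟨⟨q', σ, (abs_of_nonneg hσ).le, ?_, hs'.congr (fun _ _ _ => rfl) fun V hV w => ?_⟩,
    fun V hV => ((Dv_continuous (hD V hV).1 hv hvS).measurable.comp (h.meas V hV)),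
    fun V hV w => ?_, mul_nonneg (by norm_num) h.α_nonneg,
    add_nonneg (mul_nonneg hE0 (by linarith)) (mul_nonneg (by norm_num) h.γ_nonneg),
    by positivity⟩
  · rw [mul_assoc]; exact hq'.trans (Nat.mul_le_mul_left N hq)
  · have h1 : ENNReal.ofReal (E * (Real.sqrt d + ‖p V w‖)) ≤
        ENNReal.ofReal (E * (1 + M) * X.base V w) := by
      rw [mul_assoc]
      exact ENNReal.ofReal_le_ofReal (mul_le_mul_of_nonneg_left (hb V hV w) hE0)
    refine le_trans (add_le_add h1 le_rfl) (le_of_eq ?_)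
    rw [add_mul (E * (1 + M)), ENNReal.ofReal_add (mul_nonneg (mul_nonneg hE0 (by linarith))
      (X.base_nonneg V w)) (mul_nonneg (mul_nonneg (by norm_num) h.γ_nonneg) (X.base_nonneg V w)),
      mul_add (3 : ℝ≥0∞), ENNReal.ofReal_mul (by norm_num : (0:ℝ) ≤ 3) (q := α), mul_assoc 3 γ,
      ENNReal.ofReal_mul (by norm_num : (0:ℝ) ≤ 3), ENNReal.ofReal_ofNat]
    simp only [mul_assoc, add_assoc]
  · rw [mul_assoc]
    refine ((hD V hV).2 v hv hvS _).trans (mul_le_mul_of_nonneg_left ?_ (by norm_num))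
    rw [add_comm]; exact hb V hV w

end Vale.Agent.P347.Zero
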