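import Vale.Agent.P347.Zero.Bridge.Basics
import Vale.Agent.P347.Zero.Val

/-!
Evaluations that need no recursion: monotonicity, the trivial one, and the one at the bottom
scale.
-/

open MeasureTheory ProbabilityTheory
open scoped RealInnerProductSpace ENNReal

namespace Vale.Agent.P347.Zero

variable {d : ℕ}

theorem driftAll {S : ℝ} (hS : S ≤ 1 / 32) : DriftAll d S := fun V hV =>
  ⟨driftOk hV (by linarith), fun v hv hvS x => by
    have hd := Real.sqrt_nonneg (d : ℝ)
    rcases hv.lt_or_eq with h | h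
    · have h1 := norm_Dv_le hV h x
      have h2 : Real.sqrt (v * d) ≤ 1 / 4 * Real.sqrt d := by
        rw [Real.sqrt_mul hv]
        refine mul_le_mul_of_nonneg_right ?_ hd
        rw [Real.sqrt_le_iff]; exact ⟨by norm_num, by linarith⟩
      nlinarith [norm_nonneg x]
    · subst h
      simp only [Dv, le_refl, if_true]
      have := inv_grad_le (gradClass_gradient hV) x
      linarith [norm_nonneg x]⟩

theorem Eval.mono {v c σ E : ℝ} {N : ℕ} (h : Eval d v c σ E N) {c' σ' E' : ℝ} {N' : ℕ}
    (hc : c' ≤ c) (hσ : |σ| ≤ σ') (hσ' : 0 < σ') (hE : E ≤ E') (hN : N ≤ N') :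
    Eval d v c' σ' E' N' := by
  intro Env _ p κ q e hκ hp hs
  obtain ⟨q', hq', hs'⟩ := h Env p κ q e
    (hκ.trans (mul_le_mul_of_nonneg_right hc (Real.sqrt_nonneg _))) hp hs
  refine ⟨q', hq'.trans (Nat.mul_le_mul_right _ hN),
    (hs'.noise hσ hσ').congr (fun _ _ _ => rfl) fun V _ w => ?_⟩
  refine add_le_add (ENNReal.ofReal_le_ofReal ?_) le_rfl
  exact mul_le_mul_of_nonneg_right hE (by positivity)

/-- At level zero nothing is evaluated. -/
theorem eval_zero {v c σ : ℝ} (hv : 0 ≤ v) (hv1 : v ≤ 1 / 32) :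
    Eval d v c σ 3 1 := by
  intro Env _ p κ q e _ _ _
  refine ⟨0, by omega, Unit, inferInstance, fun _ z => σ • z.2 (), fun _ z => z.2 (),
    Sched.comp_pure (by fun_prop), fun V hV => ⟨by fun_prop, fun w => ⟨?_, ?_⟩⟩⟩
  · exact (measurePreserving_eval (fun _ : Unit => gam d) ()).map_eq
  · refine le_trans ?_ le_self_add
    have hb : ‖Dv V v (p V w)‖ ≤ 3 * (Real.sqrt d + ‖p V w‖) :=
      le_of_le_of_eq ((driftAll (d := d) (le_refl (1 / 32 : ℝ)) V hV).2 v hv hv1 _) (by ring)
    calc eLpNorm (fun ω : Unit → EE d => σ • ω () - Dv V v (p V w) - σ • ω ()) 2 (noise d Unit)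
        = eLpNorm (fun _ : Unit → EE d => -Dv V v (p V w)) 2 (noise d Unit) := by
          congr 1; funext ω; abel
      _ ≤ ENNReal.ofReal (3 * (Real.sqrt d + ‖p V w‖)) := by
          rw [eLpNorm_const _ two_ne_zero (NeZero.ne _), measure_univ, ENNReal.one_rpow, mul_one,
            enorm_neg, ← ofReal_norm]
          exact ENNReal.ofReal_le_ofReal hb

/-- At the bottom scale the gradient at the blurred point is used. -/
theorem eval_bottom {v c σ : ℝ} (hv : 0 < v) (hv1 : v ≤ 1 / 32) (hc : c ≤ 1) (hσ : 0 < σ) :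
    Eval d v c σ (16 * Real.sqrt v) 3 := by
  intro Env _ p κ q e hκ hp hs
  have hv0 := Real.sqrt_pos.2 hv
  have hk : |κ| ≤ Real.sqrt v :=
    hκ.trans ((mul_le_mul_of_nonneg_right hc hv0.le).trans_eq (one_mul _))
  obtain ⟨ι, hι, Y, N, hY, hN⟩ := hs.noise hk hv0
  refine ⟨q + 1, by omega, ?_⟩
  have hr := sim_query (d := d) (Env := (Env × (ι → EE d)) × EE d) (f := fun z => z.2)
    measurable_snd σ
  have hgm : ∀ V : EE d → ℝ, Admissible V → Measurable (gradient V) := fun V hV =>
    (gradClass_gradient hV).smooth.continuous.measurable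
  refine (sim_absorb hY hr (fun V hV => (hgm V hV).comp measurable_snd) (η₀ := N)
    (fun V hV => ⟨(hN V hV).1, fun w => ((hN V hV).2 w).1⟩) (fun V w => Dv V v (p V w))
    (s := 0) (σ := σ) (by ring) hσ.ne').congr (fun _ _ _ => rfl) fun V hV w => ?_
  simp only [zero_smul, sub_zero, eLpNorm_zero', add_zero]
  obtain ⟨mN, hN⟩ := hN V hV
  obtain ⟨hlaw, herr⟩ := hN w
  have mY := comp_meas hY hV
  have mN' : Measurable fun ω => N V (w, ω) := mN.comp measurable_prodMk_left
  have mY' : Measurable fun ω => Y V (w, ω) := mY.comp measurable_prodMk_left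
  have hg := hgm V hV
  set a : (ι → EE d) → EE d := fun ω =>
    gradient V (Y V (w, ω)) - gradient V (p V w + Real.sqrt v • N V (w, ω))
  set b : EE d → EE d := fun ξ => gradient V (p V w + Real.sqrt v • ξ) - Dv V v (p V w) with hb
  have ha : eLpNorm a 2 (noise d ι) ≤ 3 * e V w := by
    refine (eLpNorm_le_mul_eLpNorm_of_ae_le_mul (g := fun ω =>
      Y V (w, ω) - p V w - Real.sqrt v • N V (w, ω)) (c := 2) (ae_of_all _ fun ω => ?_) 2).trans ?_
    · exact (norm_gradient_sub_le hV _ _).trans (le_of_eq (by rw [sub_sub]))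
    · rw [show ENNReal.ofReal 2 = 2 by norm_num]
      exact mul_le_mul' (by norm_num) herr
  have hbm : Measurable b := (hg.comp (by fun_prop)).sub measurable_const
  have hbb : eLpNorm b 2 (gam d) ≤
      ENNReal.ofReal (16 * Real.sqrt v * (Real.sqrt d + ‖p V w‖)) := by
    have hlip : LipschitzWith (2 * Real.sqrt v).toNNReal b :=
      LipschitzWith.of_dist_le_mul fun x z => by
        simp only [dist_eq_norm, hb, sub_sub_sub_cancel_right,
          Real.coe_toNNReal _ (mul_nonneg zero_le_two hv0.le)]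
        refine (norm_gradient_sub_le hV _ _).trans (le_of_eq ?_)
        rw [add_sub_add_left_eq_sub, ← smul_sub, norm_smul, Real.norm_of_nonneg hv0.le]
        ring
    rw [(memLp_of_lipschitz b _ hlip).eLpNorm_eq_integral_rpow_norm two_ne_zero
      ENNReal.ofNat_ne_top, ENNReal.toReal_ofNat]
    simp only [Real.rpow_two]
    refine ENNReal.ofReal_le_ofReal ?_
    rw [show ((2 : ℝ)⁻¹) = 1 / 2 by norm_num, ← Real.sqrt_eq_rpow]
    refine Real.sqrt_le_iff.2 ⟨by positivity, ?_⟩
    refine (bottom_bound hV hv (by linarith) (p V w)).trans ?_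
    refine pow_le_pow_left₀ (by positivity) ?_ 2
    have : 0 ≤ Real.sqrt v * (Real.sqrt d + ‖p V w‖) := by positivity
    linarith
  calc eLpNorm (fun ω => gradient V (Y V (w, ω)) - Dv V v (p V w)) 2 (noise d ι)
      = eLpNorm (a + b ∘ fun ω => N V (w, ω)) 2 (noise d ι) := by
        congr 1; funext ω; simp [a, b]
    _ ≤ eLpNorm a 2 (noise d ι) + eLpNorm (b ∘ fun ω => N V (w, ω)) 2 (noise d ι) :=
        eLpNorm_add_le ((hg.comp mY').sub (hg.comp (by fun_prop))).aestronglyMeasurable
          (hbm.comp mN').aestronglyMeasurable one_le_two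
    _ ≤ 3 * e V w + ENNReal.ofReal (16 * Real.sqrt v * (Real.sqrt d + ‖p V w‖)) := by
        refine add_le_add ha ?_
        rw [← eLpNorm_map_measure hbm.aestronglyMeasurable mN'.aemeasurable, hlaw]
        exact hbb
    _ = _ := add_comm _ _

end Vale.Agent.P347.Zero
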