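import Vale.Agent.P347.Zero.PostDefs
import Vale.Agent.P347.InvBase

/-!
The posterior as an exponential family in its natural parameter `c = y / v`: integrability and
differentiation of exponential tilts.
-/

open MeasureTheory ProbabilityTheory Filter
open scoped RealInnerProductSpace Topology ContDiff

namespace Vale.Agent.P347.Zero

variable {d : ℕ} {V : EE d → ℝ} {v : ℝ}

/-- Continuous with at most exponential growth. -/
def Gr {G : Type*} [NormedAddCommGroup G] (φ : EE d → G) : Prop :=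
  Continuous φ ∧ ∃ C : ℝ, 0 ≤ C ∧ ∀ x, ‖φ x‖ ≤ C * Real.exp (C * ‖x‖)

section Gr

variable {G : Type*} [NormedAddCommGroup G] {φ ψ : EE d → G}

lemma Gr.cont (h : Gr φ) : Continuous φ := h.1

lemma gr_const (a : G) : Gr (fun _ : EE d => a) :=
  ⟨continuous_const, ‖a‖, norm_nonneg a, fun x =>
    le_mul_of_one_le_right (norm_nonneg a) (Real.one_le_exp (by positivity))⟩

lemma Gr.add (h : Gr φ) (h' : Gr ψ) : Gr (fun x => φ x + ψ x) := by
  obtain ⟨hc, C, hC, hb⟩ := h
  obtain ⟨hc', C', hC', hb'⟩ := h'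
  refine ⟨hc.add hc', C + C', add_nonneg hC hC', fun x => (norm_add_le _ _).trans ?_⟩
  rw [add_mul C C' (Real.exp _)]
  refine add_le_add ((hb x).trans ?_) ((hb' x).trans ?_) <;>
    · gcongr
      linarith

lemma gr_sum {ι : Type*} (s : Finset ι) (f : ι → EE d → G) (h : ∀ i ∈ s, Gr (f i)) :
    Gr (fun x => ∑ i ∈ s, f i x) := by
  classical
  induction s using Finset.induction_on with
  | empty => simpa using gr_const (d := d) (0 : G)
  | insert a s ha ih =>
    simp_rw [Finset.sum_insert ha]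
    exact (h a (Finset.mem_insert_self a s)).add (ih fun i hi => h i (Finset.mem_insert_of_mem hi))

lemma gr_of_le (hc : Continuous φ) {g : EE d → ℝ} (hg : Gr g) (hb : ∀ x, ‖φ x‖ ≤ g x) : Gr φ := by
  obtain ⟨_, C, hC, hbg⟩ := hg
  exact ⟨hc, C, hC, fun x => (hb x).trans ((Real.le_norm_self _).trans (hbg x))⟩

lemma Gr.norm (h : Gr φ) : Gr (fun x => ‖φ x‖) := by
  obtain ⟨hc, C, hC, hb⟩ := h
  exact ⟨hc.norm, C, hC, fun x => by simpa using hb x⟩

end Gr

lemma Gr.mul {φ ψ : EE d → ℝ} (h : Gr φ) (h' : Gr ψ) : Gr (fun x => φ x * ψ x) := by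
  obtain ⟨hc, C, hC, hb⟩ := h
  obtain ⟨hc', C', hC', hb'⟩ := h'
  refine ⟨hc.mul hc', max (C * C') (C + C'), le_max_of_le_left (mul_nonneg hC hC'), fun x => ?_⟩
  rw [norm_mul]
  refine (mul_le_mul (hb x) (hb' x) (norm_nonneg _) ((norm_nonneg _).trans (hb x))).trans ?_
  calc C * Real.exp (C * ‖x‖) * (C' * Real.exp (C' * ‖x‖))
      = (C * C') * Real.exp ((C + C') * ‖x‖) := by rw [add_mul, Real.exp_add]; ring
    _ ≤ _ := by gcongr <;> first
      | exact le_max_of_le_left (mul_nonneg hC hC')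
      | exact le_max_left _ _
      | exact le_max_right _ _

lemma Gr.const_mul {φ : EE d → ℝ} (h : Gr φ) (a : ℝ) : Gr (fun x => a * φ x) := (gr_const a).mul h

lemma Gr.sq {φ : EE d → ℝ} (h : Gr φ) : Gr (fun x => φ x ^ 2) := by
  simpa only [pow_two] using h.mul h

lemma gr_id : Gr (fun x : EE d => x) :=
  ⟨continuous_id, 1, zero_le_one, fun x => by
    rw [one_mul, one_mul]
    linarith [Real.add_one_le_exp ‖x‖]⟩

lemma gr_coord (i : Fin d) : Gr (fun x : EE d => x i) :=
  gr_of_le (by fun_prop) gr_id.norm fun x => by simpa using PiLp.norm_apply_le x i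

lemma gr_expInner (a : EE d) : Gr (fun x : EE d => Real.exp ⟪a, x⟫) :=
  ⟨by fun_prop, 1 + ‖a‖, by positivity, fun x => by
    rw [Real.norm_eq_abs, Real.abs_exp]
    refine le_trans (Real.exp_le_exp.2 ?_)
      (le_mul_of_one_le_left (Real.exp_pos _).le (by simp))
    calc ⟪a, x⟫ ≤ ‖a‖ * ‖x‖ := real_inner_le_norm a x
      _ ≤ _ := mul_le_mul_of_nonneg_right (by simp) (norm_nonneg x)⟩

/-- The weight at natural parameter zero. -/
noncomputable def w0 (V : EE d → ℝ) (v : ℝ) (x : EE d) : ℝ :=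
  Real.exp (-(V x) - ‖x‖ ^ 2 / (2 * v))

/-- Tilted integral. -/
noncomputable def lap {G : Type*} [NormedAddCommGroup G] [NormedSpace ℝ G] (V : EE d → ℝ)
    (v : ℝ) (φ : EE d → G) (c : EE d) : G :=
  ∫ x, (Real.exp ⟪c, x⟫ * w0 V v x) • φ x

/-- Tilted total mass. -/
noncomputable def mass0 (V : EE d → ℝ) (v : ℝ) (c : EE d) : ℝ := lap V v (fun _ => (1 : ℝ)) c

/-- Tilted expectation. -/
noncomputable def ex {G : Type*} [NormedAddCommGroup G] [NormedSpace ℝ G] (V : EE d → ℝ)
    (v : ℝ) (c : EE d) (φ : EE d → G) : G :=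
  (mass0 V v c)⁻¹ • lap V v φ c

section Integrals

variable (hV : Admissible V) (hv : 0 < v)
variable {G : Type*} [NormedAddCommGroup G] [NormedSpace ℝ G]

include hV hv

lemma w0_le (x : EE d) : w0 V v x ≤ Real.exp (-(‖x‖ ^ 2 / 2)) := by
  refine Real.exp_le_exp.2 ?_
  have h1 := inv_V_lower hV x
  have h2 : 0 ≤ ‖x‖ ^ 2 / (2 * v) := by positivity
  linarith

lemma tilt_bound {φ : EE d → G} (hφ : Gr φ) (R : ℝ) :
    ∃ C : ℝ, ∀ (c x : EE d), ‖c‖ ≤ R →
      ‖(Real.exp ⟪c, x⟫ * w0 V v x) • φ x‖ ≤ C * Real.exp (-(‖x‖ ^ 2 / 4)) := by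
  obtain ⟨_, C, hC, hb⟩ := hφ
  refine ⟨C * Real.exp ((R + C) ^ 2), fun c x hc => ?_⟩
  rw [norm_smul, Real.norm_eq_abs, abs_of_nonneg (by unfold w0; positivity)]
  have h1 : Real.exp ⟪c, x⟫ ≤ Real.exp (R * ‖x‖) := Real.exp_le_exp.2
    ((real_inner_le_norm c x).trans (mul_le_mul_of_nonneg_right hc (norm_nonneg x)))
  refine (mul_le_mul (mul_le_mul h1 (w0_le hV hv x) (Real.exp_pos _).le (Real.exp_pos _).le)
    (hb x) (norm_nonneg _) (by positivity)).trans ?_
  rw [show Real.exp (R * ‖x‖) * Real.exp (-(‖x‖ ^ 2 / 2)) * (C * Real.exp (C * ‖x‖)) =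
    C * Real.exp (R * ‖x‖ + -(‖x‖ ^ 2 / 2) + C * ‖x‖) by rw [Real.exp_add, Real.exp_add]; ring,
    mul_assoc, ← Real.exp_add]
  refine mul_le_mul_of_nonneg_left (Real.exp_le_exp.2 ?_) hC
  nlinarith [sq_nonneg (‖x‖ / 2 - (R + C))]

omit hV hv in
lemma integrable_exp_quarter : Integrable fun x : EE d => Real.exp (-(‖x‖ ^ 2 / 4)) := by
  have h : Integrable fun x : EE d => Real.exp (-(‖x‖ ^ 2 / 2)) := by
    simpa using inv_pow_exp_integrable (d := d) 0
  have hR : (Real.sqrt 2)⁻¹ ≠ 0 := by positivity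
  refine ((integrable_comp_smul_iff volume _ hR).2 h).congr (ae_of_all _ fun x => ?_)
  simp only [norm_smul, Real.norm_eq_abs, mul_pow, sq_abs, inv_pow,
    Real.sq_sqrt (zero_le_two (α := ℝ))]
  congr 1; ring

lemma tilt_integrable {φ : EE d → G} (hφ : Gr φ) (c : EE d) :
    Integrable fun x => (Real.exp ⟪c, x⟫ * w0 V v x) • φ x := by
  obtain ⟨C, hC⟩ := tilt_bound hV hv hφ ‖c‖
  have := hV.1.continuous
  refine ((integrable_exp_quarter (d := d)).const_mul C).mono' ?_
    (ae_of_all _ fun x => hC c x le_rfl)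
  exact (Continuous.smul (by unfold w0; fun_prop) hφ.cont).aestronglyMeasurable

lemma mass0_pos (c : EE d) : 0 < mass0 V v c := by
  have hi := tilt_integrable hV hv (gr_const (d := d) (1 : ℝ)) c
  simp only [mass0, lap, smul_eq_mul, mul_one] at hi ⊢
  refine (integral_pos_iff_support_of_nonneg (fun x => by unfold w0; positivity) hi).2 ?_
  have : (Function.support fun x => Real.exp ⟪c, x⟫ * w0 V v x) = Set.univ := by
    ext x; simp [w0, Real.exp_ne_zero]
  rw [this]
  exact Measure.measure_univ_pos.2 (NeZero.ne _)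

lemma lap_add {φ ψ : EE d → G} (h : Gr φ) (h' : Gr ψ) (c : EE d) :
    lap V v (fun x => φ x + ψ x) c = lap V v φ c + lap V v ψ c := by
  simp only [lap, smul_add]
  exact integral_add (tilt_integrable hV hv h c) (tilt_integrable hV hv h' c)

lemma lap_sum {ι : Type*} (s : Finset ι) (f : ι → EE d → G) (h : ∀ i ∈ s, Gr (f i)) (c : EE d) :
    lap V v (fun x => ∑ i ∈ s, f i x) c = ∑ i ∈ s, lap V v (f i) c := by
  simp only [lap, Finset.smul_sum]
  exact integral_finsetSum _ fun i hi => tilt_integrable hV hv (h i hi) c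

omit hV hv in
lemma lap_smul (a : ℝ) (φ : EE d → G) (c : EE d) :
    lap V v (fun x => a • φ x) c = a • lap V v φ c := by
  simp only [lap, smul_comm _ a]
  exact integral_smul a _

lemma lap_hasFDerivAt {φ : EE d → ℝ} (hφ : Gr φ) (c : EE d) :
    HasFDerivAt (lap V v φ)
      (∑ i, lap V v (fun x => x i * φ x) c • (EuclideanSpace.proj i : EE d →L[ℝ] ℝ)) c := by
  have hφ1 : Gr fun x => ‖x‖ * φ x := gr_id.norm.mul hφ
  obtain ⟨C, hC⟩ := tilt_bound hV hv hφ1 (‖c‖ + 1)
  have hVc := hV.1.continuous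
  have hw : Continuous (w0 V v) := by unfold w0; fun_prop
  have hφc := hφ.cont
  set F' : EE d → EE d → EE d →L[ℝ] ℝ := fun a x =>
    (Real.exp ⟪a, x⟫ * w0 V v x * φ x) • innerSL ℝ x with hF'
  have hF'c : ∀ a, Continuous (F' a) := fun a =>
    by
    have h1 : Continuous fun x : EE d => Real.exp ⟪a, x⟫ * w0 V v x * φ x := by fun_prop
    exact h1.smul (innerSL ℝ).continuous
  have hnorm : ∀ a x, ‖F' a x‖ = ‖(Real.exp ⟪a, x⟫ * w0 V v x) • (‖x‖ * φ x)‖ := fun a x => by
    simp only [hF', norm_smul, innerSL_apply_norm, norm_mul, norm_norm]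
    ring
  have hd : HasFDerivAt (fun a => lap V v φ a) (∫ x, F' c x) c := by
    simp only [lap]
    refine hasFDerivAt_integral_of_dominated_of_fderiv_le
      (bound := fun x => C * Real.exp (-(‖x‖ ^ 2 / 4))) (F' := F')
      (Metric.ball_mem_nhds c one_pos)
      (Eventually.of_forall fun a => Continuous.aestronglyMeasurable (by fun_prop))
      (tilt_integrable hV hv hφ c) (hF'c c).aestronglyMeasurable (ae_of_all _ fun x a ha => ?_)
      (integrable_exp_quarter.const_mul C) (ae_of_all _ fun x a _ => ?_)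
    · rw [hnorm]
      refine hC a x ?_
      have h1 : ‖a - c‖ < 1 := by simpa [dist_eq_norm] using ha
      linarith [norm_le_norm_add_norm_sub' a c]
    · have h1 : HasFDerivAt (fun a : EE d => ⟪a, x⟫) (innerSL ℝ x) a := by
        simpa [real_inner_comm x] using (innerSL ℝ x).hasFDerivAt (x := a)
      simp only [smul_eq_mul]
      refine ((h1.exp.mul_const (w0 V v x)).mul_const (φ x)).congr_fderiv ?_
      ext u; simp [hF']; ring
  refine hd.congr_fderiv ?_
  have hi : Integrable (F' c) := by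
    refine ((tilt_integrable hV hv hφ1 c).norm).mono' (hF'c c).aestronglyMeasurable
      (ae_of_all _ fun x => (hnorm c x).le)
  ext u
  rw [ContinuousLinearMap.integral_apply hi]
  simp only [hF', smul_apply, innerSL_apply_apply, smul_eq_mul,
    FunLike.coe_sum, Finset.sum_apply, PiLp.proj_apply, lap]
  calc ∫ x, Real.exp ⟪c, x⟫ * w0 V v x * φ x * ⟪x, u⟫
      = ∫ x, ∑ i, Real.exp ⟪c, x⟫ * w0 V v x * (x i * φ x) * u i := by
        refine integral_congr_ae (ae_of_all _ fun x => ?_)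
        simp only [PiLp.inner_apply, RCLike.inner_apply, conj_trivial, Finset.mul_sum]
        exact Finset.sum_congr rfl fun i _ => by ring
    _ = _ := by
        rw [integral_finsetSum _ fun i _ => by
          simpa using (tilt_integrable hV hv ((gr_coord i).mul hφ) c).mul_const (u i)]
        simp_rw [integral_mul_const]

lemma lap_contDiff {φ : EE d → ℝ} (hφ : Gr φ) : ContDiff ℝ ∞ (lap V v φ) := by
  refine contDiff_infty.2 fun n => ?_
  induction n generalizing φ with
  | zero =>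
    exact contDiff_zero.2 (continuous_iff_continuousAt.2 fun c =>
      (lap_hasFDerivAt hV hv hφ c).continuousAt)
  | succ n ih =>
    rw [show ((n + 1 : ℕ) : WithTop ℕ∞) = (n : WithTop ℕ∞) + 1 from rfl,
      contDiff_succ_iff_fderiv]
    refine ⟨fun c => (lap_hasFDerivAt hV hv hφ c).differentiableAt, by simp, ?_⟩
    rw [show fderiv ℝ (lap V v φ) = fun c => ∑ i, lap V v (fun x => x i * φ x) c •
      (EuclideanSpace.proj i : EE d →L[ℝ] ℝ) from funext fun c =>
        (lap_hasFDerivAt hV hv hφ c).fderiv]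
    exact ContDiff.sum fun i _ => (ih ((gr_coord i).mul hφ)).smul contDiff_const

lemma mass0_contDiff : ContDiff ℝ ∞ (mass0 V v) := lap_contDiff hV hv (gr_const 1)

lemma ex_contDiff {φ : EE d → ℝ} (hφ : Gr φ) : ContDiff ℝ ∞ (fun c => ex V v c φ) := by
  simp only [ex, smul_eq_mul]
  exact ((mass0_contDiff hV hv).inv fun c => (mass0_pos hV hv c).ne').mul (lap_contDiff hV hv hφ)

lemma ex_const (c : EE d) (a : ℝ) : ex V v c (fun _ => a) = a := by
  have h := mass0_pos hV hv c
  have e : lap V v (fun _ => a) c = a * mass0 V v c := by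
    rw [mass0, ← smul_eq_mul, ← lap_smul]
    simp
  rw [ex, e, smul_eq_mul]
  field_simp

lemma ex_add {φ ψ : EE d → G} (h : Gr φ) (h' : Gr ψ) (c : EE d) :
    ex V v c (fun x => φ x + ψ x) = ex V v c φ + ex V v c ψ := by
  rw [ex, lap_add hV hv h h', smul_add]; rfl

lemma ex_sum {ι : Type*} (s : Finset ι) (f : ι → EE d → G) (h : ∀ i ∈ s, Gr (f i)) (c : EE d) :
    ex V v c (fun x => ∑ i ∈ s, f i x) = ∑ i ∈ s, ex V v c (f i) := by
  rw [ex, lap_sum hV hv s f h, Finset.smul_sum]; rfl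

omit hV hv in
lemma ex_smul (a : ℝ) (φ : EE d → G) (c : EE d) :
    ex V v c (fun x => a • φ x) = a • ex V v c φ := by
  rw [ex, lap_smul, smul_comm]; rfl

lemma ex_mono {φ ψ : EE d → ℝ} (h : Gr φ) (h' : Gr ψ) (hle : ∀ x, φ x ≤ ψ x) (c : EE d) :
    ex V v c φ ≤ ex V v c ψ := by
  refine mul_le_mul_of_nonneg_left ?_ (inv_nonneg.2 (mass0_pos hV hv c).le)
  exact integral_mono (tilt_integrable hV hv h c) (tilt_integrable hV hv h' c) fun x =>
    mul_le_mul_of_nonneg_left (hle x) (by unfold w0; positivity)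

lemma ex_nonneg {φ : EE d → ℝ} (h : ∀ x, 0 ≤ φ x) (c : EE d) : 0 ≤ ex V v c φ :=
  mul_nonneg (inv_nonneg.2 (mass0_pos hV hv c).le)
    (integral_nonneg fun x => mul_nonneg (by unfold w0; positivity) (h x))

lemma ex_hasFDerivAt {φ : EE d → ℝ} (hφ : Gr φ) (c : EE d) :
    HasFDerivAt (fun c => ex V v c φ)
      (∑ i, (ex V v c (fun x => x i * φ x) - ex V v c φ * ex V v c (fun x => x i)) •
        (EuclideanSpace.proj i : EE d →L[ℝ] ℝ)) c := by
  have h0 := mass0_pos hV hv c
  have h1 := lap_hasFDerivAt hV hv hφ c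
  have h2 : HasFDerivAt (mass0 V v)
      (∑ i, lap V v (fun x => x i) c • (EuclideanSpace.proj i : EE d →L[ℝ] ℝ)) c := by
    have := lap_hasFDerivAt hV hv (gr_const (d := d) (1 : ℝ)) c
    simp only [mul_one] at this
    exact this
  have h3 := ((hasDerivAt_inv h0.ne').comp_hasFDerivAt c h2).mul h1
  simp only [ex, smul_eq_mul] at *
  refine h3.congr_fderiv ?_
  ext u
  simp only [Function.comp_apply, add_apply, smul_apply, FunLike.coe_sum,
    Finset.sum_apply, smul_eq_mul, Finset.mul_sum, ← Finset.sum_add_distrib]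
  refine Finset.sum_congr rfl fun i _ => ?_
  field_simp
  ring

end Integrals

/-- The posterior expectation is the tilted expectation at natural parameter y / v. -/
lemma pE_eq_ex {G : Type*} [NormedAddCommGroup G] [NormedSpace ℝ G] (y : EE d) (φ : EE d → G) :
    pE V v y φ = ex V v (v⁻¹ • y) φ := by
  have e : ∀ x, pw V v y x =
      Real.exp (-(‖y‖ ^ 2 / (2 * v))) * (Real.exp ⟪v⁻¹ • y, x⟫ * w0 V v x) := fun x => by
    simp only [pw, w0, ← Real.exp_add, real_inner_smul_left]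
    congr 1
    rw [norm_sub_sq_real, real_inner_comm]
    ring
  have hne := Real.exp_ne_zero (-(‖y‖ ^ 2 / (2 * v)))
  simp only [pE, pZ, ex, mass0, lap, e, mul_smul, smul_eq_mul, mul_one]
  rw [integral_smul, integral_const_mul, mul_inv, mul_smul, smul_comm _ _ (∫ x, _)]
  simp only [← mul_smul, ← mul_assoc]
  congr 1
  field_simp

end Vale.Agent.P347.Zero
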