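import Vale.Agent.P347.Zero.Val

/-!
The levels of the recursion: noise, error and scale at each of them, and the interface of one
step between the numerics and the induction over the levels.
-/

namespace Vale.Agent.P347.Zero

/-- The gain of one level. -/
noncomputable def lvH (q₀ : ℕ) : ℝ := 1 / (100 * q₀)

/-- The number of levels. -/
def lvNum (q₀ : ℕ) : ℕ := 100 * q₀ ^ 2

/-- The noise exponent of a level. -/
noncomputable def lvTheta (q₀ l : ℕ) : ℝ := 1 / 4 + l * lvH q₀ / (8 * q₀)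

/-- The point noise accepted at a level, in units of √v. -/
noncomputable def lvC (l : ℕ) : ℝ := ((4 : ℝ) ^ (l + 1))⁻¹

/-- The noise of a level at scale v. -/
noncomputable def lvSig (q₀ : ℕ) (ε : ℝ) (l : ℕ) (v : ℝ) : ℝ :=
  Real.sqrt v * ε ^ (-lvTheta q₀ l)

/-- The error of a level is three times this. -/
noncomputable def lvErr (q₀ : ℕ) (ε : ℝ) (l : ℕ) : ℝ := ε ^ ((l : ℝ) * lvH q₀)

/-- The noise of the inner evaluations of the step at level l and scale s. -/
noncomputable def innerSig (q₀ : ℕ) (ε : ℝ) (l : ℕ) (s : ℝ) : ℝ :=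
  Real.sqrt s * ε ^ (-(lvTheta q₀ l - 1 / (40 * q₀)))

/-- The error of the inner evaluations. -/
noncomputable def innerErr (q₀ : ℕ) (ε : ℝ) (l : ℕ) : ℝ :=
  3 * ε ^ ((l : ℝ) * lvH q₀ - 1 / 5)

/-- The noise of the outer evaluations of the step at level l and scale s. -/
noncomputable def outerSig (q₀ : ℕ) (ε : ℝ) (l : ℕ) (s : ℝ) : ℝ :=
  2 * Real.sqrt s * ε ^ (-lvTheta q₀ (l - 1))

/-- The error of the outer evaluations. -/
noncomputable def outerErr (q₀ : ℕ) (ε : ℝ) (l : ℕ) : ℝ := 3 * lvErr q₀ ε (l - 1)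

/-- The least scale treated by steps. -/
noncomputable def vMin (q₀ : ℕ) (ε : ℝ) : ℝ := ε ^ (2 * q₀ + 1)

/-- The number of cells of the grid, also the bound on the halvings. -/
noncomputable def gridN (β ε : ℝ) : ℕ := ⌈ε ^ (-β)⌉₊

/-- One halving at every level: evaluations one level below and an evaluation at s/2 give one
at s, with the error multiplied by 1 + 1/J and increased by the level error over J. -/
def LevelStep (d q₀ : ℕ) (ε : ℝ) (J : ℕ) (cost : ℕ → ℕ) : Prop :=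
  ∀ l : ℕ, 1 ≤ l → l ≤ lvNum q₀ → ∀ s, vMin q₀ ε < s → s ≤ 2 * ε →
    ∀ (E : ℝ) (N₂ NI : ℕ), 0 ≤ E → E ≤ 1 / 10 →
      (∀ v, s / 4 ≤ v → v ≤ s →
        Eval d v (lvC (l - 1)) (innerSig q₀ ε l s) (innerErr q₀ ε l) NI) →
      (∀ v, s / 4 ≤ v → v ≤ s →
        Eval d v (lvC (l - 1)) (outerSig q₀ ε l s) (outerErr q₀ ε l) NI) →
      Eval d (s / 2) (lvC l) (lvSig q₀ ε l (s / 2)) E N₂ →
      Eval d s (lvC l) (lvSig q₀ ε l s) (E * (1 + 1 / (J : ℝ)) + lvErr q₀ ε l / J)
        (N₂ + cost NI)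

end Vale.Agent.P347.Zero
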