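import Vale.Agent.P347.Zero.Transport

/-!
Transport by a locally Lipschitz vector field of linear growth: cut off far away, and test the
continuity equation on compactly supported functions.
-/

open MeasureTheory Set Filter
open scoped NNReal Topology

namespace Vale.Agent.P347.Zero

variable {E : Type*} [NormedAddCommGroup E] [NormedSpace ℝ E] [FiniteDimensional ℝ E]

/-- A field of linear growth on `[0, R]` carrying a density `p`. -/
structure GrowthTransport (w : ℝ → E → E) (p : ℝ → E → ℝ) (A R : ℝ) : Prop where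
  nonneg : 0 ≤ R
  A_nonneg : 0 ≤ A
  cont : Continuous (Function.uncurry w)
  growth : ∀ t, ∀ x, ‖w t x‖ ≤ A * (1 + ‖x‖)
  diff : ∀ t ∈ Icc 0 R, Differentiable ℝ (w t)
  dbound : ∀ ρ : ℝ, ∃ C : ℝ, ∀ t ∈ Icc 0 R, ∀ x, ‖x‖ ≤ ρ → ‖fderiv ℝ (w t) x‖ ≤ C
  pdiff : ∀ t ∈ Icc 0 R, ∀ x, DifferentiableAt ℝ (Function.uncurry p) (t, x)
  decay : ∃ C c : ℝ, 0 < c ∧ ∀ t ∈ Icc 0 R, ∀ x,
    |p t x| ≤ C * Real.exp (-c * ‖x‖) ∧
      ‖fderiv ℝ (Function.uncurry p) (t, x)‖ ≤ C * Real.exp (-c * ‖x‖)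
  eqn : ∀ t ∈ Icc 0 R, ∀ x, ContEq w p t x
  pos : ∀ t ∈ Icc 0 R, ∀ x, 0 ≤ p t x

namespace GrowthTransport

variable {w : ℝ → E → E} {p : ℝ → E → ℝ} {A R : ℝ}

/-- A priori bound, in either time direction. -/
noncomputable def reach (A R m : ℝ) : ℝ := gronwallBound m A A R

omit [FiniteDimensional ℝ E] in
lemma le_reach_of_deriv {f f' : ℝ → E} {a b A R m : ℝ} (hA : 0 ≤ A) (hR : b - a ≤ R)
    (hm : 0 ≤ m) (hf : ∀ t ∈ Icc a b, HasDerivWithinAt f (f' t) (Icc a b) t) (ha : ‖f a‖ ≤ m)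
    (hb : ∀ t ∈ Icc a b, ‖f' t‖ ≤ A * (1 + ‖f t‖)) :
    ∀ t ∈ Icc a b, ‖f t‖ ≤ reach A R m := fun t ht => by
  have h1 := norm_le_gronwallBound_of_norm_deriv_right_le (f := f) (f' := f')
    (fun u hu => (hf u hu).continuousWithinAt)
    (fun u hu => (hf u (Ico_subset_Icc_self hu)).mono_of_mem_nhdsWithin (Icc_mem_nhdsGE_of_mem hu))
    ha (K := A) (ε := A) (fun u hu => (hb u (Ico_subset_Icc_self hu)).trans_eq (by ring)) t ht
  exact h1.trans (gronwallBound_mono hm hA hA (by linarith [ht.2]))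

omit [FiniteDimensional ℝ E] in
/-- Both ends of a solution control the whole trajectory. -/
lemma solves_le_reach {v : ℝ → E → E} {a b : ℝ} {α : ℝ → E} (hA : 0 ≤ A) (hab : a ≤ b)
    (hR : b - a ≤ R) (hv : ∀ t x, ‖v t x‖ ≤ A * (1 + ‖x‖)) (hα : Solves v a b α) :
    (∀ m, ‖α a‖ ≤ m → ∀ t ∈ Icc a b, ‖α t‖ ≤ reach A R m) ∧
      ∀ m, ‖α b‖ ≤ m → ‖α a‖ ≤ reach A R m := by
  refine ⟨fun m hm => le_reach_of_deriv hA hR ((norm_nonneg _).trans hm) hα hm
    fun t _ => hv _ _, fun m hm => ?_⟩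
  have hr : MapsTo (fun t => a + b - t) (Icc a b) (Icc a b) := fun t ht =>
    ⟨by linarith [ht.2], by linarith [ht.1]⟩
  have h2 := le_reach_of_deriv (f := fun t => α (a + b - t))
    (f' := fun t => -(v (a + b - t) (α (a + b - t)))) hA hR ((norm_nonneg _).trans hm)
    (fun t ht => by
      have h3 := (hα _ (hr ht)).scomp t (((hasDerivWithinAt_id t (Icc a b)).const_sub (a + b))) hr
      simpa [Function.comp_def] using h3)
    (by simpa using hm) (fun t _ => by rw [norm_neg]; exact hv _ _) b (right_mem_Icc.2 hab)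
  simpa using h2

/-- The cut-off field. -/
noncomputable def cut (w : ℝ → E → E) (ρ : ℝ) (hρ : 0 < ρ) (t : ℝ) (x : E) : E :=
  (⟨ρ, ρ + 1, hρ, lt_add_one ρ⟩ : ContDiffBump (0 : E)) x • w t x

variable (h : GrowthTransport w p A R)
include h

lemma cut_facts (ρ : ℝ) (hρ : 0 < ρ) :
    (∃ K : ℝ≥0, ∀ t ∈ Icc 0 R, LipschitzWith K (cut w ρ hρ t)) ∧
      Continuous (Function.uncurry (cut w ρ hρ)) ∧
      (∀ t x, ‖cut w ρ hρ t x‖ ≤ A * (1 + ‖x‖)) ∧
      (∀ t, ∀ x, ‖x‖ ≤ ρ → cut w ρ hρ t x = w t x) ∧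
      (∀ t ∈ Icc 0 R, Differentiable ℝ (cut w ρ hρ t)) ∧
      ∀ t, ∀ x, ‖x‖ < ρ → fderiv ℝ (cut w ρ hρ t) x = fderiv ℝ (w t) x := by
  set χ : ContDiffBump (0 : E) := ⟨ρ, ρ + 1, hρ, lt_add_one ρ⟩
  have hcd : ContDiff ℝ (1 : ℕ∞) (χ : E → ℝ) := χ.contDiff
  have hχd : Differentiable ℝ (χ : E → ℝ) := hcd.differentiable (by simp)
  obtain ⟨D, hD⟩ : ∃ D, ∀ x, ‖fderiv ℝ (χ : E → ℝ) x‖ ≤ D :=
    (hcd.continuous_fderiv (by simp)).bounded_above_of_compact_support
      (χ.hasCompactSupport.fderiv ℝ)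
  have heq : ∀ t, ∀ x, ‖x‖ ≤ ρ → cut w ρ hρ t x = w t x := fun t x hx => by
    simp only [cut]
    rw [show χ x = 1 from χ.one_of_mem_closedBall (by simpa using hx), one_smul]
  have hdiff : ∀ t ∈ Icc 0 R, Differentiable ℝ (cut w ρ hρ t) := fun t ht =>
    hχd.smul (h.diff t ht)
  refine ⟨?_, ?_, fun t x => ?_, heq, hdiff, fun t x hx => ?_⟩
  · obtain ⟨C, hC⟩ := h.dbound (ρ + 1)
    refine ⟨(C + D * (A * (1 + (ρ + 1)))).toNNReal, fun t ht =>
      lipschitzWith_of_nnnorm_fderiv_le (hdiff t ht) fun x => ?_⟩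
    rw [← NNReal.coe_le_coe, coe_nnnorm]
    refine le_trans ?_ (Real.le_coe_toNNReal _)
    have hC0 : 0 ≤ C := (norm_nonneg _).trans (hC t ht 0 (by simp; linarith))
    have hD0 : 0 ≤ D := (norm_nonneg _).trans (hD 0)
    have hA1 : 0 ≤ A * (1 + (ρ + 1)) := by have := h.A_nonneg; positivity
    by_cases hx : ‖x‖ ≤ ρ + 1
    · show ‖fderiv ℝ (fun y => χ y • w t y) x‖ ≤ _
      rw [((hχd x).hasFDerivAt.fun_smul (h.diff t ht x).hasFDerivAt).fderiv]
      refine (norm_add_le _ _).trans (add_le_add ?_ ?_)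
      · rw [norm_smul, Real.norm_eq_abs, abs_of_nonneg χ.nonneg]
        exact (mul_le_of_le_one_left (norm_nonneg _) χ.le_one).trans (hC t ht x hx)
      · rw [ContinuousLinearMap.norm_smulRight_apply]
        exact mul_le_mul (hD x) ((h.growth t x).trans
          (mul_le_mul_of_nonneg_left (by linarith) h.A_nonneg)) (norm_nonneg _) hD0
    · have : cut w ρ hρ t =ᶠ[𝓝 x] fun _ => (0 : E) := by
        filter_upwards [(isOpen_lt continuous_const continuous_norm).mem_nhds (lt_of_not_ge hx)]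
          with y hy
        simp only [cut]
        rw [show χ y = 0 from χ.zero_of_le_dist (by simpa using le_of_lt hy), zero_smul]
      rw [this.fderiv_eq, fderiv_fun_const]
      simp only [Pi.zero_apply, norm_zero]
      positivity
  · exact (χ.continuous.comp continuous_snd).smul h.cont
  · simp only [cut]
    rw [norm_smul, Real.norm_eq_abs, abs_of_nonneg χ.nonneg]
    exact (mul_le_of_le_one_left (norm_nonneg _) χ.le_one).trans (h.growth t x)
  · refine Filter.EventuallyEq.fderiv_eq ?_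
    filter_upwards [(isOpen_lt continuous_norm continuous_const).mem_nhds hx] with y hy
      using heq t y (le_of_lt hy)

variable [MeasureSpace E] [BorelSpace E] [(volume : Measure E).IsAddHaarMeasure]

/-- The flow exists and carries the density. -/
theorem exists_flow :
    ∃ Ψ : ℝ → E → E, (∀ x, Ψ 0 x = x) ∧ (∀ x, Solves w 0 R (fun t => Ψ t x)) ∧
      (∀ t ∈ Icc 0 R, Continuous (Ψ t)) ∧
      ∀ t ∈ Icc 0 R, (volume.withDensity fun x => ENNReal.ofReal (p 0 x)).map (Ψ t) =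
        volume.withDensity fun x => ENNReal.ofReal (p t x) := by
  have := FiniteDimensional.complete ℝ E
  have hR := h.nonneg
  have hA := h.A_nonneg
  set P : ℝ → ℝ := fun m => |reach A R m| + 1
  have hP : ∀ m, 0 < P m := fun m => by positivity
  have hPm : ∀ m, reach A R m < P m := fun m =>
    (le_abs_self _).trans_lt (lt_add_one _)
  -- a solution from every point
  have key : ∀ (m ρ : ℝ) (hρ : 0 < ρ), reach A R m ≤ ρ → ∀ x, ‖x‖ ≤ m →
      ∀ α, α 0 = x → Solves (cut w ρ hρ) 0 R α → Solves w 0 R α := by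
    intro m ρ hρ hle x hx α h0 hα t ht
    obtain ⟨-, -, hg, heq, -⟩ := h.cut_facts ρ hρ
    have hb := (solves_le_reach (A := A) (R := R) hA hR (by simp) hg hα).1 m (by rwa [h0]) t ht
    rw [← heq t _ (hb.trans hle)]
    exact hα t ht
  have hex : ∀ x, ∃ α, α 0 = x ∧ Solves w 0 R α := fun x => by
    obtain ⟨⟨K, hK⟩, hc, -⟩ := h.cut_facts (P ‖x‖) (hP _)
    obtain ⟨α, h0, hα⟩ := exists_solves hR hK hc x
    exact ⟨α, h0, key _ _ _ (hPm _).le x le_rfl α h0 hα⟩
  choose α hα0 hα using hex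
  -- the flow is a cut-off flow on balls
  have agree : ∀ (m ρ : ℝ) (hρ : 0 < ρ), reach A R m ≤ ρ → ∀ x, ‖x‖ ≤ m → ∀ t ∈ Icc 0 R,
      α x t = flow (cut w ρ hρ) 0 t x := by
    intro m ρ hρ hle x hx t ht
    obtain ⟨⟨K, hK⟩, -, -, heq, -⟩ := h.cut_facts ρ hρ
    have hb := (solves_le_reach (A := A) (R := R) hA hR (by simp) (v := w) h.growth (hα x)).1 m
      (by rwa [hα0])
    have hs : Solves (cut w ρ hρ) 0 R (α x) := fun u hu => by
      rw [heq u _ ((hb u hu).trans hle)]; exact hα x u hu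
    have := flow_eq ht.1 (fun u hu => hK u ⟨hu.1, hu.2.trans ht.2⟩) (hs.mono le_rfl ht.2)
    rw [hα0] at this
    exact this.symm
  have hcont : ∀ t ∈ Icc 0 R, Continuous fun x => α x t := fun t ht => by
    refine continuous_iff_continuousAt.2 fun x => ?_
    obtain ⟨⟨K, hK⟩, hc, -⟩ := h.cut_facts (P (‖x‖ + 1)) (hP _)
    have hev : (fun y => α y t) =ᶠ[𝓝 x] flow (cut w _ (hP (‖x‖ + 1))) 0 t := by
      filter_upwards [(isOpen_lt continuous_norm continuous_const).mem_nhds (lt_add_one ‖x‖)] with y hy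
        using agree _ _ _ (hPm _).le y (le_of_lt hy) t ht
    refine ContinuousAt.congr ?_ hev.symm
    refine (LipschitzWith.of_dist_le_mul (K := (Real.exp (K * (t - 0))).toNNReal)
      fun y z => ?_).continuous.continuousAt
    rw [dist_eq_norm, dist_eq_norm, Real.coe_toNNReal _ (Real.exp_pos _).le]
    exact flow_lipschitz ht.1 (fun u hu => hK u ⟨hu.1, hu.2.trans ht.2⟩) hc y z
  refine ⟨fun t x => α x t, hα0, hα, hcont, fun t ht => ?_⟩
  -- the law
  obtain ⟨C, c, hc0, hC⟩ := h.decay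
  have hfin : ∀ u ∈ Icc 0 R,
      IsFiniteMeasure (volume.withDensity fun x => ENNReal.ofReal (p u x)) := fun u hu => by
    refine isFiniteMeasure_withDensity_ofReal (((integrable_exp_norm (E := E) hc0).const_mul C).mono'
      ?_ (ae_of_all _ fun x => by simpa using (hC u hu x).1)).2
    exact (continuous_iff_continuousAt.2 fun x =>
      (h.pdiff u hu x).continuousAt.comp (f := fun y => (u, y)) (by fun_prop)).aestronglyMeasurable
  have h00 : (0 : ℝ) ∈ Icc 0 R := left_mem_Icc.2 hR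
  have := hfin 0 h00
  have := hfin t ht
  have hm : ∀ u ∈ Icc 0 R, Continuous (p u) := fun u hu => continuous_iff_continuousAt.2 fun x =>
    (h.pdiff u hu x).continuousAt.comp (f := fun y => (u, y)) (by fun_prop)
  refine ext_of_compact_tests fun φ L m hφ hb hsupp => ?_
  rw [integral_map (hcont t ht).measurable.aemeasurable hφ.continuous.aestronglyMeasurable,
    integral_withDensity_eq_integral_toReal_smul (hm 0 h00).measurable.ennreal_ofReal
      (ae_of_all _ fun x => ENNReal.ofReal_lt_top),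
    integral_withDensity_eq_integral_toReal_smul (hm t ht).measurable.ennreal_ofReal
      (ae_of_all _ fun x => ENNReal.ofReal_lt_top)]
  set ρ0 := |reach A R m| + 1
  have hρ0 : reach A R m < ρ0 := (le_abs_self _).trans_lt (lt_add_one _)
  set ρ := max (ρ0 + 1) (P ρ0)
  have hρ : 0 < ρ := lt_max_of_lt_right (hP _)
  obtain ⟨⟨K, hK⟩, hc, hg, heq, hd, hfd⟩ := h.cut_facts ρ hρ
  have hsub : Icc 0 t ⊆ Icc 0 R := Icc_subset_Icc_right ht.2
  have T : Transportable (cut w ρ hρ) p K 0 t :=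
    { le := ht.1
      lip := fun u hu => hK u (hsub hu)
      cont := hc
      diff := fun u hu => hd u (hsub hu)
      pdiff := fun u hu => h.pdiff u (hsub hu)
      decay := ⟨C, c, hc0, fun u hu => hC u (hsub hu)⟩ }
  have hfar : ∀ u ∈ Icc 0 t, ∀ x, ρ0 ≤ ‖x‖ → φ (flow (cut w ρ hρ) u t x) = 0 := fun u hu x hx => by
    refine hsupp _ (lt_of_not_ge fun hle => ?_)
    obtain ⟨β, rfl, hβ⟩ := exists_solves hu.2
      (fun r hr => hK r (hsub ⟨hu.1.trans hr.1, hr.2⟩)) hc x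
    rw [flow_eq hu.2 (fun r hr => hK r (hsub ⟨hu.1.trans hr.1, hr.2⟩)) hβ] at hle
    have := (solves_le_reach (A := A) (R := R) hA hu.2 (by linarith [hu.1, ht.2]) hg hβ).2 m hle
    linarith
  have hS := T.integral_flow hφ hb (S := {x | ‖x‖ < ρ})
    (fun r hr x hx => by
      have hr' := hsub (Ico_subset_Icc_self hr)
      have hx' : ‖x‖ < ρ := hx
      have := h.eqn r hr' x
      simpa [ContEq, heq r x hx'.le, hfd r x hx'] using this)
    (fun r hr x hx => by
      have hx' : ρ ≤ ‖x‖ := not_lt.1 hx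
      have h1 : ρ0 < ‖x‖ := (lt_add_one ρ0).trans_le ((le_max_left _ _).trans hx')
      have e1 : ∀ᶠ τ in 𝓝[>] (0 : ℝ), ρ0 < ‖x + τ • cut w ρ hρ r x‖ :=
        (((continuous_id.smul continuous_const).const_add x).norm.tendsto' 0 ‖x‖
          (by simp)).mono_left nhdsWithin_le_nhds |>.eventually (lt_mem_nhds h1)
      filter_upwards [e1, Ioc_mem_nhdsGT (sub_pos.2 hr.2)] with τ hτ hτb
      exact hfar (r + τ) ⟨by linarith [hr.1, hτb.1], by linarith [hτb.2]⟩ _ hτ.le)
  have e : ∀ x, φ (α x t) * p 0 x = φ (flow (cut w ρ hρ) 0 t x) * p 0 x := fun x => by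
    by_cases hx : ‖x‖ ≤ ρ0
    · rw [agree ρ0 ρ hρ ((hPm _).le.trans (le_max_right _ _)) x hx t ht]
    · have h1 : φ (α x t) = 0 := hsupp _ (lt_of_not_ge fun hle => hx (by
        have := (solves_le_reach (A := A) (R := R) hA ht.1 (by linarith [ht.2]) h.growth
          ((hα x).mono le_rfl ht.2)).2 m hle
        rw [hα0] at this
        linarith))
      rw [h1, hfar 0 (left_mem_Icc.2 ht.1) x (le_of_lt (lt_of_not_ge hx))]
  have e0 : ∀ u ∈ Icc 0 R, ∀ x : ℝ, ∀ z : E,
      (ENNReal.ofReal (p u z)).toReal • x = x * p u z := fun u hu x z => by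
    rw [ENNReal.toReal_ofReal (h.pos u hu z), smul_eq_mul, mul_comm]
  rw [integral_congr_ae (ae_of_all _ fun x => e0 0 h00 _ x),
    integral_congr_ae (ae_of_all _ fun x => e0 t ht _ x),
    integral_congr_ae (ae_of_all _ e), hS]

end GrowthTransport

end Vale.Agent.P347.Zero
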