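import Vale.Agent.P347.Defs

/-!
Gaussian smoothings of functions of Gaussian decay, as functions of variance and centre: they are
smooth and satisfy the heat equation.
-/

open MeasureTheory Filter Real
open scoped RealInnerProductSpace Topology

namespace Vale.Agent.P347.Zero

variable {d : ℕ}

/-- Continuous functions of Gaussian decay. -/
def GDecay (F : EE d → ℝ) : Prop :=
  Continuous F ∧ ∃ C c : ℝ, 0 ≤ C ∧ 0 < c ∧ ∀ x, |F x| ≤ C * Real.exp (-(c * ‖x‖ ^ 2))

lemma heat_gauss_integrable {c : ℝ} (hc : 0 < c) :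
    Integrable fun x : EE d => Real.exp (-(c * ‖x‖ ^ 2)) := by
  have := (GaussianFourier.integrable_cexp_neg_mul_sq_norm_add (b := (c : ℂ)) (by simpa using hc)
    0 (0 : EE d)).norm
  refine this.congr (ae_of_all _ fun x => ?_)
  simp [Complex.norm_exp, pow_two]

lemma GDecay.integrable {F : EE d → ℝ} (hF : GDecay F) : Integrable F := by
  obtain ⟨hc, C, c, hC, hc0, hb⟩ := hF
  exact ((heat_gauss_integrable hc0).const_mul C).mono' hc.aestronglyMeasurable
    (ae_of_all _ fun x => hb x)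

lemma GDecay.mul_poly {F G : EE d → ℝ} (hF : GDecay F) (hG : Continuous G) (A : ℝ)
    (hb : ∀ x, |G x| ≤ A * (1 + ‖x‖ ^ 2)) : GDecay fun x => G x * F x := by
  obtain ⟨hc, C, c, hC, hc0, h⟩ := hF
  have hA : 0 ≤ A := by
    have := (abs_nonneg _).trans (hb 0)
    simpa using this
  refine ⟨hG.mul hc, A * (1 + 2 / c) * C, c / 2, by positivity, by positivity, fun x => ?_⟩
  have h1 : 1 + ‖x‖ ^ 2 ≤ (1 + 2 / c) * Real.exp (c / 2 * ‖x‖ ^ 2) := by
    have e := Real.add_one_le_exp (c / 2 * ‖x‖ ^ 2)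
    have hp := Real.one_le_exp (show 0 ≤ c / 2 * ‖x‖ ^ 2 by positivity)
    have e2 : ‖x‖ ^ 2 = 2 / c * (c / 2 * ‖x‖ ^ 2) := by field_simp
    have h2 : 2 / c * (c / 2 * ‖x‖ ^ 2) ≤ 2 / c * Real.exp (c / 2 * ‖x‖ ^ 2) :=
      mul_le_mul_of_nonneg_left (by linarith) (by positivity)
    nlinarith
  calc |G x * F x| = |G x| * |F x| := abs_mul _ _
    _ ≤ A * ((1 + 2 / c) * Real.exp (c / 2 * ‖x‖ ^ 2)) * (C * Real.exp (-(c * ‖x‖ ^ 2))) :=
        mul_le_mul ((hb x).trans (mul_le_mul_of_nonneg_left h1 hA)) (h x) (abs_nonneg _)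
          (by positivity)
    _ = A * (1 + 2 / c) * C *
        (Real.exp (c / 2 * ‖x‖ ^ 2) * Real.exp (-(c * ‖x‖ ^ 2))) := by ring
    _ = _ := by rw [← Real.exp_add]; ring_nf

lemma GDecay.mul_coord {F : EE d → ℝ} (hF : GDecay F) (i : Fin d) :
    GDecay fun x => x i * F x := by
  refine hF.mul_poly (by fun_prop) 1 fun x => ?_
  have h : |x i| ≤ ‖x‖ := by simpa using PiLp.norm_apply_le x i
  nlinarith [sq_nonneg (‖x‖ - 1)]

lemma GDecay.mul_sq {F : EE d → ℝ} (hF : GDecay F) : GDecay fun x => ‖x‖ ^ 2 * F x :=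
  hF.mul_poly (by fun_prop) 1 fun x => by rw [abs_of_nonneg (sq_nonneg _)]; linarith

/-- The Gaussian kernel of variance v, not normalised. -/
noncomputable def hK (v : ℝ) (y x : EE d) : ℝ := Real.exp (-(‖x - y‖ ^ 2 / (2 * v)))

/-- The smoothing of F. -/
noncomputable def hPhi (F : EE d → ℝ) (p : ℝ × EE d) : ℝ := ∫ x, F x * hK p.1 p.2 x

lemma hK_continuous (v : ℝ) (y : EE d) : Continuous (hK v y) := by unfold hK; fun_prop

lemma hK_le {v : ℝ} (hv : 0 ≤ v) (y x : EE d) : hK v y x ≤ 1 :=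
  Real.exp_le_one_iff.2 (by have : 0 ≤ ‖x - y‖ ^ 2 / (2 * v) := by positivity
                            linarith)

lemma hPhi_integrable {F : EE d → ℝ} (hF : GDecay F) {v : ℝ} (hv : 0 ≤ v) (y : EE d) :
    Integrable fun x => F x * hK v y x := by
  refine hF.integrable.abs.mono' (hF.1.mul (hK_continuous v y)).aestronglyMeasurable
    (ae_of_all _ fun x => ?_)
  rw [norm_mul, Real.norm_eq_abs, Real.norm_eq_abs, abs_of_pos (show 0 < hK v y x from exp_pos _)]
  exact mul_le_of_le_one_right (abs_nonneg _) (hK_le hv y x)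

/-- Derivative in the variance. -/
noncomputable def hA (F : EE d → ℝ) (p : ℝ × EE d) : ℝ :=
  (hPhi (fun x => ‖x‖ ^ 2 * F x) p - 2 * (∑ i, p.2 i * hPhi (fun x => x i * F x) p)
    + ‖p.2‖ ^ 2 * hPhi F p) / (2 * p.1 ^ 2)

/-- Derivative in coordinate i of the centre. -/
noncomputable def hB (F : EE d → ℝ) (i : Fin d) (p : ℝ × EE d) : ℝ :=
  (hPhi (fun x => x i * F x) p - p.2 i * hPhi F p) / p.1

/-- The derivative as a linear map. -/
noncomputable def hL (F : EE d → ℝ) (p : ℝ × EE d) : ℝ × EE d →L[ℝ] ℝ :=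
  hA F p • ContinuousLinearMap.fst ℝ ℝ (EE d) +
    ∑ i, hB F i p • ((EuclideanSpace.proj (𝕜 := ℝ) i) ∘L ContinuousLinearMap.snd ℝ ℝ (EE d))

lemma hL_apply (F : EE d → ℝ) (p q : ℝ × EE d) :
    hL F p q = hA F p * q.1 + ∑ i, hB F i p * q.2 i := by
  simp [hL]

/-- The derivative of the integrand. -/
noncomputable def hKd (F : EE d → ℝ) (p : ℝ × EE d) (x : EE d) : ℝ × EE d →L[ℝ] ℝ :=
  (F x * hK p.1 p.2 x * (‖x - p.2‖ ^ 2 / (2 * p.1 ^ 2))) • ContinuousLinearMap.fst ℝ ℝ (EE d) +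
    (F x * hK p.1 p.2 x / p.1) • (innerSL ℝ (x - p.2) ∘L ContinuousLinearMap.snd ℝ ℝ (EE d))

lemma hKd_hasFDerivAt (F : EE d → ℝ) (x : EE d) {p : ℝ × EE d} (hv : p.1 ≠ 0) :
    HasFDerivAt (fun q : ℝ × EE d => F x * hK q.1 q.2 x) (hKd F p x) p := by
  have h2 : HasFDerivAt (fun q : ℝ × EE d => ‖x - q.2‖ ^ 2)
      (2 • (innerSL ℝ (x - p.2)).comp (-ContinuousLinearMap.snd ℝ ℝ (EE d))) p :=
    ((hasFDerivAt_snd).const_sub x).norm_sq
  have h1 : HasFDerivAt (fun q : ℝ × EE d => (2 * q.1)⁻¹)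
      ((-((2 * p.1) ^ 2)⁻¹) • ((2 : ℝ) • ContinuousLinearMap.fst ℝ ℝ (EE d))) p := by
    have := (hasDerivAt_inv (mul_ne_zero two_ne_zero hv)).comp_hasFDerivAt p
      ((hasFDerivAt_fst (𝕜 := ℝ) (p := p)).const_mul (2 : ℝ))
    exact this
  have h3 := ((h2.mul h1).neg.exp).const_mul (F x)
  have e : (fun q : ℝ × EE d => F x * hK q.1 q.2 x) =
      fun q => F x * Real.exp (-(‖x - q.2‖ ^ 2 * (2 * q.1)⁻¹)) := by
    funext q; simp [hK, div_eq_mul_inv]
  rw [e]
  refine h3.congr_fderiv ?_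
  refine ContinuousLinearMap.ext fun q => ?_
  simp [hKd, hK, div_eq_mul_inv]
  field_simp
  ring

lemma hKd_norm_le (F : EE d → ℝ) (x : EE d) {q : ℝ × EE d} {a R : ℝ} (ha : 0 < a)
    (hq : a ≤ q.1) (hR : ‖q.2‖ ≤ R) :
    ‖hKd F q x‖ ≤ (1 / (2 * a ^ 2) + 1 / a) * (1 + (‖x‖ + R) ^ 2) * |F x| := by
  have hq0 : 0 < q.1 := ha.trans_le hq
  have hK0 : 0 < hK q.1 q.2 x := exp_pos _
  have hn : ‖x - q.2‖ ≤ ‖x‖ + R := (norm_sub_le _ _).trans (by linarith)
  set T := 1 + (‖x‖ + R) ^ 2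
  set s := ‖x - q.2‖
  have hs : 0 ≤ s := norm_nonneg _
  have hT : 0 ≤ T := by positivity
  have hsT : s ^ 2 ≤ T ∧ s ≤ T := by
    have := pow_le_pow_left₀ hs hn 2
    constructor <;> nlinarith [sq_nonneg (s - 1)]
  set w := |F x * hK q.1 q.2 x| with hwdef
  have hw : w ≤ |F x| := by
    rw [hwdef, abs_mul, abs_of_pos hK0]
    exact mul_le_of_le_one_right (abs_nonneg _) (hK_le hq0.le q.2 x)
  have n1 : ‖(F x * hK q.1 q.2 x * (s ^ 2 / (2 * q.1 ^ 2))) • ContinuousLinearMap.fst ℝ ℝ (EE d)‖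
      ≤ |F x| * (T * (1 / (2 * a ^ 2))) := by
    have h0 : 0 ≤ s ^ 2 / (2 * q.1 ^ 2) := by positivity
    rw [norm_smul, Real.norm_eq_abs, abs_mul, abs_of_nonneg h0]
    refine (mul_le_of_le_one_right (by positivity)
      (ContinuousLinearMap.norm_fst_le ℝ ℝ _)).trans ?_
    refine mul_le_mul hw ?_ h0 (abs_nonneg _)
    rw [← mul_one_div]
    exact mul_le_mul hsT.1 (by gcongr) (by positivity) hT
  have n2 : ‖(F x * hK q.1 q.2 x / q.1) •
      (innerSL ℝ (x - q.2) ∘L ContinuousLinearMap.snd ℝ ℝ (EE d))‖ ≤ |F x| * (T * (1 / a)) := by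
    rw [norm_smul, Real.norm_eq_abs, abs_div, abs_of_pos hq0, ← hwdef]
    have a2 : ‖innerSL ℝ (x - q.2) ∘L ContinuousLinearMap.snd ℝ ℝ (EE d)‖ ≤ s := by
      refine (ContinuousLinearMap.opNorm_comp_le _ _).trans ?_
      rw [innerSL_apply_norm]
      exact mul_le_of_le_one_right hs (ContinuousLinearMap.norm_snd_le ℝ ℝ _)
    refine (mul_le_mul_of_nonneg_left a2 (by positivity)).trans ?_
    rw [div_mul_eq_mul_div, ← mul_div_assoc']
    refine mul_le_mul hw ?_ (by positivity) (abs_nonneg _)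
    rw [← mul_one_div]
    exact mul_le_mul hsT.2 (by gcongr) (by positivity) hT
  refine (norm_add_le _ _).trans ((add_le_add n1 n2).trans_eq ?_)
  ring

lemma hKd_apply (F : EE d → ℝ) (p q : ℝ × EE d) (x : EE d) :
    hKd F p x q = q.1 / (2 * p.1 ^ 2) * (‖x‖ ^ 2 * F x * hK p.1 p.2 x
        - 2 * (∑ i, p.2 i * (x i * F x * hK p.1 p.2 x)) + ‖p.2‖ ^ 2 * (F x * hK p.1 p.2 x))
      + ∑ i, q.2 i / p.1 * (x i * F x * hK p.1 p.2 x - p.2 i * (F x * hK p.1 p.2 x)) := by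
  have ip : ∀ a b : EE d, ⟪a, b⟫ = ∑ i, a i * b i := fun a b => by
    simp [PiLp.inner_apply, mul_comm]
  have s1 : ∑ i, p.2 i * (x i * F x * hK p.1 p.2 x) = ⟪x, p.2⟫ * (F x * hK p.1 p.2 x) := by
    rw [ip, Finset.sum_mul]
    exact Finset.sum_congr rfl fun i _ => by ring
  have s2 : ∑ i, q.2 i / p.1 * (x i * F x * hK p.1 p.2 x - p.2 i * (F x * hK p.1 p.2 x)) =
      F x * hK p.1 p.2 x / p.1 * ⟪x - p.2, q.2⟫ := by
    rw [ip, Finset.mul_sum]
    exact Finset.sum_congr rfl fun i _ => by rw [PiLp.sub_apply]; ring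
  rw [s1, s2]
  simp only [hKd, ContinuousLinearMap.add_apply, ContinuousLinearMap.smul_apply,
    ContinuousLinearMap.comp_apply, ContinuousLinearMap.coe_fst', ContinuousLinearMap.coe_snd',
    innerSL_apply_apply, smul_eq_mul, norm_sub_sq_real]
  ring

lemma hKd_continuous {F : EE d → ℝ} (hF : Continuous F) (p : ℝ × EE d) :
    Continuous (hKd F p) := by
  have := hK_continuous p.1 p.2
  unfold hKd
  fun_prop

/-- The integral of the derivative. -/
lemma hKd_integral {F : EE d → ℝ} (hF : GDecay F) {p : ℝ × EE d} (hv : 0 < p.1)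
    (hi : Integrable (hKd F p)) : ∫ x, hKd F p x = hL F p := by
  refine ContinuousLinearMap.ext fun q => ?_
  have i0 : Integrable fun x => F x * hK p.1 p.2 x := hPhi_integrable hF hv.le p.2
  have i1 : ∀ i, Integrable fun x => x i * F x * hK p.1 p.2 x :=
    fun i => hPhi_integrable (hF.mul_coord i) hv.le p.2
  have i2 : Integrable fun x => ‖x‖ ^ 2 * F x * hK p.1 p.2 x :=
    hPhi_integrable hF.mul_sq hv.le p.2
  have j0 : Integrable fun x => ‖p.2‖ ^ 2 * (F x * hK p.1 p.2 x) := i0.const_mul _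
  have j1 : ∀ i, Integrable fun x => p.2 i * (x i * F x * hK p.1 p.2 x) :=
    fun i => (i1 i).const_mul _
  have j2 : Integrable fun x => 2 * ∑ i, p.2 i * (x i * F x * hK p.1 p.2 x) :=
    (integrable_finsetSum Finset.univ fun i _ => j1 i).const_mul 2
  have j3 : Integrable fun x => ‖x‖ ^ 2 * F x * hK p.1 p.2 x
      - 2 * ∑ i, p.2 i * (x i * F x * hK p.1 p.2 x) := i2.sub j2
  have j4 : Integrable fun x => ‖x‖ ^ 2 * F x * hK p.1 p.2 x
      - 2 * (∑ i, p.2 i * (x i * F x * hK p.1 p.2 x)) + ‖p.2‖ ^ 2 * (F x * hK p.1 p.2 x) :=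
    j3.add j0
  have j5 : Integrable fun x => q.1 / (2 * p.1 ^ 2) * (‖x‖ ^ 2 * F x * hK p.1 p.2 x
      - 2 * (∑ i, p.2 i * (x i * F x * hK p.1 p.2 x)) + ‖p.2‖ ^ 2 * (F x * hK p.1 p.2 x)) :=
    j4.const_mul _
  have j6 : ∀ i, Integrable fun x =>
      q.2 i / p.1 * (x i * F x * hK p.1 p.2 x - p.2 i * (F x * hK p.1 p.2 x)) :=
    fun i => Integrable.const_mul ((i1 i).sub (i0.const_mul _)) _
  rw [ContinuousLinearMap.integral_apply hi q,
    integral_congr_ae (ae_of_all _ (hKd_apply F p q)), hL_apply,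
    integral_add j5 (integrable_finsetSum _ fun i _ => j6 i),
    integral_finsetSum _ fun i _ => j6 i, integral_const_mul, integral_add j3 j0,
    integral_sub i2 j2, integral_const_mul, integral_finsetSum _ fun i _ => j1 i]
  simp only [integral_const_mul, hA, hB, hPhi]
  congr 1
  · ring
  · refine Finset.sum_congr rfl fun i _ => ?_
    rw [integral_sub (i1 i) (i0.const_mul _), integral_const_mul]
    ring

/-- The smoothing is differentiable. -/
lemma hPhi_hasFDerivAt {F : EE d → ℝ} (hF : GDecay F) {p : ℝ × EE d} (hv : 0 < p.1) :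
    HasFDerivAt (hPhi F) (hL F p) p := by
  set R := ‖p.2‖ + 1
  set D := 1 / (2 * (p.1 / 2) ^ 2) + 1 / (p.1 / 2) with hD
  have hD0 : 0 ≤ D := by rw [hD]; positivity
  set S : Set (ℝ × EE d) := {q | p.1 / 2 < q.1 ∧ ‖q.2‖ < R}
  have hS : S ∈ 𝓝 p := by
    refine IsOpen.mem_nhds ?_ ⟨by linarith, by simp [R]⟩
    exact (isOpen_lt continuous_const continuous_fst).inter
      (isOpen_lt (continuous_norm.comp continuous_snd) continuous_const)
  have hG : GDecay fun x => D * (1 + (‖x‖ + R) ^ 2) * F x := by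
    refine hF.mul_poly (by fun_prop) (D * (2 + 2 * R ^ 2)) fun x => ?_
    rw [abs_of_nonneg (mul_nonneg hD0 (by positivity)), mul_assoc]
    refine mul_le_mul_of_nonneg_left ?_ hD0
    nlinarith [sq_nonneg (‖x‖ - R), sq_nonneg R, sq_nonneg ‖x‖,
      mul_nonneg (sq_nonneg R) (sq_nonneg ‖x‖)]
  have hm : ∀ x, ∀ q ∈ S, ‖hKd F q x‖ ≤ |D * (1 + (‖x‖ + R) ^ 2) * F x| := fun x q hq => by
    rw [abs_mul, abs_of_nonneg (mul_nonneg hD0 (by positivity))]
    exact hKd_norm_le F x (by linarith) hq.1.le hq.2.le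
  have hcont := hKd_continuous hF.1 p
  have hi : Integrable (hKd F p) := hG.integrable.abs.mono' hcont.aestronglyMeasurable
    (ae_of_all _ fun x => hm x p (mem_of_mem_nhds hS))
  have key := hasFDerivAt_integral_of_dominated_of_fderiv_le (μ := (volume : Measure (EE d)))
    (𝕜 := ℝ) (x₀ := p) (F := fun q x => F x * hK q.1 q.2 x) (F' := fun q x => hKd F q x)
    (bound := fun x => |D * (1 + (‖x‖ + R) ^ 2) * F x|) hS
    (Eventually.of_forall fun q => (hF.1.mul (hK_continuous q.1 q.2)).aestronglyMeasurable)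
    (hPhi_integrable hF hv.le p.2) hcont.aestronglyMeasurable
    (ae_of_all _ hm) hG.integrable.abs
    (ae_of_all _ fun x q hq => hKd_hasFDerivAt F x (ne_of_gt (lt_trans (half_pos hv) hq.1)))
  exact key.congr_fderiv (hKd_integral hF hv hi)

/-- The smoothing is smooth for positive variance. -/
lemma hPhi_contDiffOn_nat : ∀ (n : ℕ) {F : EE d → ℝ}, GDecay F →
    ContDiffOn ℝ n (hPhi F) (Set.Ioi 0 ×ˢ Set.univ)
  | 0, F, hF => by
      refine contDiffOn_zero.2 fun p hp => ?_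
      exact (hPhi_hasFDerivAt hF hp.1).continuousAt.continuousWithinAt
  | n + 1, F, hF => by
      have ho : IsOpen (Set.Ioi (0 : ℝ) ×ˢ (Set.univ : Set (EE d))) := isOpen_Ioi.prod isOpen_univ
      rw [show ((n + 1 : ℕ) : WithTop ℕ∞) = (n : WithTop ℕ∞) + 1 by norm_cast,
        contDiffOn_succ_iff_fderiv_of_isOpen ho]
      refine ⟨fun p hp => (hPhi_hasFDerivAt hF hp.1).differentiableAt.differentiableWithinAt,
        fun h => by simp at h, ?_⟩
      refine ContDiffOn.congr ?_ fun p hp => (hPhi_hasFDerivAt hF hp.1).fderiv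
      have c0 := hPhi_contDiffOn_nat n hF
      have c1 := fun i => hPhi_contDiffOn_nat n (hF.mul_coord i)
      have c2 := hPhi_contDiffOn_nat n hF.mul_sq
      have cv : ContDiffOn ℝ n (fun p : ℝ × EE d => p.1) (Set.Ioi 0 ×ˢ Set.univ) := contDiffOn_fst
      have cy : ∀ i, ContDiffOn ℝ n (fun p : ℝ × EE d => p.2 i) (Set.Ioi 0 ×ˢ Set.univ) :=
        fun i => ((EuclideanSpace.proj (𝕜 := ℝ) i).contDiff.comp contDiff_snd).contDiffOn
      have cn : ContDiffOn ℝ n (fun p : ℝ × EE d => ‖p.2‖ ^ 2) (Set.Ioi 0 ×ˢ Set.univ) :=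
        ((contDiff_norm_sq ℝ).comp contDiff_snd).contDiffOn
      unfold hL
      refine ContDiffOn.add (f := fun p => hA F p • ContinuousLinearMap.fst ℝ ℝ (EE d))
        (g := fun p => ∑ i, hB F i p •
          ((EuclideanSpace.proj (𝕜 := ℝ) i) ∘L ContinuousLinearMap.snd ℝ ℝ (EE d)))
        (ContDiffOn.smul (f := fun p => hA F p)
          (g := fun _ => ContinuousLinearMap.fst ℝ ℝ (EE d)) ?_ contDiffOn_const)
        (ContDiffOn.sum fun i _ => ContDiffOn.smul (f := fun p => hB F i p)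
          (g := fun _ => (EuclideanSpace.proj (𝕜 := ℝ) i) ∘L ContinuousLinearMap.snd ℝ ℝ (EE d))
          ?_ contDiffOn_const)
      · unfold hA
        refine ((c2.sub (contDiffOn_const.mul (ContDiffOn.sum fun i _ => (cy i).mul (c1 i)))).add
          (cn.mul c0)).div (contDiffOn_const.mul (cv.pow 2)) fun p hp => ?_
        have : (0 : ℝ) < p.1 := hp.1
        positivity
      · exact ((c1 i).sub ((cy i).mul c0)).div cv fun p hp => ne_of_gt hp.1

lemma hPhi_contDiffOn {F : EE d → ℝ} (hF : GDecay F) :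
    ContDiffOn ℝ (⊤ : ℕ∞) (hPhi F) (Set.Ioi 0 ×ˢ Set.univ) :=
  contDiffOn_infty.2 fun n => hPhi_contDiffOn_nat n hF

lemma hPhi_deriv_v {F : EE d → ℝ} (hF : GDecay F) {v : ℝ} (hv : 0 < v) (y : EE d) :
    HasDerivAt (fun t => hPhi F (t, y)) (hA F (v, y)) v := by
  have h := (hPhi_hasFDerivAt hF (p := (v, y)) hv).comp_hasDerivAt v
    ((hasDerivAt_id v).prodMk (hasDerivAt_const v y))
  exact h.congr_deriv (by simp [hL_apply])

lemma hPhi_fderiv_y {F : EE d → ℝ} (hF : GDecay F) {v : ℝ} (hv : 0 < v) (y : EE d) :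
    HasFDerivAt (fun z => hPhi F (v, z))
      (∑ i, hB F i (v, y) • (EuclideanSpace.proj (𝕜 := ℝ) i)) y := by
  have h := (hPhi_hasFDerivAt hF (p := (v, y)) hv).comp y
    ((hasFDerivAt_const v y).prodMk (hasFDerivAt_id y))
  refine h.congr_fderiv ?_
  ext w; simp [hL_apply]

/-- Second derivative in coordinate i. -/
noncomputable def hBB (F : EE d → ℝ) (i : Fin d) (p : ℝ × EE d) : ℝ :=
  (hB (fun x => x i * F x) i p - hPhi F p - p.2 i * hB F i p) / p.1

lemma hB_fderiv_y {F : EE d → ℝ} (hF : GDecay F) {v : ℝ} (hv : 0 < v) (i : Fin d) (y : EE d) :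
    fderiv ℝ (fun z => hB F i (v, z)) y (EuclideanSpace.single i (1 : ℝ)) = hBB F i (v, y) := by
  have h1 := hPhi_fderiv_y (hF.mul_coord i) hv y
  have h2 := ((EuclideanSpace.proj (𝕜 := ℝ) i).hasFDerivAt (x := y)).fun_mul
    (hPhi_fderiv_y hF hv y)
  have h3 := (h1.fun_sub h2).mul_const (v⁻¹)
  have e : (fun z => hB F i (v, z)) =
      fun z => (hPhi (fun x => x i * F x) (v, z) -
        EuclideanSpace.proj (𝕜 := ℝ) i z * hPhi F (v, z)) * v⁻¹ := by
    funext z; simp [hB, div_eq_mul_inv]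
  rw [e, h3.fderiv]
  simp [hBB, div_eq_mul_inv, Finset.sum_ite_eq']
  ring

/-- The heat equation. -/
lemma hPhi_heat {F : EE d → ℝ} (hF : GDecay F) {p : ℝ × EE d} (hv : 0 < p.1) :
    hA F p = 1 / 2 * (∑ i, hBB F i p) + d / (2 * p.1) * hPhi F p := by
  have e : ∀ x : EE d, ‖x‖ ^ 2 = ∑ i, x i * x i := fun x => by
    rw [EuclideanSpace.real_norm_sq_eq]; exact Finset.sum_congr rfl fun i _ => sq (x i)
  have f1 : hPhi (fun x => ‖x‖ ^ 2 * F x) p = ∑ i, hPhi (fun x => x i * (x i * F x)) p := by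
    simp only [hPhi]
    rw [← integral_finsetSum _ fun i _ => hPhi_integrable ((hF.mul_coord i).mul_coord i) hv.le p.2]
    refine integral_congr_ae (ae_of_all _ fun x => ?_)
    simp only [e, Finset.sum_mul]
    exact Finset.sum_congr rfl fun i _ => by ring
  have f2 : ‖p.2‖ ^ 2 * hPhi F p = ∑ i, p.2 i * p.2 i * hPhi F p := by
    rw [e, Finset.sum_mul]
  have f3 : ∑ i, hBB F i p = ((∑ i, hPhi (fun x => x i * (x i * F x)) p)
      - 2 * (∑ i, p.2 i * hPhi (fun x => x i * F x) p) + ∑ i, p.2 i * p.2 i * hPhi F p) / p.1 ^ 2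
      - ∑ _i : Fin d, hPhi F p / p.1 := by
    rw [Finset.mul_sum, ← Finset.sum_sub_distrib, ← Finset.sum_add_distrib, Finset.sum_div,
      ← Finset.sum_sub_distrib]
    exact Finset.sum_congr rfl fun i _ => by simp only [hBB, hB]; field_simp; ring
  rw [f3, hA, f1, f2]
  generalize (∑ i, hPhi (fun x => x i * (x i * F x)) p) = a
  generalize (∑ i, p.2 i * hPhi (fun x => x i * F x) p) = b
  generalize (∑ i, p.2 i * p.2 i * hPhi F p) = c
  simp only [Finset.sum_const, Finset.card_univ, Fintype.card_fin, nsmul_eq_mul]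
  field_simp
  ring

end Vale.Agent.P347.Zero
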