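import Vale.Agent.P347.Zero.Defs
import Vale.Agent.P347.Zero.HeatPhi
import Vale.Agent.P347.InvBase

/-!
The smoothed potential: gradient, smoothness in scale and point, heat equation, crude bounds.
-/

open MeasureTheory ProbabilityTheory Filter
open scoped RealInnerProductSpace Topology ContDiff

namespace Vale.Agent.P347.Zero

variable {d : ℕ} {V : EE d → ℝ}

lemma gdecay_wt (hV : Admissible V) : GDecay (inv_wt V) :=
  ⟨inv_wt_continuous hV, 1, 1 / 2, zero_le_one, by norm_num, fun x => by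
    rw [abs_of_pos (show 0 < inv_wt V x from Real.exp_pos _), one_mul]
    convert inv_wt_le hV x using 3
    ring⟩

/-- The weight times a coordinate of the gradient. -/
noncomputable def gwt (V : EE d → ℝ) (k : Fin d) (x : EE d) : ℝ := gradient V x k * inv_wt V x

lemma gdecay_gwt (hV : Admissible V) (k : Fin d) : GDecay (gwt V k) := by
  have hg := gradClass_gradient hV
  refine (gdecay_wt hV).mul_poly
    ((EuclideanSpace.proj (𝕜 := ℝ) k).continuous.comp hg.smooth.continuous) 1 fun x => ?_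
  have h1 : |gradient V x k| ≤ 2 * ‖x‖ :=
    le_trans (by simpa using PiLp.norm_apply_le (gradient V x) k) (inv_grad_le hg x)
  show |gradient V x k| ≤ 1 * (1 + ‖x‖ ^ 2)
  nlinarith [sq_nonneg (‖x‖ - 1)]

lemma pw_eq (v : ℝ) (y x : EE d) : pw V v y x = inv_wt V x * hK v y x := by
  simp only [pw, inv_wt, hK, ← Real.exp_add]
  ring_nf

lemma pZ_eq_hPhi (v : ℝ) (y : EE d) : pZ V v y = hPhi (inv_wt V) (v, y) := by
  simp only [pZ, hPhi, pw_eq]

lemma hPhi_wt_pos (hV : Admissible V) {p : ℝ × EE d} (hv : 0 < p.1) :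
    0 < hPhi (inv_wt V) p := by
  have hp : ∀ x, 0 < inv_wt V x * hK p.1 p.2 x := fun x =>
    mul_pos (Real.exp_pos _) (Real.exp_pos _)
  refine (integral_pos_iff_support_of_nonneg (fun x => (hp x).le)
    (hPhi_integrable (gdecay_wt hV) hv.le p.2)).2 ?_
  rw [Function.support_eq_univ fun x => (hp x).ne']
  exact Measure.measure_univ_pos.2 (NeZero.ne _)

theorem pdens_pos (hV : Admissible V) {v : ℝ} (hv : 0 < v) (y : EE d) : 0 < pdens V v y := by
  have := hPhi_wt_pos hV (p := (v, y)) hv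
  rw [pdens, pZ_eq_hPhi]
  positivity

lemma Dv_apply (hV : Admissible V) {v : ℝ} (hv : 0 < v) (y : EE d) (k : Fin d) :
    Dv V v y k = hPhi (gwt V k) (v, y) / hPhi (inv_wt V) (v, y) := by
  have hg := gradClass_gradient hV
  have hb : ∀ x, ‖gradient V x‖ ≤ 2 * (1 + ‖x‖ ^ 1) := fun x =>
    (inv_grad_le hg x).trans (by linarith [pow_one ‖x‖])
  have hi : Integrable fun x => pw V v y x • gradient V x := by
    refine (inv_wt_integrable hV (gradient V) hg.smooth.continuous 2 1 hb).norm.mono' ?_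
      (ae_of_all _ fun x => ?_)
    · have h := inv_wt_continuous hV
      simp only [pw_eq]
      exact ((h.mul (hK_continuous v y)).smul hg.smooth.continuous).aestronglyMeasurable
    · rw [pw_eq, norm_smul, norm_smul, norm_mul]
      exact mul_le_mul_of_nonneg_right (mul_le_of_le_one_right (norm_nonneg _)
        (by rw [Real.norm_eq_abs, abs_of_pos (show 0 < hK v y x from Real.exp_pos _)]
            exact hK_le hv.le y x)) (norm_nonneg _)
  rw [Dv, if_neg (not_le.2 hv), pE, pZ_eq_hPhi, PiLp.smul_apply, smul_eq_mul, div_eq_inv_mul]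
  congr 1
  have e := (EuclideanSpace.proj (𝕜 := ℝ) k).integral_comp_comm hi
  simp only [PiLp.proj_apply, PiLp.smul_apply, smul_eq_mul] at e
  rw [← e, hPhi]
  exact integral_congr_ae (ae_of_all _ fun x => by simp [pw_eq, gwt]; ring)

/-- Integration by parts in the posterior. -/
lemma hPhi_gwt (hV : Admissible V) {v : ℝ} (hv : 0 < v) (y : EE d) (k : Fin d) :
    hPhi (gwt V k) (v, y) = -hB (inv_wt V) k (v, y) := by
  set e : EE d := EuclideanSpace.single k (1 : ℝ)
  set f' : EE d → EE d := fun x => -((hK v y x / v) • (x - y)) with hf'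
  have hgrad : ∀ x, HasGradientAt (hK v y) (f' x) x := by
    intro x
    rw [hasGradientAt_iff_hasFDerivAt]
    have h : HasFDerivAt (hK v y) _ x :=
      ((((hasFDerivAt_id x).sub_const y).norm_sq).mul_const ((2 * v)⁻¹)).neg.exp
    refine h.congr_fderiv ?_
    ext w
    simp [hf', hK, div_eq_mul_inv, InnerProductSpace.toDual_apply_apply]
    ring
  set C := 1 + (1 + ‖y‖) / v with hC
  have hC1 : 1 ≤ C := le_add_of_nonneg_right (by positivity)
  have h1 : ∀ x, |hK v y x| ≤ C * (1 + ‖x‖ ^ 1) := fun x => by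
    rw [abs_of_pos (show 0 < hK v y x from Real.exp_pos _)]
    exact (hK_le hv.le y x).trans
      (le_trans hC1 (le_mul_of_one_le_right (by linarith) (by simp)))
  have h2 : ∀ x, ‖f' x‖ ≤ C * (1 + ‖x‖ ^ 1) := fun x => by
    simp only [hf', norm_neg, norm_smul, Real.norm_eq_abs, abs_div, abs_of_pos hv,
      abs_of_pos (show 0 < hK v y x from Real.exp_pos _), pow_one]
    calc hK v y x / v * ‖x - y‖ ≤ 1 / v * (‖x‖ + ‖y‖) :=
          mul_le_mul (div_le_div_of_nonneg_right (hK_le hv.le y x) hv.le) (norm_sub_le _ _)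
            (norm_nonneg _) (by positivity)
      _ ≤ 1 / v * ((1 + ‖y‖) * (1 + ‖x‖)) := by
          gcongr
          nlinarith [norm_nonneg x, norm_nonneg y, mul_nonneg (norm_nonneg x) (norm_nonneg y)]
      _ ≤ _ := by
          rw [hC, ← mul_assoc]
          gcongr
          rw [one_div_mul_eq_div]; linarith
  have hc : Continuous f' := by
    have := hK_continuous v y
    rw [hf']; fun_prop
  have key := inv_ibp hV e (hK v y) f' hgrad hc C 1 h1 h2
  have i1 : Integrable fun x => x k * inv_wt V x * hK v y x :=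
    hPhi_integrable ((gdecay_wt hV).mul_coord k) hv.le y
  have i0 : Integrable fun x => y k * (inv_wt V x * hK v y x) :=
    (hPhi_integrable (gdecay_wt hV) hv.le y).const_mul _
  have e1 : ∀ x, inv_wt V x * ⟪f' x, e⟫ =
      -v⁻¹ * (x k * inv_wt V x * hK v y x - y k * (inv_wt V x * hK v y x)) := fun x => by
    simp [hf', e, EuclideanSpace.inner_single_right, div_eq_mul_inv]
    ring
  have e2 : ∀ x, inv_wt V x * (hK v y x * ⟪gradient V x, e⟫) = gwt V k x * hK v y x := fun x => by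
    simp only [gwt, e, EuclideanSpace.inner_single_right, conj_trivial]
    ring
  simp only [e1, e2] at key
  rw [hPhi, ← key, integral_const_mul, integral_sub i1 i0, integral_const_mul]
  simp only [hB, hPhi]
  ring

lemma Dv_eq_hB (hV : Admissible V) {v : ℝ} (hv : 0 < v) (y : EE d) (k : Fin d) :
    Dv V v y k = -(hB (inv_wt V) k (v, y)) / hPhi (inv_wt V) (v, y) := by
  rw [Dv_apply hV hv, hPhi_gwt hV hv]

lemma pot_eq (hV : Admissible V) {v : ℝ} (hv : 0 < v) (y : EE d) :
    pot V v y = -Real.log (hPhi (inv_wt V) (v, y))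
      + d / 2 * (Real.log (2 * Real.pi) + Real.log v) := by
  rw [pot, pdens, pZ_eq_hPhi, Real.log_div (hPhi_wt_pos hV (p := (v, y)) hv).ne'
    (by positivity), Real.log_pow, Real.log_sqrt (by positivity),
    Real.log_mul (by positivity) hv.ne']
  ring

theorem hasGradientAt_pot (hV : Admissible V) {v : ℝ} (hv : 0 < v) (y : EE d) :
    HasGradientAt (pot V v) (Dv V v y) y := by
  rw [hasGradientAt_iff_hasFDerivAt,
    show pot V v = fun z => -Real.log (hPhi (inv_wt V) (v, z))
      + d / 2 * (Real.log (2 * Real.pi) + Real.log v) from funext (pot_eq hV hv)]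
  refine (((hPhi_fderiv_y (gdecay_wt hV) hv y).log (hPhi_wt_pos hV (p := (v, y)) hv).ne').neg
    |>.add_const _).congr_fderiv ?_
  ext w
  simp [InnerProductSpace.toDual_apply_apply, PiLp.inner_apply, Dv_eq_hB hV hv, Finset.mul_sum,
    ← Finset.sum_neg_distrib]
  exact Finset.sum_congr rfl fun i _ => by ring

theorem contDiffOn_Dv (hV : Admissible V) :
    ContDiffOn ℝ (⊤ : ℕ∞) (fun p : ℝ × EE d => Dv V p.1 p.2) (Set.Ioi 0 ×ˢ Set.univ) := by
  rw [contDiffOn_euclidean]
  intro k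
  refine ContDiffOn.congr ((hPhi_contDiffOn (gdecay_gwt hV k)).div
    (hPhi_contDiffOn (gdecay_wt hV)) fun p hp => (hPhi_wt_pos hV hp.1).ne') fun p hp => ?_
  exact Dv_apply hV hp.1 p.2 k

theorem contDiffOn_pot (hV : Admissible V) :
    ContDiffOn ℝ (⊤ : ℕ∞) (fun p : ℝ × EE d => pot V p.1 p.2) (Set.Ioi 0 ×ˢ Set.univ) := by
  refine ContDiffOn.congr (f := fun p : ℝ × EE d => -Real.log (hPhi (inv_wt V) p)
    + d / 2 * (Real.log (2 * Real.pi) + Real.log p.1)) ?_ fun p hp => pot_eq hV hp.1 p.2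
  refine ((hPhi_contDiffOn (gdecay_wt hV)).log fun p hp => (hPhi_wt_pos hV hp.1).ne').neg.add
    (contDiffOn_const.mul (contDiffOn_const.add ?_))
  exact contDiffOn_fst.log fun p hp => ne_of_gt hp.1

theorem pot_lower (hV : Admissible V) {a : ℝ} (ha : 0 < a) :
    ∃ A : ℝ, ∀ v, a ≤ v → ∀ y, -A ≤ pot V v y := by
  refine ⟨Real.log (∫ x, inv_wt V x) - d / 2 * (Real.log (2 * Real.pi) + Real.log a),
    fun v hva y => ?_⟩
  have hv : 0 < v := ha.trans_le hva
  have hl : d / 2 * Real.log a ≤ d / 2 * Real.log v :=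
    mul_le_mul_of_nonneg_left (Real.log_le_log ha hva) (by positivity)
  have h : hPhi (inv_wt V) (v, y) ≤ ∫ x, inv_wt V x :=
    integral_mono (hPhi_integrable (gdecay_wt hV) hv.le y) (inv_wt_integrable₀ hV)
      fun x => mul_le_of_le_one_right (Real.exp_pos _).le (hK_le hv.le y x)
  have := Real.log_le_log (hPhi_wt_pos hV (p := (v, y)) hv) h
  rw [pot_eq hV hv]
  linarith

lemma pd_two_eq (hV : Admissible V) {v : ℝ} (hv : 0 < v) (y : EE d) (i k : Fin d) :
    Calc.pd (Dv V) [i, k] v y =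
      (hB (gwt V k) i (v, y) * hPhi (inv_wt V) (v, y)
        - hPhi (gwt V k) (v, y) * hB (inv_wt V) i (v, y)) / hPhi (inv_wt V) (v, y) ^ 2 := by
  have h1 := hPhi_fderiv_y (gdecay_gwt hV k) hv y
  have h2 := hPhi_fderiv_y (gdecay_wt hV) hv y
  have hne := (hPhi_wt_pos hV (p := (v, y)) hv).ne'
  simp only [Calc.pd, Calc.ev]
  have h3 : HasFDerivAt (fun x => (hPhi (inv_wt V) (v, x))⁻¹) _ y :=
    (hasDerivAt_inv hne).comp_hasFDerivAt y h2
  rw [show (fun x => Dv V v x k) = fun x => hPhi (gwt V k) (v, x) * (hPhi (inv_wt V) (v, x))⁻¹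
    from funext fun x => by rw [Dv_apply hV hv, div_eq_mul_inv], (h1.fun_mul h3).fderiv]
  simp
  field_simp
  ring

lemma hB_differentiableAt {F : EE d → ℝ} (hF : GDecay F) {v : ℝ} (hv : 0 < v)
    (i : Fin d) (y : EE d) : DifferentiableAt ℝ (fun z => hB F i (v, z)) y := by
  have h1 := (hPhi_fderiv_y (hF.mul_coord i) hv y).differentiableAt
  have h2 := (hPhi_fderiv_y hF hv y).differentiableAt
  simp only [hB]
  fun_prop

lemma pd_three_eq (hV : Admissible V) {v : ℝ} (hv : 0 < v) (y : EE d) (i k : Fin d) :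
    Calc.pd (Dv V) [i, i, k] v y =
      (hBB (gwt V k) i (v, y) * hPhi (inv_wt V) (v, y)
          - hPhi (gwt V k) (v, y) * hBB (inv_wt V) i (v, y)) / hPhi (inv_wt V) (v, y) ^ 2
        - 2 * (hB (inv_wt V) i (v, y) / hPhi (inv_wt V) (v, y)) *
          Calc.pd (Dv V) [i, k] v y := by
  have hG := gdecay_gwt hV k
  have hW := gdecay_wt hV
  have hne := (hPhi_wt_pos hV (p := (v, y)) hv).ne'
  set e : EE d := EuclideanSpace.single i (1 : ℝ)
  have a1 := (hB_differentiableAt hG hv i y).hasFDerivAt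
  have a2 := hPhi_fderiv_y hW hv y
  have a3 := hPhi_fderiv_y hG hv y
  have a4 := (hB_differentiableAt hW hv i y).hasFDerivAt
  have num := (a1.fun_mul a2).fun_sub (a3.fun_mul a4)
  have inv : HasFDerivAt (fun x => (hPhi (inv_wt V) (v, x) ^ 2)⁻¹) _ y :=
    (hasDerivAt_inv (pow_ne_zero 2 hne)).comp_hasFDerivAt y (a2.pow 2)
  show fderiv ℝ (Calc.pd (Dv V) [i, k] v) y (Calc.ev i) = _
  rw [show Calc.pd (Dv V) [i, k] v = fun x => (hB (gwt V k) i (v, x) * hPhi (inv_wt V) (v, x)
      - hPhi (gwt V k) (v, x) * hB (inv_wt V) i (v, x)) * (hPhi (inv_wt V) (v, x) ^ 2)⁻¹ from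
    funext fun x => by rw [pd_two_eq hV hv, div_eq_mul_inv], (num.fun_mul inv).fderiv]
  simp [Calc.ev, hB_fderiv_y hG hv, hB_fderiv_y hW hv]
  field_simp
  ring

theorem heat_Dv (hV : Admissible V) {v : ℝ} (hv : 0 < v) (y : EE d) (k : Fin d) :
    HasDerivAt (fun t => Dv V t y k)
      (1 / 2 * (∑ i, Calc.pd (Dv V) [i, i, k] v y)
        - ∑ i, Dv V v y i * Calc.pd (Dv V) [i, k] v y) v := by
  have hG := gdecay_gwt hV k
  have hW := gdecay_wt hV
  have hne := (hPhi_wt_pos hV (p := (v, y)) hv).ne'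
  have h := (hPhi_deriv_v hG hv y).div (hPhi_deriv_v hW hv y) hne
  have he : (fun t => Dv V t y k) =ᶠ[𝓝 v]
      fun t => hPhi (gwt V k) (t, y) / hPhi (inv_wt V) (t, y) := by
    filter_upwards [Ioi_mem_nhds hv] with t ht using Dv_apply hV ht y k
  refine (h.congr_of_eventuallyEq he).congr_deriv ?_
  simp only [pd_three_eq hV hv, Dv_eq_hB hV hv]
  rw [hPhi_heat hG (p := (v, y)) hv, hPhi_heat hW (p := (v, y)) hv, Finset.sum_sub_distrib,
    mul_sub]
  have e : ∀ i, 1 / 2 * (2 * (hB (inv_wt V) i (v, y) / hPhi (inv_wt V) (v, y)) *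
      Calc.pd (Dv V) [i, k] v y) + -(hB (inv_wt V) i (v, y)) / hPhi (inv_wt V) (v, y) *
      Calc.pd (Dv V) [i, k] v y = 0 := fun i => by ring
  rw [Finset.mul_sum (a := (1 / 2 : ℝ)) (f := fun i =>
    2 * (hB (inv_wt V) i (v, y) / hPhi (inv_wt V) (v, y)) * Calc.pd (Dv V) [i, k] v y),
    sub_sub, ← Finset.sum_add_distrib, Finset.sum_eq_zero fun i _ => e i, sub_zero,
    ← Finset.sum_div, Finset.sum_sub_distrib, ← Finset.sum_mul, ← Finset.mul_sum]
  field_simp
  ring

/-- The time derivative of the potential. -/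
theorem heat_pot (hV : Admissible V) {v : ℝ} (hv : 0 < v) (y : EE d) :
    HasDerivAt (fun t => pot V t y)
      (1 / 2 * ∑ i, (Calc.pd (Dv V) [i, i] v y - Dv V v y i ^ 2)) v := by
  have hW := gdecay_wt hV
  have hne := (hPhi_wt_pos hV (p := (v, y)) hv).ne'
  have h := ((hPhi_deriv_v hW hv y).log hne).neg.add
    ((((Real.hasDerivAt_log hv.ne').const_add (Real.log (2 * Real.pi)))).const_mul ((d : ℝ) / 2))
  have he : (fun t => pot V t y) =ᶠ[𝓝 v] fun t => -Real.log (hPhi (inv_wt V) (t, y))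
      + d / 2 * (Real.log (2 * Real.pi) + Real.log t) := by
    filter_upwards [Ioi_mem_nhds hv] with t ht using pot_eq hV ht y
  refine (h.congr_of_eventuallyEq he).congr_deriv ?_
  rw [hPhi_heat hW (p := (v, y)) hv]
  have e : ∀ i, Calc.pd (Dv V) [i, i] v y - Dv V v y i ^ 2 =
      -(hBB (inv_wt V) i (v, y)) / hPhi (inv_wt V) (v, y) := fun i => by
    have h3 : hB (gwt V i) i (v, y) = -hBB (inv_wt V) i (v, y) := by
      rw [← hB_fderiv_y hW hv i y, ← neg_apply, ← fderiv_fun_neg]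
      have h4 : (fun z => -hB (inv_wt V) i (v, z)) = fun z => hPhi (gwt V i) (v, z) :=
        funext fun z => (hPhi_gwt hV hv z i).symm
      rw [h4, (hPhi_fderiv_y (gdecay_gwt hV i) hv y).fderiv]
      simp
    rw [pd_two_eq hV hv, Dv_eq_hB hV hv, hPhi_gwt hV hv, h3]
    field_simp
    ring
  simp only [e, ← Finset.sum_div, Finset.sum_neg_distrib]
  field_simp
  ring

theorem contDiff_Dv (hV : Admissible V) {v : ℝ} (hv : 0 < v) :
    ContDiff ℝ (⊤ : ℕ∞) (Dv V v) := by
  rw [← contDiffOn_univ]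
  exact (contDiffOn_Dv hV).comp (contDiff_prodMk_right v).contDiffOn fun z _ => ⟨hv, trivial⟩

lemma differentiableAt_Dv (hV : Admissible V) {v : ℝ} (hv : 0 < v) (y : EE d) :
    DifferentiableAt ℝ (Dv V v) y :=
  (contDiff_Dv hV hv).differentiable (by simp) y

lemma hess2_apply (hV : Admissible V) {v : ℝ} (hv : 0 < v) (y : EE d) (i k : Fin d) :
    hess2 V v y (Calc.ev i) k = Calc.pd (Dv V) [i, k] v y := by
  have h : HasFDerivAt (fun x => Dv V v x k)
      ((EuclideanSpace.proj (𝕜 := ℝ) k).comp (hess2 V v y)) y :=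
    (EuclideanSpace.proj (𝕜 := ℝ) k).hasFDerivAt.comp y (differentiableAt_Dv hV hv y).hasFDerivAt
  simp only [Calc.pd]
  rw [h.fderiv]
  rfl

/-- The time derivative of the potential through the Hessian. -/
theorem heat_pot_hess (hV : Admissible V) {v : ℝ} (hv : 0 < v) (y : EE d) :
    HasDerivAt (fun t => pot V t y)
      (1 / 2 * (∑ i, ⟪hess2 V v y (Calc.ev i), Calc.ev i⟫) - ‖Dv V v y‖ ^ 2 / 2) v := by
  refine (heat_pot hV hv y).congr_deriv ?_
  rw [EuclideanSpace.real_norm_sq_eq, Finset.sum_sub_distrib]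
  have e : ∀ i, ⟪hess2 V v y (Calc.ev i), Calc.ev i⟫ = Calc.pd (Dv V) [i, i] v y := fun i => by
    rw [← hess2_apply hV hv y i i]
    simp [Calc.ev, EuclideanSpace.inner_single_right]
  simp only [e]
  ring

lemma lapD_apply (hV : Admissible V) {v : ℝ} (hv : 0 < v) (y : EE d) (k : Fin d) :
    lapD V v y k = ∑ i, Calc.pd (Dv V) [i, i, k] v y := by
  simp only [lapD, WithLp.ofLp_sum, Finset.sum_apply]
  refine Finset.sum_congr rfl fun i _ => ?_
  have hc := contDiff_Dv hV hv
  have hd : DifferentiableAt ℝ (fun z => fderiv ℝ (Dv V v) z (Calc.ev i)) y :=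
    ((hc.fderiv_right (m := 1) (by norm_cast)).clm_apply contDiff_const).differentiable
      (by norm_num) y
  have h : HasFDerivAt (fun z => hess2 V v z (Calc.ev i) k) _ y :=
    (EuclideanSpace.proj (𝕜 := ℝ) k).hasFDerivAt.comp y hd.hasFDerivAt
  show _ = fderiv ℝ (Calc.pd (Dv V) [i, k] v) y (Calc.ev i)
  rw [show Calc.pd (Dv V) [i, k] v = fun z => hess2 V v z (Calc.ev i) k from
    funext fun z => (hess2_apply hV hv z i k).symm, h.fderiv]
  rfl

end Vale.Agent.P347.Zero
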