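import Vale.Agent.P347.Zero.HeatBounds

/-!
The smoothed densities as Gaussian averages: semigroup, the laws along the scale flows, and the
blurred Gibbs law.
-/

open MeasureTheory ProbabilityTheory Filter
open scoped RealInnerProductSpace Topology ENNReal BoundedContinuousFunction

namespace Vale.Agent.P347.Zero

variable {d : ℕ} {V : EE d → ℝ}

/-- A Gaussian average as an integral against the kernel. -/
lemma gs_eq_hPhi {v : ℝ} (hv : 0 < v) (F : EE d → ℝ) (y : EE d) :
    Gs v F y = hPhi F (v, y) / Real.sqrt (2 * Real.pi * v) ^ d := by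
  set r := Real.sqrt v with hr
  have hr0 : 0 < r := Real.sqrt_pos.2 hv
  have e : ∀ ξ : EE d, inv_gd ξ * F (y + r • ξ) =
      ((Real.sqrt (2 * Real.pi))⁻¹) ^ d * (fun z => F (y + z) * hK v y (y + z)) (r • ξ) := by
    intro ξ
    have q : ‖y + r • ξ - y‖ ^ 2 / (2 * v) = ‖ξ‖ ^ 2 / 2 := by
      rw [add_sub_cancel_left, norm_smul, Real.norm_eq_abs, mul_pow, sq_abs, Real.sq_sqrt hv.le]
      field_simp
    simp only [inv_gd, hK, q]
    ring
  simp only [Gs, inv_integral_gam, smul_eq_mul, ← hr, e]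
  rw [integral_const_mul, Measure.integral_comp_smul_of_nonneg volume
    (fun z => F (y + z) * hK v y (y + z)) r (hR := hr0.le), finrank_euclideanSpace_fin,
    integral_add_left_eq_self (fun z => F z * hK v y z) y, hPhi,
    Real.sqrt_mul (by positivity) v, ← hr, mul_pow, inv_pow, smul_eq_mul]
  field_simp

lemma pdens_eq_gs {v : ℝ} (hv : 0 < v) (y : EE d) : pdens V v y = Gs v (inv_wt V) y := by
  rw [gs_eq_hPhi hv, pdens, pZ_eq_hPhi]

lemma pdens_mul_Dv (hV : Admissible V) {v : ℝ} (hv : 0 < v) (y : EE d) (k : Fin d) :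
    pdens V v y * Dv V v y k = Gs v (gwt V k) y := by
  have := (hPhi_wt_pos hV (p := (v, y)) hv).ne'
  rw [gs_eq_hPhi hv, Dv_apply hV hv, pdens, pZ_eq_hPhi]
  field_simp

lemma pdens_nonneg (v : ℝ) (y : EE d) : 0 ≤ pdens V v y := by
  unfold pdens pZ
  exact div_nonneg (integral_nonneg fun x => (Real.exp_pos _).le) (by positivity)

lemma norm_inv_wt_le (hV : Admissible V) (x : EE d) : ‖inv_wt V x‖ ≤ 1 := by
  rw [Real.norm_eq_abs, abs_of_pos (show 0 < inv_wt V x from Real.exp_pos _)]
  exact (inv_wt_le hV x).trans (Real.exp_le_one_iff.2 (neg_nonpos.2 (by positivity)))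

lemma pdens_le_one (hV : Admissible V) {v : ℝ} (hv : 0 < v) (y : EE d) : pdens V v y ≤ 1 := by
  rw [pdens_eq_gs hv]
  refine (Real.le_norm_self _).trans ?_
  refine (norm_integral_le_of_norm_le_const (ae_of_all _ fun ξ => norm_inv_wt_le hV _)).trans ?_
  simp

lemma continuous_pdens (hV : Admissible V) {v : ℝ} (hv : 0 < v) : Continuous (pdens V v) := by
  have h : pdens V v = fun y => hPhi (inv_wt V) (v, y) / Real.sqrt (2 * Real.pi * v) ^ d :=
    funext fun y => by rw [pdens, pZ_eq_hPhi]
  rw [h]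
  exact (continuous_iff_continuousAt.2 fun y =>
    (hPhi_fderiv_y (gdecay_wt hV) hv y).continuousAt).div_const _

/-- Semigroup for the density. -/
theorem pdens_semigroup (hV : Admissible V) {u w : ℝ} (hu : 0 < u) (hw : 0 ≤ w) (y : EE d) :
    pdens V (u + w) y = ∫ ξ, pdens V u (y + Real.sqrt w • ξ) ∂gam d := by
  simp only [pdens_eq_gs hu]
  rw [pdens_eq_gs (by linarith), add_comm u w,
    ← gs_gs hw hu.le _ (inv_wt_continuous hV) (norm_inv_wt_le hV) y]
  rfl

lemma integrable_pdens_Dv (hV : Admissible V) {u : ℝ} (hu : 0 < u) (r : ℝ) (y : EE d) :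
    Integrable (fun ξ => pdens V u (y + r • ξ) • Dv V u (y + r • ξ)) (gam d) := by
  have hc : Continuous (fun ξ : EE d => pdens V u (y + r • ξ) • Dv V u (y + r • ξ)) :=
    ((continuous_pdens hV hu).comp (by fun_prop)).smul
      ((contDiff_Dv hV hu).continuous.comp (by fun_prop))
  have hi : Integrable (fun ξ : EE d =>
      (2 + 4 * u) * ‖y‖ + 4 * Real.sqrt (u * d) + (2 + 4 * u) * |r| * ‖ξ‖) (gam d) :=
    (integrable_const _).add (((inv_pow_gam 1).congr (ae_of_all _ fun x => pow_one _)).const_mul _)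
  refine hi.mono' hc.aestronglyMeasurable (ae_of_all _ fun ξ => ?_)
  rw [norm_smul, Real.norm_eq_abs, abs_of_nonneg (pdens_nonneg _ _)]
  refine (mul_le_of_le_one_left (norm_nonneg _) (pdens_le_one hV hu _)).trans ?_
  refine (norm_Dv_le hV hu _).trans ?_
  have h : ‖y + r • ξ‖ ≤ ‖y‖ + |r| * ‖ξ‖ :=
    (norm_add_le _ _).trans (by rw [norm_smul, Real.norm_eq_abs])
  have := mul_le_mul_of_nonneg_left h (by linarith : 0 ≤ 2 + 4 * u)
  linarith

/-- Semigroup for the drift times the density. -/
theorem Dv_semigroup (hV : Admissible V) {u w : ℝ} (hu : 0 < u) (hw : 0 ≤ w) (y : EE d) :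
    pdens V (u + w) y • Dv V (u + w) y =
      ∫ ξ, pdens V u (y + Real.sqrt w • ξ) • Dv V u (y + Real.sqrt w • ξ) ∂gam d := by
  refine WithLp.ofLp_injective 2 (funext fun k => ?_)
  have e := (EuclideanSpace.proj (𝕜 := ℝ) k).integral_comp_comm
    (integrable_pdens_Dv hV hu (Real.sqrt w) y)
  simp only [PiLp.proj_apply, PiLp.smul_apply, smul_eq_mul, pdens_mul_Dv hV hu] at e
  simp only [PiLp.smul_apply, smul_eq_mul]
  obtain ⟨hc, C, c, hC, hc0, hb⟩ := gdecay_gwt hV k
  have hb' : ∀ x, ‖gwt V k x‖ ≤ C := fun x => (hb x).trans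
    (mul_le_of_le_one_right hC (Real.exp_le_one_iff.2 (neg_nonpos.2 (by positivity))))
  rw [← e, pdens_mul_Dv hV (by linarith), add_comm u w, ← gs_gs hw hu.le _ hc hb' y]
  rfl

lemma gam_map_neg : (gam d).map (fun ξ : EE d => -ξ) = gam d := by
  exact map_coisometry (-ContinuousLinearMap.id ℝ (EE d))
    (by ext; simp [ContinuousLinearMap.adjoint_id])

lemma integral_gam_abs {G : Type*} [NormedAddCommGroup G] [NormedSpace ℝ G] (r : ℝ) (y : EE d)
    (f : EE d → G) :
    ∫ ξ, f (y + r • ξ) ∂gam d = ∫ ξ, f (y + |r| • ξ) ∂gam d := by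
  rcases le_total 0 r with h | h
  · rw [abs_of_nonneg h]
  · rw [abs_of_nonpos h]
    conv_rhs => rw [← gam_map_neg]
    rw [show (fun ξ : EE d => -ξ) = ⇑(MeasurableEquiv.neg (EE d)) from rfl,
      (MeasurableEquiv.neg (EE d)).measurableEmbedding.integral_map]
    simp

theorem pdens_post_mass (hV : Admissible V) {s r : ℝ} (hr : r ^ 2 < s) (y : EE d) :
    ∫ ξ, pdens V (s - r ^ 2) (y + r • ξ) ∂gam d = pdens V s y := by
  rw [integral_gam_abs r y (pdens V (s - r ^ 2)), ← Real.sqrt_sq_eq_abs,
    ← pdens_semigroup hV (sub_pos.2 hr) (sq_nonneg r), sub_add_cancel]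

lemma integrable_post_density (hV : Admissible V) {s r : ℝ} (hr : r ^ 2 < s) (y : EE d) :
    Integrable (fun ξ => pdens V (s - r ^ 2) (y + r • ξ) / pdens V s y) (gam d) := by
  refine Integrable.div_const ?_ _
  refine (integrable_const (1 : ℝ)).mono'
    ((continuous_pdens hV (sub_pos.2 hr)).comp (by fun_prop)).aestronglyMeasurable
    (ae_of_all _ fun ξ => ?_)
  rw [Real.norm_eq_abs, abs_of_nonneg (pdens_nonneg _ _)]
  exact pdens_le_one hV (sub_pos.2 hr) _

theorem post_isProbability (hV : Admissible V) {s r : ℝ} (hr : r ^ 2 < s) (y : EE d) :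
    IsProbabilityMeasure (post V s y r) := by
  have hs : 0 < s := lt_of_le_of_lt (sq_nonneg r) hr
  constructor
  rw [post, withDensity_apply _ MeasurableSet.univ, Measure.restrict_univ,
    ← ofReal_integral_eq_lintegral_ofReal (integrable_post_density hV hr y)
      (ae_of_all _ fun ξ => div_nonneg (pdens_nonneg _ _) (pdens_nonneg _ _)),
    integral_div, pdens_post_mass hV hr, div_self (pdens_pos hV hs y).ne', ENNReal.ofReal_one]

theorem post_zero (hV : Admissible V) {s : ℝ} (hs : 0 < s) (y : EE d) :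
    post V s y 0 = gam d := by
  simp [post, (pdens_pos hV hs y).ne']

theorem integral_post {G : Type*} [NormedAddCommGroup G] [NormedSpace ℝ G] (hV : Admissible V)
    {s r : ℝ} (hr : r ^ 2 < s) (y : EE d) (f : EE d → G) :
    ∫ ξ, f ξ ∂post V s y r =
      ∫ ξ, (pdens V (s - r ^ 2) (y + r • ξ) / pdens V s y) • f ξ ∂gam d := by
  rw [post, integral_withDensity_eq_integral_toReal_smul
    (f := fun ξ => ENNReal.ofReal (pdens V (s - r ^ 2) (y + r • ξ) / pdens V s y))
    (ENNReal.measurable_ofReal.comp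
      (((continuous_pdens hV (sub_pos.2 hr)).comp (by fun_prop)).div_const _).measurable)
    (ae_of_all _ fun _ => ENNReal.ofReal_lt_top)]
  exact integral_congr_ae (ae_of_all _ fun ξ => by
    simp [ENNReal.toReal_ofReal (div_nonneg (pdens_nonneg _ _) (pdens_nonneg _ _))])

/-- The drift is the posterior mean of the drift at a lower scale. -/
theorem Dv_posterior_mean (hV : Admissible V) {s r : ℝ} (hr : r ^ 2 < s) (y : EE d) :
    ∫ ξ, Dv V (s - r ^ 2) (y + r • ξ) ∂post V s y r = Dv V s y := by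
  have hs : 0 < s := lt_of_le_of_lt (sq_nonneg r) hr
  simp only [integral_post hV hr, div_eq_inv_mul, mul_smul]
  rw [integral_smul,
    integral_gam_abs r y (fun z => pdens V (s - r ^ 2) z • Dv V (s - r ^ 2) z),
    ← Real.sqrt_sq_eq_abs, ← Dv_semigroup hV (sub_pos.2 hr) (sq_nonneg r), sub_add_cancel,
    smul_smul, inv_mul_cancel₀ (pdens_pos hV hs y).ne', one_smul]

lemma hK_symm (v : ℝ) (x y : EE d) : hK v x y = hK v y x := by
  simp only [hK, norm_sub_rev]

lemma integrable_kernel_prod (hV : Admissible V) {v : ℝ} (hv : 0 < v) {φ : EE d → ℝ}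
    (hc : Continuous φ) {C : ℝ} (hb : ∀ x, |φ x| ≤ C) :
    Integrable (fun p : EE d × EE d => inv_wt V p.1 * (φ p.2 * hK v p.1 p.2))
      (volume.prod volume) := by
  have hgc : Continuous fun p : EE d × EE d => inv_wt V p.1 * (φ p.2 * hK v p.1 p.2) := by
    have := inv_wt_continuous hV
    unfold hK; fun_prop
  have hK0 : ∀ x : EE d, Integrable fun z => hK v x z := fun x => by
    refine ((heat_gauss_integrable (d := d) (by positivity : 0 < (2 * v)⁻¹)).comp_sub_right
      x).congr (ae_of_all _ fun z => ?_)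
    simp [hK, div_eq_inv_mul]
  have hKi : ∀ x : EE d, ∫ z, hK v x z = ∫ z, hK v 0 z := fun x => by
    rw [← integral_sub_right_eq_self (fun z => hK v 0 z) x]
    simp [hK]
  have hle : ∀ x z, ‖inv_wt V x * (φ z * hK v x z)‖ ≤ C * (inv_wt V x * hK v x z) := fun x z => by
    rw [norm_mul, norm_mul, Real.norm_eq_abs, Real.norm_eq_abs, Real.norm_eq_abs,
      abs_of_pos (show 0 < inv_wt V x from Real.exp_pos _),
      abs_of_pos (show 0 < hK v x z from Real.exp_pos _), mul_left_comm C]
    exact mul_le_mul_of_nonneg_left (mul_le_mul_of_nonneg_right (hb z) (Real.exp_pos _).le)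
      (Real.exp_pos _).le
  refine (integrable_prod_iff hgc.aestronglyMeasurable).2 ⟨ae_of_all _ fun x => ?_, ?_⟩
  · exact (((hK0 x).const_mul (inv_wt V x)).const_mul C).mono'
      (hgc.comp (by fun_prop : Continuous fun z => (x, z))).aestronglyMeasurable
      (ae_of_all _ fun z => hle x z)
  · refine ((inv_wt_integrable₀ hV).const_mul (C * ∫ z : EE d, hK v 0 z)).mono'
      hgc.aestronglyMeasurable.norm.integral_prod_right' (ae_of_all _ fun x => ?_)
    rw [Real.norm_eq_abs, abs_of_nonneg (integral_nonneg fun z => norm_nonneg _)]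
    refine (integral_mono_of_nonneg (ae_of_all _ fun z => norm_nonneg _)
      (((hK0 x).const_mul (inv_wt V x)).const_mul C) (ae_of_all _ fun z => hle x z)).trans_eq ?_
    rw [integral_const_mul, integral_const_mul, hKi]
    ring

lemma integrable_pdens (hV : Admissible V) {v : ℝ} (hv : 0 < v) : Integrable (pdens V v) := by
  have h := (integrable_kernel_prod hV hv (φ := fun _ => (1 : ℝ)) continuous_const (C := 1)
    (by simp)).integral_prod_right
  refine (h.div_const (Real.sqrt (2 * Real.pi * v) ^ d)).congr (ae_of_all _ fun z => ?_)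
  simp [pdens, pZ_eq_hPhi, hPhi, hK_symm v _ z]

/-- The law of a Gibbs point blurred at variance v. -/
theorem gibbs_blur (hV : Admissible V) {v : ℝ} (hv : 0 < v) :
    ((gibbs V).prod (gam d)).map (fun p => p.1 + Real.sqrt v • p.2) =
      volume.withDensity fun y => ENNReal.ofReal (pdens V v y / ∫ x, inv_wt V x) := by
  have := gibbs_prob hV
  have hm : Measurable fun p : EE d × EE d => p.1 + Real.sqrt v • p.2 := by fun_prop
  have : IsProbabilityMeasure (((gibbs V).prod (gam d)).map
      (fun p => p.1 + Real.sqrt v • p.2)) := Measure.isProbabilityMeasure_map hm.aemeasurable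
  have hi := (integrable_pdens hV hv).div_const (∫ x, inv_wt V x)
  have := isFiniteMeasure_withDensity_ofReal hi.hasFiniteIntegral
  refine ext_of_forall_integral_eq_of_IsFiniteMeasure fun f => ?_
  have hb : ∀ x, |f x| ≤ ‖f‖ := fun x => by simpa using f.norm_coe_le_norm x
  have hfi : Integrable (fun p : EE d × EE d => f (p.1 + Real.sqrt v • p.2))
      ((gibbs V).prod (gam d)) :=
    (integrable_const ‖f‖).mono' (f.continuous.comp (by fun_prop)).aestronglyMeasurable
      (ae_of_all _ fun p => f.norm_coe_le_norm _)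
  rw [integral_map hm.aemeasurable f.continuous.aestronglyMeasurable, integral_prod _ hfi,
    inv_gibbs_integral hV,
    integral_withDensity_eq_integral_toReal_smul
      (f := fun y => ENNReal.ofReal (pdens V v y / ∫ x, inv_wt V x))
      (ENNReal.measurable_ofReal.comp ((continuous_pdens hV hv).div_const _).measurable)
      (ae_of_all _ fun _ => ENNReal.ofReal_lt_top)]
  have e1 : ∀ x, inv_wt V x * ∫ ξ, f (x + Real.sqrt v • ξ) ∂gam d =
      (Real.sqrt (2 * Real.pi * v) ^ d)⁻¹ * ∫ z, inv_wt V x * (f z * hK v x z) := fun x => by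
    rw [show ∫ ξ, f (x + Real.sqrt v • ξ) ∂gam d = Gs v f x from rfl, gs_eq_hPhi hv, hPhi,
      integral_const_mul]
    ring
  have e2 : ∀ z, (ENNReal.ofReal (pdens V v z / ∫ x, inv_wt V x)).toReal • f z =
      (Real.sqrt (2 * Real.pi * v) ^ d)⁻¹ * (∫ x, inv_wt V x)⁻¹ *
        ∫ x, inv_wt V x * (f z * hK v x z) := fun z => by
    rw [ENNReal.toReal_ofReal (div_nonneg (pdens_nonneg _ _) (inv_Z_pos hV).le), pdens,
      pZ_eq_hPhi, hPhi, smul_eq_mul]
    simp only [hK_symm v _ z, mul_left_comm (inv_wt V _) (f z)]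
    rw [integral_const_mul]
    ring
  simp only [e1, e2]
  rw [integral_const_mul, integral_const_mul,
    integral_integral_swap (integrable_kernel_prod hV hv f.continuous hb)]
  ring

end Vale.Agent.P347.Zero
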