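import Vale.Agent.P347.Zero.SemTurn

/-!
The backward sweep: Lipschitz bounds and continuity.
-/

open MeasureTheory ProbabilityTheory
open scoped RealInnerProductSpace ENNReal

namespace Vale.Agent.P347.Zero

variable {d : ℕ} {V : EE d → ℝ} {c : Cfg} {S C κ s σ l : ℝ}

/-- Conditions on the scale s, the output noise σ and the weight l of the auxiliary vectors. -/
structure BackOk (c : Cfg) (S C κ s σ l : ℝ) : Prop where
  s_pos : 0 < s
  s_le : s ≤ S
  σ_pos : 0 < σ
  l_pos : 0 < l
  l_le : 2 * l ≤ σ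
  rowX : 4 * C * backLen s ^ 2 + 6 * C ^ 2 * backLen s / (σ * c.τ) +
    8 * C ^ 2 * backLen s ^ 2 / (σ * l) ≤ κ
  rowE : l * (2 / σ + 12 * C ^ 3 * backLen s / (σ ^ 2 * c.a * c.τ)) +
    64 * C ^ 5 * backLen s ^ 2 / σ ^ 2 ≤ κ

/-- The weighted distance of two backward paths. -/
noncomputable def pathDist {n : ℕ} (l : ℝ) (u u' : Fin n → EE d × EE d) : ℝ :=
  ‖(fun i => ((u i).1 - (u' i).1, l • ((u i).2 - (u' i).2)))‖

lemma pathDist_le {n : ℕ} {l b : ℝ} (hl : 0 ≤ l) (hb : 0 ≤ b) {u u' : Fin n → EE d × EE d}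
    (h1 : ∀ i, ‖(u i).1 - (u' i).1‖ ≤ b) (h2 : ∀ i, l * ‖(u i).2 - (u' i).2‖ ≤ b) :
    pathDist l u u' ≤ b :=
  (pi_norm_le_iff_of_nonneg hb).2 fun i => max_le (h1 i) (by
    rw [norm_smul, Real.norm_of_nonneg hl]; exact h2 i)

lemma fst_le_pathDist {n : ℕ} (l : ℝ) (u u' : Fin n → EE d × EE d) (i : Fin n) :
    ‖(u i).1 - (u' i).1‖ ≤ pathDist l u u' :=
  (le_max_left _ _).trans
    (norm_le_pi_norm (fun i => ((u i).1 - (u' i).1, l • ((u i).2 - (u' i).2))) i)

lemma snd_le_pathDist {n : ℕ} {l : ℝ} (hl : 0 < l) (u u' : Fin n → EE d × EE d) (i : Fin n) :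
    ‖(u i).2 - (u' i).2‖ ≤ pathDist l u u' / l := by
  rw [le_div_iff₀ hl]
  have h := (le_max_right _ _).trans
    (norm_le_pi_norm (fun i => ((u i).1 - (u' i).1, l • ((u i).2 - (u' i).2))) i)
  rwa [norm_smul, Real.norm_of_nonneg hl.le, mul_comm] at h

lemma pathDist_nonneg {n : ℕ} (l : ℝ) (u u' : Fin n → EE d × EE d) : 0 ≤ pathDist l u u' :=
  norm_nonneg _

lemma pathDist_triangle {n : ℕ} {l : ℝ} (hl : 0 < l) (u v w : Fin n → EE d × EE d) :
    pathDist l u w ≤ pathDist l u v + pathDist l v w := by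
  refine le_trans (le_of_eq ?_) (norm_add_le _ _)
  simp only [pathDist]
  congr 1
  funext i
  ext1 <;> simp [smul_sub]

variable (h : SemOk V c S C κ) (hb : BackOk c S C κ s σ l)
include h hb

lemma BackOk.scale (j : Fin c.G.n) :
    0 < backScale c s j ∧ backScale c s j ≤ S ∧ backLen s ≤ Real.sqrt (backScale c s j) := by
  have hs := hb.s_pos
  obtain ⟨-, h1⟩ := scale_mem (t := backLen s) (v := s) (h.gOk.node_nonneg j) (h.gOk.node_le j)
    (by rw [backLen, Real.sq_sqrt (by positivity)]; linarith)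
  have h2 : (backLen s * c.G.node j) ^ 2 ≤ s / 2 := by
    rw [mul_pow, backLen, Real.sq_sqrt (by positivity)]
    exact mul_le_of_le_one_right (by positivity)
      (pow_le_one₀ (h.gOk.node_nonneg j) (h.gOk.node_le j))
  unfold backScale
  exact ⟨by linarith, h1.trans hb.s_le, Real.sqrt_le_sqrt (by linarith)⟩

lemma BackOk.len_pos : 0 < backLen s := Real.sqrt_pos.2 (half_pos hb.s_pos)

lemma backW_abs (i : Fin c.G.n) : ∑ j, |backW c s i j| ≤ 2 * C * backLen s := by
  have hr := (BackOk.len_pos h hb).le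
  simp only [backW, abs_mul, abs_of_nonneg hr, ← Finset.mul_sum]
  rw [mul_comm (2 * C) (backLen s)]
  refine mul_le_mul_of_nonneg_left ?_ hr
  refine (Finset.sum_le_sum fun j _ => abs_sub _ _).trans ?_
  rw [Finset.sum_add_distrib]
  linarith [h.gOk.tot_abs, h.gOk.w_abs i]

lemma backW_node_abs (i : Fin c.G.n) :
    ∑ j, |backW c s i j * (backLen s * c.G.node j)| ≤ 2 * C * backLen s ^ 2 := by
  have hr := (BackOk.len_pos h hb).le
  calc ∑ j, |backW c s i j * (backLen s * c.G.node j)|
      ≤ ∑ j, |backW c s i j| * backLen s := Finset.sum_le_sum fun j _ => by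
        rw [abs_mul]
        refine mul_le_mul_of_nonneg_left ?_ (abs_nonneg _)
        rw [abs_of_nonneg (mul_nonneg hr (h.gOk.node_nonneg j))]
        exact mul_le_of_le_one_right hr (h.gOk.node_le j)
    _ ≤ 2 * C * backLen s * backLen s := by
        rw [← Finset.sum_mul]; exact mul_le_mul_of_nonneg_right (backW_abs h hb i) hr
    _ = _ := by ring

lemma qWeight_abs :
    ∑ j, |backLen s * c.G.tot j * (backLen s * c.G.node j)| ≤ C * backLen s ^ 2 := by
  have hr := (BackOk.len_pos h hb).le
  calc ∑ j, |backLen s * c.G.tot j * (backLen s * c.G.node j)|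
      ≤ ∑ j, |c.G.tot j| * backLen s ^ 2 := Finset.sum_le_sum fun j _ => by
        rw [abs_mul, abs_mul, abs_of_nonneg hr,
          abs_of_nonneg (mul_nonneg hr (h.gOk.node_nonneg j))]
        nlinarith [mul_le_of_le_one_right hr (h.gOk.node_le j), abs_nonneg (c.G.tot j),
          mul_nonneg hr (abs_nonneg (c.G.tot j))]
    _ ≤ _ := by rw [← Finset.sum_mul]; exact mul_le_mul_of_nonneg_right h.gOk.tot_abs (sq_nonneg _)

/-- The squared derivative along two paths. -/
lemma sq2_path_lip (u u' : Fin c.G.n → EE d × EE d) (ζ : Fin c.G.n → EE d) (j : Fin c.G.n) :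
    ‖sq2 V c (backScale c s j) (u j).1 (u j).2 (ζ j) -
        sq2 V c (backScale c s j) (u' j).1 (u' j).2 (ζ j)‖ ≤
      (6 * C ^ 2 / (c.a * c.τ * backLen s) + 32 * C ^ 4 / l) * pathDist l u u' := by
  have hC := h.one_le
  have hr := BackOk.len_pos h hb
  have hτ := h.τ_pos
  have ha := h.a_pos
  obtain ⟨hv, hvS, hle⟩ := BackOk.scale h hb j
  refine (sq2_lip h hv hvS _ _ _ _ _).trans ?_
  rw [add_mul, div_mul_eq_mul_div (32 * C ^ 4) l, mul_div_assoc (32 * C ^ 4)]
  refine add_le_add (mul_le_mul ?_ (fst_le_pathDist l u u' j) (norm_nonneg _) (by positivity))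
    (mul_le_mul_of_nonneg_left (snd_le_pathDist hb.l_pos u u' j) (by positivity))
  gcongr

/-- One backward round. -/
lemma backF_lip (y Z Z' ηs : EE d) (ζ : Fin c.G.n → EE d) (u u' : Fin c.G.n → EE d × EE d) :
    pathDist l (backF V c s σ y Z ηs ζ u) (backF V c s σ y Z' ηs ζ u') ≤
      ‖Z - Z'‖ + κ * pathDist l u u' := by
  have hC := h.one_le
  have hr := BackOk.len_pos h hb
  have hτ := h.τ_pos
  have ha := h.a_pos
  have hκ := h.κ_nonneg
  have hσ := hb.σ_pos
  have hl := hb.l_pos
  set P := pathDist l u u' with hP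
  have hP0 : 0 ≤ P := pathDist_nonneg _ _ _
  refine pathDist_le hl.le (by positivity) (fun i => ?_) (fun i => ?_)
  · simp only [backF]
    rw [show ∀ a b e a' e' : EE d, a + b + e - (a' + b + e') = (a - a') + (e - e') from
      fun a b e a' e' => by abel, ← smul_sub, ← smul_sub, ← Finset.sum_sub_distrib]
    simp only [← smul_sub]
    refine (norm_add_le _ _).trans (add_le_add ?_ ?_)
    · rw [norm_smul, Real.norm_of_nonneg (h.gOk.node_nonneg i)]
      exact mul_le_of_le_one_left (norm_nonneg _) (h.gOk.node_le i)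
    · rw [norm_smul, Real.norm_of_nonneg (mul_nonneg hr.le (h.gOk.node_nonneg i))]
      refine (mul_le_mul_of_nonneg_left (norm_wsum_le
        (M := (2 + σ⁻¹ * (3 * C / (c.τ * backLen s) + 4 * C / l)) * P) (backW_abs h hb i)
        (fun j => ?_) (by positivity)) (mul_nonneg hr.le (h.gOk.node_nonneg i))).trans ?_
      · rw [sub_sub_sub_comm, ← smul_sub, add_mul]
        obtain ⟨hv, hvS, hle⟩ := BackOk.scale h hb j
        refine (norm_sub_le _ _).trans (add_le_add ?_ ?_)
        · exact (h.drift.lip _ hv.le hvS _ _).trans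
            (mul_le_mul_of_nonneg_left (fst_le_pathDist l u u' j) two_pos.le)
        · rw [norm_smul, norm_inv, Real.norm_of_nonneg hσ.le, mul_assoc]
          refine mul_le_mul_of_nonneg_left ((leaf_lip h hv hvS _ _ _ _).trans ?_) (by positivity)
          rw [add_mul, div_mul_eq_mul_div (4 * C) l, mul_div_assoc (4 * C)]
          refine add_le_add (mul_le_mul ?_ (fst_le_pathDist l u u' j) (norm_nonneg _) (by positivity))
            (mul_le_mul_of_nonneg_left (snd_le_pathDist hl u u' j) (by positivity))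
          gcongr
      · calc backLen s * c.G.node i * (2 * C * backLen s *
              ((2 + σ⁻¹ * (3 * C / (c.τ * backLen s) + 4 * C / l)) * P))
            ≤ backLen s * 1 * (2 * C * backLen s *
              ((2 + σ⁻¹ * (3 * C / (c.τ * backLen s) + 4 * C / l)) * P)) := by
              gcongr; exact h.gOk.node_le i
          _ = (4 * C * backLen s ^ 2 + 6 * C ^ 2 * backLen s / (σ * c.τ) +
              8 * C ^ 2 * backLen s ^ 2 / (σ * l)) * P := by field_simp; ring
          _ ≤ κ * P := mul_le_mul_of_nonneg_right hb.rowX hP0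
  · simp only [backF]
    rw [show ∀ a b e b' e' : EE d, a + b - e - (a + b' - e') = (b - b') - (e - e') from
      fun a b e b' e' => by abel, ← smul_sub, ← smul_sub, ← Finset.sum_sub_distrib]
    simp only [← smul_sub]
    refine (mul_le_mul_of_nonneg_left ((norm_sub_le _ _).trans (add_le_add
      (b := σ⁻¹ * (2 * ‖Z - Z'‖ + 2 * P))
      (d := (σ ^ 2)⁻¹ * (2 * C * backLen s ^ 2 *
        ((6 * C ^ 2 / (c.a * c.τ * backLen s) + 32 * C ^ 4 / l) * P))) ?_ ?_)) hl.le).trans ?_
    · obtain ⟨hv, hvS, -⟩ := BackOk.scale h hb i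
      rw [norm_smul, norm_inv, Real.norm_of_nonneg hσ.le, sub_sub_sub_comm]
      refine mul_le_mul_of_nonneg_left ((norm_sub_le _ _).trans (add_le_add ?_ ?_)) (by positivity)
      · exact h.drift.lip _ (by linarith [hb.s_pos]) (by linarith [hb.s_pos, hb.s_le]) _ _
      · exact (h.drift.lip _ hv.le hvS _ _).trans
          (mul_le_mul_of_nonneg_left (fst_le_pathDist l u u' i) two_pos.le)
    · rw [norm_smul, norm_inv, Real.norm_of_nonneg (sq_nonneg σ)]
      exact mul_le_mul_of_nonneg_left (norm_wsum_le (backW_node_abs h hb i)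
        (fun j => sq2_path_lip h hb u u' ζ j) (by positivity)) (by positivity)
    · calc l * (σ⁻¹ * (2 * ‖Z - Z'‖ + 2 * P) + (σ ^ 2)⁻¹ * (2 * C * backLen s ^ 2 *
            ((6 * C ^ 2 / (c.a * c.τ * backLen s) + 32 * C ^ 4 / l) * P)))
          = 2 * l / σ * ‖Z - Z'‖ + (l * (2 / σ + 12 * C ^ 3 * backLen s / (σ ^ 2 * c.a * c.τ)) +
            64 * C ^ 5 * backLen s ^ 2 / σ ^ 2) * P := by field_simp; ring
        _ ≤ ‖Z - Z'‖ + κ * P := add_le_add
            (mul_le_of_le_one_left (norm_nonneg _) ((div_le_one hσ).2 hb.l_le))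
            (mul_le_mul_of_nonneg_right hb.rowE hP0)

/-- The backward sweep approaches any near fixed path geometrically. -/
lemma back_geom (y Z ηs : EE d) (ζ : Fin c.G.n → EE d) (u : Fin c.G.n → EE d × EE d) {Res : ℝ}
    (hRes : pathDist l (backF V c s σ y Z ηs ζ u) u ≤ Res) :
    pathDist l (back V c s σ y Z ηs ζ) u ≤ κ ^ c.k *
      pathDist l (fun i => (c.G.node i • Z + (1 - c.G.node i) • y, ηs)) u + 2 * Res := by
  have hκ := h.κ_nonneg
  have hR0 : 0 ≤ Res := (pathDist_nonneg _ _ _).trans hRes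
  unfold back
  induction c.k with
  | zero => simp only [Function.iterate_zero, id_eq, pow_zero, one_mul]; linarith
  | succ n ih =>
    rw [Function.iterate_succ_apply']
    refine (pathDist_triangle hb.l_pos _ (backF V c s σ y Z ηs ζ u) _).trans ?_
    refine (add_le_add ((backF_lip h hb y Z Z ηs ζ _ u).trans
      (add_le_add_right (mul_le_mul_of_nonneg_left ih hκ) _)) hRes).trans ?_
    rw [sub_self, norm_zero, pow_succ]
    nlinarith [h.κ_le]

/-- The backward sweep is Lipschitz in its end point. -/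
lemma back_lip (y Z Z' ηs : EE d) (ζ : Fin c.G.n → EE d) :
    pathDist l (back V c s σ y Z ηs ζ) (back V c s σ y Z' ηs ζ) ≤ 4 * ‖Z - Z'‖ := by
  have hκ := h.κ_nonneg
  unfold back
  induction c.k with
  | zero =>
    refine pathDist_le hb.l_pos.le (by positivity) (fun i => ?_) fun i => ?_
    · simp only [Function.iterate_zero, id_eq, add_sub_add_right_eq_sub, ← smul_sub]
      rw [norm_smul, Real.norm_of_nonneg (h.gOk.node_nonneg i)]
      nlinarith [norm_nonneg (Z - Z'), h.gOk.node_le i, h.gOk.node_nonneg i]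
    · simp
  | succ n ih =>
    rw [Function.iterate_succ_apply', Function.iterate_succ_apply']
    refine (backF_lip h hb y Z Z' ηs ζ _ _).trans ?_
    nlinarith [mul_le_mul_of_nonneg_left ih hκ,
      mul_le_mul_of_nonneg_right h.κ_le (norm_nonneg (Z - Z')), norm_nonneg (Z - Z')]

omit h hb

/-- The Lipschitz factor of the integral correction in the weighted distance. -/
noncomputable def corrLip (c : Cfg) (C s σ l : ℝ) : ℝ :=
  C * backLen s ^ 2 / σ * (6 * C ^ 2 / (c.a * c.τ * backLen s) + 32 * C ^ 4 / l)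

include h hb

lemma corrLip_nonneg : 0 ≤ corrLip c C s σ l := by
  have := h.one_le
  have := BackOk.len_pos h hb
  have := h.τ_pos
  have := h.a_pos
  have := hb.σ_pos
  have := hb.l_pos
  unfold corrLip; positivity

lemma corr_lip (u u' : Fin c.G.n → EE d × EE d) (ζ : Fin c.G.n → EE d) :
    ‖(σ⁻¹ • ∑ j, (backLen s * c.G.tot j * (backLen s * c.G.node j)) •
        sq2 V c (backScale c s j) (u j).1 (u j).2 (ζ j)) -
      σ⁻¹ • ∑ j, (backLen s * c.G.tot j * (backLen s * c.G.node j)) •
        sq2 V c (backScale c s j) (u' j).1 (u' j).2 (ζ j)‖ ≤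
      corrLip c C s σ l * pathDist l u u' := by
  have hC := h.one_le
  have hr := BackOk.len_pos h hb
  have hσ := hb.σ_pos
  have := h.τ_pos
  have := h.a_pos
  have := hb.l_pos
  have := pathDist_nonneg l u u'
  simp only [← smul_sub, ← Finset.sum_sub_distrib]
  rw [norm_smul, norm_inv, Real.norm_of_nonneg hσ.le]
  refine (mul_le_mul_of_nonneg_left (norm_wsum_le (qWeight_abs h hb)
    (fun j => sq2_path_lip h hb u u' ζ j) (by positivity)) (by positivity)).trans (le_of_eq ?_)
  unfold corrLip; ring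

/-- The integral correction is Lipschitz in the end point. -/
lemma qSem_lip (y Z Z' ηs : EE d) (ζ : Fin c.G.n → EE d) :
    ‖qSem V c s σ y Z ηs ζ - qSem V c s σ y Z' ηs ζ‖ ≤ 4 * corrLip c C s σ l * ‖Z - Z'‖ :=
  (corr_lip h hb _ _ ζ).trans ((mul_le_mul_of_nonneg_left (back_lip h hb y Z Z' ηs ζ)
    (corrLip_nonneg h hb)).trans (le_of_eq (by ring)))

lemma sq2_path_continuous {T : Type} [TopologicalSpace T] (j : Fin c.G.n)
    {u : T → Fin c.G.n → EE d × EE d} {ζ : T → EE d} (hu : Continuous u) (hζ : Continuous ζ) :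
    Continuous fun t => sq2 V c (backScale c s j) (u t j).1 (u t j).2 (ζ t) := by
  obtain ⟨hv, hvS, -⟩ := BackOk.scale h hb j
  have hj : Continuous fun t => u t j := (continuous_apply j).comp hu
  exact Continuous.comp' (g := fun p : EE d × EE d × EE d =>
      sq2 V c (backScale c s j) p.1 p.2.1 p.2.2) (f := fun t => ((u t j).1, (u t j).2, ζ t))
    (sq2_continuous h hv hvS) (hj.fst.prodMk (hj.snd.prodMk hζ))

lemma backF_continuous {T : Type} [TopologicalSpace T] (y : EE d) {Z ηs : T → EE d}
    {ζ : T → Fin c.G.n → EE d} {u : T → Fin c.G.n → EE d × EE d} (hZ : Continuous Z)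
    (hη : Continuous ηs) (hζ : Continuous ζ) (hu : Continuous u) :
    Continuous fun t => backF V c s σ y (Z t) (ηs t) (ζ t) (u t) := by
  have hs := hb.s_pos
  have hc : ∀ j, Continuous fun t => u t j := fun j => (continuous_apply j).comp hu
  have hD : ∀ j, Continuous fun t => Dv V (backScale c s j) (u t j).1 := fun j =>
    (Dv_continuous h.drift (BackOk.scale h hb j).1.le (BackOk.scale h hb j).2.1).comp (hc j).fst
  have hL : ∀ j, Continuous fun t => leaf V c (backScale c s j) (u t j).1 (u t j).2 := fun j =>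
    (leaf_continuous h (BackOk.scale h hb j).1 (BackOk.scale h hb j).2.1).comp
      ((hc j).fst.prodMk (hc j).snd)
  have hS : ∀ j, Continuous fun t => sq2 V c (backScale c s j) (u t j).1 (u t j).2 (ζ t j) :=
    fun j => sq2_path_continuous h hb j hu ((continuous_apply j).comp hζ)
  have hD2 : Continuous fun t => Dv V (s / 2) (Z t) :=
    (Dv_continuous h.drift (by linarith) (by linarith [hb.s_le])).comp hZ
  refine continuous_pi fun i => Continuous.prodMk ?_ ?_
  · exact ((hZ.const_smul (c.G.node i)).add continuous_const).add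
      ((continuous_finsetSum _ fun j _ =>
        ((hD j).sub ((hL j).const_smul σ⁻¹)).const_smul (backW c s i j)).const_smul
          (backLen s * c.G.node i))
  · exact (hη.add ((hD2.sub (hD i)).const_smul σ⁻¹)).sub
      ((continuous_finsetSum _ fun j _ =>
        (hS j).const_smul (backW c s i j * (backLen s * c.G.node j))).const_smul (σ ^ 2)⁻¹)

lemma qSem_continuous (y : EE d) :
    Continuous fun p : EE d × EE d × (Fin c.G.n → EE d) =>
      qSem V c s σ y p.1 p.2.1 p.2.2 := by
  have hη : Continuous fun p : EE d × EE d × (Fin c.G.n → EE d) => p.2.1 :=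
    continuous_fst.comp continuous_snd
  have hζ : Continuous fun p : EE d × EE d × (Fin c.G.n → EE d) => p.2.2 :=
    continuous_snd.comp continuous_snd
  have hit : ∀ k : ℕ, Continuous fun p : EE d × EE d × (Fin c.G.n → EE d) =>
      (backF V c s σ y p.1 p.2.1 p.2.2)^[k]
        fun i => (c.G.node i • p.1 + (1 - c.G.node i) • y, p.2.1) := fun k => by
    induction k with
    | zero =>
      exact continuous_pi fun i =>
        ((continuous_fst.const_smul (c.G.node i)).add continuous_const).prodMk hη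
    | succ k ih =>
      simp only [Function.iterate_succ_apply']
      exact backF_continuous h hb y continuous_fst hη hζ ih
  exact (continuous_finsetSum _ fun j _ => (sq2_path_continuous h hb j (hit c.k)
    ((continuous_apply j).comp hζ)).const_smul
      (backLen s * c.G.tot j * (backLen s * c.G.node j))).const_smul σ⁻¹

end Vale.Agent.P347.Zero
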