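import Vale.Agent.P347.Zero.L2Le
import Vale.Agent.P347.Zero.SemBackLip
import Vale.Agent.P347.Zero.Bridge.At

/-!
The semantic identity: the midpoint, the computed correction and the exact output noise.
-/

open MeasureTheory ProbabilityTheory
open scoped RealInnerProductSpace ENNReal

namespace Vale.Agent.P347.Zero

variable {d : ℕ} {V : EE d → ℝ} {c : Cfg} {S C κ s σ l : ℝ}

/-- Errors of the derivative and squared derivative evaluations, affine in the point. -/
structure EvalOk (V : EE d → ℝ) (c : Cfg) (s e₀ e₁ f₀ f₁ : ℝ) : Prop where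
  e₀_nonneg : 0 ≤ e₀
  e₁_nonneg : 0 ≤ e₁
  f₀_nonneg : 0 ≤ f₀
  f₁_nonneg : 0 ≤ f₁
  one : ∀ v, s / 4 ≤ v → v ≤ s → ∀ x : EE d,
    eLpNorm (fun X => leaf V c v x X - hess2 V v x X) 2 (gam d) ≤ ENNReal.ofReal (e₀ + e₁ * ‖x‖)
  two : ∀ v, s / 4 ≤ v → v ≤ s → ∀ x : EE d,
    eLpNorm (fun p : EE d × EE d => sq2 V c v x p.1 p.2 - hess2 V v x (hess2 V v x p.1)) 2
      ((gam d).prod (gam d)) ≤ ENNReal.ofReal (f₀ + f₁ * ‖x‖)

/-- The total size of the backward residual and start, weighted. -/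
noncomputable def rotBudget (c : Cfg) (C κ s σ l res M yn sd e₀ e₁ f₀ f₁ : ℝ) : ℝ :=
  res + C * backLen s ^ 2 / σ * (c.G.n * (f₀ + f₁ * M)) +
    corrLip c C s σ l *
      (κ ^ c.k * (yn + backLen s * M + l * sd + c.G.n * (M + l * sd)) +
       2 * (c.G.n * (res + l * res) + 2 * C * backLen s ^ 2 / σ * (c.G.n * (e₀ + e₁ * M)) +
        2 * C * backLen s ^ 2 * l / σ ^ 2 * (c.G.n * (f₀ + f₁ * M))))

variable (h : SemOk V c S C κ) (hb : BackOk c S C κ s σ l)
include h hb

lemma back_residual (y Z ηs : EE d) (ζ : Fin c.G.n → EE d) (u : Fin c.G.n → EE d × EE d)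
    {qx qe dl ds : Fin c.G.n → ℝ}
    (hqx : ∀ i, ‖c.G.node i • Z + (1 - c.G.node i) • y +
        (backLen s * c.G.node i) • ∑ j, backW c s i j • (Dv V (backScale c s j) (u j).1 -
          σ⁻¹ • hess2 V (backScale c s j) (u j).1 (u j).2) - (u i).1‖ = qx i)
    (hqe : ∀ i, ‖ηs + σ⁻¹ • (Dv V (s / 2) Z - Dv V (backScale c s i) (u i).1) -
        (σ ^ 2)⁻¹ • (∑ j, (backW c s i j * (backLen s * c.G.node j)) •
          hess2 V (backScale c s j) (u j).1
            (hess2 V (backScale c s j) (u j).1 (u j).2)) - (u i).2‖ = qe i)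
    (hdl : ∀ j, ‖leaf V c (backScale c s j) (u j).1 (u j).2 -
        hess2 V (backScale c s j) (u j).1 (u j).2‖ = dl j)
    (hds : ∀ j, ‖sq2 V c (backScale c s j) (u j).1 (u j).2 (ζ j) -
        hess2 V (backScale c s j) (u j).1 (hess2 V (backScale c s j) (u j).1 (u j).2)‖ = ds j) :
    pathDist l (backF V c s σ y Z ηs ζ u) u ≤ (∑ i, qx i) + l * (∑ i, qe i) +
      2 * C * backLen s ^ 2 / σ * (∑ j, dl j) + 2 * C * backLen s ^ 2 * l / σ ^ 2 * ∑ j, ds j := by
  have hC := h.one_le
  have hr := BackOk.len_pos h hb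
  have hσ := hb.σ_pos
  have hl := hb.l_pos
  have q0 : ∀ i, 0 ≤ qx i := fun i => hqx i ▸ norm_nonneg _
  have e0 : ∀ i, 0 ≤ qe i := fun i => hqe i ▸ norm_nonneg _
  have l0 : ∀ i, 0 ≤ dl i := fun i => hdl i ▸ norm_nonneg _
  have s0 : ∀ i, 0 ≤ ds i := fun i => hds i ▸ norm_nonneg _
  have sx := Finset.sum_nonneg fun i (_ : i ∈ Finset.univ) => q0 i
  have se := Finset.sum_nonneg fun i (_ : i ∈ Finset.univ) => e0 i
  have sl := Finset.sum_nonneg fun i (_ : i ∈ Finset.univ) => l0 i
  have ss := Finset.sum_nonneg fun i (_ : i ∈ Finset.univ) => s0 i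
  refine pathDist_le hl.le (by positivity) (fun i => ?_) fun i => ?_
  · have e : (backF V c s σ y Z ηs ζ u i).1 - (u i).1 =
        (c.G.node i • Z + (1 - c.G.node i) • y +
          (backLen s * c.G.node i) • ∑ j, backW c s i j • (Dv V (backScale c s j) (u j).1 -
            σ⁻¹ • hess2 V (backScale c s j) (u j).1 (u j).2) - (u i).1) -
        (backLen s * c.G.node i) • σ⁻¹ • ∑ j, backW c s i j •
          (leaf V c (backScale c s j) (u j).1 (u j).2 -
            hess2 V (backScale c s j) (u j).1 (u j).2) := by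
      simp only [backF, smul_sub, Finset.sum_sub_distrib, Finset.smul_sum, smul_smul]
      simp only [mul_comm σ⁻¹, mul_assoc]
      abel
    rw [e]
    refine (norm_sub_le _ _).trans (le_trans (add_le_add ((hqx i).trans_le
      (Finset.single_le_sum (fun j _ => q0 j) (Finset.mem_univ i))) ?_)
      (b := (∑ i, qx i) + 2 * C * backLen s ^ 2 / σ * ∑ j, dl j) ?_)
    · rw [norm_smul, norm_smul, norm_inv, Real.norm_of_nonneg hσ.le,
        Real.norm_of_nonneg (mul_nonneg hr.le (h.gOk.node_nonneg i))]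
      refine (mul_le_mul (mul_le_of_le_one_right hr.le (h.gOk.node_le i))
        (mul_le_mul_of_nonneg_left (norm_wsum_le (backW_abs h hb i) (fun j => (hdl j).trans_le
          (Finset.single_le_sum (fun k _ => l0 k) (Finset.mem_univ j))) sl) (by positivity))
        (by positivity) hr.le).trans (le_of_eq ?_)
      ring
    · have : 0 ≤ 2 * C * backLen s ^ 2 * l / σ ^ 2 * ∑ j, ds j := by positivity
      have : 0 ≤ l * ∑ i, qe i := by positivity
      linarith
  · have e : (backF V c s σ y Z ηs ζ u i).2 - (u i).2 =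
        (ηs + σ⁻¹ • (Dv V (s / 2) Z - Dv V (backScale c s i) (u i).1) -
          (σ ^ 2)⁻¹ • (∑ j, (backW c s i j * (backLen s * c.G.node j)) •
            hess2 V (backScale c s j) (u j).1
              (hess2 V (backScale c s j) (u j).1 (u j).2)) - (u i).2) -
        (σ ^ 2)⁻¹ • ∑ j, (backW c s i j * (backLen s * c.G.node j)) •
          (sq2 V c (backScale c s j) (u j).1 (u j).2 (ζ j) -
            hess2 V (backScale c s j) (u j).1
              (hess2 V (backScale c s j) (u j).1 (u j).2)) := by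
      simp only [backF, smul_sub, Finset.sum_sub_distrib]; abel
    rw [e]
    refine (mul_le_mul_of_nonneg_left ((norm_sub_le _ _).trans (add_le_add ((hqe i).trans_le
      (Finset.single_le_sum (fun j _ => e0 j) (Finset.mem_univ i)))
      (d := (σ ^ 2)⁻¹ * (2 * C * backLen s ^ 2 * ∑ j, ds j)) ?_)) hl.le).trans ?_
    · rw [norm_smul, norm_inv, Real.norm_of_nonneg (sq_nonneg σ)]
      exact mul_le_mul_of_nonneg_left (norm_wsum_le (backW_node_abs h hb i) (fun j =>
        (hds j).trans_le (Finset.single_le_sum (fun k _ => s0 k) (Finset.mem_univ j))) ss)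
        (by positivity)
    · have : 0 ≤ 2 * C * backLen s ^ 2 / σ * ∑ j, dl j := by positivity
      have e2 : l * ((σ ^ 2)⁻¹ * (2 * C * backLen s ^ 2 * ∑ j, ds j)) =
          2 * C * backLen s ^ 2 * l / σ ^ 2 * ∑ j, ds j := by ring
      rw [mul_add, e2]
      linarith

/-- Path start and exact path, in the weighted size. -/
lemma start_dist (y ξ ηs : EE d) (u : Fin c.G.n → EE d × EE d) :
    pathDist l (fun i => (c.G.node i • (y + backLen s • ξ) + (1 - c.G.node i) • y, ηs)) u ≤
      ‖y‖ + backLen s * ‖ξ‖ + l * ‖ηs‖ + ∑ j, (‖(u j).1‖ + l * ‖(u j).2‖) := by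
  have hr := BackOk.len_pos h hb
  have hl := hb.l_pos
  have hs : 0 ≤ ∑ j, (‖(u j).1‖ + l * ‖(u j).2‖) := Finset.sum_nonneg fun j _ => by positivity
  have hone : ∀ i, ‖(u i).1‖ + l * ‖(u i).2‖ ≤ ∑ j, (‖(u j).1‖ + l * ‖(u j).2‖) := fun i =>
    Finset.single_le_sum (f := fun j => ‖(u j).1‖ + l * ‖(u j).2‖) (fun j _ => by positivity)
      (Finset.mem_univ i)
  refine pathDist_le hl.le (by positivity) (fun i => ?_) fun i => ?_
  · have e : c.G.node i • (y + backLen s • ξ) + (1 - c.G.node i) • y - (u i).1 =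
        y + (c.G.node i * backLen s) • ξ + -(u i).1 := by module
    simp only [e]
    refine norm_add₃_le.trans ?_
    rw [norm_neg, norm_smul, Real.norm_of_nonneg (mul_nonneg (h.gOk.node_nonneg i) hr.le)]
    have := mul_le_mul_of_nonneg_right (mul_le_of_le_one_left hr.le (h.gOk.node_le i))
      (norm_nonneg ξ)
    nlinarith [hone i, mul_nonneg hl.le (norm_nonneg (u i).2), mul_nonneg hl.le (norm_nonneg ηs)]
  · refine (mul_le_mul_of_nonneg_left (norm_sub_le _ _) hl.le).trans ?_
    rw [mul_add]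
    nlinarith [hone i, norm_nonneg y, norm_nonneg (u i).1, mul_nonneg hr.le (norm_nonneg ξ)]

omit hb in
/-- The laws along the rotated flow. -/
lemma node_law {μ : Measure (EE d × EE d)} [IsProbabilityMeasure μ] {ν : Measure (EE d)}
    [IsProbabilityMeasure ν] {u : EE d × EE d → EE d × EE d} (hu : Measurable u)
    (hl : μ.map u = ν.prod (gam d)) (j : Fin c.G.n) :
    MeasurePreserving (fun ω : (EE d × EE d) × (Fin c.G.n → EE d) =>
        ((u ω.1).1, (u ω.1).2, ω.2 j))
      (μ.prod (noise d (Fin c.G.n))) (ν.prod ((gam d).prod (gam d))) := by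
  have h1 := (MeasurePreserving.mk hu hl : MeasurePreserving u μ (ν.prod (gam d))).prod
    (measurePreserving_eval (fun _ : Fin c.G.n => gam d) j)
  exact (measurePreserving_prodAssoc ν (gam d) (gam d)).comp h1

omit hb in
lemma defect_L2 {e₀ e₁ f₀ f₁ : ℝ} (he : EvalOk V c s e₀ e₁ f₀ f₁) {μ : Measure (EE d × EE d)}
    [IsProbabilityMeasure μ] {u : EE d × EE d → EE d × EE d} (hu : Measurable u) {M : ℝ}
    (hM : 0 ≤ M) {ν : Measure (EE d)} [IsProbabilityMeasure ν]
    (hν : eLpNorm id 2 ν ≤ ENNReal.ofReal M) (hl : μ.map u = ν.prod (gam d)) {v : ℝ} (hv : 0 < v)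
    (hv4 : s / 4 ≤ v) (hvs : v ≤ s) (hvS : v ≤ S) (j : Fin c.G.n) :
    L2Le (μ.prod (noise d (Fin c.G.n)))
      (fun ω => ‖leaf V c v (u ω.1).1 (u ω.1).2 - hess2 V v (u ω.1).1 (u ω.1).2‖)
      (e₀ + e₁ * M) ∧
    L2Le (μ.prod (noise d (Fin c.G.n)))
      (fun ω => ‖sq2 V c v (u ω.1).1 (u ω.1).2 (ω.2 j) -
        hess2 V v (u ω.1).1 (hess2 V v (u ω.1).1 (u ω.1).2)‖)
      (f₀ + f₁ * M) := by
  constructor
  · have hm : Measurable fun p : EE d × EE d => leaf V c v p.1 p.2 - hess2 V v p.1 p.2 :=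
      (leaf_continuous h hv hvS).measurable.sub (hess2_apply_measurable V _)
    have he1 := fun x : EE d => he.one _ hv4 hvs x
    generalize leaf V c v = F at hm he1 ⊢
    generalize hess2 V v = P at hm he1 ⊢
    have b := L2Le.of_sections (ν := ν) (ρ := gam d) hm he.e₀_nonneg he.e₁_nonneg hM hν he1
    exact b.comp ((⟨hu, hl⟩ : MeasurePreserving u μ (ν.prod (gam d))).comp measurePreserving_fst)
  · have hc := (sq2_continuous h hv hvS).measurable
    have hh := hess2_apply_measurable V v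
    have he2 := fun x : EE d => he.two _ hv4 hvs x
    generalize sq2 V c v = F at hc he2 ⊢
    generalize hess2 V v = P at hh he2 ⊢
    have h3 : Measurable fun p : EE d × EE d × EE d => P p.1 p.2.1 :=
      Measurable.fun_comp (g := fun q : EE d × EE d => P q.1 q.2) (f := fun p : EE d × EE d × EE d => (p.1, p.2.1))
        hh (measurable_fst.prodMk measurable_snd.fst)
    have h4 : Measurable fun p : EE d × EE d × EE d => P p.1 (P p.1 p.2.1) :=
      Measurable.fun_comp (g := fun q : EE d × EE d => P q.1 q.2) (f := fun p : EE d × EE d × EE d => (p.1, P p.1 p.2.1))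
        hh (measurable_fst.prodMk h3)
    have hm : Measurable fun p : EE d × EE d × EE d => F p.1 p.2.1 p.2.2 - P p.1 (P p.1 p.2.1) :=
      hc.sub h4
    have b := L2Le.of_sections (ν := ν) (ρ := (gam d).prod (gam d)) hm he.f₀_nonneg he.f₁_nonneg
      hM hν he2
    have hp := node_law h hu hl j
    have b' := b.comp hp
    exact b'

omit h hb in
lemma start_L2 {n : ℕ} {r M l yn : ℝ} (hr : 0 ≤ r) (hM : 0 ≤ M) (hl : 0 ≤ l) (hy : 0 ≤ yn)
    {P : Measure (EE d)} [IsProbabilityMeasure P] (hP : eLpNorm id 2 P ≤ ENNReal.ofReal M)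
    {u : EE d × EE d → Fin n → EE d × EE d} (hu : ∀ j, Measurable fun z => u z j)
    (hnode : ∀ i, ∃ ν : Measure (EE d), IsProbabilityMeasure ν ∧
      eLpNorm id 2 ν ≤ ENNReal.ofReal M ∧ (P.prod (gam d)).map (fun z => u z i) = ν.prod (gam d)) :
    L2Le ((P.prod (gam d)).prod (noise d (Fin n))) (fun ω => yn + r * ‖ω.1.1‖ + l * ‖ω.1.2‖ +
      ∑ j, (‖(u ω.1 j).1‖ + l * ‖(u ω.1 j).2‖))
      (yn + r * M + l * Real.sqrt d + n * (M + l * Real.sqrt d)) := by
  have hg : L2Le (gam d) (fun x : EE d => ‖x‖) (Real.sqrt d) :=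
    L2Le.of_norm (f := (id : EE d → EE d)) measurable_id.aestronglyMeasurable (Real.sqrt_nonneg _)
      eLp_gam.le
  have hfst : MeasurePreserving (Prod.fst : (EE d × EE d) × (Fin n → EE d) → EE d × EE d)
      ((P.prod (gam d)).prod (noise d (Fin n))) (P.prod (gam d)) := measurePreserving_fst
  have b1 := ((L2Le.of_norm (f := (id : EE d → EE d)) measurable_id.aestronglyMeasurable hM hP).comp
    (measurePreserving_fst (ν := gam d))).comp hfst
  have b2 := (hg.comp (measurePreserving_snd (μ := P))).comp hfst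
  have b3 := L2Le.sum (μ := (P.prod (gam d)).prod (noise d (Fin n)))
    (g := fun j ω => ‖(u ω.1 j).1‖ + l * ‖(u ω.1 j).2‖)
    (r := M + l * Real.sqrt d) (by positivity) fun j => by
      obtain ⟨ν, hνp, hν, hl'⟩ := hnode j
      have hp : MeasurePreserving (fun z => u z j) (P.prod (gam d)) (ν.prod (gam d)) := ⟨hu j, hl'⟩
      exact (((L2Le.of_norm (f := (id : EE d → EE d)) measurable_id.aestronglyMeasurable hM hν).comp
        (measurePreserving_fst (ν := gam d))).add ((hg.comp
          (measurePreserving_snd (μ := ν))).mul hl)).comp (hp.comp hfst)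
  have := (((L2Le.const (μ := (P.prod (gam d)).prod (noise d (Fin n))) hy).add
    (b1.mul hr)).add (b2.mul hl)).add b3
  simpa using this

lemma rot_point (y ξ ηs η : EE d) (ζ : Fin c.G.n → EE d) (U : Fin c.G.n → EE d × EE d) :
    ‖σ • ηs + Dv V (s / 2) (y + backLen s • ξ) -
        qSem V c s σ y (y + backLen s • ξ) ηs ζ - Dv V s y - σ • η‖ ≤
      ‖σ • ηs + Dv V (s / 2) (y + backLen s • ξ) -
        σ⁻¹ • (∑ j, (backLen s * c.G.tot j * (backLen s * c.G.node j)) •
          hess2 V (backScale c s j) (U j).1 (hess2 V (backScale c s j) (U j).1 (U j).2)) -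
        Dv V s y - σ • η‖ +
      C * backLen s ^ 2 / σ * (∑ j, ‖sq2 V c (backScale c s j) (U j).1 (U j).2 (ζ j) -
          hess2 V (backScale c s j) (U j).1 (hess2 V (backScale c s j) (U j).1 (U j).2)‖) +
      corrLip c C s σ l *
        (κ ^ c.k * (‖y‖ + backLen s * ‖ξ‖ + l * ‖ηs‖ + ∑ j, (‖(U j).1‖ + l * ‖(U j).2‖)) +
         2 * ((∑ i, ‖c.G.node i • (y + backLen s • ξ) + (1 - c.G.node i) • y +
            (backLen s * c.G.node i) • ∑ j, backW c s i j • (Dv V (backScale c s j) (U j).1 -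
              σ⁻¹ • hess2 V (backScale c s j) (U j).1 (U j).2) - (U i).1‖) +
          l * (∑ i, ‖ηs + σ⁻¹ • (Dv V (s / 2) (y + backLen s • ξ) -
              Dv V (backScale c s i) (U i).1) -
            (σ ^ 2)⁻¹ • (∑ j, (backW c s i j * (backLen s * c.G.node j)) •
              hess2 V (backScale c s j) (U j).1
                (hess2 V (backScale c s j) (U j).1 (U j).2)) - (U i).2‖) +
          2 * C * backLen s ^ 2 / σ * (∑ j, ‖leaf V c (backScale c s j) (U j).1 (U j).2 -
            hess2 V (backScale c s j) (U j).1 (U j).2‖) +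
          2 * C * backLen s ^ 2 * l / σ ^ 2 *
            ∑ j, ‖sq2 V c (backScale c s j) (U j).1 (U j).2 (ζ j) -
              hess2 V (backScale c s j) (U j).1
                (hess2 V (backScale c s j) (U j).1 (U j).2)‖)) := by
  have hκ := h.κ_nonneg
  have hσ := hb.σ_pos
  have hL := corrLip_nonneg h hb
  set Z := y + backLen s • ξ with hZ
  have hres' := back_residual h hb y Z ηs ζ U (fun i => rfl) (fun i => rfl) (fun j => rfl)
    (fun j => rfl)
  have hgeo := back_geom h hb y Z ηs ζ U hres'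
  have hst := start_dist h hb y ξ ηs U
  have hgeo' := hgeo.trans (add_le_add_left
    (mul_le_mul_of_nonneg_left hst (pow_nonneg hκ c.k)) _)
  have hcorr := (corr_lip h hb (back V c s σ y Z ηs ζ) U ζ).trans
    (mul_le_mul_of_nonneg_left hgeo' hL)
  have e : σ • ηs + Dv V (s / 2) Z - qSem V c s σ y Z ηs ζ - Dv V s y - σ • η =
      (σ • ηs + Dv V (s / 2) Z -
        σ⁻¹ • (∑ j, (backLen s * c.G.tot j * (backLen s * c.G.node j)) •
          hess2 V (backScale c s j) (U j).1 (hess2 V (backScale c s j) (U j).1 (U j).2)) -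
        Dv V s y - σ • η) +
      (-(σ⁻¹ • ∑ j, (backLen s * c.G.tot j * (backLen s * c.G.node j)) •
        (sq2 V c (backScale c s j) (U j).1 (U j).2 (ζ j) -
          hess2 V (backScale c s j) (U j).1 (hess2 V (backScale c s j) (U j).1 (U j).2)))) +
      (-(qSem V c s σ y Z ηs ζ -
        σ⁻¹ • ∑ j, (backLen s * c.G.tot j * (backLen s * c.G.node j)) •
          sq2 V c (backScale c s j) (U j).1 (U j).2 (ζ j))) := by
    simp only [smul_sub, Finset.sum_sub_distrib]; abel
  rw [e]
  refine norm_add₃_le.trans (add_le_add (add_le_add le_rfl ?_) ?_)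
  · rw [norm_neg, norm_smul, norm_inv, Real.norm_of_nonneg hσ.le]
    refine (mul_le_mul_of_nonneg_left (norm_wsum_le (qWeight_abs h hb) (fun j =>
      Finset.single_le_sum (f := fun j =>
        ‖sq2 V c (backScale c s j) (U j).1 (U j).2 (ζ j) -
          hess2 V (backScale c s j) (U j).1 (hess2 V (backScale c s j) (U j).1 (U j).2)‖)
        (fun k _ => norm_nonneg _) (Finset.mem_univ j))
      (Finset.sum_nonneg fun k _ => norm_nonneg _)) (by positivity)).trans (le_of_eq ?_)
    ring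
  · rw [norm_neg]
    exact hcorr


omit h hb in
/-- The three residuals of the rotated flow are measurable. -/
lemma rot_meas' {D : ℝ → EE d → EE d} {P : ℝ → EE d → EE d → EE d} {w₀ : EE d}
    (hD : ∀ v, 0 ≤ v → v ≤ s → Measurable (D v))
    (hP : ∀ v, Measurable fun p : EE d × EE d => P v p.1 p.2) (hs : 0 ≤ s)
    (hv : ∀ j, 0 ≤ backScale c s j ∧ backScale c s j ≤ s) (y : EE d)
    (u : EE d × EE d → Fin c.G.n → EE d × EE d) (η₀ : EE d × EE d → EE d)
    (huj : ∀ j, Measurable fun z => u z j) (hη₀ : Measurable η₀) :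
    (∀ i, Measurable fun z : EE d × EE d =>
      c.G.node i • (y + backLen s • z.1) + (1 - c.G.node i) • y +
        (backLen s * c.G.node i) • ∑ j, backW c s i j • (D (backScale c s j) (u z j).1 -
          σ⁻¹ • P (backScale c s j) (u z j).1 (u z j).2) - (u z i).1) ∧
    (∀ i, Measurable fun z : EE d × EE d =>
      z.2 + σ⁻¹ • (D (s / 2) (y + backLen s • z.1) - D (backScale c s i) (u z i).1) -
        (σ ^ 2)⁻¹ • (∑ j, (backW c s i j * (backLen s * c.G.node j)) •
          P (backScale c s j) (u z j).1 (P (backScale c s j) (u z j).1 (u z j).2)) - (u z i).2) ∧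
    Measurable fun z : EE d × EE d =>
      σ • z.2 + D (s / 2) (y + backLen s • z.1) -
        σ⁻¹ • (∑ j, (backLen s * c.G.tot j * (backLen s * c.G.node j)) •
          P (backScale c s j) (u z j).1 (P (backScale c s j) (u z j).1 (u z j).2)) -
        w₀ - σ • η₀ z := by
  have hP1 : ∀ j, Measurable fun z : EE d × EE d => P (backScale c s j) (u z j).1 (u z j).2 :=
    fun j => Measurable.fun_comp (g := fun p : EE d × EE d => P (backScale c s j) p.1 p.2)
      (f := fun z => u z j) (hP _) (huj j)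
  have hP2 : ∀ j, Measurable fun z : EE d × EE d =>
      P (backScale c s j) (u z j).1 (P (backScale c s j) (u z j).1 (u z j).2) := fun j =>
    Measurable.fun_comp (g := fun p : EE d × EE d => P (backScale c s j) p.1 p.2)
      (f := fun z => ((u z j).1, P (backScale c s j) (u z j).1 (u z j).2)) (hP _)
      ((huj j).fst.prodMk (hP1 j))
  have hDj : ∀ j, Measurable fun z : EE d × EE d => D (backScale c s j) (u z j).1 := fun j =>
    Measurable.fun_comp (hD _ (hv j).1 (hv j).2) (huj j).fst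
  have hD2 : Measurable fun z : EE d × EE d => D (s / 2) (y + backLen s • z.1) :=
    Measurable.fun_comp (hD _ (by linarith) (by linarith))
      (measurable_const.add (measurable_fst.const_smul (backLen s)))
  refine ⟨fun i => ?_, fun i => ?_, ?_⟩
  · exact ((((measurable_const.add (measurable_fst.const_smul (backLen s))).const_smul
      (c.G.node i)).add measurable_const).add
      ((Finset.measurable_sum _ fun j _ =>
        (((hDj j).sub ((hP1 j).const_smul σ⁻¹)).const_smul (backW c s i j))).const_smul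
          (backLen s * c.G.node i))).sub (huj i).fst
  · exact ((measurable_snd.add ((hD2.sub (hDj i)).const_smul σ⁻¹)).sub
      ((Finset.measurable_sum _ fun j _ => (hP2 j).const_smul
        (backW c s i j * (backLen s * c.G.node j))).const_smul (σ ^ 2)⁻¹)).sub (huj i).snd
  · exact ((((measurable_snd.const_smul σ).add hD2).sub
      ((Finset.measurable_sum _ fun j _ => (hP2 j).const_smul
        (backLen s * c.G.tot j * (backLen s * c.G.node j))).const_smul σ⁻¹)).sub
        measurable_const).sub (hη₀.const_smul σ)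

/-- The correction at an exact midpoint. -/
theorem rot_err {e₀ e₁ f₀ f₁ : ℝ} (he : EvalOk V c s e₀ e₁ f₀ f₁) {y : EE d} {res M : ℝ}
    (hres : 0 ≤ res) (hM : 0 ≤ M) (hpost : IsProbabilityMeasure (post V s y (backLen s)))
    {η₀ : EE d × EE d → EE d} (hη₀ : Measurable η₀)
    (hrot : RotAt V c s σ y (ENNReal.ofReal res) (ENNReal.ofReal M) η₀) :
    ((post V s y (backLen s)).prod (gam d)).map η₀ = gam d ∧
      eLpNorm (fun ω : (EE d × EE d) × (Fin c.G.n → EE d) =>
          σ • ω.1.2 + Dv V (s / 2) (y + backLen s • ω.1.1) -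
            qSem V c s σ y (y + backLen s • ω.1.1) ω.1.2 ω.2 - Dv V s y - σ • η₀ ω.1) 2
          (((post V s y (backLen s)).prod (gam d)).prod (noise d (Fin c.G.n))) ≤
        ENNReal.ofReal
          (rotBudget c C κ s σ l res M ‖y‖ (Real.sqrt d) e₀ e₁ f₀ f₁) := by
  obtain ⟨u, hu, hlaw, hpM, hnode, hx, hη, hout⟩ := hrot
  refine ⟨hlaw, ?_⟩
  have hC := h.one_le
  have hκ := h.κ_nonneg
  have hr := BackOk.len_pos h hb
  have hσ := hb.σ_pos
  have hl := hb.l_pos
  have he1 := he.e₀_nonneg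
  have he2 := he.e₁_nonneg
  have hf1 := he.f₀_nonneg
  have hf2 := he.f₁_nonneg
  set μ := (post V s y (backLen s)).prod (gam d) with hμ
  set Ω := μ.prod (noise d (Fin c.G.n)) with hΩ
  have hfst : MeasurePreserving (Prod.fst : (EE d × EE d) × (Fin c.G.n → EE d) → EE d × EE d)
      Ω μ := measurePreserving_fst
  have hv : ∀ j, 0 < backScale c s j ∧ backScale c s j ≤ s := fun j =>
    ⟨(BackOk.scale h hb j).1, by unfold backScale; linarith [sq_nonneg (backLen s * c.G.node j)]⟩
  have huj : ∀ j, Measurable fun z => u z j := fun j => (measurable_pi_apply j).comp hu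
  have h4 : ∀ j, s / 4 ≤ backScale c s j := fun j => by
    have h2 : (backLen s * c.G.node j) ^ 2 ≤ backLen s ^ 2 := by
      rw [mul_pow]
      exact mul_le_of_le_one_right (sq_nonneg _)
        (pow_le_one₀ (h.gOk.node_nonneg j) (h.gOk.node_le j))
    have h3 : backLen s ^ 2 = s / 2 := Real.sq_sqrt (by linarith [hb.s_pos])
    unfold backScale
    linarith [hb.s_pos]
  obtain ⟨mx, me, mo⟩ := rot_meas' (c := c) (σ := σ) (s := s) (D := Dv V)
    (P := fun v x X => hess2 V v x X) (w₀ := Dv V s y)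
    (fun v a b => (Dv_continuous h.drift a (b.trans hb.s_le)).measurable)
    (fun v => hess2_apply_measurable V v) hb.s_pos.le
    (fun j => ⟨(hv j).1.le, (hv j).2⟩) y u η₀ huj hη₀
  have bx := L2Le.sum hres fun i => (L2Le.of_norm (mx i).aestronglyMeasurable hres (hx i)).comp hfst
  have be := L2Le.sum hres fun i => (L2Le.of_norm (me i).aestronglyMeasurable hres (hη i)).comp hfst
  have bo := (L2Le.of_norm mo.aestronglyMeasurable hres hout).comp hfst
  have hd : ∀ j, L2Le Ω (fun ω => ‖leaf V c (backScale c s j) (u ω.1 j).1 (u ω.1 j).2 -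
      hess2 V (backScale c s j) (u ω.1 j).1 (u ω.1 j).2‖) (e₀ + e₁ * M) ∧
      L2Le Ω (fun ω => ‖sq2 V c (backScale c s j) (u ω.1 j).1 (u ω.1 j).2 (ω.2 j) -
        hess2 V (backScale c s j) (u ω.1 j).1
          (hess2 V (backScale c s j) (u ω.1 j).1 (u ω.1 j).2)‖) (f₀ + f₁ * M) := fun j => by
    obtain ⟨ν, hνp, hν, hl⟩ := hnode j
    exact defect_L2 h he (μ := μ) (huj j) hM hν hl (hv j).1 (h4 j) (hv j).2 (BackOk.scale h hb j).2.1 j
  have bdl := L2Le.sum (by positivity : 0 ≤ e₀ + e₁ * M) fun j => (hd j).1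
  have bds := L2Le.sum (by positivity : 0 ≤ f₀ + f₁ * M) fun j => (hd j).2
  have bP := start_L2 (yn := ‖y‖) (r := backLen s) hr.le hM hl.le (norm_nonneg y) hpM huj hnode
  have hL := corrLip_nonneg h hb
  refine ((((bo.add (bds.mul (c := C * backLen s ^ 2 / σ) (by positivity))).add
    (((bP.mul (pow_nonneg hκ c.k)).add
      ((((bx.add (be.mul hl.le)).add (bdl.mul (c := 2 * C * backLen s ^ 2 / σ) (by positivity))).add
        (bds.mul (c := 2 * C * backLen s ^ 2 * l / σ ^ 2) (by positivity))).mul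
          (c := 2) two_pos.le)).mul hL)).mono ?_).le fun ω => ?_)
  · simp only [rotBudget, Fintype.card_fin]
    rw [show (c.G.n : ℝ) * (res + l * res) = c.G.n * res + l * (c.G.n * res) by ring]
  · exact rot_point h hb y ω.1.1 ω.1.2 (η₀ ω.1) ω.2 (u ω.1)

omit hb in
lemma midPoint_eq {y W N : EE d} {E : EE d} :
    midPoint V c s y W N - (y + (2 / 3 * fwdLen s) • E + Real.sqrt (s / 6) • N) =
      (2 / 3 * fwdLen s) • (fwdEnd V c s y W - E) := by
  unfold midPoint; module

lemma fwdErr_meas (y : EE d) {E : EE d → EE d} (hE : Measurable E) :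
    Measurable fun W => fwdEnd V c s y W - E W := by
  obtain ⟨ht, ht2⟩ := fwdLen_facts hb.s_pos.le
  have hcd : ∀ j, Continuous (Dv V (s - (fwdLen s * c.G.node j) ^ 2)) := fun j => by
    obtain ⟨a, b⟩ := scale_mem (h.gOk.node_nonneg j) (h.gOk.node_le j) ht2
    exact Dv_continuous h.drift a (b.trans hb.s_le)
  have mfe : Measurable fun W => fwdEnd V c s y W - E W := by
    refine Measurable.sub ?_ hE
    have hFc : Continuous fun p : EE d × (Fin c.G.n → EE d) => fwdF V c s y p.1 p.2 := by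
      unfold fwdF; fun_prop
    have hit : ∀ k : ℕ, Continuous fun W : EE d => (fwdF V c s y W)^[k] fun _ => W := fun k => by
      induction k with
      | zero => exact continuous_pi fun _ => continuous_id
      | succ k ih =>
        simp only [Function.iterate_succ_apply']
        exact hFc.comp (continuous_id.prodMk ih)
    have := hit c.k
    unfold fwdEnd fwdOut
    exact (by fun_prop : Continuous _).measurable
  exact mfe

omit h hb in
lemma rotErr_meas {n : ℕ} {σ r : ℝ} {w₀ y : EE d} {D : EE d → EE d}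
    {Q : EE d × EE d × (Fin n → EE d) → EE d} {η : EE d × EE d → EE d} (hD : Measurable D)
    (hQ : Measurable Q) (hη : Measurable η) :
    Measurable fun ω : (EE d × EE d) × (Fin n → EE d) =>
      σ • ω.1.2 + D (y + r • ω.1.1) - Q (y + r • ω.1.1, ω.1.2, ω.2) - w₀ - σ • η ω.1 := by
  have hZ : Measurable fun ω : (EE d × EE d) × (Fin n → EE d) => y + r • ω.1.1 :=
    measurable_const.add (measurable_fst.fst.const_smul r)
  exact ((((measurable_fst.snd.const_smul σ).add (hD.fun_comp hZ)).sub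
    (hQ.fun_comp (hZ.prodMk (measurable_fst.snd.prodMk measurable_snd)))).sub
      measurable_const).sub ((hη.fun_comp measurable_fst).const_smul σ)

lemma sem_point (y W N ηs E η : EE d) (ζ : Fin c.G.n → EE d) :
    ‖σ • ηs + Dv V (s / 2) (midPoint V c s y W N) - qSem V c s σ y (midPoint V c s y W N) ηs ζ -
        Dv V s y - σ • η‖ ≤
      (2 + 4 * corrLip c C s σ l) * ‖fwdEnd V c s y W - E‖ +
      ‖σ • ηs + Dv V (s / 2) (y + backLen s •
          ((backLen s)⁻¹ • ((2 / 3 * fwdLen s) • E + Real.sqrt (s / 6) • N))) -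
        qSem V c s σ y (y + backLen s •
          ((backLen s)⁻¹ • ((2 / 3 * fwdLen s) • E + Real.sqrt (s / 6) • N))) ηs ζ -
        Dv V s y - σ • η‖ := by
  have hr := BackOk.len_pos h hb
  have hL := corrLip_nonneg h hb
  obtain ⟨ht, ht2⟩ := fwdLen_facts hb.s_pos.le
  rw [smul_inv_smul₀ hr.ne', ← add_assoc]
  set Z := midPoint V c s y W N with hZ
  set Z' := y + (2 / 3 * fwdLen s) • E + Real.sqrt (s / 6) • N with hZ'
  have e : σ • ηs + Dv V (s / 2) Z - qSem V c s σ y Z ηs ζ - Dv V s y - σ • η =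
      (Dv V (s / 2) Z - Dv V (s / 2) Z') +
        -(qSem V c s σ y Z ηs ζ - qSem V c s σ y Z' ηs ζ) +
      (σ • ηs + Dv V (s / 2) Z' - qSem V c s σ y Z' ηs ζ - Dv V s y - σ • η) := by abel
  rw [e]
  refine norm_add₃_le.trans (add_le_add ?_ le_rfl)
  rw [norm_neg]
  refine (add_le_add (h.drift.lip _ (by linarith [hb.s_pos]) (by linarith [hb.s_pos, hb.s_le]) Z Z')
    (qSem_lip h hb y Z Z' ηs ζ)).trans ?_
  rw [← add_mul]
  refine mul_le_mul_of_nonneg_left ?_ (by linarith)
  rw [hZ, hZ', midPoint_eq h, norm_smul, Real.norm_of_nonneg (by positivity)]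
  refine mul_le_of_le_one_left (norm_nonneg _) ?_
  nlinarith [h.S_le, hb.s_le]

/-- The semantic identity at scale s. -/
theorem sem_err {e₀ e₁ f₀ f₁ : ℝ} (he : EvalOk V c s e₀ e₁ f₀ f₁) {y : EE d} {res M G₀ : ℝ}
    (hres : 0 ≤ res) (hM : 0 ≤ M) (hG : 0 ≤ G₀)
    (hgrow : ∀ w, 0 ≤ w → w ≤ S → ∀ x : EE d, ‖Dv V w x‖ ≤ G₀ * (‖x‖ + Real.sqrt d))
    {E : EE d → EE d} (hE : Measurable E) {η₁ : EE d × EE d → EE d} (hη₁ : Measurable η₁)
    (hfwd : FwdAt V c s y (ENNReal.ofReal res) E)
    (hrot : RotAt V c s σ y (ENNReal.ofReal res) (ENNReal.ofReal M) η₁) :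
    (((gam d).prod (gam d)).prod (gam d)).map (fun z : (EE d × EE d) × EE d =>
        η₁ ((backLen s)⁻¹ • ((2 / 3 * fwdLen s) • E z.1.1 + Real.sqrt (s / 6) • z.1.2), z.2)) =
      gam d ∧
      eLpNorm (fun ω : ((EE d × EE d) × EE d) × (Fin c.G.n → EE d) =>
          σ • ω.1.2 + Dv V (s / 2) (midPoint V c s y ω.1.1.1 ω.1.1.2) -
            qSem V c s σ y (midPoint V c s y ω.1.1.1 ω.1.1.2) ω.1.2 ω.2 - Dv V s y -
            σ • η₁ ((backLen s)⁻¹ • ((2 / 3 * fwdLen s) • E ω.1.1.1 +
              Real.sqrt (s / 6) • ω.1.1.2), ω.1.2)) 2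
          ((((gam d).prod (gam d)).prod (gam d)).prod (noise d (Fin c.G.n))) ≤
        ENNReal.ofReal ((2 + 4 * corrLip c C s σ l) *
            (9 * C * (c.G.n + 1) * res + 4 * C ^ 2 * G₀ * κ ^ c.k * (‖y‖ + 2 * Real.sqrt d)) +
          rotBudget c C κ s σ l res M ‖y‖ (Real.sqrt d) e₀ e₁ f₀ f₁) := by
  obtain ⟨Ξ, hΞ, hf1, hf2, hlaw⟩ := hfwd
  have hr := BackOk.len_pos h hb
  have hC := h.one_le
  have hκ := h.κ_nonneg
  set X : EE d × EE d → EE d := fun p => (backLen s)⁻¹ •
    ((2 / 3 * fwdLen s) • E p.1 + Real.sqrt (s / 6) • p.2) with hX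
  have hXm : Measurable X :=
    ((((hE.comp measurable_fst).const_smul (2 / 3 * fwdLen s)).add
      (measurable_snd.const_smul (Real.sqrt (s / 6)))).const_smul (backLen s)⁻¹ :)
  have hp : IsProbabilityMeasure (post V s y (backLen s)) := by
    rw [← hlaw]; exact Measure.isProbabilityMeasure_map hXm.aemeasurable
  obtain ⟨hlaw1, herr⟩ := rot_err h hb he hres hM hp hη₁ hrot
  have hΦ : MeasurePreserving (fun z : (EE d × EE d) × EE d => (X z.1, z.2))
      (((gam d).prod (gam d)).prod (gam d)) ((post V s y (backLen s)).prod (gam d)) :=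
    (⟨hXm, hlaw⟩ : MeasurePreserving X ((gam d).prod (gam d)) (post V s y (backLen s))).prod
      (MeasurePreserving.id _)
  refine ⟨?_, ?_⟩
  · refine Eq.trans (Measure.map_map hη₁ hΦ.measurable).symm ?_
    rw [hΦ.map_eq]; exact hlaw1
  have hΨ := hΦ.prod (MeasurePreserving.id (noise d (Fin c.G.n)))
  obtain ⟨ht, ht2⟩ := fwdLen_facts hb.s_pos.le
  have hDs : Continuous (Dv V (s / 2)) :=
    Dv_continuous h.drift (by linarith [hb.s_pos]) (by linarith [hb.s_pos, hb.s_le])
  have hq := qSem_continuous h hb y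
  have mrot := rotErr_meas (σ := σ) (r := backLen s) (w₀ := Dv V s y) (D := Dv V (s / 2))
    (Q := fun p : EE d × EE d × (Fin c.G.n → EE d) => qSem V c s σ y p.1 p.2.1 p.2.2)
    (y := y) hDs.measurable hq.measurable hη₁
  have hfe := fwd_err h hb.s_pos.le hb.s_le hres hG hgrow hΞ hE hf1 hf2
  have mfe := fwdErr_meas h hb y hE
  have bf := (L2Le.of_norm mfe.aestronglyMeasurable (by positivity) hfe).comp
    ((measurePreserving_fst (ν := gam d)).comp
      ((measurePreserving_fst (μ := (gam d).prod (gam d)) (ν := gam d)).comp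
        (measurePreserving_fst (μ := ((gam d).prod (gam d)).prod (gam d))
          (ν := noise d (Fin c.G.n)))))
  have hL := corrLip_nonneg h hb
  have hB : 0 ≤ rotBudget c C κ s σ l res M ‖y‖ (Real.sqrt d) e₀ e₁ f₀ f₁ := by
    have := hb.σ_pos; have := hb.l_pos
    have := he.e₀_nonneg; have := he.e₁_nonneg; have := he.f₀_nonneg; have := he.f₁_nonneg
    unfold rotBudget; positivity
  have br := (L2Le.of_norm mrot.aestronglyMeasurable hB herr).comp hΨ
  refine (((bf.mul (c := 2 + 4 * corrLip c C s σ l) (by linarith)).add br)).le fun ω => ?_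
  simp only [Prod.map_fst, Prod.map_snd, id_eq, Function.comp_apply]
  exact sem_point h hb y ω.1.1.1 ω.1.1.2 ω.1.2 (E ω.1.1.1) (η₁ (X ω.1.1, ω.1.2)) ω.2

end Vale.Agent.P347.Zero
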