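import Vale.Agent.P347.Zero.Val
import Vale.Agent.P347.Zero.SemBack

/-!
The numerical conditions of one step and its statement.
-/

open MeasureTheory ProbabilityTheory
open scoped RealInnerProductSpace ENNReal

namespace Vale.Agent.P347.Zero

/-- The parameters of one step: scale s, identity noise σ, input noise κp, point noise c √v of the
evaluations, inner and outer noises and errors, size C of the weights. -/
structure Par where
  cfg : Cfg
  s : ℝ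
  σ : ℝ
  c : ℝ
  κp : ℝ
  σI : ℝ
  σO : ℝ
  EI : ℝ
  EO : ℝ
  C : ℝ

/-- The shortest derivative step of the sweeps. -/
noncomputable def Par.t₀ (P : Par) : ℝ := P.cfg.τ * Real.sqrt P.s / 2

/-- The total coefficient of inner evaluations in the evaluated points. -/
noncomputable def Par.A (P : Par) : ℝ :=
  P.C * P.s * (1 + P.C / (P.σ * P.t₀)) + P.cfg.τ * Real.sqrt P.s *
    (2 / P.σ + P.C ^ 3 * P.s / (P.σ ^ 2 * P.cfg.a * P.t₀) + P.C ^ 2 * P.cfg.a / P.t₀ +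
      P.C * P.cfg.τ * Real.sqrt P.s)

/-- The coefficient of outer evaluations in the correction. -/
noncomputable def Par.AQ (P : Par) : ℝ :=
  P.C ^ 3 * P.s / (P.σ * P.cfg.a * P.t₀)

/-- The error factor of the simulated correction. -/
noncomputable def Par.γQ (P : Par) : ℝ := (8 * P.EO + 48 * P.EI * P.A) * P.AQ

/-- The cost factor of one step above that of the evaluations. -/
def stepCost (c : Cfg) (N : ℕ) : ℕ := 3 * (4 * (c.G.n + c.L.n + 3) * (N + 1)) ^ ((c.k + 4) ^ 3)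

/-- The numerical conditions on the programs. -/
structure Par.Ok (P : Par) : Prop where
  one_le : 1 ≤ P.C
  gOk : P.cfg.G.Ok P.C
  lOk : P.cfg.L.Ok P.C
  s_pos : 0 < P.s
  s_le : P.s ≤ 1
  σ_pos : 0 < P.σ
  σI_pos : 0 < P.σI
  σO_pos : 0 < P.σO
  EI_nonneg : 0 ≤ P.EI
  EO_nonneg : 0 ≤ P.EO
  τ_pos : 0 < P.cfg.τ
  τ_le : P.cfg.τ ≤ 1 / 2
  a_pos : 0 < P.cfg.a
  c_pos : 0 < P.c
  c_le : P.c ≤ 1 / 2
  κp_nonneg : 0 ≤ P.κp
  A_le : P.A ≤ 1 / 100
  noise : P.κp + 8 * P.σI * P.A ≤ P.c * Real.sqrt P.s / 2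

/-- The semantic identity for every potential, with a jointly measurable output noise. -/
def SemBound (d : ℕ) (c : Cfg) (s σ E : ℝ) : Prop :=
  ∀ V : EE d → ℝ, Admissible V →
    ∃ η₀ : EE d × (EE d × EE d) × EE d → EE d, Measurable η₀ ∧ ∀ y : EE d,
      (((gam d).prod (gam d)).prod (gam d)).map (fun z => η₀ (y, z)) = gam d ∧
      eLpNorm (fun ω : ((EE d × EE d) × EE d) × (Fin c.G.n → EE d) =>
          σ • ω.1.2 + Dv V (s / 2) (midPoint V c s y ω.1.1.1 ω.1.1.2) -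
            qSem V c s σ y (midPoint V c s y ω.1.1.1 ω.1.1.2) ω.1.2 ω.2 - Dv V s y -
            σ • η₀ (y, ω.1)) 2
          ((((gam d).prod (gam d)).prod (gam d)).prod (noise d (Fin c.G.n))) ≤
        ENNReal.ofReal (E * (Real.sqrt d + ‖y‖))

/-- The error factor after one step. -/
noncomputable def stepErr (P : Par) (E Esem : ℝ) : ℝ :=
  E * (1 + 100 * P.C * Real.sqrt P.s + 100 * P.EI * P.A) + 100 * (P.cfg.G.n + 3) * P.γQ +
    100 * P.EI * P.A + Esem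

/-- One step: an evaluation at s/2 (noise σ₂, used at known points only) and evaluations with
lower parameters give one at s. -/
def StepRule (d : ℕ) : Prop :=
  ∀ (P : Par) (S κ l : ℝ) (NI N₂ : ℕ) (c₂ σ₂ σ₃ σout E Esem : ℝ),
    P.Ok → P.s ≤ S → DriftAll d S →
    (∀ V : EE d → ℝ, Admissible V → SemOk V P.cfg S P.C κ) → BackOk P.cfg S P.C κ P.s P.σ l →
    corrLip P.cfg P.C P.s P.σ l ≤ 1 / 100 → P.AQ ≤ 1 / 100 → P.γQ ≤ 1 / 100 →
    0 < σ₂ → 8 * P.σO * P.AQ ≤ σ₃ → σout ^ 2 = P.σ ^ 2 + σ₂ ^ 2 + σ₃ ^ 2 → 0 < σout →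
    0 ≤ E → E ≤ 1 / 10 → 0 ≤ Esem → 0 ≤ c₂ → SemBound d P.cfg P.s P.σ Esem →
    (∀ v, P.s / 4 ≤ v → v ≤ P.s → Eval d v P.c P.σI P.EI NI) →
    (∀ v, P.s / 4 ≤ v → v ≤ P.s → Eval d v P.c P.σO P.EO NI) →
    Eval d (P.s / 2) c₂ σ₂ E N₂ →
    Eval d P.s (P.κp / Real.sqrt P.s) σout (stepErr P E Esem) (N₂ + stepCost P.cfg NI)

/-- The forward midpoint from evaluations at the lower scales. -/
def MidRule (d : ℕ) : Prop :=
  ∀ (P : Par) (S κ : ℝ) (NI : ℕ), P.Ok → P.s ≤ S → DriftAll d S →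
    (∀ V : EE d → ℝ, Admissible V → SemOk V P.cfg S P.C κ) →
    (∀ v, P.s / 4 ≤ v → v ≤ P.s → Eval d v P.c P.σI P.EI NI) →
    ∃ q, q + 1 ≤ stepCost P.cfg NI ∧
      Sim (fun V (z : EE d × EE d) =>
          z.1 + (2 / 3 * fwdLen P.s) • fwdEnd V P.cfg P.s z.1 z.2) (Real.sqrt (P.s / 6)) q
        (fun _ z => ENNReal.ofReal (100 * P.EI * P.A * (Real.sqrt d + ‖z.1‖ + ‖z.2‖)))

end Vale.Agent.P347.Zero
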