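import Vale.Agent.P347.Zero.EvalBase
import Vale.Agent.P347.Zero.Grid
import Vale.Agent.P347.Zero.StepDefs

/-!
The induction over the levels: halvings from 2ε down to the least scale at every level, the cost
of all levels, and the choice of the grid exponent making it ε^(-1/2).
-/

open MeasureTheory Filter Topology

namespace Vale.Agent.P347.Zero

/-- The cost of all evaluations up to a level. -/
def lvCost (cost : ℕ → ℕ) (J : ℕ) : ℕ → ℕ
  | 0 => 1
  | l + 1 => lvCost cost J l + 3 + J * cost (lvCost cost J l)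

lemma lvCost_mono (cost : ℕ → ℕ) (J : ℕ) : Monotone (lvCost cost J) :=
  monotone_nat_of_le_succ fun _ => by rw [lvCost]; omega

lemma lvCost_pos (cost : ℕ → ℕ) (J l : ℕ) : 1 ≤ lvCost cost J l :=
  lvCost_mono cost J (Nat.zero_le l)

lemma lvC_le_one (l : ℕ) : lvC l ≤ 1 :=
  inv_le_one_of_one_le₀ (one_le_pow₀ (by norm_num))

lemma lvC_anti {i l : ℕ} (h : i ≤ l) : lvC l ≤ lvC i :=
  inv_anti₀ (by positivity) (pow_le_pow_right₀ (by norm_num) (by omega))

lemma lvH_pos {q₀ : ℕ} (hq : 1 ≤ q₀) : 0 < lvH q₀ := by unfold lvH; positivity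

lemma lvErr_pos {q₀ : ℕ} {ε : ℝ} (hε : 0 < ε) (l : ℕ) : 0 < lvErr q₀ ε l :=
  Real.rpow_pos_of_pos hε _

lemma lvSig_pos {q₀ : ℕ} {ε v : ℝ} (hε : 0 < ε) (hv : 0 < v) (l : ℕ) : 0 < lvSig q₀ ε l v :=
  mul_pos (Real.sqrt_pos.2 hv) (Real.rpow_pos_of_pos hε _)

lemma lvErr_top {q₀ : ℕ} (hq : 1 ≤ q₀) (ε : ℝ) : lvErr q₀ ε (lvNum q₀) = ε ^ (q₀ : ℝ) := by
  have h : (q₀ : ℝ) ≠ 0 := Nat.cast_ne_zero.2 (by omega)
  rw [lvErr, lvNum, lvH]
  congr 1
  push_cast
  field_simp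

lemma lvTheta_top {q₀ : ℕ} (hq : 1 ≤ q₀) : lvTheta q₀ (lvNum q₀) = 3 / 8 := by
  have h : (q₀ : ℝ) ≠ 0 := Nat.cast_ne_zero.2 (by omega)
  rw [lvTheta, lvNum, lvH]
  push_cast
  field_simp
  ring

/-- All levels from one halving. -/
theorem eval_levels {d q₀ J : ℕ} {ε : ℝ} {cost : ℕ → ℕ} (hq : 1 ≤ q₀) (hJ : 1 ≤ J) (hε : 0 < ε)
    (hεs : 2 * ε ≤ 1 / 32) (hh : ε ^ lvH q₀ ≤ 1 / 30)
    (hbot : 16 * Real.sqrt (vMin q₀ ε) ≤ lvErr q₀ ε (lvNum q₀) / 8)
    (hJ2 : 2 * ε ≤ vMin q₀ ε * 2 ^ J) (hstep : LevelStep d q₀ ε J cost) :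
    ∀ l, l ≤ lvNum q₀ → ∀ v, 0 < v → v ≤ 2 * ε →
      Eval d v (lvC l) (lvSig q₀ ε l v) (3 * lvErr q₀ ε l) (lvCost cost J l) := by
  have hh0 := lvH_pos hq
  have hε1 : ε ≤ 1 := by linarith
  intro l
  induction l using Nat.strong_induction_on with
  | _ l ih => ?_
  intro hl v hv hv2
  rcases Nat.eq_zero_or_pos l with rfl | hl0
  · have e : lvErr q₀ ε 0 = 1 := by simp [lvErr]
    rw [e, mul_one]
    exact eval_zero hv.le (hv2.trans hεs)
  set e := lvErr q₀ ε l with he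
  have he0 : 0 < e := lvErr_pos hε l
  have he30 : e ≤ 1 / 30 := le_trans
    (Real.rpow_le_rpow_of_exponent_ge hε hε1
      (le_mul_of_one_le_left hh0.le (by exact_mod_cast hl0))) hh
  have hel : lvErr q₀ ε (lvNum q₀) ≤ e :=
    Real.rpow_le_rpow_of_exponent_ge hε hε1
      (mul_le_mul_of_nonneg_right (by exact_mod_cast hl) hh0.le)
  set M := lvCost cost J (l - 1) with hMd
  have hJR : (0 : ℝ) < J := by exact_mod_cast hJ
  set A : ℕ → ℝ := fun j => (1 + 1 / (J : ℝ)) ^ j * (9 / 8 * e) - e with hA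
  have hA0 : ∀ j, e / 8 ≤ A j := fun j => by
    have := mul_le_mul_of_nonneg_right
      (one_le_pow₀ (M₀ := ℝ) (a := 1 + 1 / (J : ℝ)) (n := j)
        (le_add_of_nonneg_right (by positivity))) (by positivity : (0 : ℝ) ≤ 9 / 8 * e)
    simp only [hA]; linarith
  have hA3 : ∀ j, j ≤ J → A j ≤ 3 * e := fun j hj => by
    have h1 : (1 + 1 / (J : ℝ)) ^ j ≤ 3 := by
      calc (1 + 1 / (J : ℝ)) ^ j ≤ (1 + 1 / (J : ℝ)) ^ J :=
            pow_le_pow_right₀ (le_add_of_nonneg_right (by positivity)) hj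
        _ ≤ Real.exp (1 / J) ^ J :=
            pow_le_pow_left₀ (by positivity) (by linarith [Real.add_one_le_exp (1 / (J : ℝ))]) J
        _ = Real.exp 1 := by rw [← Real.exp_nat_mul]; congr 1; field_simp
        _ ≤ 3 := by linarith [Real.exp_one_lt_d9]
    have := mul_le_mul_of_nonneg_right h1 (by positivity : (0 : ℝ) ≤ 9 / 8 * e)
    simp only [hA]; linarith
  -- evaluations at the lower levels
  have hlow : ∀ s, 0 < s → s ≤ 2 * ε → ∀ w, s / 4 ≤ w → w ≤ s →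
      Eval d w (lvC (l - 1)) (innerSig q₀ ε l s) (innerErr q₀ ε l) M ∧
        Eval d w (lvC (l - 1)) (outerSig q₀ ε l s) (outerErr q₀ ε l) M := by
    intro s hs hs2 w hw hws
    have hw0 : 0 < w := lt_of_lt_of_le (by positivity) hw
    have hwε : w ≤ 2 * ε := hws.trans hs2
    have hsq : Real.sqrt w ≤ Real.sqrt s := Real.sqrt_le_sqrt hws
    constructor
    · by_cases h20 : 20 * q₀ ≤ l
      · have hq0 : (q₀ : ℝ) ≠ 0 := Nat.cast_ne_zero.2 (by omega)
        have hth : lvTheta q₀ (l - 20 * q₀) = lvTheta q₀ l - 1 / (40 * q₀) := by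
          simp only [lvTheta, lvH, Nat.cast_sub h20]; push_cast; field_simp; ring
        have hlh : ((l - 20 * q₀ : ℕ) : ℝ) * lvH q₀ = (l : ℝ) * lvH q₀ - 1 / 5 := by
          simp only [lvH, Nat.cast_sub h20]; push_cast; field_simp; ring
        refine (ih (l - 20 * q₀) (by omega) (by omega) w hw0 hwε).mono (lvC_anti (by omega))
          ?_ ?_ (le_of_eq ?_) (lvCost_mono _ _ (by omega))
        · rw [abs_of_pos (lvSig_pos hε hw0 _), lvSig, innerSig, hth]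
          exact mul_le_mul_of_nonneg_right hsq (Real.rpow_nonneg hε.le _)
        · exact mul_pos (Real.sqrt_pos.2 hs) (Real.rpow_pos_of_pos hε _)
        · rw [lvErr, innerErr, hlh]
      · have hpos : 0 < innerSig q₀ ε l s :=
          mul_pos (Real.sqrt_pos.2 hs) (Real.rpow_pos_of_pos hε _)
        refine (eval_zero (σ := innerSig q₀ ε l s) (c := lvC (l - 1)) hw0.le
          (hwε.trans hεs)).mono le_rfl (abs_of_pos hpos).le hpos ?_ (lvCost_pos _ _ _)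
        rw [innerErr]
        refine le_mul_of_one_le_right (by norm_num)
          (Real.one_le_rpow_of_pos_of_le_one_of_nonpos hε hε1 ?_)
        have h1 : (l : ℝ) ≤ 20 * q₀ := by exact_mod_cast (not_le.1 h20).le
        have := mul_le_mul_of_nonneg_right h1 hh0.le
        have hq0 : (q₀ : ℝ) ≠ 0 := Nat.cast_ne_zero.2 (by omega)
        have e5 : 20 * (q₀ : ℝ) * lvH q₀ = 1 / 5 := by rw [lvH]; field_simp; ring
        linarith
    · refine (ih (l - 1) (by omega) (by omega) w hw0 hwε).mono le_rfl ?_ ?_ le_rfl le_rfl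
      · rw [abs_of_pos (lvSig_pos hε hw0 _), lvSig, outerSig]
        refine mul_le_mul_of_nonneg_right ?_ (Real.rpow_nonneg hε.le _)
        linarith [Real.sqrt_nonneg s]
      · exact mul_pos (mul_pos two_pos (Real.sqrt_pos.2 hs)) (Real.rpow_pos_of_pos hε _)
  have key : ∀ j, j ≤ J → ∀ w, 0 < w → w ≤ 2 * ε → w ≤ vMin q₀ ε * 2 ^ j →
      Eval d w (lvC l) (lvSig q₀ ε l w) (A j) (3 + j * cost M) := by
    intro j
    induction j with
    | zero =>
      intro _ w hw hwε hwv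
      rw [pow_zero, mul_one] at hwv
      refine (eval_bottom hw (hwε.trans hεs) (lvC_le_one l) (lvSig_pos hε hw l)).mono le_rfl
        (abs_of_pos (lvSig_pos hε hw l)).le (lvSig_pos hε hw l) ?_ (Nat.le_add_right _ _)
      have := Real.sqrt_le_sqrt hwv
      linarith [hA0 0]
    | succ j ihj =>
      intro hj w hw hwε hwv
      by_cases hwm : w ≤ vMin q₀ ε
      · refine (eval_bottom hw (hwε.trans hεs) (lvC_le_one l) (lvSig_pos hε hw l)).mono le_rfl
          (abs_of_pos (lvSig_pos hε hw l)).le (lvSig_pos hε hw l) ?_ (Nat.le_add_right _ _)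
        have := Real.sqrt_le_sqrt hwm
        linarith [hA0 (j + 1)]
      · have hh2 : Eval d (w / 2) (lvC l) (lvSig q₀ ε l (w / 2)) (A j) (3 + j * cost M) :=
          ihj (by omega) (w / 2) (by positivity) (by linarith)
            (by rw [pow_succ] at hwv; linarith)
        have := hstep l hl0 hl w (not_le.1 hwm) hwε (A j) _ M
          (le_trans (by positivity) (hA0 j)) (by linarith [hA3 j (by omega)])
          (fun u hu hu' => (hlow w hw hwε u hu hu').1)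
          (fun u hu hu' => (hlow w hw hwε u hu hu').2) hh2
        convert this using 1
        · simp only [hA, pow_succ]; ring
        · ring
  refine (key J le_rfl v hv hv2 (hv2.trans hJ2)).mono le_rfl
    (abs_of_pos (lvSig_pos hε hv l)).le (lvSig_pos hε hv l) (hA3 J le_rfl) ?_
  obtain ⟨i, rfl⟩ : ∃ i, l = i + 1 := ⟨l - 1, by omega⟩
  simp only [hMd, lvCost, Nat.add_sub_cancel]
  omega

/-! ### The step from the rule and its numbers -/

/-- What the numerics supply for one halving at level l and scale s. -/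
structure StepData (d q₀ : ℕ) (ε : ℝ) (J n k l : ℕ) (s : ℝ) (P : Par) : Prop where
  s_eq : P.s = s
  n_le : P.cfg.G.n + P.cfg.L.n + 3 ≤ n
  k_le : P.cfg.k ≤ k
  ok : P.Ok
  c_le : P.c ≤ lvC (l - 1)
  c_out : lvC l * Real.sqrt s ≤ P.κp
  σ_eq : P.σ = lvSig q₀ ε l s / 2
  σI_ge : innerSig q₀ ε l s ≤ P.σI
  σO_ge : outerSig q₀ ε l s ≤ P.σO
  EI_ge : innerErr q₀ ε l ≤ P.EI
  EO_ge : outerErr q₀ ε l ≤ P.EO
  sem : ∃ κ w : ℝ, (∀ V : EE d → ℝ, Admissible V → SemOk V P.cfg (2 * ε) P.C κ) ∧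
    BackOk P.cfg (2 * ε) P.C κ P.s P.σ w ∧ corrLip P.cfg P.C P.s P.σ w ≤ 1 / 100
  AQ_le : P.AQ ≤ 1 / 100
  γQ_le : P.γQ ≤ 1 / 100
  noise_out : 8 * P.σO * P.AQ ≤ lvSig q₀ ε l s / 2
  err : ∃ Esem : ℝ, 0 ≤ Esem ∧ SemBound d P.cfg P.s P.σ Esem ∧ ∀ E, 0 ≤ E → E ≤ 1 / 10 →
    stepErr P E Esem ≤ E * (1 + 1 / (J : ℝ)) + lvErr q₀ ε l / J

/-- The cost of one step in terms of the numbers of nodes and rounds. -/
def costFn (n k N : ℕ) : ℕ := 3 * (4 * n * (N + 1)) ^ ((k + 4) ^ 3)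

lemma stepCost_le {c : Cfg} {n k : ℕ} (hn : c.G.n + c.L.n + 3 ≤ n) (hk : c.k ≤ k) (N : ℕ) :
    stepCost c N ≤ costFn n k N := by
  unfold stepCost costFn
  refine Nat.mul_le_mul_left 3 ((Nat.pow_le_pow_left ?_ _).trans (Nat.pow_le_pow_right ?_ ?_))
  · exact Nat.mul_le_mul_right _ (Nat.mul_le_mul_left 4 hn)
  · exact Nat.mul_pos (Nat.mul_pos (by norm_num) (by omega)) (Nat.succ_pos N)
  · exact Nat.pow_le_pow_left (by omega) 3

/-- One halving from the step rule and its numbers. -/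
theorem levelStep_of_rule {d q₀ J n k : ℕ} {ε : ℝ} (hrule : StepRule d) (hε : 0 < ε)
    (hεs : 2 * ε ≤ 1 / 32)
    (hnum : ∀ l, 1 ≤ l → l ≤ lvNum q₀ → ∀ s, vMin q₀ ε < s → s ≤ 2 * ε →
      ∃ P, StepData d q₀ ε J n k l s P) :
    LevelStep d q₀ ε J (costFn n k) := by
  intro l hl hlL s hs hs2 E N₂ NI hE hE1 hI hO h2
  obtain ⟨P, h⟩ := hnum l hl hlL s hs hs2
  obtain ⟨κ, w, hsem, hback, hcorr⟩ := h.sem
  obtain ⟨Es, hEs0, hsb, herr⟩ := h.err
  have hs0 : 0 < s := h.s_eq ▸ h.ok.s_pos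
  have hsig := lvSig_pos (q₀ := q₀) hε hs0 l
  have hpow : (0 : ℝ) < ε ^ (-lvTheta q₀ l) := Real.rpow_pos_of_pos hε _
  have hsum : lvSig q₀ ε l s ^ 2 =
      P.σ ^ 2 + lvSig q₀ ε l (s / 2) ^ 2 + (lvSig q₀ ε l s / 2) ^ 2 := by
    rw [h.σ_eq]
    simp only [lvSig, mul_pow, div_pow]
    rw [Real.sq_sqrt hs0.le, Real.sq_sqrt (by positivity : (0 : ℝ) ≤ s / 2)]
    ring
  have hIpos : 0 < innerSig q₀ ε l s :=
    mul_pos (Real.sqrt_pos.2 hs0) (Real.rpow_pos_of_pos hε _)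
  have hOpos : 0 < outerSig q₀ ε l s :=
    mul_pos (mul_pos two_pos (Real.sqrt_pos.2 hs0)) (Real.rpow_pos_of_pos hε _)
  have := hrule P (2 * ε) κ w NI N₂ (lvC l) (lvSig q₀ ε l (s / 2)) (lvSig q₀ ε l s / 2)
    (lvSig q₀ ε l s) E Es h.ok (by rw [h.s_eq]; linarith) (driftAll hεs) hsem hback hcorr
    h.AQ_le h.γQ_le (lvSig_pos hε (by positivity) l) h.noise_out hsum hsig hE hE1 hEs0
    (by unfold lvC; positivity) hsb
    (fun v hv hv' => (hI v (h.s_eq ▸ hv) (h.s_eq ▸ hv')).mono h.c_le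
      ((abs_of_pos hIpos).trans_le h.σI_ge) h.ok.σI_pos h.EI_ge le_rfl)
    (fun v hv hv' => (hO v (h.s_eq ▸ hv) (h.s_eq ▸ hv')).mono h.c_le
      ((abs_of_pos hOpos).trans_le h.σO_ge) h.ok.σO_pos h.EO_ge le_rfl)
    (h.s_eq ▸ h2)
  rw [h.s_eq] at this
  exact this.mono ((le_div_iff₀ (Real.sqrt_pos.2 hs0)).2 h.c_out) (abs_of_pos hsig).le hsig
    (herr E hE hE1) (Nat.add_le_add_left (stepCost_le h.n_le h.k_le NI) N₂)

/-! ### The cost -/

/-- The exponent of one level in the cost. -/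
def costK (k : ℕ) : ℕ := 2 * (k + 4) ^ 3 + 2

lemma costFn_add_one_le {n k D N : ℕ} (hn : 4 * n ≤ D) (hD : 4 ≤ D) :
    costFn n k N + 1 ≤ D * (D * (N + 1)) ^ ((k + 4) ^ 3) := by
  have h1 : (4 * n * (N + 1)) ^ ((k + 4) ^ 3) ≤ (D * (N + 1)) ^ ((k + 4) ^ 3) :=
    Nat.pow_le_pow_left (Nat.mul_le_mul_right _ hn) _
  have h2 : 1 ≤ (D * (N + 1)) ^ ((k + 4) ^ 3) :=
    Nat.one_le_pow _ _ (Nat.mul_pos (by omega) (Nat.succ_pos N))
  have h3 := Nat.mul_le_mul_right ((D * (N + 1)) ^ ((k + 4) ^ 3)) hD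
  unfold costFn
  omega

lemma cost_step {k D x e : ℕ} (hD : 1 ≤ D) (he : 1 ≤ e) (hx : x ≤ D ^ e) :
    D ^ 2 * (D * x) ^ ((k + 4) ^ 3) ≤ D ^ (costK k * e) := by
  calc D ^ 2 * (D * x) ^ ((k + 4) ^ 3)
      ≤ D ^ 2 * (D * D ^ e) ^ ((k + 4) ^ 3) :=
        Nat.mul_le_mul_left _ (Nat.pow_le_pow_left (Nat.mul_le_mul_left _ hx) _)
    _ = D ^ (2 + (1 + e) * (k + 4) ^ 3) := by rw [← pow_succ', ← pow_mul, ← pow_add]; ring_nf
    _ ≤ _ := by
        refine Nat.pow_le_pow_right hD ?_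
        have h1 : (1 + e) * (k + 4) ^ 3 ≤ 2 * e * (k + 4) ^ 3 :=
          Nat.mul_le_mul_right _ (by omega)
        rw [costK, add_mul]
        linarith

lemma lvCost_le {n k J D : ℕ} (hn : 4 * n ≤ D) (hJ : 4 * (J + 2) ≤ D) :
    ∀ l, lvCost (costFn n k) J l + 1 ≤ D ^ (costK k ^ l)
  | 0 => by simp [lvCost]; omega
  | l + 1 => by
    have ih := lvCost_le (k := k) hn hJ l
    set M := lvCost (costFn n k) J l
    have hM : M + 1 ≤ (D * (M + 1)) ^ ((k + 4) ^ 3) :=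
      (Nat.le_mul_of_pos_left _ (by omega)).trans (Nat.le_self_pow (by positivity) _)
    have hc := Nat.mul_le_mul_left J (costFn_add_one_le (k := k) (N := M) hn (by omega))
    have hX : 1 ≤ (D * (M + 1)) ^ ((k + 4) ^ 3) := le_trans (Nat.succ_pos M) hM
    have h4 : lvCost (costFn n k) J (l + 1) + 1 ≤ D ^ 2 * (D * (M + 1)) ^ ((k + 4) ^ 3) := by
      set X := (D * (M + 1)) ^ ((k + 4) ^ 3)
      have hz : D * (4 * (J + 2) * X) ≤ D ^ 2 * X := by
        rw [pow_two, mul_assoc D D]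
        exact Nat.mul_le_mul_left _ (Nat.mul_le_mul_right _ hJ)
      simp only [lvCost]
      nlinarith
    refine h4.trans ((cost_step (by omega) (Nat.one_le_pow _ _ (by simp [costK])) ih).trans_eq ?_)
    rw [pow_succ']

/-- The cost of one more step above the top level. -/
lemma topCost_le {n k J D : ℕ} (hn : 4 * n ≤ D) (hJ : 4 * (J + 2) ≤ D) (L : ℕ) :
    costFn n k (lvCost (costFn n k) J L) + 1 ≤ D ^ (costK k ^ (L + 1)) := by
  refine (costFn_add_one_le hn (by omega)).trans ?_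
  refine le_trans (Nat.mul_le_mul_right _ (Nat.le_self_pow two_ne_zero D)) ?_
  rw [pow_succ' (costK k) L]
  exact cost_step (k := k) (by omega) (Nat.one_le_pow _ _ (by simp [costK])) (lvCost_le (k := k) hn hJ L)

/-! ### Small ε -/

/-- The grid exponent: it makes the cost of all levels ε^(-1/2). -/
noncomputable def lvBeta (q₀ k : ℕ) : ℝ := 1 / (4 * (costK k ^ (lvNum q₀ + 1) : ℕ))

lemma lvBeta_pos (q₀ k : ℕ) : 0 < lvBeta q₀ k := by unfold lvBeta costK; positivity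

/-- The number of nodes of the rules of order m on the grid. -/
noncomputable def lvNodes (β : ℝ) (m : ℕ) (ε : ℝ) : ℕ := gridN β ε * m + 1 + (m + 1) + 3

/-- The side conditions of the induction and the total cost, for all small ε. -/
theorem levels_eventually {q₀ : ℕ} (hq : 1 ≤ q₀) (m k : ℕ) :
    ∀ᶠ ε in 𝓝[>] (0 : ℝ), 2 * ε ≤ 1 / 32 ∧ ε ^ lvH q₀ ≤ 1 / 30 ∧
      16 * Real.sqrt (vMin q₀ ε) ≤ lvErr q₀ ε (lvNum q₀) / 8 ∧
      1 ≤ gridN (lvBeta q₀ k) ε ∧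
      2 * ε ≤ vMin q₀ ε * 2 ^ gridN (lvBeta q₀ k) ε ∧
      (costFn (lvNodes (lvBeta q₀ k) m ε) k
        (lvCost (costFn (lvNodes (lvBeta q₀ k) m ε) k) (gridN (lvBeta q₀ k) ε) (lvNum q₀)) : ℝ)
          ≤ ε ^ (-1 : ℝ) := by
  set β := lvBeta q₀ k with hβd
  have hβ : 0 < β := lvBeta_pos q₀ k
  have hh := lvH_pos hq
  set P := costK k ^ (lvNum q₀ + 1) with hP
  have hPβ : β * (P : ℝ) = 1 / 4 := by
    have : (0 : ℝ) < P := by
      have : 0 < P := Nat.pow_pos (by simp [costK])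
      exact_mod_cast this
    rw [hβd, lvBeta, ← hP]; field_simp
  set B : ℝ := 16 * (2 * m + 5) + 16 with hB
  have small : ∀ {a x : ℝ}, 0 < a → 0 < x → ∀ᶠ ε in 𝓝[>] (0 : ℝ), ε ^ a ≤ x := fun {a x} ha hx => by
    have h : Tendsto (fun ε : ℝ => ε ^ a) (𝓝[>] 0) (𝓝 0) :=
      ((Real.continuous_rpow_const ha.le).tendsto' 0 0 (Real.zero_rpow ha.ne')).mono_left
        nhdsWithin_le_nhds
    filter_upwards [h.eventually (gt_mem_nhds hx)] with ε hε using hε.le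
  have e1 := small (a := 1) one_pos (by norm_num : (0 : ℝ) < 1 / 128 ^ 2)
  have e2 := small hh (by norm_num : (0 : ℝ) < 1 / 30)
  have e3 := small (a := 1 / 2) (by norm_num) (by positivity : (0 : ℝ) < 1 / B ^ P)
  have e4 : ∀ᶠ ε in 𝓝[>] (0 : ℝ),
      Real.log 2 + (2 * q₀ + 1) * (-Real.log ε) ≤ Real.log 2 * ε ^ (-β) := by
    have hl2 := Real.log_pos one_lt_two
    have hlo := (isLittleO_log_rpow_nhdsGT_zero (r := -β) (by linarith)).def
      (by positivity : 0 < Real.log 2 / 2 / (2 * q₀ + 1))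
    filter_upwards [hlo, self_mem_nhdsWithin, small hβ (by norm_num : (0 : ℝ) < 1 / 2)]
      with ε h hε hεβ
    rw [Real.norm_eq_abs, Real.norm_of_nonneg (Real.rpow_nonneg (le_of_lt hε) _)] at h
    have h2 : 2 ≤ ε ^ (-β) := by
      rw [Real.rpow_neg (le_of_lt hε)]
      exact (le_inv_comm₀ two_pos (Real.rpow_pos_of_pos hε _)).2 (by linarith)
    have hk : (0 : ℝ) < 2 * q₀ + 1 := by positivity
    have := mul_le_mul_of_nonneg_left ((neg_le_abs _).trans h) hk.le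
    rw [← mul_assoc, mul_div_cancel₀ _ hk.ne'] at this
    nlinarith [mul_le_mul_of_nonneg_left h2 hl2.le]
  filter_upwards [e1, e2, e3, e4, self_mem_nhdsWithin] with ε h1 h2 h3 h4 hε
  rw [Set.mem_Ioi] at hε
  rw [Real.rpow_one] at h1
  have hε1 : ε ≤ 1 := h1.trans (by norm_num)
  set u := ε ^ (-β) with hu
  have hu1 : 1 ≤ u := Real.one_le_rpow_of_pos_of_le_one_of_nonpos hε hε1 (by linarith)
  set N := gridN β ε with hN
  have hNu : u ≤ N := Nat.le_ceil _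
  have hNu2 : (N : ℝ) ≤ 2 * u := (Nat.ceil_lt_add_one (by linarith)).le.trans (by linarith)
  refine ⟨by linarith, h2, ?_,
    by exact_mod_cast hu1.trans hNu, ?_, ?_⟩
  · rw [lvErr_top hq, Real.rpow_natCast, vMin, pow_succ, pow_mul',
      Real.sqrt_mul (sq_nonneg _), Real.sqrt_sq (by positivity)]
    have hs : Real.sqrt ε ≤ 1 / 128 := by
      rw [Real.sqrt_le_left (by norm_num)]; linarith
    nlinarith [mul_le_mul_of_nonneg_left hs (pow_nonneg hε.le q₀)]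
  · rw [← Real.log_le_log_iff (by positivity) (by unfold vMin; positivity),
      Real.log_mul two_ne_zero hε.ne', Real.log_mul (by unfold vMin; positivity) (by positivity),
      vMin, Real.log_pow, Real.log_pow]
    push_cast
    have := Real.log_nonpos hε.le hε1
    nlinarith [mul_le_mul_of_nonneg_left hNu (Real.log_pos one_lt_two).le]
  · set n := lvNodes β m ε with hn
    set D := 4 * n + 4 * (N + 2) with hD
    have hcost := topCost_le (n := n) (k := k) (J := N) (D := D) (by omega) (by omega) (lvNum q₀)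
    have hDB : (D : ℝ) ≤ B * u := by
      simp only [hD, hn, lvNodes, ← hN, hB]
      push_cast
      nlinarith [mul_le_mul_of_nonneg_right hNu2 (Nat.cast_nonneg (α := ℝ) m),
        mul_le_mul_of_nonneg_left hu1 (Nat.cast_nonneg (α := ℝ) m)]
    calc _ ≤ ((D ^ P : ℕ) : ℝ) := by exact_mod_cast le_trans (Nat.le_succ _) hcost
      _ ≤ (B * u) ^ P := by push_cast; exact pow_le_pow_left₀ (Nat.cast_nonneg D) hDB P
      _ = B ^ P * ε ^ (-(1 / 4) : ℝ) := by
          rw [mul_pow, hu, ← Real.rpow_natCast (ε ^ (-β)) P, ← Real.rpow_mul hε.le, neg_mul, hPβ]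
      _ ≤ ε ^ (-(1 / 2) : ℝ) * ε ^ (-(1 / 4) : ℝ) := by
          refine mul_le_mul_of_nonneg_right ?_ (Real.rpow_nonneg hε.le _)
          rw [Real.rpow_neg hε.le]
          exact (le_inv_comm₀ (by positivity) (Real.rpow_pos_of_pos hε _)).2
            (h3.trans_eq (one_div _))
      _ ≤ ε ^ (-1 : ℝ) := by
          rw [← Real.rpow_add hε]
          exact Real.rpow_le_rpow_of_exponent_ge hε hε1 (by norm_num)

/-- The top level of evaluations. -/
theorem eval_top {d q₀ J : ℕ} {ε : ℝ} {cost : ℕ → ℕ} (hq : 1 ≤ q₀) (hJ : 1 ≤ J) (hε : 0 < ε)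
    (hεs : 2 * ε ≤ 1 / 32) (hh : ε ^ lvH q₀ ≤ 1 / 30)
    (hbot : 16 * Real.sqrt (vMin q₀ ε) ≤ lvErr q₀ ε (lvNum q₀) / 8)
    (hJ2 : 2 * ε ≤ vMin q₀ ε * 2 ^ J) (hstep : LevelStep d q₀ ε J cost)
    {v : ℝ} (hv : 0 < v) (hv2 : v ≤ 2 * ε) :
    Eval d v (lvC (lvNum q₀)) (Real.sqrt v * ε ^ (-(3 / 8) : ℝ)) (3 * ε ^ (q₀ : ℝ))
      (lvCost cost J (lvNum q₀)) := by
  have h := eval_levels hq hJ hε hεs hh hbot hJ2 hstep _ le_rfl v hv hv2
  rwa [lvSig, lvTheta_top hq, lvErr_top hq] at h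

end Vale.Agent.P347.Zero
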