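import Vale.Agent.P347.Sched

/-!
Programs that deliver an unknown vector plus exact Gaussian noise.

`Sim p κ q e`: some computation with `q` queries and finitely many fresh Gaussians returns, for
every environment `w`, the vector `p V w + κ • N` up to an L² error `e V w`, where `N` is exactly
standard for every `w`. Every use takes new randomness, so the predicate composes.
-/

open MeasureTheory ProbabilityTheory
open scoped RealInnerProductSpace ENNReal

namespace Vale.Agent.P347.Zero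

variable {d : ℕ}

/-- The law of finitely many independent standard Gaussians. -/
noncomputable abbrev noise (d : ℕ) (ι : Type) [Fintype ι] : Measure (ι → EE d) :=
  Measure.pi fun _ : ι => gam d

/-- `p` can be simulated at noise level `κ` with `q` queries and error `e`. -/
def Sim {Env : Type} [MeasurableSpace Env] (p : (EE d → ℝ) → Env → EE d) (κ : ℝ) (q : ℕ)
    (e : (EE d → ℝ) → Env → ℝ≥0∞) : Prop :=
  ∃ (ι : Type) (_ : Fintype ι) (Y N : (EE d → ℝ) → Env × (ι → EE d) → EE d),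
    Sched.Comp q Y ∧ ∀ V, Admissible V → Measurable (N V) ∧
      ∀ w, (noise d ι).map (fun ω => N V (w, ω)) = gam d ∧
        eLpNorm (fun ω => Y V (w, ω) - p V w - κ • N V (w, ω)) 2 (noise d ι) ≤ e V w

lemma comp_meas {Ω X : Type} [MeasurableSpace Ω] [MeasurableSpace X] {q : ℕ}
    {F : (EE d → ℝ) → Ω → X} (hF : Sched.Comp q F) {V : EE d → ℝ} (hV : Admissible V) :
    Measurable (F V) :=
  Sched.comp_measurable hF hV.1.continuous (gradClass_gradient hV).smooth.continuous

/-- Two independent standard Gaussians combine to a standard one. -/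
lemma gam_combine (a b : ℝ) (h : a ^ 2 + b ^ 2 = 1) :
    ((gam d).prod (gam d)).map (fun z => a • z.1 + b • z.2) = gam d := by
  refine map_prod_coisometry (a • ContinuousLinearMap.id ℝ (EE d))
    (b • ContinuousLinearMap.id ℝ (EE d)) ?_
  ext1 x
  simp [ContinuousLinearMap.adjoint_id, smul_smul, ← add_smul, ← pow_two, h]

/-- A standard Gaussian and an independent one combine to a standard one. -/
lemma law_combine {α β : Type} [MeasurableSpace α] [MeasurableSpace β] {μ : Measure α}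
    {ν : Measure β} [IsProbabilityMeasure μ] [IsProbabilityMeasure ν] {F : α → EE d}
    {G : α × β → EE d} (hF : Measurable F) (hG : Measurable G) (hlF : μ.map F = gam d)
    (hlG : ∀ x, ν.map (fun y => G (x, y)) = gam d) {a b : ℝ} (h : a ^ 2 + b ^ 2 = 1) :
    (μ.prod ν).map (fun z => a • F z.1 + b • G z) = gam d := by
  have hp : (μ.prod ν).map (fun z => (F z.1, G z)) = (gam d).prod (gam d) := by
    refine (Measure.prod_eq fun s t hs ht => ?_).symm
    rw [Measure.map_apply (by fun_prop) (hs.prod ht), Measure.prod_apply ((by fun_prop :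
      Measurable fun z : α × β => (F z.1, G z)) (hs.prod ht)), ← hlF,
      Measure.map_apply hF hs]
    classical
    have e : ∀ x, ν (Prod.mk x ⁻¹' ((fun z : α × β => (F z.1, G z)) ⁻¹' s ×ˢ t)) =
        (F ⁻¹' s).indicator (fun _ => gam d t) x := by
      intro x
      by_cases hx : F x ∈ s
      · rw [Set.indicator_of_mem (show x ∈ F ⁻¹' s from hx), ← hlG x,
          Measure.map_apply (by fun_prop) ht]
        congr 1
        ext y
        simp [hx]
      · rw [Set.indicator_of_notMem (show x ∉ F ⁻¹' s from hx)]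
        convert measure_empty (μ := ν)
        ext y
        simp [hx]
    simp only [e]
    rw [lintegral_indicator (hF hs)]
    simp [mul_comm, hlF]
  rw [← gam_combine a b h, ← hp, Measure.map_map (by fun_prop) (by fun_prop)]
  rfl

/-- The L² norm on a product, by iteration. -/
lemma eLpNorm_prod_le {α β : Type} [MeasurableSpace α] [MeasurableSpace β] {μ : Measure α}
    {ν : Measure β} [SFinite ν] {f : α × β → EE d} (hf : Measurable f) {e : α → ℝ≥0∞}
    (h : ∀ x, eLpNorm (fun y => f (x, y)) 2 ν ≤ e x) :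
    eLpNorm f 2 (μ.prod ν) ≤ eLpNorm e 2 μ := by
  rw [eLpNorm_eq_eLpNorm' two_ne_zero ENNReal.ofNat_ne_top,
    eLpNorm_eq_eLpNorm' two_ne_zero ENNReal.ofNat_ne_top, ENNReal.toReal_ofNat,
    eLpNorm'_eq_lintegral_enorm, eLpNorm'_eq_lintegral_enorm,
    lintegral_prod _ (by fun_prop)]
  refine ENNReal.rpow_le_rpow (lintegral_mono fun x => ?_) (by norm_num)
  have := ENNReal.rpow_le_rpow (h x) (by norm_num : (0 : ℝ) ≤ 2)
  rw [eLpNorm_eq_eLpNorm' two_ne_zero ENNReal.ofNat_ne_top, ENNReal.toReal_ofNat,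
    eLpNorm'_eq_lintegral_enorm, ← ENNReal.rpow_mul] at this
  simpa [enorm_eq_self] using this

variable {Env Env' : Type} [MeasurableSpace Env] [MeasurableSpace Env']
  {p p₁ p₂ : (EE d → ℝ) → Env → EE d} {κ κ₁ κ₂ : ℝ} {q q₁ q₂ : ℕ}
  {e e₁ e₂ : (EE d → ℝ) → Env → ℝ≥0∞}

lemma Sim.congr (h : Sim p κ q e) {p' : (EE d → ℝ) → Env → EE d}
    {e' : (EE d → ℝ) → Env → ℝ≥0∞} (hp : ∀ V, Admissible V → ∀ w, p V w = p' V w)
    (he : ∀ V, Admissible V → ∀ w, e V w ≤ e' V w) : Sim p' κ q e' := by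
  obtain ⟨ι, hι, Y, N, hY, hN⟩ := h
  refine ⟨ι, hι, Y, N, hY, fun V hV => ⟨(hN V hV).1, fun w => ⟨((hN V hV).2 w).1, ?_⟩⟩⟩
  rw [← hp V hV w]
  exact ((hN V hV).2 w).2.trans (he V hV w)

/-- Pulling the environment back. -/
lemma Sim.pre (h : Sim p κ q e) {π : Env' → Env} (hπ : Measurable π) :
    Sim (fun V w => p V (π w)) κ q (fun V w => e V (π w)) := by
  obtain ⟨ι, hι, Y, N, hY, hN⟩ := h
  exact ⟨ι, hι, fun V z => Y V (π z.1, z.2), fun V z => N V (π z.1, z.2),
    Sched.comp_pre hY ((hπ.comp measurable_fst).prodMk measurable_snd),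
    fun V hV => ⟨(hN V hV).1.comp ((hπ.comp measurable_fst).prodMk measurable_snd),
      fun w => (hN V hV).2 (π w)⟩⟩

/-- A known vector. -/
lemma sim_num {f : Env → EE d} (hf : Measurable f) (κ : ℝ) :
    Sim (fun _ w => f w) κ 0 (fun _ _ => 0) := by
  refine ⟨Unit, inferInstance, fun _ z => f z.1 + κ • z.2 (), fun _ z => z.2 (),
    Sched.comp_pure (by fun_prop), fun V _ => ⟨by fun_prop, fun w => ⟨?_, ?_⟩⟩⟩
  · exact (measurePreserving_eval (fun _ : Unit => gam d) ()).map_eq
  · simp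

/-- One gradient at a known point. -/
lemma sim_query {f : Env → EE d} (hf : Measurable f) (κ : ℝ) :
    Sim (fun V w => gradient V (f w)) κ 1 (fun _ _ => 0) := by
  refine ⟨Unit, inferInstance, fun V z => gradient V (f z.1) + κ • z.2 (), fun _ z => z.2 (),
    Sched.comp_post (h := fun z : (Env × (Unit → EE d)) × EE d => z.2 + κ • z.1.2 ())
      (Sched.comp_query (hf.comp measurable_fst)) (by fun_prop),
    fun V _ => ⟨by fun_prop, fun w => ⟨?_, ?_⟩⟩⟩
  · exact (measurePreserving_eval (fun _ : Unit => gam d) ()).map_eq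
  · simp

/-- A scalar multiple. -/
lemma Sim.smul (h : Sim p κ q e) (c : ℝ) :
    Sim (fun V w => c • p V w) (c * κ) q (fun V w => ‖c‖ₑ * e V w) := by
  obtain ⟨ι, hι, Y, N, hY, hN⟩ := h
  refine ⟨ι, hι, fun V z => c • Y V z, N,
    Sched.comp_post (h := fun z : (Env × (ι → EE d)) × EE d => c • z.2) hY (by fun_prop),
    fun V hV => ⟨(hN V hV).1, fun w => ⟨((hN V hV).2 w).1, ?_⟩⟩⟩
  calc eLpNorm (fun ω => c • Y V (w, ω) - c • p V w - (c * κ) • N V (w, ω)) 2 (noise d ι)
      = eLpNorm (c • fun ω => Y V (w, ω) - p V w - κ • N V (w, ω)) 2 (noise d ι) := by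
        congr 1; ext1 ω; simp [smul_sub, smul_smul]
    _ ≤ ‖c‖ₑ * eLpNorm (fun ω => Y V (w, ω) - p V w - κ • N V (w, ω)) 2 (noise d ι) :=
        eLpNorm_const_smul_le
    _ ≤ _ := mul_le_mul_right ((hN V hV).2 w).2 _

/-- Sums: the noises combine to one exact standard Gaussian. -/
lemma Sim.add (h₁ : Sim p₁ κ₁ q₁ e₁) (h₂ : Sim p₂ κ₂ q₂ e₂) (hκ : κ ^ 2 = κ₁ ^ 2 + κ₂ ^ 2)
    (hκ0 : κ ≠ 0) :
    Sim (fun V w => p₁ V w + p₂ V w) κ (q₁ + q₂) (fun V w => e₁ V w + e₂ V w) := by
  obtain ⟨ι, hι, Y₁, N₁, hY₁, hN₁⟩ := h₁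
  obtain ⟨ι', hι', Y₂, N₂, hY₂, hN₂⟩ := h₂
  let P : Env × (ι ⊕ ι' → EE d) → Env × (ι → EE d) := fun z => (z.1, fun i => z.2 (Sum.inl i))
  let Q : Env × (ι ⊕ ι' → EE d) → Env × (ι' → EE d) := fun z => (z.1, fun i => z.2 (Sum.inr i))
  have hP : Measurable P := by fun_prop
  have hQ : Measurable Q := by fun_prop
  have hsplit := measurePreserving_sumPiEquivProdPi
    (X := fun _ : ι ⊕ ι' => EE d) (fun _ => gam d)
  refine ⟨ι ⊕ ι', inferInstance, fun V z => Y₁ V (P z) + Y₂ V (Q z),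
    fun V z => (κ₁ / κ) • N₁ V (P z) + (κ₂ / κ) • N₂ V (Q z),
    Sched.comp_add (Sched.comp_pre hY₁ hP) (Sched.comp_pre hY₂ hQ), fun V hV => ?_⟩
  obtain ⟨m₁, hN₁⟩ := hN₁ V hV
  obtain ⟨m₂, hN₂⟩ := hN₂ V hV
  have y₁ := comp_meas hY₁ hV
  have y₂ := comp_meas hY₂ hV
  refine ⟨by fun_prop, fun w => ⟨?_, ?_⟩⟩
  · have h := law_combine (μ := noise d ι) (ν := noise d ι') (F := fun x => N₁ V (w, x))
      (G := fun z => N₂ V (w, z.2)) (by fun_prop) (by fun_prop) (hN₁ w).1 (fun _ => (hN₂ w).1)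
      (a := κ₁ / κ) (b := κ₂ / κ) (by field_simp; linarith)
    refine Eq.trans ?_ h
    rw [← hsplit.map_eq, Measure.map_map (by fun_prop) hsplit.measurable]
    rfl
  · have e : (fun ω : ι ⊕ ι' → EE d => Y₁ V (P (w, ω)) + Y₂ V (Q (w, ω)) - (p₁ V w + p₂ V w) -
        κ • ((κ₁ / κ) • N₁ V (P (w, ω)) + (κ₂ / κ) • N₂ V (Q (w, ω)))) =
        ((fun z : (ι → EE d) × (ι' → EE d) => Y₁ V (w, z.1) - p₁ V w - κ₁ • N₁ V (w, z.1)) ∘
          MeasurableEquiv.sumPiEquivProdPi (fun _ : ι ⊕ ι' => EE d)) +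
        ((fun z : (ι → EE d) × (ι' → EE d) => Y₂ V (w, z.2) - p₂ V w - κ₂ • N₂ V (w, z.2)) ∘
          MeasurableEquiv.sumPiEquivProdPi (fun _ : ι ⊕ ι' => EE d)) := by
      funext ω
      simp only [P, Q, Pi.add_apply, Function.comp_apply, smul_add, smul_smul,
        mul_div_cancel₀ _ hκ0]
      simp [MeasurableEquiv.sumPiEquivProdPi, Equiv.sumPiEquivProdPi]
      abel
    rw [e]
    refine (eLpNorm_add_le (by fun_prop) (by fun_prop) one_le_two).trans (add_le_add ?_ ?_)
    · rw [eLpNorm_comp_measurePreserving (by fun_prop) hsplit]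
      refine le_trans (le_of_eq ?_) (hN₁ w).2
      exact eLpNorm_comp_measurePreserving
        (g := fun x => Y₁ V (w, x) - p₁ V w - κ₁ • N₁ V (w, x)) (by fun_prop)
        (measurePreserving_fst (μ := noise d ι) (ν := noise d ι'))
    · rw [eLpNorm_comp_measurePreserving (by fun_prop) hsplit]
      refine le_trans (le_of_eq ?_) (hN₂ w).2
      exact eLpNorm_comp_measurePreserving
        (g := fun x => Y₂ V (w, x) - p₂ V w - κ₂ • N₂ V (w, x)) (by fun_prop)
        (measurePreserving_snd (μ := noise d ι) (ν := noise d ι'))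

/-- More noise is always possible. -/
lemma Sim.noise (h : Sim p κ q e) {κ' : ℝ} (hκ : |κ| ≤ κ') (hκ' : 0 < κ') :
    Sim p κ' q e := by
  have h2 : 0 ≤ κ' ^ 2 - κ ^ 2 := by nlinarith [sq_abs κ, abs_nonneg κ]
  have h' := h.add (sim_num (d := d) (f := fun _ : Env => (0 : EE d)) measurable_const
    (Real.sqrt (κ' ^ 2 - κ ^ 2))) (κ := κ') (by rw [Real.sq_sqrt h2]; ring) hκ'.ne'
  exact h'.congr (fun V _ w => add_zero _) (fun V _ w => (add_zero _).le)

/-- A finite sum of known multiples of simulated vectors. -/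
lemma sim_sum {ι : Type} (s : Finset ι) {p : ι → (EE d → ℝ) → Env → EE d} {κ : ι → ℝ}
    {q : ι → ℕ} {e : ι → (EE d → ℝ) → Env → ℝ≥0∞} (h : ∀ i ∈ s, Sim (p i) (κ i) (q i) (e i))
    {K : ℝ} (hK : 0 < K) (hle : ∑ i ∈ s, κ i ^ 2 < K ^ 2) :
    Sim (fun V w => ∑ i ∈ s, p i V w) K (∑ i ∈ s, q i) (fun V w => ∑ i ∈ s, e i V w) := by
  classical
  induction s using Finset.induction_on generalizing K with
  | empty => simpa using sim_num (d := d) (f := fun _ : Env => (0 : EE d)) measurable_const K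
  | insert i s hi ih =>
    rw [Finset.sum_insert hi] at hle
    simp only [Finset.sum_insert hi]
    have h1 : 0 < K ^ 2 - κ i ^ 2 := by
      linarith [Finset.sum_nonneg (s := s) (fun j _ => sq_nonneg (κ j))]
    exact (h i (Finset.mem_insert_self i s)).add
      (ih (fun j hj => h j (Finset.mem_insert_of_mem hj)) (Real.sqrt_pos.2 h1)
        (by rw [Real.sq_sqrt h1.le]; linarith))
      (by rw [Real.sq_sqrt h1.le]; ring) hK.ne'

/-- Substitution of a computed point into a computation. -/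
lemma comp_subst {A B C X : Type} [MeasurableSpace A] [MeasurableSpace B] [MeasurableSpace C]
    [MeasurableSpace X] {qz qr : ℕ} {Z : (EE d → ℝ) → B → EE d} (hZ : Sched.Comp qz Z)
    {Y : (EE d → ℝ) → C → X} (hY : Sched.Comp qr Y) {π : A → B} (hπ : Measurable π)
    {f : A × EE d → C} (hf : Measurable f) :
    Sched.Comp (qz + qr) (fun V a => Y V (f (a, Z V (π a)))) :=
  Sched.comp_bind (G := fun V u => Y V (f u)) (Sched.comp_pre hZ hπ) (Sched.comp_pre hY hf)

/-- Absorption: a computed point becomes a known one; its use costs the L² average of the error. -/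
lemma sim_absorb {ι : Type} [Fintype ι] {qz qr : ℕ}
    {Z : (EE d → ℝ) → Env × (ι → EE d) → EE d} (hZ : Sched.Comp qz Z)
    {r : (EE d → ℝ) → (Env × (ι → EE d)) × EE d → EE d}
    {er : (EE d → ℝ) → (Env × (ι → EE d)) × EE d → ℝ≥0∞} (hr : Sim r κ qr er)
    (hrm : ∀ V, Admissible V → Measurable (r V))
    {η₀ : (EE d → ℝ) → Env × (ι → EE d) → EE d}
    (hη : ∀ V, Admissible V → Measurable (η₀ V) ∧
      ∀ w, (noise d ι).map (fun ω => η₀ V (w, ω)) = gam d)
    (p : (EE d → ℝ) → Env → EE d) {σ s : ℝ} (hσ : σ ^ 2 = s ^ 2 + κ ^ 2) (hσ0 : σ ≠ 0) :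
    Sim p σ (qz + qr) (fun V w =>
      eLpNorm (fun ω => r V ((w, ω), Z V (w, ω)) - p V w - s • η₀ V (w, ω)) 2 (noise d ι) +
        eLpNorm (fun ω => er V ((w, ω), Z V (w, ω))) 2 (noise d ι)) := by
  obtain ⟨ι', hι', Y, N, hY, hN⟩ := hr
  let P : Env × (ι ⊕ ι' → EE d) → Env × (ι → EE d) := fun z => (z.1, fun i => z.2 (Sum.inl i))
  have hP : Measurable P := by fun_prop
  have hsplit := measurePreserving_sumPiEquivProdPi
    (X := fun _ : ι ⊕ ι' => EE d) (fun _ => gam d)
  let R : (EE d → ℝ) → Env × (ι ⊕ ι' → EE d) → ((Env × (ι → EE d)) × EE d) × (ι' → EE d) :=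
    fun V z => ((P z, Z V (P z)), fun i => z.2 (Sum.inr i))
  refine ⟨ι ⊕ ι', inferInstance, fun V z => Y V (R V z),
    fun V z => (s / σ) • η₀ V (P z) + (κ / σ) • N V (R V z),
    ?_, fun V hV => ?_⟩
  · exact comp_subst hZ hY hP (f := fun u => ((P u.1, u.2), fun i => u.1.2 (Sum.inr i)))
      (((hP.comp measurable_fst).prodMk measurable_snd).prodMk
        (measurable_pi_lambda _ fun i => (measurable_pi_apply _).comp measurable_fst.snd))
  obtain ⟨mN, hN⟩ := hN V hV
  obtain ⟨mη, hη⟩ := hη V hV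
  have mY := comp_meas hY hV
  have mZ := comp_meas hZ hV
  have mr := hrm V hV
  refine ⟨by fun_prop, fun w => ⟨?_, ?_⟩⟩
  · have h := law_combine (μ := noise d ι) (ν := noise d ι') (F := fun x => η₀ V (w, x))
      (G := fun z => N V (((w, z.1), Z V (w, z.1)), z.2)) (by fun_prop) (by fun_prop) (hη w)
      (fun x => (hN ((w, x), Z V (w, x))).1)
      (a := s / σ) (b := κ / σ) (by field_simp; linarith)
    refine Eq.trans ?_ h
    rw [← hsplit.map_eq, Measure.map_map (by fun_prop) hsplit.measurable]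
    rfl
  · set A : (ι → EE d) → EE d :=
      fun x => r V ((w, x), Z V (w, x)) - p V w - s • η₀ V (w, x) with hA
    set B : (ι → EE d) × (ι' → EE d) → EE d := fun z =>
      Y V (((w, z.1), Z V (w, z.1)), z.2) - r V ((w, z.1), Z V (w, z.1)) -
        κ • N V (((w, z.1), Z V (w, z.1)), z.2) with hB
    have e : (fun ω : ι ⊕ ι' → EE d => Y V (R V (w, ω)) - p V w -
        σ • ((s / σ) • η₀ V (P (w, ω)) + (κ / σ) • N V (R V (w, ω)))) =
        ((fun z => A z.1 + B z) ∘ MeasurableEquiv.sumPiEquivProdPi (fun _ : ι ⊕ ι' => EE d)) := by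
      funext ω
      simp only [hA, hB, P, R, Function.comp_apply, smul_add, smul_smul, mul_div_cancel₀ _ hσ0]
      simp [MeasurableEquiv.sumPiEquivProdPi, Equiv.sumPiEquivProdPi]
      abel
    have hBm : Measurable B := by simp only [hB]; fun_prop
    have hAm : Measurable A := by simp only [hA]; fun_prop
    have hBe : ∀ x, eLpNorm (fun y => B (x, y)) 2 (noise d ι') ≤ er V ((w, x), Z V (w, x)) :=
      fun x => by simpa only [hB] using (hN ((w, x), Z V (w, x))).2
    clear_value A B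
    have hA1 : Measurable fun z : (ι → EE d) × (ι' → EE d) => A z.1 := hAm.comp measurable_fst
    have hsum : AEStronglyMeasurable (fun z : (ι → EE d) × (ι' → EE d) => A z.1 + B z)
        ((noise d ι).prod (noise d ι')) := (hA1.add hBm).aestronglyMeasurable
    rw [e]
    refine (eLpNorm_comp_measurePreserving hsum hsplit).trans_le ?_
    refine (eLpNorm_add_le hA1.aestronglyMeasurable hBm.aestronglyMeasurable one_le_two).trans ?_
    refine add_le_add (le_of_eq ?_) (eLpNorm_prod_le hBm hBe)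
    rw [← hA]
    exact eLpNorm_comp_measurePreserving (g := A) hAm.aestronglyMeasurable
        (measurePreserving_fst (μ := noise d ι) (ν := noise d ι'))

end Vale.Agent.P347.Zero
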