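import Vale.Agent.P347.Zero.SemTools
import Vale.Agent.P347.Zero.Sim

/-!
L² bounds by real numbers for nonnegative real functions, closed under the operations used in
error budgets.
-/

open MeasureTheory ProbabilityTheory
open scoped ENNReal

namespace Vale.Agent.P347.Zero

variable {α β : Type} [MeasurableSpace α] [MeasurableSpace β] {μ : Measure α}

/-- A nonnegative function of L² size at most r. -/
structure L2Le (μ : Measure α) (g : α → ℝ) (r : ℝ) : Prop where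
  meas : AEStronglyMeasurable g μ
  nonneg : ∀ a, 0 ≤ g a
  bound : eLpNorm g 2 μ ≤ ENNReal.ofReal r
  r_nonneg : 0 ≤ r

lemma L2Le.mono {g : α → ℝ} {r r' : ℝ} (h : L2Le μ g r) (hr : r ≤ r') : L2Le μ g r' :=
  ⟨h.meas, h.nonneg, h.bound.trans (ENNReal.ofReal_le_ofReal hr), h.r_nonneg.trans hr⟩

lemma L2Le.add {g g' : α → ℝ} {r r' : ℝ} (h : L2Le μ g r) (h' : L2Le μ g' r') :
    L2Le μ (fun a => g a + g' a) (r + r') :=
  ⟨h.meas.add h'.meas, fun a => add_nonneg (h.nonneg a) (h'.nonneg a),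
    (eLpNorm_add_le h.meas h'.meas one_le_two).trans
      ((add_le_add h.bound h'.bound).trans (ENNReal.ofReal_add h.r_nonneg h'.r_nonneg).ge),
    add_nonneg h.r_nonneg h'.r_nonneg⟩

lemma L2Le.mul {g : α → ℝ} {r c : ℝ} (h : L2Le μ g r) (hc : 0 ≤ c) :
    L2Le μ (fun a => c * g a) (c * r) :=
  ⟨h.meas.const_mul c, fun a => mul_nonneg hc (h.nonneg a),
    (eLpNorm_const_smul_le (c := c) (f := g) (p := 2) (μ := μ)).trans (by
      rw [Real.enorm_eq_ofReal hc, ENNReal.ofReal_mul hc]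
      exact mul_le_mul_right h.bound _),
    mul_nonneg hc h.r_nonneg⟩

lemma L2Le.const [IsProbabilityMeasure μ] {c : ℝ} (hc : 0 ≤ c) : L2Le μ (fun _ => c) c :=
  ⟨aestronglyMeasurable_const, fun _ => hc, le_of_eq (by
    rw [eLpNorm_const' _ two_ne_zero ENNReal.ofNat_ne_top, measure_univ, ENNReal.one_rpow, mul_one,
      Real.enorm_eq_ofReal hc]), hc⟩

lemma L2Le.sum {ι : Type*} [Fintype ι] {g : ι → α → ℝ} {r : ℝ} (hr : 0 ≤ r)
    (h : ∀ i, L2Le μ (g i) r) : L2Le μ (fun a => ∑ i, g i a) (Fintype.card ι * r) := by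
  refine ⟨?_, fun a => Finset.sum_nonneg fun i _ => (h i).nonneg a, ?_, by positivity⟩
  · convert Finset.aestronglyMeasurable_sum Finset.univ fun i _ => (h i).meas using 1
    ext a; simp
  · rw [show (fun a => ∑ i, g i a) = ∑ i, g i by ext a; simp]
    refine (eLpNorm_sum_le (fun i _ => (h i).meas) one_le_two).trans ?_
    refine (Finset.sum_le_sum fun i _ => (h i).bound).trans (le_of_eq ?_)
    simp [ENNReal.ofReal_mul]

lemma L2Le.of_norm {G : Type*} [NormedAddCommGroup G] {f : α → G} {r : ℝ}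
    (hm : AEStronglyMeasurable f μ) (hr : 0 ≤ r) (h : eLpNorm f 2 μ ≤ ENNReal.ofReal r) :
    L2Le μ (fun a => ‖f a‖) r :=
  ⟨hm.norm, fun _ => norm_nonneg _, by rwa [eLpNorm_norm], hr⟩

lemma L2Le.le {G : Type*} [NormedAddCommGroup G] {f : α → G} {g : α → ℝ} {r : ℝ}
    (h : L2Le μ g r) (hf : ∀ a, ‖f a‖ ≤ g a) : eLpNorm f 2 μ ≤ ENNReal.ofReal r :=
  (eLpNorm_mono_real hf).trans h.bound

lemma L2Le.comp {μ' : Measure β} {Φ : β → α} {g : α → ℝ} {r : ℝ} (h : L2Le μ g r)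
    (hΦ : MeasurePreserving Φ μ' μ) : L2Le μ' (fun b => g (Φ b)) r :=
  ⟨h.meas.comp_measurePreserving hΦ, fun b => h.nonneg _,
    (eLpNorm_comp_measurePreserving h.meas hΦ).trans_le h.bound, h.r_nonneg⟩

variable {d : ℕ}

/-- A bound affine in the first variable, averaged. -/
lemma L2Le.of_sections {ν : Measure (EE d)} [IsProbabilityMeasure ν] {ρ : Measure β}
    [SFinite ρ] {f : EE d × β → EE d} (hf : Measurable f) {e₀ e₁ M : ℝ} (h₀ : 0 ≤ e₀)
    (h₁ : 0 ≤ e₁) (hM : 0 ≤ M) (hν : eLpNorm id 2 ν ≤ ENNReal.ofReal M)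
    (h : ∀ x, eLpNorm (fun y => f (x, y)) 2 ρ ≤ ENNReal.ofReal (e₀ + e₁ * ‖x‖)) :
    L2Le (ν.prod ρ) (fun z => ‖f z‖) (e₀ + e₁ * M) := by
  refine ⟨hf.norm.aestronglyMeasurable, fun _ => norm_nonneg _, ?_, by positivity⟩
  rw [eLpNorm_norm]
  have hg : L2Le ν (fun x : EE d => e₀ + e₁ * ‖x‖) (e₀ + e₁ * M) :=
    (L2Le.const h₀).add ((L2Le.of_norm (f := (id : EE d → EE d))
      measurable_id.aestronglyMeasurable hM hν).mul h₁)
  refine (eLpNorm_prod_le hf h).trans (le_trans (le_of_eq ?_) hg.bound)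
  refine eLpNorm_congr_enorm_ae (ae_of_all _ fun x => ?_)
  rw [Real.enorm_eq_ofReal (hg.nonneg x), enorm_eq_self]

end Vale.Agent.P347.Zero
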