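import Vale.Agent.P347.Zero.Scaled
import Vale.Agent.P347.Gauss
import Vale.Agent.P347.InvBase

/-!
The weights of the calculus are the densities of the laws along the flows, so its square bounds
are bounds in the laws.
-/

open MeasureTheory Set
open scoped ENNReal RealInnerProductSpace

namespace Vale.Agent.P347.Zero

open Calc

lemma pZ_pos' {d : ℕ} {V : EE d → ℝ} (hV : Admissible V) {v : ℝ} (hv : 0 < v) (y : EE d) :
    0 < pZ V v y := by
  have hVc : Continuous V := hV.1.continuous
  have hint : Integrable (pw V v y) := by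
    refine (inv_wt_integrable₀ hV).mono' (by unfold pw; fun_prop) (ae_of_all _ fun x => ?_)
    rw [Real.norm_eq_abs, pw, abs_of_pos (Real.exp_pos _), inv_wt]
    refine Real.exp_le_exp.2 ?_
    have : 0 ≤ ‖x - y‖ ^ 2 / (2 * v) := by positivity
    linarith
  exact integral_exp_pos hint

lemma pdens_pos' {d : ℕ} {V : EE d → ℝ} (hV : Admissible V) {v : ℝ} (hv : 0 < v) (y : EE d) :
    0 < pdens V v y := by
  have := pZ_pos' hV hv y
  unfold pdens; positivity

variable {K : ℕ → ℝ} {c : Cx K} {V : EE c.d → ℝ} {s σ : ℝ} {y : EE c.d}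

lemma scaleAt_mem {t : ℝ} (ht : t ∈ times) : scaleAt t ∈ scales := by
  have h1 : -(9 / 10 : ℝ) < t := ht.1
  have h2 : t < 9 / 10 := ht.2
  constructor <;> · unfold scaleAt; nlinarith

lemma continuous_wgt (t : ℝ) (ht : t ∈ times) : Continuous (wgt c t) := by
  have hc : Continuous (c.V (scaleAt t)) :=
    continuous_iff_continuousAt.2 fun x => (c.grad _ (scaleAt_mem ht) x).continuousAt
  unfold wgt posAt
  fun_prop

lemma Scales.law_eq (h : Scales c V s y σ) (hV : Admissible V) {t : ℝ} (ht : t ∈ times) :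
    ∃ Kc : ℝ, 0 < Kc ∧ (post V s y (Real.sqrt s * t)).prod (gam c.d) =
      (volume : Measure (EE c.d × EE c.d)).withDensity
        fun z => ENNReal.ofReal (Kc * wgt c t z) := by
  set G := ((Real.pi / (1 / 2)) ^ ((c.d : ℝ) / 2))⁻¹ with hG
  have hs : 0 < pdens V s y := pdens_pos' hV h.pos y
  have hu : 0 < s * scaleAt t := mul_pos h.pos (scaleAt_pos ht)
  have hp : ∀ ξ : EE c.d, pdens V (s - (Real.sqrt s * t) ^ 2) (y + (Real.sqrt s * t) • ξ) =
      Real.exp (-c.V (scaleAt t) (posAt c t ξ)) := fun ξ => by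
    rw [h.potential, pot, neg_neg, h.scale_eq, h.pos_eq,
      Real.exp_log (pdens_pos' hV (by rw [← h.scale_eq]; exact hu) _)]
  set a := fun ξ : EE c.d =>
    pdens V (s - (Real.sqrt s * t) ^ 2) (y + (Real.sqrt s * t) • ξ) / pdens V s y with ha
  have hac : Continuous a := by
    simp only [ha, hp]
    have hc : Continuous (c.V (scaleAt t)) :=
      continuous_iff_continuousAt.2 fun x => (c.grad _ (scaleAt_mem ht) x).continuousAt
    unfold posAt
    fun_prop
  have ha0 : ∀ ξ, 0 ≤ a ξ := fun ξ => by rw [ha]; simp only [hp]; positivity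
  refine ⟨G * G / pdens V s y, by positivity, ?_⟩
  have hg := continuous_gdens (d := c.d)
  have hpost : post V s y (Real.sqrt s * t) =
      (volume : Measure (EE c.d)).withDensity fun ξ => ENNReal.ofReal (gdens c.d ξ * a ξ) := by
    rw [post, gam_withDensity, ← withDensity_mul _ hg.measurable.ennreal_ofReal
      hac.measurable.ennreal_ofReal]
    exact withDensity_congr_ae (ae_of_all _ fun ξ =>
      (ENNReal.ofReal_mul (gdens_nonneg ξ)).symm)
  rw [hpost, show gam c.d = (volume : Measure (EE c.d)).withDensity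
      (fun x => ENNReal.ofReal (gdens c.d x)) from gam_withDensity,
    prod_withDensity ((hg.fun_mul hac).measurable.ennreal_ofReal) hg.measurable.ennreal_ofReal,
    ← Measure.volume_eq_prod]
  refine withDensity_congr_ae (ae_of_all _ fun z => ?_)
  simp only []
  rw [← ENNReal.ofReal_mul (mul_nonneg (gdens_nonneg _) (ha0 _))]
  congr 1
  simp only [ha, hp, gdens, ← hG, wgt]
  rw [show -‖z.1‖ ^ 2 / 2 - ‖z.2‖ ^ 2 / 2 - c.V (scaleAt t) (posAt c t z.1) =
    -(1 / 2) * ‖z.1‖ ^ 2 + -(1 / 2) * ‖z.2‖ ^ 2 + -c.V (scaleAt t) (posAt c t z.1) by ring,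
    Real.exp_add, Real.exp_add]
  ring

/-- A bound on the weighted integral is a bound in the law. -/
lemma Scales.sq_bound (h : Scales c V s y σ) (hV : Admissible V) {t : ℝ} (ht : t ∈ times)
    [IsProbabilityMeasure (post V s y (Real.sqrt s * t))] {f : EE c.d × EE c.d → ℝ}
    (hf : ∀ z, 0 ≤ f z) {C : ℝ} (hi : Integrable fun z => f z * wgt c t z)
    (hC : ∫ z, f z * wgt c t z ≤ C * mass c t) :
    ∫⁻ z, ENNReal.ofReal (f z) ∂(post V s y (Real.sqrt s * t)).prod (gam c.d) ≤
      ENNReal.ofReal C := by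
  obtain ⟨Kc, hK, hlaw⟩ := h.law_eq hV ht
  have hw : ∀ z, 0 ≤ wgt c t z := fun z => (Real.exp_pos _).le
  have hwc := continuous_wgt (c := c) t ht
  have hm : Measurable fun z => ENNReal.ofReal (Kc * wgt c t z) :=
    (hwc.measurable.const_mul _).ennreal_ofReal
  have h1 : ∫⁻ z, ENNReal.ofReal (Kc * wgt c t z) = 1 := by
    have := congrArg (fun μ : Measure (EE c.d × EE c.d) => μ univ) hlaw
    simpa [withDensity_apply _ MeasurableSet.univ] using this.symm
  have hmass : Kc * mass c t = 1 := by
    have : ∫ z, Kc * wgt c t z = 1 := by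
      rw [integral_eq_lintegral_of_nonneg_ae (ae_of_all _ fun z => mul_nonneg hK.le (hw z))
        (hwc.aestronglyMeasurable.const_mul _), h1, ENNReal.toReal_one]
    rwa [integral_const_mul] at this
  rw [hlaw, lintegral_withDensity_eq_lintegral_mul_non_measurable _ hm
    (ae_of_all _ fun z => ENNReal.ofReal_lt_top)]
  simp only [Pi.mul_apply]
  calc ∫⁻ z, ENNReal.ofReal (Kc * wgt c t z) * ENNReal.ofReal (f z)
      = ∫⁻ z, ENNReal.ofReal (Kc * (f z * wgt c t z)) := by
        refine lintegral_congr fun z => ?_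
        rw [← ENNReal.ofReal_mul (mul_nonneg hK.le (hw z))]
        congr 1; ring
    _ = ENNReal.ofReal (∫ z, Kc * (f z * wgt c t z)) :=
        (ofReal_integral_eq_lintegral_ofReal (hi.const_mul _)
          (ae_of_all _ fun z => mul_nonneg hK.le (mul_nonneg (hf z) (hw z)))).symm
    _ ≤ _ := by
        refine ENNReal.ofReal_le_ofReal ?_
        rw [integral_const_mul]
        calc Kc * ∫ z, f z * wgt c t z ≤ Kc * (C * mass c t) :=
              mul_le_mul_of_nonneg_left hC hK.le
          _ = C * (Kc * mass c t) := by ring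
          _ = C := by rw [hmass, mul_one]

end Vale.Agent.P347.Zero
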