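import Vale.Agent.P347.Zero.SemErrAll

/-!
A simple bound of the error factor of the semantic identity by the four small powers.
-/

namespace Vale.Agent.P347.Zero

/-- The arithmetic of the bound. -/
lemma semE_arith {C U q e f p n nG L l w₁ w₂ P : ℝ} (hC : 1 ≤ C) (hU : 0 ≤ U) (hq0 : 0 ≤ q)
    (hq : q ≤ U) (he0 : 0 ≤ e) (he : e ≤ 120 * (C * U)) (hf0 : 0 ≤ f) (hf : f ≤ 4928 * (C * U))
    (hp0 : 0 ≤ p) (hp : C ^ 2 * p ≤ U) (hn0 : 0 ≤ n) (hnG : 1 ≤ nG) (hn : n ≤ nG) (hL0 : 0 ≤ L)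
    (hL : L ≤ 1) (hl : 0 ≤ l) (hl1 : l ≤ 1) (hw₁0 : 0 ≤ w₁) (hw₁ : w₁ ≤ 1) (hw₂0 : 0 ≤ w₂)
    (hw₂ : w₂ ≤ 1) (hP0 : 0 ≤ P) (hP : P ≤ 4 * (C * nG)) :
    (2 + 4 * L) * (9 * C * nG * q + 24 * C ^ 2 * p) +
      (q + C * w₁ * (n * f) +
        L * (p * P + 2 * (n * (q + l * q) + 2 * C * w₁ * (n * e) + 2 * C * w₂ * (n * f)))) ≤
    30000 * (C ^ 2 * nG * U) := by
  have hC0 : 0 ≤ C := by linarith
  have hnG0 : 0 ≤ nG := by linarith
  set T := C ^ 2 * nG * U
  have u1 : U ≤ T := le_mul_of_one_le_left hU (by nlinarith)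
  have u2 : C * nG * U ≤ T :=
    mul_le_mul_of_nonneg_right (mul_le_mul_of_nonneg_right (le_self_pow₀ hC two_ne_zero) hnG0) hU
  have u3 : nG * U ≤ T := by
    refine le_trans ?_ u2
    rw [mul_assoc]
    exact le_mul_of_one_le_left (mul_nonneg hnG0 hU) hC
  have b1 : 9 * C * nG * q ≤ 9 * T := by
    have := mul_le_mul_of_nonneg_left hq (mul_nonneg hC0 hnG0)
    linarith
  have b2 : C * w₁ * (n * f) ≤ 4928 * T :=
    (mul_le_mul (mul_le_of_le_one_right hC0 hw₁) (mul_le_mul hn hf hf0 hnG0)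
      (mul_nonneg hn0 hf0) hC0).trans_eq (by ring)
  have b3 : p * P ≤ 4 * T := by
    have : p ≤ U := (le_mul_of_one_le_left hp0 (one_le_pow₀ hC)).trans hp
    refine (mul_le_mul this hP hP0 hU).trans ?_
    linarith
  have b4 : n * (q + l * q) ≤ 2 * T := by
    have : q + l * q ≤ 2 * U := by
      have := mul_le_of_le_one_left hq0 hl1
      linarith
    refine (mul_le_mul hn this (by positivity) hnG0).trans ?_
    linarith
  have b5 : 2 * C * w₁ * (n * e) ≤ 240 * T :=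
    (mul_le_mul (mul_le_of_le_one_right (by linarith : 0 ≤ 2 * C) hw₁) (mul_le_mul hn he he0 hnG0)
      (mul_nonneg hn0 he0) (by linarith)).trans_eq (by ring)
  have b6 : 2 * C * w₂ * (n * f) ≤ 9856 * T :=
    (mul_le_mul (mul_le_of_le_one_right (by linarith : 0 ≤ 2 * C) hw₂) (mul_le_mul hn hf hf0 hnG0)
      (mul_nonneg hn0 hf0) (by linarith)).trans_eq (by ring)
  have c1 : (2 + 4 * L) * (9 * C * nG * q + 24 * C ^ 2 * p) ≤ 6 * (9 * T + 24 * T) :=
    mul_le_mul (by linarith) (add_le_add b1 (by linarith)) (by positivity) (by norm_num)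
  have c2 : L * (p * P + 2 * (n * (q + l * q) + 2 * C * w₁ * (n * e) + 2 * C * w₂ * (n * f))) ≤
      4 * T + 2 * (2 * T + 240 * T + 9856 * T) :=
    (mul_le_of_le_one_left (by positivity) hL).trans (by linarith)
  linarith

/-- The error factor is a polynomial in the sizes times the four small powers. -/
theorem semE_le {c : Cfg} {C κ s σ l : ℝ} {m N : ℕ} (hC : 1 ≤ C) (hκ : 0 ≤ κ) (hs : 0 < s)
    (hs1 : s ≤ 1) (hσ : Real.sqrt s ≤ σ) (ha : 0 < c.a) (ha1 : c.a ≤ 1) (hτ : 0 ≤ c.τ)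
    (hl : 0 ≤ l) (hl1 : l ≤ 1) (hL : corrLip c C s σ l ≤ 1) :
    semE c C κ s σ l m N ≤ 30000 * C ^ 8 * (c.G.n + 1) * (c.L.n + 1) ^ 2 *
      (c.τ ^ (m - 1) + (2 * c.a) ^ (m - 2) + κ ^ c.k + ((N : ℝ))⁻¹ ^ m) / (c.a * s ^ 2) := by
  have hσ0 : 0 < σ := (Real.sqrt_pos.2 hs).trans_le hσ
  have hsq : s ≤ Real.sqrt s := by
    rw [Real.le_sqrt' hs]; nlinarith
  have hsσ : s ≤ σ ^ 2 := by
    rw [← Real.sq_sqrt hs.le]; exact pow_le_pow_left₀ (Real.sqrt_nonneg _) hσ 2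
  have hb0 : 0 ≤ backLen s := Real.sqrt_nonneg _
  have hb2 : backLen s ^ 2 = s / 2 := Real.sq_sqrt (by linarith)
  have hb1 : backLen s ≤ 1 := by nlinarith
  have hL0 : 0 ≤ corrLip c C s σ l := by unfold corrLip; positivity
  set nL : ℝ := (c.L.n : ℝ) + 1 with hnL
  set nG : ℝ := (c.G.n : ℝ) + 1 with hnG
  have hnL1 : 1 ≤ nL := le_add_of_nonneg_left (Nat.cast_nonneg _)
  have hnG1 : 1 ≤ nG := le_add_of_nonneg_left (Nat.cast_nonneg _)
  set X := c.τ ^ (m - 1) + (2 * c.a) ^ (m - 2) + κ ^ c.k + ((N : ℝ))⁻¹ ^ m with hX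
  have t1 : 0 ≤ c.τ ^ (m - 1) := pow_nonneg hτ _
  have t2 : 0 ≤ (2 * c.a) ^ (m - 2) := pow_nonneg (by linarith) _
  have t3 : 0 ≤ κ ^ c.k := pow_nonneg hκ _
  have t4 : 0 ≤ ((N : ℝ))⁻¹ ^ m := by positivity
  have hX0 : 0 ≤ X := by positivity
  set U := C ^ 6 * nL ^ 2 * X / (c.a * s ^ 2) with hU
  have hU0 : 0 ≤ U := by positivity
  have has : c.a * s ^ 2 ≤ s ^ 2 := mul_le_of_le_one_left (sq_nonneg s) ha1
  have hs2 : s ^ 2 ≤ s := by nlinarith
  -- everything is at most a multiple of U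
  have hbase : ∀ {p : ℕ} {r : ℝ}, p ≤ 6 → c.a * s ^ 2 ≤ r → ∀ {x : ℝ}, 0 ≤ x → x ≤ X →
      C ^ p * x / r ≤ U := fun {p} {r} hp hr {x} hx hxX => by
    rw [hU]
    refine div_le_div₀ (by positivity) ?_ (by positivity) hr
    calc C ^ p * x ≤ C ^ 6 * X := mul_le_mul (pow_le_pow_right₀ hC hp) hxX hx (by positivity)
      _ ≤ C ^ 6 * nL ^ 2 * X := by
          rw [mul_assoc]
          exact mul_le_mul_of_nonneg_left (le_mul_of_one_le_left hX0 (one_le_pow₀ hnL1))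
            (by positivity)
  have hquad : semQuadE C s m N ≤ U := by
    have := hbase (p := 1) (by norm_num) has t4 (by linarith)
    simpa [semQuadE] using this
  have hkk : C ^ 2 * κ ^ c.k ≤ U := by
    have := hbase (p := 2) (r := 1) (by norm_num) (by nlinarith) t3 (by linarith)
    simpa using this
  have hle : semLeafE c C κ s m ≤ 60 * C ^ 2 * nL * X / s := by
    have e1 : 9 * C * nL * (4 * C * c.τ ^ (m - 1) / s) ≤ 36 * C ^ 2 * nL * X / s := by
      rw [show 9 * C * nL * (4 * C * c.τ ^ (m - 1) / s) = 36 * C ^ 2 * nL * c.τ ^ (m - 1) / s by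
        ring]
      gcongr; linarith
    have e2 : 24 * C ^ 2 * κ ^ c.k ≤ 24 * C ^ 2 * nL * X / s := by
      rw [le_div_iff₀ hs]
      calc 24 * C ^ 2 * κ ^ c.k * s ≤ 24 * C ^ 2 * (1 * X) * 1 := by gcongr; linarith
        _ ≤ 24 * C ^ 2 * (nL * X) * 1 := by gcongr
        _ = _ := by ring
    simp only [semLeafE, ← hnL]
    have : 60 * C ^ 2 * nL * X / s = 36 * C ^ 2 * nL * X / s + 24 * C ^ 2 * nL * X / s := by ring
    linarith
  have hleU : semLeafE c C κ s m ≤ 60 * U := by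
    refine hle.trans ?_
    rw [hU, show 60 * (C ^ 6 * nL ^ 2 * X / (c.a * s ^ 2)) =
      60 * C ^ 6 * nL ^ 2 * X / (c.a * s ^ 2) by ring]
    gcongr ?_ / ?_
    · gcongr ?_ * X
      gcongr
      · norm_num
      · exact le_self_pow₀ hnL1 two_ne_zero
    · linarith
  have hsqU : semSqE c C κ s m ≤ 2464 * U := by
    have h1 : semLeafE c C κ s m + 16 * C * (2 * c.a) ^ (m - 2) + κ ^ c.k ≤
        77 * C ^ 2 * nL * X / s := by
      have e0 : C * X ≤ C ^ 2 * nL * X / s := by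
        rw [le_div_iff₀ hs]
        calc C * X * s ≤ C * X * 1 := by gcongr
          _ ≤ C ^ 2 * X * nL :=
              mul_le_mul (mul_le_mul_of_nonneg_right (le_self_pow₀ hC two_ne_zero) hX0) hnL1
                zero_le_one (by positivity)
          _ = _ := by ring
      have e2 : 16 * C * (2 * c.a) ^ (m - 2) ≤ 16 * (C * X) := by
        rw [← mul_assoc]; gcongr; linarith
      have e3 : κ ^ c.k ≤ C * X := (by linarith : κ ^ c.k ≤ X).trans (le_mul_of_one_le_left hX0 hC)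
      have : 77 * C ^ 2 * nL * X / s = 60 * C ^ 2 * nL * X / s + 17 * (C ^ 2 * nL * X / s) := by
        ring
      linarith
    simp only [semSqE, ← hnL]
    refine (mul_le_mul_of_nonneg_left h1 (by positivity)).trans ?_
    rw [hU, show 32 * C ^ 3 * nL / c.a * (77 * C ^ 2 * nL * X / s) =
        2464 * C ^ 5 * nL ^ 2 * X / (c.a * s) by ring,
      show 2464 * (C ^ 6 * nL ^ 2 * X / (c.a * s ^ 2)) =
        2464 * C ^ 6 * nL ^ 2 * X / (c.a * s ^ 2) by ring]
    gcongr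
    · norm_num
  have hw1 : backLen s ^ 2 / σ ≤ 1 := by
    rw [hb2, div_le_one hσ0]; linarith
  have hw2 : backLen s ^ 2 * l / σ ^ 2 ≤ 1 := by
    rw [hb2, div_le_one (by positivity)]
    nlinarith
  have hG : (c.G.n : ℝ) ≤ nG := by linarith
  have hsqC : semSqE c C κ s m * (1 + C) ≤ 4928 * (C * U) := by
    have := mul_le_mul hsqU (show 1 + C ≤ 2 * C by linarith) (by linarith) (by linarith)
    linarith
  have hleC : semLeafE c C κ s m * (1 + C) ≤ 120 * (C * U) := by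
    have := mul_le_mul hleU (show 1 + C ≤ 2 * C by linarith) (by linarith) (by linarith)
    linarith
  have hq0 : 0 ≤ semQuadE C s m N := by unfold semQuadE; positivity
  have he0 := semLeafE_nonneg (c := c) (m := m) (by linarith : 0 ≤ C) hκ hs hτ
  have hf0 := semSqE_nonneg (c := c) (m := m) (by linarith : 0 ≤ C) hκ hs hτ ha.le
  have p1 : 1 + backLen s * C + l + c.G.n * (C + l) ≤ 4 * (C * nG) := by
    have := mul_le_of_le_one_left (by linarith : 0 ≤ C) hb1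
    have := mul_le_mul_of_nonneg_left (show C + l ≤ 2 * C by linarith)
      (Nat.cast_nonneg c.G.n : (0:ℝ) ≤ c.G.n)
    have : (c.G.n : ℝ) * (2 * C) = 2 * (C * nG) - 2 * C := by rw [hnG]; ring
    have := le_mul_of_one_le_right (by linarith : 0 ≤ C) hnG1
    linarith
  rw [show 30000 * C ^ 8 * nG * nL ^ 2 * X / (c.a * s ^ 2) = 30000 * (C ^ 2 * nG * U) by
    rw [hU]; ring]
  unfold semE
  rw [← hnG, mul_div_assoc C (backLen s ^ 2), mul_div_assoc (2 * C) (backLen s ^ 2),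
    show 2 * C * backLen s ^ 2 * l / σ ^ 2 = 2 * C * (backLen s ^ 2 * l / σ ^ 2) by ring]
  exact semE_arith hC hU0 hq0 hquad (mul_nonneg he0 (by linarith)) hleC
    (mul_nonneg hf0 (by linarith)) hsqC t3 hkk (Nat.cast_nonneg _) hnG1 hG hL0 hL hl hl1
    (by positivity) hw1 (by positivity) hw2 (by positivity) p1

end Vale.Agent.P347.Zero
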