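import Vale.Agent.P347.Zero.Levels
import Vale.Agent.P347.Zero.SemErrBound

/-!
The numbers of every halving for all small ε: the rounds depend only on the level count, the
order only on the rounds and the grid exponent.
-/

open MeasureTheory Filter Topology

namespace Vale.Agent.P347.Zero

/-- The error factor of the semantic identity is nonnegative. -/
lemma semE_nonneg {c : Cfg} {C κ s σ l : ℝ} {m N : ℕ} (hC : 1 ≤ C) (hκ : 0 ≤ κ) (hs : 0 < s)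
    (hσ : 0 < σ) (hl : 0 ≤ l) (hτ : 0 ≤ c.τ) (ha : 0 < c.a) : 0 ≤ semE c C κ s σ l m N := by
  have h0 : 0 ≤ C := by linarith
  have := semLeafE_nonneg (c := c) (m := m) h0 hκ hs hτ
  have := semSqE_nonneg (c := c) (m := m) h0 hκ hs hτ ha.le
  have : 0 ≤ semQuadE C s m N := by unfold semQuadE; positivity
  have : 0 ≤ backLen s := Real.sqrt_nonneg _
  have : 0 ≤ corrLip c C s σ l := by unfold corrLip; positivity
  unfold semE; positivity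

/-- The rounds of every fixed point iteration. -/
def lvRounds (q₀ : ℕ) : ℕ := 400 * q₀ * (7 * q₀ + 10)

/-- The order of the rules. -/
noncomputable def lvOrder (q₀ : ℕ) : ℕ := ⌈(7 * (q₀ : ℝ) + 10) / lvBeta q₀ (lvRounds q₀)⌉₊ + 2

/-- The grid exponent is at most an eighth of the gain. -/
lemma lvBeta_le {q₀ : ℕ} (hq : 1 ≤ q₀) (k : ℕ) : lvBeta q₀ k ≤ lvH q₀ / 8 := by
  have h1 : 200 * q₀ ≤ costK k ^ (lvNum q₀ + 1) := by
    have hk : 2 ≤ costK k := by simp [costK]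
    calc 200 * q₀ ≤ 2 * (lvNum q₀ + 1) := by unfold lvNum; nlinarith
      _ ≤ 2 * 2 ^ lvNum q₀ := Nat.mul_le_mul_left 2 (Nat.lt_two_pow_self)
      _ = 2 ^ (lvNum q₀ + 1) := (pow_succ' 2 _).symm
      _ ≤ _ := Nat.pow_le_pow_left hk _
  have hq0 : (0 : ℝ) < q₀ := by exact_mod_cast hq
  have h2 : 200 * (q₀ : ℝ) ≤ ((costK k ^ (lvNum q₀ + 1) : ℕ) : ℝ) := by exact_mod_cast h1
  rw [lvBeta, lvH, div_div]
  exact one_div_le_one_div_of_le (by positivity) (by linarith)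

/-- Powers of the small parameters of a level are below ε^(7 q₀ + 10). -/
lemma lvPow_le {q₀ : ℕ} (hq : 1 ≤ q₀) {C ε : ℝ} (hC : 0 ≤ C) (hε : 0 < ε) (hε1 : ε ≤ 1)
    {l : ℕ} (G L : Rule) {m : ℕ} (hm : lvOrder q₀ ≤ m) :
    let β := lvBeta q₀ (lvRounds q₀)
    let c := lvCfg q₀ ε l G L (lvRounds q₀)
    c.τ ^ (m - 1) + (2 * c.a) ^ (m - 2) + lvKap q₀ C ε ^ c.k + ((gridN β ε : ℝ))⁻¹ ^ m ≤
      (2 + 4 ^ (m - 2) + (8 * C) ^ lvRounds q₀) * ε ^ (7 * (q₀ : ℝ) + 10) := by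
  intro β c
  have hβ0 : 0 < β := lvBeta_pos q₀ _
  obtain ⟨hη0, hη1⟩ := eta_facts hq
  obtain ⟨hθ4, -, -⟩ := lvTheta_facts hq l
  have hβη : β ≤ lvH q₀ / 8 := lvBeta_le hq _
  set η := lvH q₀ / 8 with hη
  set R : ℝ := 7 * (q₀ : ℝ) + 10 with hR
  have hR0 : 0 < R := by positivity
  have hm2 : 2 ≤ m := le_trans (Nat.le_add_left 2 _) hm
  have hRm : R ≤ β * ((m - 2 : ℕ) : ℝ) := by
    have : R / β ≤ ((m - 2 : ℕ) : ℝ) := by
      refine (Nat.le_ceil _).trans ?_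
      have hc : ⌈R / β⌉₊ + 2 ≤ m := hm
      exact_mod_cast (by omega : ⌈R / β⌉₊ ≤ m - 2)
    rw [div_le_iff₀ hβ0] at this
    linarith
  have pw : ∀ {x : ℝ} {j : ℕ}, β ≤ x → m - 2 ≤ j → (ε ^ x) ^ j ≤ ε ^ R := fun {x j} hx hj => by
    rw [← Real.rpow_natCast (ε ^ x) j, ← Real.rpow_mul hε.le]
    refine Real.rpow_le_rpow_of_exponent_ge hε hε1 (hRm.trans ?_)
    exact mul_le_mul hx (by exact_mod_cast hj) (Nat.cast_nonneg _) (hβ0.le.trans hx)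
  have hτ : c.τ ^ (m - 1) ≤ ε ^ R := pw (x := η) hβη (by omega)
  have ha : (2 * c.a) ^ (m - 2) ≤ 4 ^ (m - 2) * ε ^ R := by
    show (2 * (2 * ε ^ (lvTheta q₀ l - 2 * lvH q₀))) ^ (m - 2) ≤ _
    rw [← mul_assoc, mul_pow, show (2 : ℝ) * 2 = 4 by norm_num]
    refine mul_le_mul_of_nonneg_left (pw ?_ le_rfl) (by positivity)
    linarith
  have hκ : lvKap q₀ C ε ^ c.k = (8 * C) ^ lvRounds q₀ * ε ^ R := by
    show (8 * C * ε ^ (lvH q₀ / 4)) ^ lvRounds q₀ = _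
    rw [mul_pow, ← Real.rpow_natCast (ε ^ _) (lvRounds q₀), ← Real.rpow_mul hε.le]
    have : (q₀ : ℝ) ≠ 0 := by exact_mod_cast (by omega : q₀ ≠ 0)
    have e : lvH q₀ / 4 * (lvRounds q₀ : ℝ) = R := by
      rw [lvH, lvRounds, hR]; push_cast; field_simp; ring
    rw [e]
  have hN : ((gridN β ε : ℝ))⁻¹ ^ m ≤ ε ^ R := by
    refine (pow_le_pow_left₀ (by positivity) ?_ m).trans (pw (x := β) le_rfl (by omega))
    rw [← inv_inv (ε ^ β)]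
    refine inv_anti₀ (inv_pos.2 (Real.rpow_pos_of_pos hε _)) ?_
    rw [← Real.rpow_neg hε.le]
    exact Nat.le_ceil _
  rw [hκ]
  linarith

/-- For all small ε there are rules such that every halving has its numbers. -/
theorem stepData_eventually {q₀ : ℕ} (hq : 1 ≤ q₀) {m : ℕ} (hmo : lvOrder q₀ ≤ m) :
    ∃ C : ℝ, 1 ≤ C ∧ ∃ L : Rule, L.n = m + 1 ∧
      ∀ᶠ ε in 𝓝[>] (0 : ℝ), ∃ G : Rule,
        G.n = gridN (lvBeta q₀ (lvRounds q₀)) ε * m + 1 ∧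
        ∀ d l, 1 ≤ l → l ≤ lvNum q₀ → ∀ s, vMin q₀ ε < s → s ≤ 2 * ε →
          StepData d q₀ ε (gridN (lvBeta q₀ (lvRounds q₀)) ε)
            (lvNodes (lvBeta q₀ (lvRounds q₀)) m ε) (lvRounds q₀) l s
            (lvPar q₀ C ε l s (lvCfg q₀ ε l G L (lvRounds q₀))) := by
  have hm : 2 ≤ m := le_trans (Nat.le_add_left 2 _) hmo
  obtain ⟨C, hC, L, hLn, hL, hG⟩ := semBound_of_rules m hm
  refine ⟨C, hC, L, hLn, ?_⟩
  set k := lvRounds q₀ with hk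
  set β := lvBeta q₀ k with hβ
  have hβ0 : 0 < β := lvBeta_pos q₀ k
  have hβη : β ≤ lvH q₀ / 8 := lvBeta_le hq k
  obtain ⟨hη0, hη1⟩ := eta_facts hq
  obtain ⟨ε₁, h1, h64, hok⟩ := level_ok q₀ hq C (2 * m + 4) hC (by positivity)
  obtain ⟨ε₂, h2, -, hsm2⟩ := exists_small hη0 (show (1 : ℝ) ≤ 4 by norm_num)
  set K : ℝ := 30000 * C ^ 8 * (2 * m + 4) * ((m : ℝ) + 2) ^ 2 *
    (2 + 4 ^ (m - 2) + (8 * C) ^ k) with hK
  obtain ⟨ε₃, h3, -, hsm3⟩ := exists_small one_pos (le_max_left 1 (4 * K))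
  filter_upwards [Ioo_mem_nhdsGT (lt_min h1 (lt_min h2 h3))] with ε hεI
  obtain ⟨hε, hlt⟩ := hεI
  obtain ⟨hle1, hlt'⟩ := lt_min_iff.1 hlt
  obtain ⟨hle2, hle3⟩ := lt_min_iff.1 hlt'
  have hε1 : ε ≤ 1 := by linarith
  obtain ⟨hJ1, hJ2⟩ := gridN_facts (β := β) hβ0.le hε hε1
  have hN : 1 ≤ gridN β ε := by exact_mod_cast hJ1
  obtain ⟨G, hGn, hGok, hsb⟩ := hG (gridN β ε) hN
  refine ⟨G, hGn, fun d l hl hlm s hs hs2 => ?_⟩
  have hs0 : 0 < s := (show (0:ℝ) < vMin q₀ ε by unfold vMin; positivity).trans hs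
  have hu : 1 ≤ ε ^ (-(lvH q₀ / 8)) :=
    Real.one_le_rpow_of_pos_of_le_one_of_nonpos hε hε1 (by linarith)
  have hG3 : (G.n : ℝ) + 3 ≤ (2 * (m : ℝ) + 4) * ε ^ (-(lvH q₀ / 8)) := by
    have hmon : ε ^ (-β) ≤ ε ^ (-(lvH q₀ / 8)) :=
      Real.rpow_le_rpow_of_exponent_ge hε hε1 (by linarith)
    rw [hGn]; push_cast
    have := mul_le_mul_of_nonneg_right (hJ2.trans (by linarith :
      2 * ε ^ (-β) ≤ 2 * ε ^ (-(lvH q₀ / 8)))) (Nat.cast_nonneg (α := ℝ) m)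
    linarith
  have h := hok ε hε hle1.le l hl hlm G L k hGok hL hG3 s hs0 hs2
  set c := lvCfg q₀ ε l G L k with hc
  set σ := lvSig q₀ ε l s / 2 with hσ
  have hsem := h.sem d (driftAll (by linarith))
  have hSB : SemBound d c s σ (semE c C (lvKap q₀ C ε) s σ (Real.sqrt s) m (gridN β ε)) :=
    hsb d c rfl rfl (2 * ε) C (lvKap q₀ C ε) s σ (Real.sqrt s) le_rfl (by linarith) hsem h.back
      h.sqrt_le
  refine ⟨rfl, ?_, le_rfl, h.ok, le_rfl, le_rfl, rfl, le_rfl, le_rfl, le_rfl, le_rfl,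
    ⟨lvKap q₀ C ε, Real.sqrt s, hsem, h.back, h.corr⟩, h.aq, h.gq, h.outer,
    ⟨semE c C (lvKap q₀ C ε) s σ (Real.sqrt s) m (gridN β ε), ?_, hSB, ?_⟩⟩
  · show G.n + L.n + 3 ≤ lvNodes β m ε
    rw [hGn, hLn, lvNodes]
  · have hκ0 : 0 ≤ lvKap q₀ C ε := by unfold lvKap; positivity
    exact semE_nonneg hC hκ0 hs0 (h.ok.σ_pos) (Real.sqrt_nonneg s) h.ok.τ_pos.le h.ok.a_pos
  intro E hE _
  refine h.err_grid hε hε1 hβ0.le hβη (hsm2 ε hε hle2.le) hE ?_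
  -- the semantic residual
  obtain ⟨hθ4, hθ2, -⟩ := lvTheta_facts hq l
  have hθ2 := hθ2 hlm
  have hs1 : s ≤ 1 := by linarith
  have hκ0 : 0 ≤ lvKap q₀ C ε := by unfold lvKap; positivity
  have ha1 : ε ≤ c.a := by
    show ε ≤ 2 * ε ^ (lvTheta q₀ l - 2 * lvH q₀)
    have : ε ≤ ε ^ (lvTheta q₀ l - 2 * lvH q₀) := by
      simpa using Real.rpow_le_rpow_of_exponent_ge hε hε1
        (show lvTheta q₀ l - 2 * lvH q₀ ≤ 1 by linarith)
    linarith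
  have ha2 : c.a ≤ 1 := by
    show 2 * ε ^ (lvTheta q₀ l - 2 * lvH q₀) ≤ 1
    have h4 := hsm2 ε hε hle2.le
    have : ε ^ (lvTheta q₀ l - 2 * lvH q₀) ≤ ε ^ (lvH q₀ / 8) :=
      Real.rpow_le_rpow_of_exponent_ge hε hε1 (by linarith)
    linarith [Real.rpow_pos_of_pos hε (lvH q₀ / 8)]
  have hbound := semE_le (c := c) (m := m) (N := gridN β ε) hC hκ0 hs0 hs1 h.sqrt_le h.ok.a_pos
    ha2 h.ok.τ_pos.le (Real.sqrt_nonneg s)
    (Real.sqrt_le_one.2 hs1) (h.corr.trans (by norm_num))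
  set R : ℝ := 7 * (q₀ : ℝ) + 10 with hR
  have hpow := lvPow_le hq (C := C) (by linarith) hε hε1 (l := l) G L hmo
  have hGn1 : (c.G.n : ℝ) + 1 ≤ (2 * m + 4) * ε ^ (-1 : ℝ) := by
    show (G.n : ℝ) + 1 ≤ _
    have : ε ^ (-(lvH q₀ / 8)) ≤ ε ^ (-1 : ℝ) :=
      Real.rpow_le_rpow_of_exponent_ge hε hε1 (by linarith)
    have := mul_le_mul_of_nonneg_left this (by positivity : (0:ℝ) ≤ 2 * m + 4)
    linarith
  have hLn1 : (c.L.n : ℝ) + 1 = m + 2 := by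
    show (L.n : ℝ) + 1 = _
    rw [hLn]; push_cast; ring
  have hs4 : ε ^ ((2 * q₀ + 1 : ℕ) * 2 : ℝ) ≤ s ^ 2 := by
    rw [Real.rpow_mul hε.le, Real.rpow_natCast, Real.rpow_two]
    exact pow_le_pow_left₀ (pow_nonneg hε.le _) hs.le 2
  have hden : ε * ε ^ ((2 * q₀ + 1 : ℕ) * 2 : ℝ) ≤ c.a * s ^ 2 :=
    mul_le_mul ha1 hs4 (by positivity) (h.ok.a_pos.le)
  have hC0 : 0 ≤ C := by linarith
  have hS1 : 0 ≤ c.τ ^ (m - 1) + (2 * c.a) ^ (m - 2) + lvKap q₀ C ε ^ c.k +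
      ((gridN β ε : ℝ))⁻¹ ^ m := by
    have := h.ok.τ_pos; have := h.ok.a_pos
    positivity
  have hmain : semE c C (lvKap q₀ C ε) s σ (Real.sqrt s) m (gridN β ε) ≤
      K * (ε ^ (-1 : ℝ) * ε ^ R) / (ε * ε ^ ((2 * q₀ + 1 : ℕ) * 2 : ℝ)) := by
    refine hbound.trans (div_le_div₀ (by positivity) ?_ (by positivity) hden)
    calc _ ≤ 30000 * C ^ 8 * ((2 * m + 4) * ε ^ (-1 : ℝ)) * ((m : ℝ) + 2) ^ 2 *
          ((2 + 4 ^ (m - 2) + (8 * C) ^ k) * ε ^ R) := by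
            rw [hLn1]; gcongr
      _ = _ := by rw [hK]; ring
  refine hmain.trans ?_
  have hx : (l : ℝ) * lvH q₀ ≤ q₀ := by
    have : (q₀ : ℝ) ≠ 0 := by exact_mod_cast (by omega : q₀ ≠ 0)
    calc (l : ℝ) * lvH q₀ ≤ (lvNum q₀ : ℝ) * lvH q₀ :=
          mul_le_mul_of_nonneg_right (by exact_mod_cast hlm) (lvH_pos hq).le
      _ = q₀ := by rw [lvNum, lvH]; push_cast; field_simp
  have hJ0 : (0 : ℝ) < gridN β ε := by linarith
  have hJ3 : 2 * (gridN β ε : ℝ) ≤ 4 * ε ^ (-1 : ℝ) := by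
    have : ε ^ (-β) ≤ ε ^ (-1 : ℝ) := Real.rpow_le_rpow_of_exponent_ge hε hε1 (by linarith)
    linarith
  rw [div_le_div_iff₀ (by positivity) (by positivity)]
  have hK4 : 4 * K * ε ≤ 1 := by
    have := hsm3 ε hε hle3.le
    rw [Real.rpow_one] at this
    exact le_trans (mul_le_mul_of_nonneg_right (le_max_right _ _) hε.le) this
  have hK0 : 0 ≤ K := by rw [hK]; positivity
  calc K * (ε ^ (-1 : ℝ) * ε ^ R) * (2 * (gridN β ε : ℝ))
      ≤ K * (ε ^ (-1 : ℝ) * ε ^ R) * (4 * ε ^ (-1 : ℝ)) :=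
        mul_le_mul_of_nonneg_left hJ3 (by positivity)
    _ = 4 * K * ε * ε ^ (R - 3) := by
        rw [show R = 1 + (R - 3) + 1 + 1 by ring, Real.rpow_add hε, Real.rpow_add hε,
          Real.rpow_add hε, Real.rpow_one, Real.rpow_neg_one]
        field_simp
        ring_nf
    _ ≤ 1 * ε ^ (R - 3) := mul_le_mul_of_nonneg_right hK4 (Real.rpow_nonneg hε.le _)
    _ ≤ ε ^ ((l : ℝ) * lvH q₀) * (ε * ε ^ ((2 * q₀ + 1 : ℕ) * 2 : ℝ)) := by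
        rw [one_mul]
        rw [show ε * ε ^ ((2 * q₀ + 1 : ℕ) * 2 : ℝ) = ε ^ (1 + ((2 * q₀ + 1 : ℕ) * 2 : ℝ)) by
          rw [Real.rpow_add hε, Real.rpow_one], ← Real.rpow_add hε]
        refine Real.rpow_le_rpow_of_exponent_ge hε hε1 ?_
        push_cast
        linarith
    _ = _ := rfl

end Vale.Agent.P347.Zero
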