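import Vale.Agent.P347.Zero.Induction

/-!
The numerical conditions of one step at every level, for all small step sizes.
-/

open MeasureTheory ProbabilityTheory
open scoped RealInnerProductSpace ENNReal

namespace Vale.Agent.P347.Zero

/-- The rules and steps of level l. -/
noncomputable def lvCfg (q₀ : ℕ) (ε : ℝ) (l : ℕ) (G L : Rule) (k : ℕ) : Cfg where
  G := G
  L := L
  k := k
  τ := ε ^ (lvH q₀ / 8)
  a := 2 * ε ^ (lvTheta q₀ l - 2 * lvH q₀)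

/-- The contraction factor. -/
noncomputable def lvKap (q₀ : ℕ) (C ε : ℝ) : ℝ := 8 * C * ε ^ (lvH q₀ / 4)

/-- The parameters of the step at level l and scale s. -/
noncomputable def lvPar (q₀ : ℕ) (C ε : ℝ) (l : ℕ) (s : ℝ) (c : Cfg) : Par where
  cfg := c
  s := s
  σ := lvSig q₀ ε l s / 2
  c := lvC (l - 1)
  κp := lvC l * Real.sqrt s
  σI := innerSig q₀ ε l s
  σO := outerSig q₀ ε l s
  EI := innerErr q₀ ε l
  EO := outerErr q₀ ε l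
  C := C

lemma lvH_le {q₀ : ℕ} (hq : 1 ≤ q₀) : lvH q₀ ≤ 1 / 100 := by
  have : (1 : ℝ) ≤ q₀ := by exact_mod_cast hq
  unfold lvH
  exact one_div_le_one_div_of_le (by norm_num) (by linarith)

lemma lvTheta_facts {q₀ : ℕ} (hq : 1 ≤ q₀) (l : ℕ) :
    1 / 4 ≤ lvTheta q₀ l ∧ (l ≤ lvNum q₀ → lvTheta q₀ l ≤ 1 / 2) ∧
      lvTheta q₀ (l - 1) ≤ lvTheta q₀ l := by
  have hq0 : (0 : ℝ) < q₀ := by exact_mod_cast hq
  have hh := lvH_pos hq
  refine ⟨le_add_of_nonneg_right (by positivity), fun hl => ?_, ?_⟩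
  · have : (l : ℝ) ≤ 100 * (q₀ : ℝ) ^ 2 := by
      exact_mod_cast (show l ≤ 100 * q₀ ^ 2 from hl)
    have e : (l : ℝ) * lvH q₀ / (8 * q₀) = l / (800 * (q₀ : ℝ) ^ 2) := by unfold lvH; field_simp; ring
    rw [lvTheta, e]
    have : (l : ℝ) / (800 * (q₀ : ℝ) ^ 2) ≤ 1 / 4 := by rw [div_le_iff₀ (by positivity)]; linarith
    linarith
  · unfold lvTheta
    gcongr
    exact_mod_cast Nat.sub_le l 1

lemma lvC_facts {l : ℕ} (hl : 1 ≤ l) :
    0 < lvC l ∧ lvC (l - 1) = 4 * lvC l ∧ lvC (l - 1) ≤ 1 / 2 := by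
  obtain ⟨n, rfl⟩ : ∃ n, l = n + 1 := ⟨l - 1, by omega⟩
  refine ⟨by unfold lvC; positivity, ?_, ?_⟩
  · simp only [lvC, add_tsub_cancel_right, pow_succ]; ring
  · simp only [lvC, add_tsub_cancel_right]
    exact (inv_anti₀ (by norm_num) (le_self_pow₀ (by norm_num) (by omega))).trans (by norm_num)

lemma exists_small {γ : ℝ} (hγ : 0 < γ) {K : ℝ} (hK : 1 ≤ K) :
    ∃ ε₀ : ℝ, 0 < ε₀ ∧ ε₀ ≤ 1 / 64 ∧ ∀ ε, 0 < ε → ε ≤ ε₀ → K * ε ^ γ ≤ 1 := by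
  have hK0 : (0 : ℝ) < K⁻¹ := by positivity
  refine ⟨min (1 / 64) (K⁻¹ ^ γ⁻¹), lt_min (by norm_num) (Real.rpow_pos_of_pos hK0 _),
    min_le_left _ _, fun ε hε hle => ?_⟩
  have := Real.rpow_le_rpow hε.le (hle.trans (min_le_right _ _)) hγ.le
  rw [Real.rpow_inv_rpow hK0.le hγ.ne'] at this
  calc K * ε ^ γ ≤ K * K⁻¹ := mul_le_mul_of_nonneg_left this (by linarith)
    _ = 1 := mul_inv_cancel₀ (by linarith)

variable {q₀ : ℕ} {C ε s : ℝ} {l : ℕ}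

/-- The weights of the evaluations in closed form. -/
lemma lvPar_coeff (hε : 0 < ε) (hs : 0 < s) (G L : Rule) (k : ℕ) :
    let η := lvH q₀ / 8
    let θ := lvTheta q₀ l
    let P := lvPar q₀ C ε l s (lvCfg q₀ ε l G L k)
    P.AQ = 2 * C ^ 3 * ε ^ (15 * η) ∧
    P.A = C * s + 4 * C ^ 2 * ε ^ (θ - η) + 4 * ε ^ (θ + η) + 4 * C ^ 3 * ε ^ (θ + 16 * η) +
      4 * C ^ 2 * ε ^ (θ - 16 * η) + C * ε ^ (2 * η) * s := by
  intro η θ P
  have hr : Real.sqrt s ≠ 0 := (Real.sqrt_pos.2 hs).ne'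
  have hp : ∀ x : ℝ, ε ^ x ≠ 0 := fun x => (Real.rpow_pos_of_pos hε x).ne'
  have hg : θ - 2 * lvH q₀ = θ - 16 * η := by simp only [η]; ring
  have e1 : ε ^ (θ - 16 * η) = ε ^ θ / ε ^ (16 * η) := Real.rpow_sub hε _ _
  have e2 : ε ^ (θ - η) = ε ^ θ / ε ^ η := Real.rpow_sub hε _ _
  have e3 : ε ^ (θ + η) = ε ^ θ * ε ^ η := Real.rpow_add hε _ _
  have e4 : ε ^ (θ + 16 * η) = ε ^ θ * ε ^ (16 * η) := Real.rpow_add hε _ _
  have e5 : ε ^ (2 * η) = ε ^ η * ε ^ η := by rw [← Real.rpow_add hε]; ring_nf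
  have e6 : ε ^ (15 * η) = ε ^ (16 * η) / ε ^ η := by rw [← Real.rpow_sub hε]; ring_nf
  have e7 : ε ^ (-θ) = (ε ^ θ)⁻¹ := Real.rpow_neg hε.le _
  have hss : s = Real.sqrt s * Real.sqrt s := (Real.mul_self_sqrt hs.le).symm
  constructor
  · simp only [P, Par.AQ, Par.t₀, lvPar, lvCfg, lvSig]
    rw [show lvTheta q₀ l = θ from rfl, hg, show lvH q₀ / 8 = η from rfl, e1, e6, e7]
    nth_rewrite 1 [hss]
    have := hp θ; have := hp η; have := hp (16 * η)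
    field_simp
  · simp only [P, Par.A, Par.t₀, lvPar, lvCfg, lvSig]
    rw [show lvTheta q₀ l = θ from rfl, hg, show lvH q₀ / 8 = η from rfl, e1, e2, e3, e4, e5, e7]
    have := hp θ; have := hp η; have := hp (16 * η)
    field_simp
    rw [show Real.sqrt s ^ 4 = (Real.sqrt s ^ 2) ^ 2 by ring, Real.sq_sqrt hs.le]
    ring

/-- All conditions of the step at level l and scale s, with the error after the step. -/
structure LevelOk (q₀ : ℕ) (C ε : ℝ) (l : ℕ) (s : ℝ) (c : Cfg) : Prop where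
  ok : (lvPar q₀ C ε l s c).Ok
  sem : ∀ d, DriftAll d (2 * ε) → ∀ V : EE d → ℝ, Admissible V →
    SemOk V c (2 * ε) C (lvKap q₀ C ε)
  back : BackOk c (2 * ε) C (lvKap q₀ C ε) s (lvSig q₀ ε l s / 2) (Real.sqrt s)
  corr : corrLip c C s (lvSig q₀ ε l s / 2) (Real.sqrt s) ≤ 1 / 100
  aq : (lvPar q₀ C ε l s c).AQ ≤ 1 / 100
  gq : (lvPar q₀ C ε l s c).γQ ≤ 1 / 100
  child_pos : 0 < lvSig q₀ ε l (s / 2)
  outer : 8 * (lvPar q₀ C ε l s c).σO * (lvPar q₀ C ε l s c).AQ ≤ lvSig q₀ ε l s / 2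
  split : lvSig q₀ ε l s ^ 2 =
    (lvSig q₀ ε l s / 2) ^ 2 + lvSig q₀ ε l (s / 2) ^ 2 + (lvSig q₀ ε l s / 2) ^ 2
  out_pos : 0 < lvSig q₀ ε l s
  sqrt_le : Real.sqrt s ≤ lvSig q₀ ε l s / 2
  input : (lvPar q₀ C ε l s c).κp / Real.sqrt s = lvC l
  err_le : ∀ E Esem : ℝ, 0 ≤ E → stepErr (lvPar q₀ C ε l s c) E Esem ≤
    E * (1 + ε ^ (lvH q₀ / 4)) + ε ^ ((l : ℝ) * lvH q₀) * ε ^ (lvH q₀ / 4) + Esem
  child_err : 3 * lvErr q₀ ε l ≤ 1 / 10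

/-- The bound on the coefficient of inner evaluations, in units of the rotation step. -/
noncomputable def lvKA (C : ℝ) : ℝ := 4 * C + 8 * C ^ 2 + 4 + 4 * C ^ 3

/-- The bound on the error factor of the correction. -/
noncomputable def lvKG (C : ℝ) : ℝ := 48 * C ^ 3 + 288 * C ^ 3 * lvKA C

/-- The constant against which the step size is small. -/
noncomputable def lvBig (q₀ : ℕ) (C Cn : ℝ) : ℝ :=
  1000 * 4 ^ (lvNum q₀ + 1) * lvKA C + 4000 * C ^ 5 + 100 * lvKG C + 200 * C + 300 * lvKA C +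
    100 * Cn * lvKG C + 300 * lvKA C + 100

/-- ε is small for levels with the constants C, Cn. -/
structure LvSmall (q₀ : ℕ) (C Cn ε : ℝ) : Prop where
  q₀_pos : 1 ≤ q₀
  C_ge : 1 ≤ C
  Cn_nonneg : 0 ≤ Cn
  pos : 0 < ε
  le : ε ≤ 1 / 64
  big : lvBig q₀ C Cn * ε ^ (2 * (lvH q₀ / 8)) ≤ 1

variable {Cn : ℝ} {G L : Rule} {k : ℕ}

lemma lvKA_ge (hC : 1 ≤ C) : 1 ≤ lvKA C := by
  have : 0 ≤ C ^ 3 := by positivity
  have : 0 ≤ C ^ 2 := by positivity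
  unfold lvKA; linarith

lemma lvKG_nonneg (hC : 1 ≤ C) : 0 ≤ lvKG C := by
  have := lvKA_ge hC
  unfold lvKG; positivity

lemma eta_facts (hq : 1 ≤ q₀) : 0 < lvH q₀ / 8 ∧ lvH q₀ / 8 ≤ 1 / 800 :=
  ⟨by linarith [lvH_pos hq], by linarith [lvH_le hq]⟩

lemma LvSmall.le_one (h : LvSmall q₀ C Cn ε) : ε ≤ 1 := by linarith [h.le]

lemma LvSmall.anti (h : LvSmall q₀ C Cn ε) {x y : ℝ} (hxy : y ≤ x) : ε ^ x ≤ ε ^ y :=
  Real.rpow_le_rpow_of_exponent_ge h.pos h.le_one hxy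

lemma LvSmall.eps_le (h : LvSmall q₀ C Cn ε) {y : ℝ} (hy : y ≤ 1) : ε ≤ ε ^ y := by
  simpa using h.anti (x := 1) hy

lemma LvSmall.big_ge (h : LvSmall q₀ C Cn ε) :
    4000 * C ^ 5 ≤ lvBig q₀ C Cn ∧ 1000 * lvKA C ≤ lvBig q₀ C Cn ∧
      100 * lvKG C ≤ lvBig q₀ C Cn ∧ 100 ≤ lvBig q₀ C Cn ∧
      1000 * 4 ^ (lvNum q₀ + 1) * lvKA C ≤ lvBig q₀ C Cn ∧
      200 * C + 300 * lvKA C ≤ lvBig q₀ C Cn ∧
      100 * Cn * lvKG C + 300 * lvKA C ≤ lvBig q₀ C Cn := by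
  have hC := h.C_ge
  have h1 := lvKA_ge hC
  have h2 := lvKG_nonneg hC
  have h3 : 0 ≤ C ^ 5 := by positivity
  have h4 : 0 ≤ Cn * lvKG C := mul_nonneg h.Cn_nonneg h2
  have h5 : 1000 * lvKA C ≤ 1000 * 4 ^ (lvNum q₀ + 1) * lvKA C :=
    mul_le_mul_of_nonneg_right
      (le_mul_of_one_le_right (by norm_num) (one_le_pow₀ (by norm_num))) (by linarith)
  unfold lvBig
  refine ⟨?_, ?_, ?_, ?_, ?_, ?_, ?_⟩ <;> linarith

/-- A multiple of a power at least 2η is at most one. -/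
lemma LvSmall.small (h : LvSmall q₀ C Cn ε) {x a : ℝ} (hx : 2 * (lvH q₀ / 8) ≤ x)
    (ha : a ≤ lvBig q₀ C Cn) : a * ε ^ x ≤ 1 := by
  have hp := Real.rpow_pos_of_pos h.pos x
  rcases le_or_gt a 0 with ha0 | ha0
  · linarith [mul_nonpos_of_nonpos_of_nonneg ha0 hp.le]
  · exact (mul_le_mul ha (h.anti hx) hp.le (ha0.le.trans ha)).trans h.big

lemma sigI_eq (hq : 1 ≤ q₀) (l : ℕ) (s ε : ℝ) :
    innerSig q₀ ε l s = Real.sqrt s * ε ^ (-(lvTheta q₀ l - 20 * (lvH q₀ / 8))) := by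
  have : (q₀ : ℝ) ≠ 0 := by exact_mod_cast (by omega : q₀ ≠ 0)
  have e : 1 / (40 * (q₀ : ℝ)) = 20 * (lvH q₀ / 8) := by rw [lvH]; field_simp; ring
  rw [innerSig, e]

lemma outerErr_eq (hl : 1 ≤ l) :
    outerErr q₀ ε l = 3 * ε ^ ((l : ℝ) * lvH q₀ - 8 * (lvH q₀ / 8)) := by
  unfold outerErr lvErr
  rw [Nat.cast_sub hl]
  push_cast
  ring_nf

lemma lvPar_A_le (h : LvSmall q₀ C Cn ε) (hl : l ≤ lvNum q₀) (hs : 0 < s) (hs2 : s ≤ 2 * ε) :
    0 ≤ (lvPar q₀ C ε l s (lvCfg q₀ ε l G L k)).A ∧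
      (lvPar q₀ C ε l s (lvCfg q₀ ε l G L k)).A ≤
        lvKA C * ε ^ (lvTheta q₀ l - 16 * (lvH q₀ / 8)) := by
  obtain ⟨hη0, hη1⟩ := eta_facts h.q₀_pos
  obtain ⟨hθ4, hθ2, -⟩ := lvTheta_facts h.q₀_pos l
  have hθ2 := hθ2 hl
  have hC := h.C_ge
  have hε := h.pos
  obtain ⟨-, hA⟩ := lvPar_coeff (q₀ := q₀) (C := C) (l := l) hε hs G L k
  replace hA : (lvPar q₀ C ε l s (lvCfg q₀ ε l G L k)).A = _ := hA
  rw [hA]
  set η := lvH q₀ / 8 with hηdef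
  set θ := lvTheta q₀ l
  refine ⟨by positivity, ?_⟩
  have b1 : C * s ≤ 2 * C * ε ^ (θ - 16 * η) := by
    have := h.eps_le (y := θ - 16 * η) (by linarith)
    calc C * s ≤ C * (2 * ε ^ (θ - 16 * η)) :=
          mul_le_mul_of_nonneg_left (by linarith) (by linarith)
      _ = _ := by ring
  have b6 : C * ε ^ (2 * η) * s ≤ 2 * C * ε ^ (θ - 16 * η) :=
    le_trans (mul_le_mul_of_nonneg_right (mul_le_of_le_one_right (by linarith)
      (Real.rpow_le_one hε.le h.le_one (by linarith))) hs.le) b1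
  have b2 := mul_le_mul_of_nonneg_left (h.anti (x := θ - η) (y := θ - 16 * η) (by linarith))
    (by positivity : (0:ℝ) ≤ 4 * C ^ 2)
  have b3 := h.anti (x := θ + η) (y := θ - 16 * η) (by linarith)
  have b4 := mul_le_mul_of_nonneg_left (h.anti (x := θ + 16 * η) (y := θ - 16 * η) (by linarith))
    (by positivity : (0:ℝ) ≤ 4 * C ^ 3)
  unfold lvKA
  linarith

lemma lvPar_err_le (h : LvSmall q₀ C Cn ε) (hl1 : 1 ≤ l) (hl : l ≤ lvNum q₀) (hs : 0 < s)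
    (hs2 : s ≤ 2 * ε) :
    let P := lvPar q₀ C ε l s (lvCfg q₀ ε l G L k)
    let x := (l : ℝ) * lvH q₀
    8 * (lvH q₀ / 8) ≤ x ∧ 0 ≤ P.EI * P.A ∧
      P.EI * P.A ≤ 3 * lvKA C * ε ^ (x + 6 * (lvH q₀ / 8)) ∧ 0 ≤ P.γQ ∧
      P.γQ ≤ lvKG C * ε ^ (x + 7 * (lvH q₀ / 8)) := by
  intro P x
  obtain ⟨hη0, hη1⟩ := eta_facts h.q₀_pos
  obtain ⟨hθ4, -, -⟩ := lvTheta_facts h.q₀_pos l
  have hC := h.C_ge
  have hε := h.pos
  obtain ⟨hA0, hAle⟩ := lvPar_A_le (G := G) (L := L) (k := k) h hl hs hs2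
  have hAQ : P.AQ = 2 * C ^ 3 * ε ^ (15 * (lvH q₀ / 8)) :=
    (lvPar_coeff (q₀ := q₀) (C := C) (l := l) hε hs G L k).1
  have hEI : P.EI = 3 * ε ^ (x - 1 / 5) := rfl
  have hEO : P.EO = 3 * ε ^ (x - 8 * (lvH q₀ / 8)) := outerErr_eq hl1
  set η := lvH q₀ / 8 with hηdef
  set θ := lvTheta q₀ l
  have hx0 : 8 * η ≤ x := by
    have h8 : 8 * η = lvH q₀ := by rw [hηdef]; ring
    rw [h8]
    exact le_mul_of_one_le_left (lvH_pos h.q₀_pos).le (by exact_mod_cast hl1)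
  have hKA := lvKA_ge hC
  have hEI0 : 0 ≤ P.EI * P.A := mul_nonneg (by rw [hEI]; positivity) hA0
  have hEIA : P.EI * P.A ≤ 3 * lvKA C * ε ^ (x + 6 * η) := by
    calc P.EI * P.A ≤ 3 * ε ^ (x - 1 / 5) * (lvKA C * ε ^ (θ - 16 * η)) := by
          rw [hEI]; exact mul_le_mul_of_nonneg_left hAle (by positivity)
      _ = 3 * lvKA C * ε ^ (x - 1 / 5 + (θ - 16 * η)) := by rw [Real.rpow_add hε]; ring
      _ ≤ _ := mul_le_mul_of_nonneg_left (h.anti (by linarith)) (by positivity)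
  have hEO0 : 0 ≤ P.EO := by rw [hEO]; positivity
  refine ⟨hx0, hEI0, hEIA, ?_, ?_⟩
  · rw [Par.γQ, hAQ, mul_assoc 48]; positivity
  · have e : 8 * P.EO + 48 * P.EI * P.A ≤ (24 + 144 * lvKA C) * ε ^ (x - 8 * η) := by
      have := mul_le_mul_of_nonneg_left (h.anti (x := x + 6 * η) (y := x - 8 * η) (by linarith))
        (by positivity : (0:ℝ) ≤ 144 * lvKA C)
      rw [hEO, mul_assoc 48]
      linarith
    calc P.γQ ≤ (24 + 144 * lvKA C) * ε ^ (x - 8 * η) * (2 * C ^ 3 * ε ^ (15 * η)) := by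
          rw [Par.γQ, hAQ]; exact mul_le_mul_of_nonneg_right e (by positivity)
      _ = lvKG C * ε ^ (x - 8 * η + 15 * η) := by rw [Real.rpow_add hε, lvKG]; ring
      _ = _ := by ring_nf

lemma lvPar_ok (h : LvSmall q₀ C Cn ε) (hl1 : 1 ≤ l) (hl : l ≤ lvNum q₀) (hG : G.Ok C)
    (hL : L.Ok C) (hs : 0 < s) (hs2 : s ≤ 2 * ε) :
    (lvPar q₀ C ε l s (lvCfg q₀ ε l G L k)).Ok := by
  obtain ⟨hη0, hη1⟩ := eta_facts h.q₀_pos
  obtain ⟨hθ4, -, -⟩ := lvTheta_facts h.q₀_pos l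
  obtain ⟨hc0, hc4, hc2⟩ := lvC_facts hl1
  obtain ⟨-, hb, -, hb4, hbP, -, -⟩ := h.big_ge
  have hC := h.C_ge
  have hε := h.pos
  have hε1 := h.le
  have hKA := lvKA_ge hC
  obtain ⟨hA0, hAle⟩ := lvPar_A_le (G := G) (L := L) (k := k) h hl hs hs2
  have hS : 0 < Real.sqrt s := Real.sqrt_pos.2 hs
  have hσ : 0 < lvSig q₀ ε l s / 2 := half_pos (mul_pos hS (Real.rpow_pos_of_pos hε _))
  refine ⟨hC, hG, hL, hs, show s ≤ 1 by linarith, hσ,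
    mul_pos hS (Real.rpow_pos_of_pos hε _),
    mul_pos (mul_pos two_pos hS) (Real.rpow_pos_of_pos hε _),
    mul_nonneg (by norm_num) (Real.rpow_pos_of_pos hε _).le,
    mul_nonneg (by norm_num) (Real.rpow_pos_of_pos hε _).le, Real.rpow_pos_of_pos hε _, ?_,
    mul_pos two_pos (Real.rpow_pos_of_pos hε _),
    (show 0 < lvC (l - 1) by rw [hc4]; linarith), hc2,
    mul_nonneg hc0.le hS.le, ?_, ?_⟩
  · have := h.small (x := lvH q₀ / 8 * 2) (a := 4) (by linarith) (by linarith)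
    rw [Real.rpow_mul hε.le, Real.rpow_two] at this
    show ε ^ (lvH q₀ / 8) ≤ 1 / 2
    nlinarith [Real.rpow_pos_of_pos hε (lvH q₀ / 8)]
  · have := h.small (x := lvTheta q₀ l - 16 * (lvH q₀ / 8)) (a := 100 * lvKA C) (by linarith)
      (by linarith)
    linarith
  · show lvC l * Real.sqrt s + 8 * innerSig q₀ ε l s *
      (lvPar q₀ C ε l s (lvCfg q₀ ε l G L k)).A ≤ lvC (l - 1) * Real.sqrt s / 2
    rw [hc4, sigI_eq h.q₀_pos]
    set η := lvH q₀ / 8 with hηdef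
    set θ := lvTheta q₀ l
    have hP4l : 1 ≤ (4 : ℝ) ^ (lvNum q₀ + 1) * lvC l := by
      rw [lvC, ← div_eq_mul_inv, one_le_div (by positivity)]
      exact pow_le_pow_right₀ (by norm_num) (by omega)
    have h8 : 8 * (4 ^ (lvNum q₀ + 1) * lvKA C) * ε ^ (4 * η) ≤ 1 :=
      h.small (by linarith) (le_trans (by
        rw [← mul_assoc]
        exact mul_le_mul_of_nonneg_right
          (mul_le_mul_of_nonneg_right (by norm_num) (by positivity)) (by linarith)) hbP)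
    have := (calc
      8 * (Real.sqrt s * ε ^ (-(θ - 20 * η))) * (lvPar q₀ C ε l s (lvCfg q₀ ε l G L k)).A
          ≤ 8 * (Real.sqrt s * ε ^ (-(θ - 20 * η))) * (lvKA C * ε ^ (θ - 16 * η)) :=
            mul_le_mul_of_nonneg_left hAle (by positivity)
      _ = Real.sqrt s * (8 * lvKA C * (ε ^ (-(θ - 20 * η)) * ε ^ (θ - 16 * η))) := by ring
      _ = Real.sqrt s * (8 * lvKA C * ε ^ (4 * η)) := by rw [← Real.rpow_add hε]; ring_nf
      _ ≤ Real.sqrt s * (8 * lvKA C * ε ^ (4 * η) * (4 ^ (lvNum q₀ + 1) * lvC l)) :=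
            mul_le_mul_of_nonneg_left (le_mul_of_one_le_right (by positivity) hP4l) hS.le
      _ = 8 * (4 ^ (lvNum q₀ + 1) * lvKA C) * ε ^ (4 * η) * (Real.sqrt s * lvC l) := by ring
      _ ≤ Real.sqrt s * lvC l := mul_le_of_le_one_left (by positivity) h8)
    linarith

lemma lvCfg_sem (h : LvSmall q₀ C Cn ε) (hG : G.Ok C) (hL : L.Ok C) {d : ℕ}
    (hD : DriftAll d (2 * ε)) {V : EE d → ℝ} (hV : Admissible V) :
    SemOk V (lvCfg q₀ ε l G L k) (2 * ε) C (lvKap q₀ C ε) := by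
  obtain ⟨hη0, hη1⟩ := eta_facts h.q₀_pos
  obtain ⟨hθ4, -, -⟩ := lvTheta_facts h.q₀_pos l
  obtain ⟨hb5, -, -, hb4, -, -, -⟩ := h.big_ge
  have hC := h.C_ge
  have hC5 : C ≤ C ^ 5 := le_self_pow₀ hC (by norm_num)
  have hε := h.pos
  have hκ : lvKap q₀ C ε = 8 * C * ε ^ (2 * (lvH q₀ / 8)) := by unfold lvKap; ring_nf
  have ha : (lvCfg q₀ ε l G L k).a = 2 * ε ^ (lvTheta q₀ l - 16 * (lvH q₀ / 8)) := by
    show 2 * ε ^ (lvTheta q₀ l - 2 * lvH q₀) = _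
    ring_nf
  refine ⟨(hD V hV).1, hG, hL, hC, by linarith, ?_, Real.rpow_pos_of_pos hε _,
    Real.rpow_le_one hε.le h.le_one hη0.le, ?_, mul_pos two_pos (Real.rpow_pos_of_pos hε _),
    ?_, ?_, ?_⟩
  · rw [hκ]
    nlinarith [h.eps_le (y := 2 * (lvH q₀ / 8)) (by linarith)]
  · show 8 * C * (ε ^ (lvH q₀ / 8)) ^ 2 ≤ _
    rw [hκ, ← Real.rpow_two, ← Real.rpow_mul hε.le, mul_comm (lvH q₀ / 8) 2]
  · rw [ha]
    exact h.small (by linarith) (by linarith)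
  · set η := lvH q₀ / 8 with hηdef
    set θ := lvTheta q₀ l
    have h2 : 2 * C * ε ^ (θ - 18 * η) ≤ 1 := h.small (by linarith) (by linarith)
    rw [ha, hκ, show θ - 16 * η = θ - 18 * η + 2 * η by ring, Real.rpow_add hε]
    calc 8 * (2 * (ε ^ (θ - 18 * η) * ε ^ (2 * η))) * C ^ 2
        = 8 * C * ε ^ (2 * η) * (2 * C * ε ^ (θ - 18 * η)) := by ring
      _ ≤ _ := mul_le_of_le_one_right (by positivity) h2
  · rw [hκ]
    have : 16 * C * ε ^ (2 * (lvH q₀ / 8)) ≤ 1 := h.small le_rfl (by linarith)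
    linarith

lemma lv_back (h : LvSmall q₀ C Cn ε) (hs : 0 < s) (hs2 : s ≤ 2 * ε) :
    BackOk (lvCfg q₀ ε l G L k) (2 * ε) C (lvKap q₀ C ε) s (lvSig q₀ ε l s / 2) (Real.sqrt s) ∧
      Real.sqrt s ≤ lvSig q₀ ε l s / 2 ∧
      corrLip (lvCfg q₀ ε l G L k) C s (lvSig q₀ ε l s / 2) (Real.sqrt s) ≤ 1 / 100 := by
  obtain ⟨hη0, hη1⟩ := eta_facts h.q₀_pos
  obtain ⟨hθ4, -, -⟩ := lvTheta_facts h.q₀_pos l
  obtain ⟨hb5, -, -, hb4, -, -, -⟩ := h.big_ge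
  have hC := h.C_ge
  have hε := h.pos
  have hC25 : C ^ 2 ≤ C ^ 5 := pow_le_pow_right₀ hC (by norm_num)
  have hC35 : C ^ 3 ≤ C ^ 5 := pow_le_pow_right₀ hC (by norm_num)
  have hC55 : 1 ≤ C ^ 5 := one_le_pow₀ hC
  have hC5 : C ≤ C ^ 5 := le_self_pow₀ hC (by norm_num)
  have hS : 0 < Real.sqrt s := Real.sqrt_pos.2 hs
  have hbl : backLen s ≤ Real.sqrt s := Real.sqrt_le_sqrt (by linarith)
  have hbl2 : backLen s ^ 2 = s / 2 := Real.sq_sqrt (by linarith)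
  have hbl' : 0 < backLen s := Real.sqrt_pos.2 (by linarith)
  have hτ : (lvCfg q₀ ε l G L k).τ = ε ^ (lvH q₀ / 8) := rfl
  have ha : (lvCfg q₀ ε l G L k).a = 2 * ε ^ (lvTheta q₀ l - 16 * (lvH q₀ / 8)) := by
    show 2 * ε ^ (lvTheta q₀ l - 2 * lvH q₀) = _
    ring_nf
  have hσ : lvSig q₀ ε l s = Real.sqrt s * ε ^ (-lvTheta q₀ l) := rfl
  have hneg : ε ^ (-lvTheta q₀ l) = (ε ^ lvTheta q₀ l)⁻¹ := Real.rpow_neg hε.le _
  have hκ : lvKap q₀ C ε = 8 * C * ε ^ (2 * (lvH q₀ / 8)) := by unfold lvKap; ring_nf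
  set η := lvH q₀ / 8 with hηdef
  set θ := lvTheta q₀ l
  have hp : ∀ x : ℝ, 0 < ε ^ x := fun x => Real.rpow_pos_of_pos hε x
  have hr : ∀ {w : ℝ}, 1 / 4 - η ≤ w → ∀ {a : ℝ}, 0 ≤ a →
      a * ε ^ w ≤ a * ε ^ (1 / 4 - η) := fun hw _ ha => mul_le_mul_of_nonneg_left (h.anti hw) ha
  have hσ2 : 4 * Real.sqrt s ≤ lvSig q₀ ε l s := by
    rw [hσ, hneg, mul_comm 4]
    refine mul_le_mul_of_nonneg_left ?_ hS.le
    rw [← one_div, le_div_iff₀ (hp θ)]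
    exact h.small (by linarith) (by linarith)
  have hσ0 : 0 < lvSig q₀ ε l s := by linarith
  have hfin : 400 * C ^ 5 * ε ^ (1 / 4 - η) ≤ lvKap q₀ C ε := by
    rw [hκ, show (1 / 4 : ℝ) - η = 1 / 4 - 3 * η + 2 * η by ring, Real.rpow_add hε, ← mul_assoc]
    calc 400 * C ^ 5 * ε ^ (1 / 4 - 3 * η) * ε ^ (2 * η) ≤ 1 * ε ^ (2 * η) :=
          mul_le_mul_of_nonneg_right (h.small (by linarith) (by linarith)) (hp _).le
      _ ≤ _ := mul_le_mul_of_nonneg_right (by linarith) (hp _).le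
  have hτ0 : 0 < (lvCfg q₀ ε l G L k).τ := hp _
  have ha0 : 0 < (lvCfg q₀ ε l G L k).a := mul_pos two_pos (hp _)
  refine ⟨⟨hs, hs2, by linarith, hS, by linarith, ?_, ?_⟩, by linarith, ?_⟩
  · refine le_trans ?_ hfin
    have t1 : 4 * C * backLen s ^ 2 ≤ 4 * C ^ 5 * ε ^ (1 / 4 - η) := by
      calc 4 * C * backLen s ^ 2 ≤ 4 * C * ε ^ (1 / 4 - η) := by
            rw [hbl2]
            exact mul_le_mul_of_nonneg_left
              (by linarith [h.eps_le (y := 1 / 4 - η) (by linarith)]) (by linarith)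
        _ ≤ _ := mul_le_mul_of_nonneg_right (by linarith) (hp _).le
    have t2 : 6 * C ^ 2 * backLen s / (lvSig q₀ ε l s / 2 * (lvCfg q₀ ε l G L k).τ) ≤
        12 * C ^ 5 * ε ^ (1 / 4 - η) := by
      calc 6 * C ^ 2 * backLen s / (lvSig q₀ ε l s / 2 * (lvCfg q₀ ε l G L k).τ)
          ≤ 6 * C ^ 5 * Real.sqrt s / (lvSig q₀ ε l s / 2 * (lvCfg q₀ ε l G L k).τ) := by gcongr
        _ = 12 * C ^ 5 * ε ^ (θ - η) := by
            rw [hσ, hτ, hneg, Real.rpow_sub hε]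
            have := (hp θ).ne'; have := (hp η).ne'
            field_simp; ring
        _ ≤ _ := hr (by linarith) (by positivity)
    have t3 : 8 * C ^ 2 * backLen s ^ 2 / (lvSig q₀ ε l s / 2 * Real.sqrt s) ≤
        8 * C ^ 5 * ε ^ (1 / 4 - η) := by
      calc 8 * C ^ 2 * backLen s ^ 2 / (lvSig q₀ ε l s / 2 * Real.sqrt s)
          ≤ 8 * C ^ 5 * backLen s ^ 2 / (lvSig q₀ ε l s / 2 * Real.sqrt s) := by gcongr
        _ = 8 * C ^ 5 * ε ^ θ := by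
            rw [hbl2, hσ, hneg]
            have := (hp θ).ne'
            field_simp
            rw [Real.sq_sqrt hs.le]
        _ ≤ _ := hr (by linarith) (by positivity)
    have : 0 ≤ C ^ 5 * ε ^ (1 / 4 - η) := by positivity
    linarith
  · refine le_trans ?_ hfin
    have t1 : Real.sqrt s * (2 / (lvSig q₀ ε l s / 2)) ≤ 4 * C ^ 5 * ε ^ (1 / 4 - η) := by
      calc Real.sqrt s * (2 / (lvSig q₀ ε l s / 2)) = 4 * ε ^ θ := by
            rw [hσ, hneg]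
            have := (hp θ).ne'
            field_simp; ring
        _ ≤ 4 * C ^ 5 * ε ^ θ := mul_le_mul_of_nonneg_right (by linarith) (hp θ).le
        _ ≤ _ := hr (by linarith) (by positivity)
    have t2 : Real.sqrt s * (12 * C ^ 3 * backLen s /
        ((lvSig q₀ ε l s / 2) ^ 2 * (lvCfg q₀ ε l G L k).a * (lvCfg q₀ ε l G L k).τ)) ≤
        24 * C ^ 5 * ε ^ (1 / 4 - η) := by
      calc Real.sqrt s * (12 * C ^ 3 * backLen s /
              ((lvSig q₀ ε l s / 2) ^ 2 * (lvCfg q₀ ε l G L k).a * (lvCfg q₀ ε l G L k).τ))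
          ≤ Real.sqrt s * (12 * C ^ 5 * Real.sqrt s /
              ((lvSig q₀ ε l s / 2) ^ 2 * (lvCfg q₀ ε l G L k).a * (lvCfg q₀ ε l G L k).τ)) := by
            gcongr
        _ = 24 * C ^ 5 * (ε ^ θ * ε ^ (16 * η) / ε ^ η) := by
            rw [hσ, hτ, ha, hneg, Real.rpow_sub hε]
            have := (hp θ).ne'; have := (hp η).ne'; have := (hp (16 * η)).ne'
            field_simp; ring
        _ = 24 * C ^ 5 * ε ^ (θ + 16 * η - η) := by rw [← Real.rpow_add hε, ← Real.rpow_sub hε]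
        _ ≤ _ := hr (by linarith) (by positivity)
    have t3 : 64 * C ^ 5 * backLen s ^ 2 / (lvSig q₀ ε l s / 2) ^ 2 ≤
        128 * C ^ 5 * ε ^ (1 / 4 - η) := by
      calc 64 * C ^ 5 * backLen s ^ 2 / (lvSig q₀ ε l s / 2) ^ 2 = 128 * C ^ 5 * (ε ^ θ) ^ 2 := by
            rw [hbl2, hσ, hneg]
            have := (hp θ).ne'
            field_simp
            rw [Real.sq_sqrt hs.le]; ring
        _ = 128 * C ^ 5 * ε ^ (θ * 2) := by rw [Real.rpow_mul hε.le, Real.rpow_two]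
        _ ≤ _ := hr (by linarith) (by positivity)
    have : 0 ≤ C ^ 5 * ε ^ (1 / 4 - η) := by positivity
    linarith [mul_add (Real.sqrt s) (2 / (lvSig q₀ ε l s / 2)) (12 * C ^ 3 * backLen s /
        ((lvSig q₀ ε l s / 2) ^ 2 * (lvCfg q₀ ε l G L k).a * (lvCfg q₀ ε l G L k).τ))]
  · have e : corrLip (lvCfg q₀ ε l G L k) C s (lvSig q₀ ε l s / 2) (Real.sqrt s) ≤
        6 * C ^ 3 * ε ^ (15 * η) + 32 * C ^ 5 * ε ^ θ := by
      calc corrLip (lvCfg q₀ ε l G L k) C s (lvSig q₀ ε l s / 2) (Real.sqrt s)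
          = 6 * C ^ 3 * backLen s /
                (lvSig q₀ ε l s / 2 * (lvCfg q₀ ε l G L k).a * (lvCfg q₀ ε l G L k).τ) +
              32 * C ^ 5 * backLen s ^ 2 / (lvSig q₀ ε l s / 2 * Real.sqrt s) := by
            rw [corrLip]; field_simp
        _ ≤ 6 * C ^ 3 * Real.sqrt s /
                (lvSig q₀ ε l s / 2 * (lvCfg q₀ ε l G L k).a * (lvCfg q₀ ε l G L k).τ) +
              32 * C ^ 5 * backLen s ^ 2 / (lvSig q₀ ε l s / 2 * Real.sqrt s) := by gcongr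
        _ = 6 * C ^ 3 * (ε ^ (16 * η) / ε ^ η) + 32 * C ^ 5 * ε ^ θ := by
            rw [hbl2, hσ, hτ, ha, hneg, Real.rpow_sub hε]
            have := (hp θ).ne'; have := (hp η).ne'; have := (hp (16 * η)).ne'
            field_simp
            rw [Real.sq_sqrt hs.le]; ring
        _ = _ := by rw [← Real.rpow_sub hε]; ring_nf
    have k1 := h.small (x := 15 * η) (a := 4000 * C ^ 5) (by linarith) (by linarith)
    have k2 := h.small (x := θ) (a := 4000 * C ^ 5) (by linarith) (by linarith)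
    have := mul_le_mul_of_nonneg_right hC35 (hp (15 * η)).le
    linarith

lemma lv_total (h : LvSmall q₀ C Cn ε) (hl1 : 1 ≤ l) (hl : l ≤ lvNum q₀)
    (hn : (G.n : ℝ) + 3 ≤ Cn * ε ^ (-(lvH q₀ / 8))) (hs : 0 < s) (hs2 : s ≤ 2 * ε) (E Esem : ℝ)
    (hE : 0 ≤ E) :
    stepErr (lvPar q₀ C ε l s (lvCfg q₀ ε l G L k)) E Esem ≤
      E * (1 + ε ^ (lvH q₀ / 4)) + ε ^ ((l : ℝ) * lvH q₀) * ε ^ (lvH q₀ / 4) + Esem := by
  obtain ⟨hη0, hη1⟩ := eta_facts h.q₀_pos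
  obtain ⟨-, -, -, -, -, hbE, hbX⟩ := h.big_ge
  obtain ⟨hx0, hEI0, hEIA, hgQ0, hgQ⟩ := lvPar_err_le (G := G) (L := L) (k := k) h hl1 hl hs hs2
  have hC := h.C_ge
  have hε := h.pos
  have hKA := lvKA_ge hC
  have hKG := lvKG_nonneg hC
  have hh4 : lvH q₀ / 4 = 2 * (lvH q₀ / 8) := by ring
  rw [hh4]
  set P := lvPar q₀ C ε l s (lvCfg q₀ ε l G L k)
  set η := lvH q₀ / 8 with hηdef
  set x := (l : ℝ) * lvH q₀
  have hd1 : ε ^ (x + 6 * η) ≤ ε ^ (6 * η) := h.anti (by linarith)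
  have hd2 : Real.sqrt s ≤ 2 * ε ^ (6 * η) := by
    rw [Real.sqrt_le_iff]
    refine ⟨by positivity, ?_⟩
    rw [mul_pow, ← Real.rpow_two (ε ^ (6 * η)), ← Real.rpow_mul hε.le]
    have := h.eps_le (y := 6 * η * 2) (by linarith)
    linarith
  have hCn := h.Cn_nonneg
  have hng : ((G.n : ℝ) + 3) * P.γQ ≤ Cn * lvKG C * ε ^ (x + 6 * η) := by
    calc ((G.n : ℝ) + 3) * P.γQ ≤ (Cn * ε ^ (-η)) * (lvKG C * ε ^ (x + 7 * η)) :=
          mul_le_mul hn hgQ hgQ0 (by positivity)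
      _ = Cn * lvKG C * ε ^ (-η + (x + 7 * η)) := by rw [Real.rpow_add hε (-η)]; ring
      _ = _ := by ring_nf
  have e6 : ε ^ (6 * η) = ε ^ (4 * η) * ε ^ (2 * η) := by rw [← Real.rpow_add hε]; ring_nf
  have ex : ε ^ (x + 6 * η) = ε ^ x * (ε ^ (4 * η) * ε ^ (2 * η)) := by
    rw [← e6, Real.rpow_add hε]
  have kE : (200 * C + 300 * lvKA C) * ε ^ (4 * η) ≤ 1 := h.small (by linarith) hbE
  have kX : (100 * Cn * lvKG C + 300 * lvKA C) * ε ^ (4 * η) ≤ 1 := h.small (by linarith) hbX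
  have f1 : 100 * C * Real.sqrt s + 100 * (P.EI * P.A) ≤ ε ^ (2 * η) := by
    calc 100 * C * Real.sqrt s + 100 * (P.EI * P.A)
        ≤ 100 * C * (2 * ε ^ (6 * η)) + 100 * (3 * lvKA C * ε ^ (6 * η)) := by
          refine add_le_add (mul_le_mul_of_nonneg_left hd2 (by linarith))
            (mul_le_mul_of_nonneg_left (hEIA.trans ?_) (by norm_num))
          exact mul_le_mul_of_nonneg_left hd1 (by positivity)
      _ = (200 * C + 300 * lvKA C) * ε ^ (4 * η) * ε ^ (2 * η) := by rw [e6]; ring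
      _ ≤ _ := mul_le_of_le_one_left (Real.rpow_pos_of_pos hε _).le kE
  have f2 : 100 * (((G.n : ℝ) + 3) * P.γQ) + 100 * (P.EI * P.A) ≤ ε ^ x * ε ^ (2 * η) := by
    calc 100 * (((G.n : ℝ) + 3) * P.γQ) + 100 * (P.EI * P.A)
        ≤ 100 * (Cn * lvKG C * ε ^ (x + 6 * η)) + 100 * (3 * lvKA C * ε ^ (x + 6 * η)) := by
          gcongr
      _ = ε ^ x * ((100 * Cn * lvKG C + 300 * lvKA C) * ε ^ (4 * η) * ε ^ (2 * η)) := by
          rw [ex]; ring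
      _ ≤ _ := mul_le_mul_of_nonneg_left
          (mul_le_of_le_one_left (Real.rpow_pos_of_pos hε _).le kX)
          (Real.rpow_pos_of_pos hε _).le
  have hPn : (P.cfg.G.n : ℝ) = G.n := rfl
  have hPs : P.s = s := rfl
  have hPC : P.C = C := rfl
  rw [stepErr, hPn, hPs, hPC]
  linarith [mul_le_mul_of_nonneg_left f1 hE]

/-- For small ε every step at every level satisfies all numerical conditions. -/
theorem level_ok (q₀ : ℕ) (hq : 1 ≤ q₀) (C Cn : ℝ) (hC : 1 ≤ C) (hCn : 0 ≤ Cn) :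
    ∃ ε₀ : ℝ, 0 < ε₀ ∧ ε₀ ≤ 1 / 64 ∧ ∀ ε, 0 < ε → ε ≤ ε₀ →
      ∀ l, 1 ≤ l → l ≤ lvNum q₀ → ∀ (G L : Rule) (k : ℕ), G.Ok C → L.Ok C →
        (G.n : ℝ) + 3 ≤ Cn * ε ^ (-(lvH q₀ / 8)) → ∀ s, 0 < s → s ≤ 2 * ε →
          LevelOk q₀ C ε l s (lvCfg q₀ ε l G L k) := by
  obtain ⟨hη0, hη1⟩ := eta_facts hq
  have h1 : 1 ≤ lvBig q₀ C Cn := by
    have := lvKA_ge hC
    have := lvKG_nonneg hC
    have : 0 ≤ Cn * lvKG C := mul_nonneg hCn (lvKG_nonneg hC)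
    have : 0 ≤ C ^ 5 := by positivity
    have : 0 ≤ (4 : ℝ) ^ (lvNum q₀ + 1) * lvKA C := by positivity
    unfold lvBig; linarith
  obtain ⟨ε₀, h0, h64, hsm⟩ := exists_small (γ := 2 * (lvH q₀ / 8)) (by linarith) h1
  refine ⟨ε₀, h0, h64, fun ε hε hle l hl1 hl G L k hG hL hn s hs hs2 => ?_⟩
  have h : LvSmall q₀ C Cn ε := ⟨hq, hC, hCn, hε, hle.trans h64, hsm ε hε hle⟩
  obtain ⟨hθ4, -, hθ'⟩ := lvTheta_facts hq l
  obtain ⟨hback, hsq, hcorr⟩ := lv_back (l := l) (G := G) (L := L) (k := k) h hs hs2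
  obtain ⟨hx0, -, -, -, hgQ⟩ := lvPar_err_le (G := G) (L := L) (k := k) h hl1 hl hs hs2
  obtain ⟨hb5, -, hbG, hb4, -, -, -⟩ := h.big_ge
  have hC35 : C ^ 3 ≤ C ^ 5 := pow_le_pow_right₀ hC (by norm_num)
  have hC5 : 1 ≤ C ^ 5 := one_le_pow₀ hC
  have hAQ : (lvPar q₀ C ε l s (lvCfg q₀ ε l G L k)).AQ =
      2 * C ^ 3 * ε ^ (15 * (lvH q₀ / 8)) :=
    (lvPar_coeff (q₀ := q₀) (C := C) (l := l) hε hs G L k).1
  have hS : 0 < Real.sqrt s := Real.sqrt_pos.2 hs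
  have hσ0 : 0 < lvSig q₀ ε l s := by linarith
  refine ⟨lvPar_ok h hl1 hl hG hL hs hs2, fun d hD V hV => lvCfg_sem h hG hL hD hV, hback, hcorr,
    ?_, ?_, mul_pos (Real.sqrt_pos.2 (by linarith)) (Real.rpow_pos_of_pos hε _), ?_, ?_, hσ0, hsq,
    ?_, fun E Esem hE => lv_total h hl1 hl hn hs hs2 E Esem hE, ?_⟩
  · rw [hAQ]
    have := h.small (x := 15 * (lvH q₀ / 8)) (a := 200 * C ^ 3) (by linarith) (by linarith)
    linarith
  · have := h.small (x := (l : ℝ) * lvH q₀ + 7 * (lvH q₀ / 8)) (a := 100 * lvKG C) (by linarith)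
      hbG
    linarith
  · show 8 * (2 * Real.sqrt s * ε ^ (-lvTheta q₀ (l - 1))) *
      (lvPar q₀ C ε l s (lvCfg q₀ ε l G L k)).AQ ≤ Real.sqrt s * ε ^ (-lvTheta q₀ l) / 2
    rw [hAQ]
    have h1 : ε ^ (-lvTheta q₀ (l - 1)) ≤ ε ^ (-lvTheta q₀ l) := h.anti (by linarith)
    have k : 64 * C ^ 3 * ε ^ (15 * (lvH q₀ / 8)) ≤ 1 := h.small (by linarith) (by linarith)
    calc 8 * (2 * Real.sqrt s * ε ^ (-lvTheta q₀ (l - 1))) *
            (2 * C ^ 3 * ε ^ (15 * (lvH q₀ / 8)))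
        ≤ 8 * (2 * Real.sqrt s * ε ^ (-lvTheta q₀ l)) * (2 * C ^ 3 * ε ^ (15 * (lvH q₀ / 8))) := by
          gcongr
      _ = Real.sqrt s * ε ^ (-lvTheta q₀ l) / 2 * (64 * C ^ 3 * ε ^ (15 * (lvH q₀ / 8))) := by ring
      _ ≤ _ := mul_le_of_le_one_right (by positivity) k
  · simp only [lvSig, mul_pow, Real.sq_sqrt (by linarith : 0 ≤ s / 2), div_pow,
      Real.sq_sqrt hs.le]
    ring
  · show lvC l * Real.sqrt s / Real.sqrt s = lvC l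
    field_simp
  · have := h.small (x := (l : ℝ) * lvH q₀) (a := 30) (by linarith) (by linarith)
    show 3 * ε ^ ((l : ℝ) * lvH q₀) ≤ 1 / 10
    linarith

/-- The grid is between two powers. -/
lemma gridN_facts {β : ℝ} (hβ : 0 ≤ β) (hε : 0 < ε) (hε1 : ε ≤ 1) :
    1 ≤ (gridN β ε : ℝ) ∧ (gridN β ε : ℝ) ≤ 2 * ε ^ (-β) := by
  have h1 : 1 ≤ ε ^ (-β) := Real.one_le_rpow_of_pos_of_le_one_of_nonpos hε hε1 (by linarith)
  refine ⟨h1.trans (Nat.le_ceil _), ?_⟩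
  have := Nat.ceil_lt_add_one (zero_le_one.trans h1)
  unfold gridN; linarith

/-- The error after one step, with the grid as bound on the halvings. -/
lemma LevelOk.err_grid {c : Cfg} (h : LevelOk q₀ C ε l s c) (hε : 0 < ε)
    (hε1 : ε ≤ 1) {β : ℝ} (hβ : 0 ≤ β) (hβ' : β ≤ lvH q₀ / 8)
    (h4 : 4 * ε ^ (lvH q₀ / 8) ≤ 1) {E Esem : ℝ} (hE : 0 ≤ E)
    (hsem : Esem ≤ lvErr q₀ ε l / (2 * gridN β ε)) :
    stepErr (lvPar q₀ C ε l s c) E Esem ≤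
      E * (1 + 1 / (gridN β ε : ℝ)) + lvErr q₀ ε l / gridN β ε := by
  obtain ⟨h1, h2⟩ := gridN_facts (β := β) hβ hε hε1
  have hJ : (0 : ℝ) < gridN β ε := by linarith
  have hu : ε ^ (lvH q₀ / 4) ≤ 1 / (2 * (gridN β ε : ℝ)) := by
    rw [le_div_iff₀ (by positivity)]
    have hmon : ε ^ (-β) ≤ ε ^ (-(lvH q₀ / 8)) :=
      Real.rpow_le_rpow_of_exponent_ge hε hε1 (by linarith)
    have hpos := Real.rpow_pos_of_pos hε (lvH q₀ / 4)
    calc ε ^ (lvH q₀ / 4) * (2 * (gridN β ε : ℝ))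
        ≤ ε ^ (lvH q₀ / 4) * (2 * (2 * ε ^ (-(lvH q₀ / 8)))) := by gcongr; linarith
      _ = 4 * (ε ^ (lvH q₀ / 4) * ε ^ (-(lvH q₀ / 8))) := by ring
      _ = 4 * ε ^ (lvH q₀ / 8) := by rw [← Real.rpow_add hε]; ring_nf
      _ ≤ 1 := h4
  have hu' : ε ^ (lvH q₀ / 4) ≤ 1 / (gridN β ε : ℝ) :=
    hu.trans (one_div_le_one_div_of_le hJ (by linarith))
  have h0 : 0 ≤ lvErr q₀ ε l := (Real.rpow_pos_of_pos hε _).le
  refine (h.err_le E Esem hE).trans ?_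
  have a1 := mul_le_mul_of_nonneg_left hu' hE
  have a2 := mul_le_mul_of_nonneg_left hu h0
  have e : lvErr q₀ ε l / (2 * gridN β ε) + lvErr q₀ ε l * (1 / (2 * (gridN β ε : ℝ))) =
      lvErr q₀ ε l / gridN β ε := by field_simp; ring
  unfold lvErr at *
  linarith

end Vale.Agent.P347.Zero
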