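import Vale.Agent.P347.Zero.LevelData
import Vale.Agent.P347.Zero.Sampler.Step

/-!
The levels from the step rule.
-/

open Filter Topology

namespace Vale.Agent.P347.Zero

/-- The halvings of all levels are available once the step rule holds. -/
theorem levelsOk_of_rule (hrule : ∀ d, StepRule d) : LevelsOk := by
  intro q₀ hq
  refine ⟨lvRounds q₀, by unfold lvRounds; nlinarith, lvOrder q₀, fun m hm => ?_⟩
  obtain ⟨C, -, L, -, h⟩ := stepData_eventually hq hm
  filter_upwards [h, Ioo_mem_nhdsGT (by norm_num : (0 : ℝ) < 1 / 64)] with ε hG hε d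
  obtain ⟨G, -, hd⟩ := hG
  exact levelStep_of_rule (hrule d) hε.1 (by linarith [hε.2]) fun l hl hlL s hs hs2 =>
    ⟨_, hd d l hl hlL s hs hs2⟩

/-- The dimension exponent is zero once the two rules hold. -/
theorem gammaStar_eq_zero_of_rules (hstep : ∀ d, StepRule d) (hmid : ∀ d, MidRule d) :
    gammaStar = 0 :=
  gammaStar_eq_zero_of_levels hmid (levelsOk_of_rule hstep)

/-- Samplers with every positive power of the dimension, once the two rules hold. -/
theorem samples_of_rules (hstep : ∀ d, StepRule d) (hmid : ∀ d, MidRule d) {γ : ℝ} (hγ : 0 < γ) :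
    ∀ᶠ d : ℕ in atTop, ∃ q : ℕ, (q : ℝ) ≤ (d : ℝ) ^ γ ∧ Samples d q :=
  samples_of_steps (hstep_of_levels hmid (levelsOk_of_rule hstep)) hγ

end Vale.Agent.P347.Zero
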