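import Vale.Agent.P347.Zero.StepDefs

/-!
Simulated vectors whose bounds are a fixed part plus a multiple k of one evaluation.
-/

open MeasureTheory ProbabilityTheory
open scoped RealInnerProductSpace ENNReal

namespace Vale.Agent.P347.Zero

variable {d : ℕ}

/-- The error of one evaluation with lower error E inside a step. -/
noncomputable def Par.gain (P : Par) (E : ℝ) : ℝ := 8 * E + 192 * P.EI * P.A

/-- Fixed part (κ₀, α₀, M₀) plus k evaluations of noise σ and error g. -/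
def Lin {Env : Type} [MeasurableSpace Env] (X : Ctx d Env) (σ g : ℝ)
    (p : (EE d → ℝ) → Env → EE d) (κ₀ α₀ M₀ k : ℝ) (Q : ℕ) : Prop :=
  Val X p (κ₀ + 2 * σ * k) (α₀ + 9 * k) (g * k) (M₀ + 24 * k) Q

variable {Env : Type} [MeasurableSpace Env] {X : Ctx d Env} {σ g : ℝ}
  {p p₁ p₂ : (EE d → ℝ) → Env → EE d} {κ₀ α₀ M₀ κ₁ α₁ M₁ κ₂ α₂ M₂ k k₁ k₂ : ℝ} {Q Q₁ Q₂ : ℕ}

lemma Lin.mono (h : Lin X σ g p κ₀ α₀ M₀ k Q) (hσ : 0 ≤ σ) (hg : 0 ≤ g) {κ' α' M' k' : ℝ} {Q' : ℕ}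
    (hκ : κ₀ ≤ κ') (hα : α₀ ≤ α') (hM : M₀ ≤ M') (hk : k ≤ k') (hQ : Q ≤ Q') :
    Lin X σ g p κ' α' M' k' Q' := by
  refine Val.mono h ?_ ?_ ?_ ?_ hQ <;> gcongr

lemma Lin.congr (h : Lin X σ g p κ₀ α₀ M₀ k Q) {p' : (EE d → ℝ) → Env → EE d}
    (he : ∀ V, Admissible V → ∀ w, p V w = p' V w) : Lin X σ g p' κ₀ α₀ M₀ k Q :=
  Val.congr h he

lemma lin_num {f : Env → EE d} (hf : Measurable f)
    (hs : ∀ V, Admissible V → ∀ w, ‖f w‖ ≤ X.base V w) :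
    Lin X σ g (fun _ w => f w) 0 0 1 0 1 :=
  (val_num (X := X) hf zero_le_one fun V hV w => (hs V hV w).trans_eq (one_mul _).symm).mono
    (by simp) (by simp) (by simp) (by simp) le_rfl

lemma Lin.smul (h : Lin X σ g p κ₀ α₀ M₀ k Q) (c : ℝ) :
    Lin X σ g (fun V w => c • p V w) (|c| * κ₀) (|c| * α₀) (|c| * M₀) (|c| * k) Q :=
  (Val.smul h c).mono (by rw [mul_add]; linarith) (by rw [mul_add]; linarith)
    (le_of_eq (by ring)) (by rw [mul_add]; linarith) le_rfl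

lemma Lin.add (h₁ : Lin X σ g p₁ κ₁ α₁ M₁ k₁ Q₁) (h₂ : Lin X σ g p₂ κ₂ α₂ M₂ k₂ Q₂)
    (hσ : 0 < σ) (hκ : 0 ≤ κ₁ + κ₂) (hk : 0 < k₁ + k₂) :
    Lin X σ g (fun V w => p₁ V w + p₂ V w) (κ₁ + κ₂) (α₁ + α₂) (M₁ + M₂) (k₁ + k₂) (Q₁ + Q₂) := by
  have := mul_pos (mul_pos two_pos hσ) hk
  refine (Val.add h₁ h₂ ?_).mono ?_ ?_ ?_ ?_ le_rfl <;> linarith

/-- A sum of evaluations with weights of total size W. -/
lemma lin_sum_eval {ι : Type} [Fintype ι] {S c E G : ℝ} {N : ℕ} {v : ι → ℝ} {w : ι → ℝ} {W : ℝ}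
    {pt : ι → (EE d → ℝ) → Env → EE d} (hD : DriftAll d S) (hv : ∀ j, 0 ≤ v j)
    (hvS : ∀ j, v j ≤ S) (hE : ∀ j, Eval d (v j) c σ E N) (hσ : 0 < σ) (hE0 : 0 ≤ E)
    (hG : 0 ≤ G) (hg : 8 * E + 3 * G ≤ g)
    (hpt : ∀ j, ∃ κ, κ ≤ c * Real.sqrt (v j) ∧ Val X (pt j) κ 3 G 7 Q)
    (hw : ∑ j, |w j| ≤ W) (hW : 0 < W) :
    Lin X σ g (fun V x => ∑ j, w j • Dv V (v j) (pt j V x)) 0 0 0 W
      (Fintype.card ι * (N * Q) + 1) := by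
  have hj : ∀ j, Val X (fun V x => Dv V (v j) (pt j V x)) σ 9 g 24 (N * Q) := fun j => by
    obtain ⟨κ, hκ, hp⟩ := hpt j
    refine (hp.eval hD (hv j) (hvS j) (hE j) hκ hσ.le hE0).mono le_rfl ?_ ?_ ?_ le_rfl <;> linarith
  have hg0 : 0 ≤ g := by linarith
  refine (val_wsum hw hj hW hσ (by norm_num) hg0 (by norm_num)).mono ?_ ?_ ?_ ?_ le_rfl <;>
    linarith

/-- A sum of multiples of k evaluations with weights of total size W. -/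
lemma lin_sum {ι : Type} [Fintype ι] {w : ι → ℝ} {W : ℝ}
    {q : ι → (EE d → ℝ) → Env → EE d} (h : ∀ j, Lin X σ g (q j) 0 0 0 k Q) (hσ : 0 < σ)
    (hg : 0 ≤ g) (hk : 0 < k) (hw : ∑ j, |w j| ≤ W) (hW : 0 < W) :
    Lin X σ g (fun V x => ∑ j, w j • q j V x) 0 0 0 (2 * W * k) (Fintype.card ι * Q + 1) := by
  have := mul_pos hW hk
  refine (val_wsum hw h hW (by positivity) (by positivity) (by positivity) (by positivity)).mono
    ?_ ?_ ?_ ?_ le_rfl <;> nlinarith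

end Vale.Agent.P347.Zero
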