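import Vale.Agent.P347.Zero.StepTools

/-!
The program of the midpoint of the forward sweep.
-/

open MeasureTheory ProbabilityTheory
open scoped RealInnerProductSpace ENNReal

namespace Vale.Agent.P347.Zero

variable {d : ℕ} {P : Par} {S : ℝ} {N : ℕ}

lemma fwdLen_le {s : ℝ} (hs : 0 ≤ s) : fwdLen s ≤ Real.sqrt s :=
  Real.sqrt_le_sqrt (by linarith)

lemma Par.Cs_le {P : Par} (h : P.Ok) : P.C * P.s ≤ P.A := by
  have := h.one_le; have := h.s_pos; have := h.σ_pos; have := Par.t₀_pos h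
  refine le_trans (le_mul_of_one_le_right (by positivity) ?_) (Par.A_facts h).1
  exact le_add_of_nonneg_right (by positivity)

lemma Par.fwdK_le {P : Par} (h : P.Ok) : fwdLen P.s * (P.C * fwdLen P.s) ≤ P.A := by
  have hs := h.s_pos
  refine le_trans ?_ (Par.Cs_le h)
  calc fwdLen P.s * (P.C * fwdLen P.s) = P.C * fwdLen P.s ^ 2 := by ring
    _ ≤ P.C * P.s := mul_le_mul_of_nonneg_left (fwdLen_facts hs.le).2 (by linarith [h.one_le])

/-- The deterministic part of the midpoint, simulated at the noise of the bridge. -/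
lemma Inner.mid_prog (h : Inner d P S N) {Env : Type} [MeasurableSpace Env] {X : Ctx d Env}
    {p Wd : (EE d → ℝ) → Env → EE d} {Qp QW : ℕ}
    (hp : Lin X P.σI (16 * P.EI) p P.κp 1 1 0 Qp)
    (hW : Lin X P.σI (16 * P.EI) Wd 0 0 1 0 QW) :
    Val X (fun V z => p V z + (2 / 3 * fwdLen P.s) • fwdEnd V P.cfg P.s (p V z) (Wd V z))
      (P.c * Real.sqrt P.s / 2) (1 + 9 * P.A) (16 * P.EI * P.A) 3
      (Qp + roundCost P.cfg N ^ (P.cfg.k + 1) * (Qp + QW + 1)) := by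
  have ho := h.ok
  have hσ := ho.σI_pos
  have hg : 0 ≤ 16 * P.EI := by linarith [ho.EI_nonneg]
  obtain ⟨-, hA, -⟩ := Par.A_facts ho
  have hL0 : 0 < fwdLen P.s := Real.sqrt_pos.2 (by linarith [ho.s_pos])
  have hL1 : fwdLen P.s ≤ 1 := (fwdLen_le ho.s_pos.le).trans (Real.sqrt_le_one.2 ho.s_le)
  have hk : 0 < P.C * fwdLen P.s := mul_pos (by linarith [ho.one_le]) hL0
  have hc : |2 / 3 * fwdLen P.s| = 2 / 3 * fwdLen P.s := abs_of_pos (by positivity)
  have hE : Lin X P.σI (16 * P.EI)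
      (fun V z => (2 / 3 * fwdLen P.s) • fwdEnd V P.cfg P.s (p V z) (Wd V z)) 0 0 1 P.A
      (roundCost P.cfg N ^ (P.cfg.k + 1) * (Qp + QW + 1)) := by
    refine ((h.fwd_prog hp hW).smul _).mono hσ.le hg (by simp) (by simp) ?_ ?_ le_rfl
    · rw [hc]; linarith
    · rw [hc]; nlinarith [Par.fwdK_le ho, mul_pos hL0 hk]
  refine Val.mono (hp.add hE hσ (by linarith [ho.κp_nonneg]) (by linarith)) ?_ ?_ ?_ ?_ le_rfl
  · nlinarith [ho.noise, mul_nonneg hσ.le hA.le]
  · linarith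
  · simp
  · linarith [ho.A_le]

lemma cost_pow_le (c : Cfg) (N : ℕ) {e : ℕ} (he : e + 1 ≤ (c.k + 4) ^ 3) :
    12 * roundCost c N ^ e ≤ roundCost c N ^ ((c.k + 4) ^ 3) := by
  have h12 : 12 ≤ roundCost c N := by unfold roundCost; nlinarith
  calc 12 * roundCost c N ^ e ≤ roundCost c N * roundCost c N ^ e := Nat.mul_le_mul_right _ h12
    _ = roundCost c N ^ (e + 1) := (pow_succ' _ _).symm
    _ ≤ _ := Nat.pow_le_pow_right (roundCost_pos _ _) he

lemma noise_le_bridge {P : Par} (h : P.Ok) :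
    P.c * Real.sqrt P.s / 2 ≤ Real.sqrt (P.s / 6) := by
  have hs := h.s_pos
  have h1 : P.c * Real.sqrt P.s / 2 ≤ Real.sqrt P.s / 4 := by
    have := mul_le_mul_of_nonneg_right h.c_le (Real.sqrt_nonneg P.s)
    linarith
  refine h1.trans ((Real.le_sqrt (by positivity) (by positivity)).2 ?_)
  rw [div_pow, Real.sq_sqrt hs.le]; linarith

/-- The forward midpoint rule. -/
theorem midRule (d : ℕ) : MidRule d := by
  intro P S κ NI hP hs hD _ hE
  have h : Inner d P S NI := ⟨hP, hD, hs, hE⟩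
  have hσ := hP.σI_pos
  have hg : 0 ≤ 16 * P.EI := by linarith [hP.EI_nonneg]
  let X : Ctx d (EE d × EE d) :=
    { base := fun _ z => Real.sqrt d + ‖z.1‖ + ‖z.2‖
      err := fun _ _ => 0
      cost := 0
      base_ge := fun _ z => by linarith [norm_nonneg z.1, norm_nonneg z.2] }
  have hy : Lin X P.σI (16 * P.EI) (fun _ z => z.1) P.κp 1 1 0 1 :=
    (lin_num (X := X) measurable_fst fun _ _ z => by
      show ‖z.1‖ ≤ Real.sqrt d + ‖z.1‖ + ‖z.2‖
      linarith [Real.sqrt_nonneg (d : ℝ), norm_nonneg z.2]).mono hσ.le hg hP.κp_nonneg zero_le_one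
        le_rfl le_rfl le_rfl
  have hW : Lin X P.σI (16 * P.EI) (fun _ z => z.2) 0 0 1 0 1 :=
    lin_num (X := X) measurable_snd fun _ _ z => by
      show ‖z.2‖ ≤ Real.sqrt d + ‖z.1‖ + ‖z.2‖
      linarith [Real.sqrt_nonneg (d : ℝ), norm_nonneg z.1]
  obtain ⟨q, k, hk, hq, hsim⟩ := (h.mid_prog hy hW).sim
  refine ⟨q, ?_, (hsim.noise (hk.trans (noise_le_bridge hP)) ?_).congr (fun _ _ _ => rfl)
    fun V _ z => ?_⟩
  · refine hq.trans ?_
    have h1 := cost_pow_le P.cfg NI (e := P.cfg.k + 1) (by nlinarith [sq_nonneg P.cfg.k])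
    have h2 : 1 ≤ roundCost P.cfg NI ^ (P.cfg.k + 1) := Nat.one_le_pow _ _ (roundCost_pos _ _)
    show _ ≤ 3 * roundCost P.cfg NI ^ ((P.cfg.k + 4) ^ 3)
    show (1 + _ * (1 + 1 + 1)) * (0 + 1) ≤ _
    omega
  · exact Real.sqrt_pos.2 (by linarith [hP.s_pos])
  · simp only [X, mul_zero, add_zero]
    refine ENNReal.ofReal_le_ofReal (mul_le_mul_of_nonneg_right ?_ (by positivity))
    nlinarith [mul_nonneg hP.EI_nonneg (Par.A_facts hP).2.1.le]

end Vale.Agent.P347.Zero
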