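import Vale.Agent.P347.Zero.Calc.Basic

/-!
Posterior expectations of the proximal model, the smoothed drift and its derivative tensors
(objects of note 897).
-/

open MeasureTheory ProbabilityTheory
open scoped RealInnerProductSpace

namespace Vale.Agent.P347.Zero

variable {d : ℕ}

/-- Unnormalised density of x given y at variance v. -/
noncomputable def pw (V : EE d → ℝ) (v : ℝ) (y x : EE d) : ℝ :=
  Real.exp (-(V x) - ‖x - y‖ ^ 2 / (2 * v))

/-- Its total mass. -/
noncomputable def pZ (V : EE d → ℝ) (v : ℝ) (y : EE d) : ℝ := ∫ x, pw V v y x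

/-- Posterior expectation. -/
noncomputable def pE {G : Type*} [NormedAddCommGroup G] [NormedSpace ℝ G] (V : EE d → ℝ) (v : ℝ)
    (y : EE d) (f : EE d → G) : G :=
  (pZ V v y)⁻¹ • ∫ x, pw V v y x • f x

/-- The drift of the potential smoothed at variance v; at v ≤ 0 the gradient itself. -/
noncomputable def Dv (V : EE d → ℝ) (v : ℝ) (y : EE d) : EE d :=
  if v ≤ 0 then gradient V y else pE V v y (gradient V)

/-- Exported bound B1 for contiguous bipartitions of the derivative tensors
(proved in `Bipartition.lean`). -/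
def BipBound (n : ℕ) (K : ℝ) : Prop :=
  ∀ (d : ℕ) (V : EE d → ℝ) (v : ℝ), Admissible V → 0 < v → v ≤ 1 / 16 →
    ∀ (y : EE d) (a b : ℕ), 1 ≤ a → 1 ≤ b → a + b = n + 2 →
      Calc.Mop (fun (f : Fin a → Fin d) (g : Fin b → Fin d) =>
        Calc.pd (Dv V) (List.ofFn f ++ List.ofFn g) v y) (K / Real.sqrt v ^ n)

end Vale.Agent.P347.Zero
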