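import Vale.Agent.P347.Zero.ChainLimit

/-!
The Poincare inequality of the posterior, integration by parts, and the first derivative of the
smoothed drift.
-/

open MeasureTheory ProbabilityTheory Filter
open scoped RealInnerProductSpace Topology

namespace Vale.Agent.P347.Zero

variable {d : ℕ} {V : EE d → ℝ} {v : ℝ}

lemma zchain_noise {g : EE d → EE d} {η h : ℝ} {N : ℕ} (ok : Chain.Ok g η h N) (y : EE d)
    (ω ω' : Path d N) : ∀ k,
    ‖zchain g η h N y k ω - zchain g η h N y k ω'‖ ^ 2 ≤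
      η * ∑ i ∈ Finset.range (k + 1), ‖inp d N i (ω - ω')‖ ^ 2
  | 0 => by
    rw [Finset.sum_range_one]
    simp only [zchain, add_sub_add_left_eq_sub, ← smul_sub, ← map_sub, norm_smul,
      Real.norm_eq_abs, mul_pow, sq_abs, Real.sq_sqrt ok.eta_pos.le]
    exact le_rfl
  | k + 1 => by
    have hη := ok.eta_pos
    have hh := ok.h_pos
    have hh1 : h ≤ 1 := by linarith [ok.h_le, ok.eta_le]
    set z := zchain g η h N y k ω with hz
    set z' := zchain g η h N y k ω' with hz'
    set S := ∑ i ∈ Finset.range (k + 1), ‖inp d N i (ω - ω')‖ ^ 2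
    set e := ‖inp d N (k + 1) (ω - ω')‖
    have ih : ‖z - z'‖ ^ 2 ≤ η * S := zchain_noise ok y ω ω' k
    have hlin : ‖(z - h • (z - y + η • g z)) - (z' - h • (z' - y + η • g z'))‖ ≤
        (1 - h) * ‖z - z'‖ := by
      have hd : ∀ x, HasFDerivAt (fun x => x - h • (x - y + η • g x))
          (Chain.stepOp η h (fderiv ℝ g x)) x := fun x => by
        have hgx := (ok.cls.smooth.differentiable one_ne_zero x).hasFDerivAt
        refine ((hasFDerivAt_id x).sub ((((hasFDerivAt_id x).sub_const y).add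
          (hgx.const_smul η)).const_smul h)).congr_fderiv ?_
        ext1 u
        simp only [Chain.stepOp, sub_apply, smul_apply,
          add_apply, ContinuousLinearMap.id_apply]
        module
      exact convex_univ.norm_image_sub_le_of_norm_fderiv_le
        (f := fun x => x - h • (x - y + η • g x)) (fun x _ => (hd x).differentiableAt)
        (fun x _ => by
          rw [(hd x).fderiv]
          exact (Chain.norm_stepOp_le ok x).trans (by nlinarith))
        (Set.mem_univ z') (Set.mem_univ z)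
    have hb : 0 ≤ 1 - (1 - h) ^ 2 := by nlinarith
    have hstep : ‖zchain g η h N y (k + 1) ω - zchain g η h N y (k + 1) ω'‖ ≤
        (1 - h) * ‖z - z'‖ + Real.sqrt η * beta h * e := by
      simp only [zchain, ← hz, ← hz']
      rw [add_sub_add_comm, ← smul_sub, ← map_sub]
      refine (norm_add_le _ _).trans (add_le_add hlin (le_of_eq ?_))
      rw [norm_smul, Real.norm_eq_abs, abs_of_nonneg (by unfold beta; positivity)]
    rw [Finset.sum_range_succ]
    refine (pow_le_pow_left₀ (norm_nonneg _) hstep 2).trans ?_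
    have e1 : (1 - h) ^ 2 + beta h ^ 2 = 1 := by rw [beta, Real.sq_sqrt hb]; ring
    have e2 : Real.sqrt η ^ 2 = η := Real.sq_sqrt hη.le
    calc ((1 - h) * ‖z - z'‖ + Real.sqrt η * beta h * e) ^ 2
        ≤ ((1 - h) ^ 2 + beta h ^ 2) * (‖z - z'‖ ^ 2 + Real.sqrt η ^ 2 * e ^ 2) := by
          nlinarith [sq_nonneg ((1 - h) * (Real.sqrt η * e) - beta h * ‖z - z'‖)]
      _ ≤ η * (S + e ^ 2) := by rw [e1, e2, one_mul]; linarith

lemma sum_inp_sq {N : ℕ} (ω : Path d N) :
    ∑ i ∈ Finset.range (N + 1), ‖inp d N i ω‖ ^ 2 = ‖ω‖ ^ 2 := by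
  rw [PiLp.norm_sq_eq_of_L2, ← Fin.sum_univ_eq_sum_range (fun i => ‖inp d N i ω‖ ^ 2)]
  refine Finset.sum_congr rfl fun i _ => ?_
  rw [inp, dif_pos i.isLt]
  simp

lemma zchain_noise_fderiv {g : EE d → EE d} {η h : ℝ} {N : ℕ} (ok : Chain.Ok g η h N)
    (y : EE d) (ω : Path d N) :
    ‖fderiv ℝ (fun ω => zchain g η h N y N ω) ω‖ ≤ Real.sqrt η := by
  refine norm_fderiv_le_of_lipschitz ℝ (C := ⟨Real.sqrt η, Real.sqrt_nonneg _⟩)
    (LipschitzWith.of_dist_le_mul fun a b => ?_)
  rw [dist_eq_norm, dist_eq_norm]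
  show _ ≤ Real.sqrt η * _
  rw [← Real.sqrt_sq (norm_nonneg (_ - _)),
    ← Real.sqrt_sq (norm_nonneg (a - b)), ← Real.sqrt_mul ok.eta_pos.le]
  refine Real.sqrt_le_sqrt ((zchain_noise ok y a b N).trans ?_)
  rw [sum_inp_sq]

/-- Smoothed bounded functions are uniformly close. -/
lemma gs_close {f : EE d → ℝ} {K δ r s : ℝ} (hf : Continuous f) (hK : ∀ x, ‖f x‖ ≤ K)
    (hr : 0 < r) (hs : 0 < s) (hδ : 0 ≤ δ) (hu : ∀ a b, dist a b < r → dist (f a) (f b) ≤ δ)
    (x : EE d) : |Gs s f x - f x| ≤ δ + 2 * K * (s * d / r ^ 2) := by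
  have hK0 : 0 ≤ K := (norm_nonneg _).trans (hK 0)
  have hi : Integrable (fun ξ => f (x + Real.sqrt s • ξ)) (gam d) :=
    Integrable.of_bound (by apply Continuous.aestronglyMeasurable; fun_prop) K
      (ae_of_all _ fun ξ => hK _)
  have h2 := inv_pow_gam (d := d) 2
  have e : Gs s f x - f x = ∫ ξ, (f (x + Real.sqrt s • ξ) - f x) ∂gam d := by
    rw [integral_sub hi (integrable_const _)]; simp [Gs]
  rw [e]
  refine abs_integral_le_integral_abs.trans ((integral_mono (hi.sub (integrable_const _)).abs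
    ((integrable_const δ).add (h2.const_mul (2 * K * (s / r ^ 2)))) fun ξ => ?_).trans ?_)
  · simp only [Pi.add_apply, Pi.sub_apply]
    set a := Real.sqrt s • ξ
    have ha : ‖a‖ ^ 2 = s * ‖ξ‖ ^ 2 := by
      simp only [a, norm_smul, Real.norm_eq_abs, mul_pow, sq_abs, Real.sq_sqrt hs.le]
    rcases lt_or_ge ‖a‖ r with h | h
    · have := hu (x + a) x (by simpa [dist_eq_norm] using h)
      rw [Real.dist_eq] at this
      refine this.trans (le_add_of_nonneg_right ?_)
      positivity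
    · refine (abs_sub _ _).trans ?_
      have h1 : (1 : ℝ) ≤ s / r ^ 2 * ‖ξ‖ ^ 2 := by
        rw [div_mul_eq_mul_div, ← ha, le_div_iff₀ (by positivity), one_mul]
        exact pow_le_pow_left₀ hr.le h 2
      have := mul_le_mul_of_nonneg_left h1 (by positivity : (0 : ℝ) ≤ 2 * K)
      have a1 := hK (x + a)
      have a2 := hK x
      rw [Real.norm_eq_abs] at a1 a2
      nlinarith
  · rw [integral_add' (integrable_const _) (h2.const_mul _), integral_const_mul]
    have h3 := second_moment (EE d)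
    rw [finrank_euclideanSpace_fin] at h3
    rw [h3]
    simp only [integral_const, probReal_univ, one_smul]
    exact le_of_eq (by ring)

/-- The chain limit for bounded uniformly continuous functions. -/
lemma chain_limit_uc (hV : Admissible V) (hv : 0 < v) (hv1 : v ≤ 1 / 16) {f : EE d → ℝ}
    (hf : UniformContinuous f) {K : ℝ} (hK : ∀ x, ‖f x‖ ≤ K) (y : EE d) :
    Tendsto (fun n => ∫ ω, f (zchain (gradient V) v (hSeq v n) (nSeq v n) y (nSeq v n) ω)
      ∂pgam d (nSeq v n)) atTop (𝓝 (pE V v y f)) := by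
  have hK0 : 0 ≤ K := (norm_nonneg _).trans (hK 0)
  refine Metric.tendsto_atTop.2 fun ε hε => ?_
  obtain ⟨r, hr, hu⟩ := Metric.uniformContinuous_iff.1 hf (ε / 8) (by linarith)
  set s := ε / 8 * r ^ 2 / ((2 * K + 1) * (d + 1)) with hs
  have hs0 : 0 < s := by positivity
  have hcl : ∀ x, |Gs s f x - f x| ≤ ε / 4 := fun x => by
    refine (gs_close hf.continuous hK hr hs0 (by linarith : (0 : ℝ) ≤ ε / 8)
      (fun a b h => (hu h).le) x).trans ?_
    have : 2 * K * (s * d / r ^ 2) ≤ ε / 8 := by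
      rw [hs]
      field_simp
      nlinarith [Nat.cast_nonneg (α := ℝ) d, mul_nonneg hK0 (Nat.cast_nonneg (α := ℝ) d)]
    linarith
  obtain ⟨hcd, -⟩ := gs_deriv hs0 f hf.continuous hK
  have hb : ∀ x, ‖fderiv ℝ (Gs s f) x‖ ≤ K / Real.sqrt s := fun x => by
    obtain ⟨-, hh⟩ := gs_deriv hs0 f hf.continuous hK
    refine (Chain.norm_le_hsn _).trans ?_
    refine le_of_pow_le_pow_left₀ two_ne_zero (by positivity) ?_
    rw [div_pow, Real.sq_sqrt hs0.le]
    refine (hh x).trans (div_le_div_of_nonneg_right ?_ hs0.le)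
    have h1 : ∫ ξ, ‖f (x + Real.sqrt s • ξ)‖ ^ 2 ∂gam d ≤ K ^ 2 := by
      refine (integral_mono_of_nonneg (ae_of_all _ fun ξ => sq_nonneg _)
        (integrable_const (K ^ 2))
        (ae_of_all _ fun ξ => pow_le_pow_left₀ (norm_nonneg _) (hK _) 2)).trans ?_
      simp
    linarith [sq_nonneg ‖Gs s f x‖]
  set φ : EE d → ℝ := fun x => (K + 1)⁻¹ * Gs s f x with hφ
  have hφd : ContDiff ℝ 1 φ := contDiff_const.mul hcd
  have hGK : ∀ x, |Gs s f x| ≤ K := fun x => by
    rw [← Real.norm_eq_abs]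
    exact (norm_integral_le_of_norm_le_const (ae_of_all _ fun ξ => hK _)).trans (by simp)
  have hφ1 : ∀ x, |φ x| ≤ 1 := fun x => by
    rw [hφ, abs_mul, abs_of_pos (by positivity : 0 < (K + 1)⁻¹), inv_mul_le_iff₀ (by linarith)]
    linarith [hGK x]
  have hφb : ∀ x, ‖fderiv ℝ φ x‖ ≤ (K + 1)⁻¹ * (K / Real.sqrt s) := fun x => by
    rw [hφ, fderiv_const_mul (hcd.differentiable one_ne_zero x), norm_smul, Real.norm_eq_abs,
      abs_of_pos (by positivity : 0 < (K + 1)⁻¹)]
    exact mul_le_mul_of_nonneg_left (hb x) (by positivity)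
  have hlim := (chain_limit hV hv hv1 hφd hφb hφ1 y).const_mul (K + 1)
  have hne : K + 1 ≠ 0 := by linarith
  have e1 : (K + 1) * pE V v y φ = pE V v y (Gs s f) := by
    rw [pE_eq_ex, pE_eq_ex, hφ, ← smul_eq_mul (K + 1), ← ex_smul]
    congr 1
    funext x
    rw [smul_eq_mul]
    field_simp
  rw [e1] at hlim
  obtain ⟨n0, hn0⟩ := Metric.tendsto_atTop.1 hlim (ε / 4) (by linarith)
  refine ⟨n0, fun n hn => ?_⟩
  have h1 := hn0 n hn
  rw [Real.dist_eq] at h1 ⊢
  have hz : ∀ {F : EE d → ℝ}, Continuous F → (∃ M, ∀ x, ‖F x‖ ≤ M) → Integrable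
      (fun ω => F (zchain (gradient V) v (hSeq v n) (nSeq v n) y (nSeq v n) ω))
      (pgam d (nSeq v n)) := fun hF hM => Chain.int_z (seq_ok hV hv hv1 n) ⟨hF, hM⟩ y
  have hGb : ∃ M, ∀ x, ‖Gs s f x‖ ≤ M := ⟨K, fun x => hGK x⟩
  have e2 : (K + 1) * ∫ ω, φ (zchain (gradient V) v (hSeq v n) (nSeq v n) y (nSeq v n) ω)
      ∂pgam d (nSeq v n) = ∫ ω, Gs s f (zchain (gradient V) v (hSeq v n) (nSeq v n) y (nSeq v n) ω)
      ∂pgam d (nSeq v n) := by
    rw [← integral_const_mul]
    refine integral_congr_ae (ae_of_all _ fun ω => ?_)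
    simp only [hφ]
    field_simp
  rw [e2] at h1
  have h2 : |(∫ ω, f (zchain (gradient V) v (hSeq v n) (nSeq v n) y (nSeq v n) ω)
      ∂pgam d (nSeq v n)) - ∫ ω, Gs s f (zchain (gradient V) v (hSeq v n) (nSeq v n) y (nSeq v n) ω)
      ∂pgam d (nSeq v n)| ≤ ε / 4 := by
    rw [← integral_sub (hz hf.continuous ⟨K, hK⟩) (hz hcd.continuous hGb), ← Real.norm_eq_abs]
    refine (norm_integral_le_of_norm_le_const (C := ε / 4) (ae_of_all _ fun ω => ?_)).trans_eq
      (by simp)
    rw [Real.norm_eq_abs, abs_sub_comm]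
    exact hcl _
  have h3 : |pE V v y (Gs s f) - pE V v y f| ≤ ε / 4 := by
    have gG : Gr (Gs s f) := gr_of_le hcd.continuous (gr_const K) fun x => hGK x
    have gf : Gr f := gr_of_le hf.continuous (gr_const K) hK
    rw [pE_eq_ex, pE_eq_ex, abs_le]
    constructor
    · have := ex_mono hV hv gf (gG.add (gr_const (ε / 4)))
        (fun x => by linarith [abs_le.1 (hcl x)]) (v⁻¹ • y)
      rw [ex_add hV hv gG (gr_const _), ex_const hV hv] at this
      linarith
    · have := ex_mono hV hv gG (gf.add (gr_const (ε / 4)))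
        (fun x => by linarith [abs_le.1 (hcl x)]) (v⁻¹ • y)
      rw [ex_add hV hv gf (gr_const _), ex_const hV hv] at this
      linarith
  linarith [abs_sub_le (∫ ω, f (zchain (gradient V) v (hSeq v n) (nSeq v n) y (nSeq v n) ω)
      ∂pgam d (nSeq v n))
    (∫ ω, Gs s f (zchain (gradient V) v (hSeq v n) (nSeq v n) y (nSeq v n) ω)
      ∂pgam d (nSeq v n)) (pE V v y f),
    abs_sub_le (∫ ω, Gs s f (zchain (gradient V) v (hSeq v n) (nSeq v n) y (nSeq v n) ω)
      ∂pgam d (nSeq v n)) (pE V v y (Gs s f)) (pE V v y f)]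

/-- Poincare for compactly supported functions. -/
lemma poincare_compact (hV : Admissible V) (hv : 0 < v) (hv1 : v ≤ 1 / 16) {φ : EE d → ℝ}
    (hφ : ContDiff ℝ 1 φ) (hs : HasCompactSupport φ) (y : EE d) :
    pE V v y (fun x => φ x ^ 2) - pE V v y φ ^ 2 ≤
      5 / 4 * v * pE V v y (fun x => ‖fderiv ℝ φ x‖ ^ 2) := by
  have hdc : Continuous (fderiv ℝ φ) := hφ.continuous_fderiv one_ne_zero
  obtain ⟨B, hB⟩ := hdc.bounded_above_of_compact_support (hs.fderiv ℝ)
  obtain ⟨K, hK⟩ := hφ.continuous.bounded_above_of_compact_support hs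
  have h2c : Continuous fun x => φ x ^ 2 := hφ.continuous.pow 2
  have h2s : HasCompactSupport fun x => φ x ^ 2 := hs.comp_left (g := fun a : ℝ => a ^ 2) (by simp)
  have h3c : Continuous fun x => ‖fderiv ℝ φ x‖ ^ 2 := hdc.norm.pow 2
  have h3s : HasCompactSupport fun x => ‖fderiv ℝ φ x‖ ^ 2 :=
    (hs.fderiv ℝ).comp_left (g := fun a => ‖a‖ ^ 2) (by simp)
  obtain ⟨K2, hK2⟩ := h2c.bounded_above_of_compact_support h2s
  obtain ⟨K3, hK3⟩ := h3c.bounded_above_of_compact_support h3s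
  have l1 := chain_limit_uc hV hv hv1 (hs.uniformContinuous_of_continuous hφ.continuous) hK y
  have l2 := chain_limit_uc hV hv hv1 (h2s.uniformContinuous_of_continuous h2c) hK2 y
  have l3 := chain_limit_uc hV hv hv1 (h3s.uniformContinuous_of_continuous h3c) hK3 y
  refine le_of_tendsto_of_tendsto (l2.sub (l1.pow 2)) (l3.const_mul (5 / 4 * v))
    (Eventually.of_forall fun n => ?_)
  have ok := seq_ok hV hv hv1 n
  set Z : Path d (nSeq v n) → EE d :=
    fun ω => zchain (gradient V) v (hSeq v n) (nSeq v n) y (nSeq v n) ω with hZ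
  have hZd : ContDiff ℝ 1 Z :=
    (Chain.contDiff_z ok.cls.smooth (nSeq v n)).comp (contDiff_const.prodMk contDiff_id)
  have hJ := fun ω => zchain_noise_fderiv ok y ω
  have hB0 : 0 ≤ B := (norm_nonneg _).trans (hB 0)
  have hder : ∀ ω, fderiv ℝ (fun ω => φ (Z ω)) ω = (fderiv ℝ φ (Z ω)).comp (fderiv ℝ Z ω) :=
    fun ω => fderiv_comp ω (hφ.differentiable one_ne_zero _) (hZd.differentiable one_ne_zero _)
  have hgv := gauss_var (fun ω => φ (Z ω)) (B * Real.sqrt v) (hφ.comp hZd) fun ω => by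
    rw [hder]
    exact (ContinuousLinearMap.opNorm_comp_le _ _).trans
      (mul_le_mul (hB _) (hJ ω) (norm_nonneg _) hB0)
  have hbc : ∀ {F : EE d → ℝ}, Continuous F → (∃ M, ∀ x, ‖F x‖ ≤ M) → Integrable
      (fun ω => F (Z ω)) (pgam d (nSeq v n)) := fun hF hM => Chain.int_z ok ⟨hF, hM⟩ y
  set m := ∫ ω, φ (Z ω) ∂pgam d (nSeq v n) with hm
  have e : ∫ ω, ‖φ (Z ω) - m‖ ^ 2 ∂pgam d (nSeq v n) =
      (∫ ω, φ (Z ω) ^ 2 ∂pgam d (nSeq v n)) - m ^ 2 := by
    have i1 := hbc hφ.continuous ⟨K, hK⟩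
    have i2 := hbc h2c ⟨K2, hK2⟩
    simp only [Real.norm_eq_abs, sq_abs, sub_sq]
    have i3 : Integrable (fun ω => 2 * φ (Z ω) * m) (pgam d (nSeq v n)) :=
      (i1.const_mul 2).mul_const m
    have i4 : Integrable (fun ω => φ (Z ω) ^ 2 - 2 * φ (Z ω) * m) (pgam d (nSeq v n)) := i2.sub i3
    rw [integral_add i4 (integrable_const _), integral_sub i2 i3, integral_mul_const,
      integral_const_mul]
    simp [← hm]; ring
  simp only [← hm] at hgv
  rw [e] at hgv
  refine hgv.trans ?_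
  beta_reduce
  rw [mul_assoc, ← integral_const_mul v]
  refine mul_le_mul_of_nonneg_left (integral_mono_of_nonneg (ae_of_all _ fun ω => sq_nonneg _)
    ((hbc h3c ⟨K3, hK3⟩).const_mul v) (ae_of_all _ fun ω => ?_)) (by norm_num)
  show ‖_‖ ^ 2 ≤ _
  rw [hder]
  refine (pow_le_pow_left₀ (norm_nonneg _) ((ContinuousLinearMap.opNorm_comp_le _ _).trans
    (mul_le_mul_of_nonneg_left (hJ ω) (norm_nonneg _))) 2).trans_eq ?_
  rw [mul_pow, Real.sq_sqrt hv.le, mul_comm]

lemma ex_tendsto (hV : Admissible V) (hv : 0 < v) (c : EE d) {F : ℕ → EE d → ℝ} {f G : EE d → ℝ}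
    (hG : Gr G) (hFc : ∀ n, Continuous (F n)) (hb : ∀ n x, |F n x| ≤ G x)
    (hlim : ∀ x, Tendsto (fun n => F n x) atTop (𝓝 (f x))) :
    Tendsto (fun n => ex V v c (F n)) atTop (𝓝 (ex V v c f)) := by
  simp only [ex, lap, smul_eq_mul]
  refine Tendsto.const_mul _ (tendsto_integral_of_dominated_convergence
    (fun x => Real.exp ⟪c, x⟫ * w0 V v x * G x) (fun n => ?_) ?_ (fun n => ae_of_all _ fun x => ?_)
    (ae_of_all _ fun x => (hlim x).const_mul _))
  · have := hV.1.continuous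
    exact (Continuous.mul (by unfold w0; fun_prop) (hFc n)).aestronglyMeasurable
  · simpa using tilt_integrable hV hv hG c
  · rw [norm_mul, Real.norm_eq_abs, abs_of_nonneg (by unfold w0; positivity)]
    exact mul_le_mul_of_nonneg_left (hb n x) (by unfold w0; positivity)

/-- Poincare for the posterior, in variance form, for functions of exponential growth. -/
theorem poincare (hV : Admissible V) (hv : 0 < v) (hv1 : v ≤ 1 / 16) {φ : EE d → ℝ}
    (hφ : ContDiff ℝ 1 φ) (hg : Gr φ) (hd : Gr (fun x => fderiv ℝ φ x)) (c : EE d) :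
    ex V v c (fun x => φ x ^ 2) - ex V v c φ ^ 2 ≤
      5 / 4 * v * ex V v c (fun x => ‖fderiv ℝ φ x‖ ^ 2) := by
  set b : ContDiffBump (0 : EE d) := ⟨1, 2, one_pos, one_lt_two⟩
  have hbc : ContDiff ℝ 1 b := b.contDiff
  obtain ⟨Cb, hCb⟩ := (hbc.continuous_fderiv one_ne_zero).bounded_above_of_compact_support
    (b.hasCompactSupport.fderiv ℝ)
  have hCb0 : 0 ≤ Cb := (norm_nonneg _).trans (hCb 0)
  set t : ℕ → ℝ := fun n => 1 / ((n : ℝ) + 1) with ht
  have ht0 : ∀ n, 0 < t n := fun n => by simp only [ht]; positivity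
  have ht1 : ∀ n, t n ≤ 1 := fun n => by
    simp only [ht]; rw [div_le_one (by positivity)]; simp
  have htl : Tendsto t atTop (𝓝 0) := tendsto_one_div_add_atTop_nhds_zero_nat
  set χ : ℕ → EE d → ℝ := fun n x => b (t n • x) with hχ
  have hχd : ∀ n x, HasFDerivAt (χ n) (t n • fderiv ℝ b (t n • x)) x := fun n x => by
    have h1 := (hbc.differentiable one_ne_zero (t n • x)).hasFDerivAt.comp x
      ((hasFDerivAt_id x).const_smul (t n))
    refine h1.congr_fderiv ?_
    ext u; simp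
  set F : ℕ → EE d → ℝ := fun n x => χ n x * φ x with hF
  have hFd : ∀ n, ContDiff ℝ 1 (F n) := fun n =>
    (hbc.comp (contDiff_const_smul _)).mul hφ
  have hFs : ∀ n, HasCompactSupport (F n) := fun n =>
    (b.hasCompactSupport.comp_smul (ht0 n).ne').mul_right
  have hFder : ∀ n x, fderiv ℝ (F n) x =
      χ n x • fderiv ℝ φ x + φ x • (t n • fderiv ℝ b (t n • x)) := fun n x =>
    ((hχd n x).mul (hφ.differentiable one_ne_zero x).hasFDerivAt).fderiv
  have hχ1 : ∀ n x, |χ n x| ≤ 1 := fun n x => by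
    simp only [hχ]; rw [abs_of_nonneg b.nonneg]; exact b.le_one
  have hχl : ∀ x, Tendsto (fun n => χ n x) atTop (𝓝 1) := fun x => by
    have h := (hbc.continuous.tendsto (0 : EE d)).comp (htl.smul_const x |>.trans (by simp))
    rw [show b (0 : EE d) = 1 from b.one_of_mem_closedBall (by simp [b])] at h
    exact h
  have hFb : ∀ n x, |F n x| ≤ |φ x| := fun n x => by
    simp only [hF, abs_mul]; exact mul_le_of_le_one_left (abs_nonneg _) (hχ1 n x)
  have hDb : ∀ n x, ‖fderiv ℝ (F n) x‖ ≤ ‖fderiv ℝ φ x‖ + Cb * |φ x| := fun n x => by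
    rw [hFder]
    refine (norm_add_le _ _).trans (add_le_add ?_ ?_)
    · rw [norm_smul, Real.norm_eq_abs]
      exact mul_le_of_le_one_left (norm_nonneg _) (hχ1 n x)
    · rw [norm_smul, norm_smul, Real.norm_eq_abs, Real.norm_eq_abs, abs_of_pos (ht0 n),
        mul_comm Cb]
      refine mul_le_mul_of_nonneg_left ?_ (abs_nonneg _)
      calc t n * ‖fderiv ℝ b (t n • x)‖ ≤ 1 * Cb :=
            mul_le_mul (ht1 n) (hCb _) (norm_nonneg _) zero_le_one
        _ = Cb := one_mul _
  have gabs : Gr fun x => |φ x| := by simpa only [Real.norm_eq_abs] using hg.norm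
  have hFl : ∀ x, Tendsto (fun n => F n x) atTop (𝓝 (φ x)) := fun x => by
    simpa [hF] using (hχl x).mul_const (φ x)
  have l1 := ex_tendsto hV hv c gabs (fun n => (hFd n).continuous) hFb hFl
  have l2 := ex_tendsto hV hv c hg.sq (F := fun n x => F n x ^ 2)
    (fun n => (hFd n).continuous.pow 2)
    (fun n x => by rw [abs_pow]; simpa using pow_le_pow_left₀ (abs_nonneg _) (hFb n x) 2)
    (fun x => (hFl x).pow 2)
  have l3 := ex_tendsto hV hv c ((hd.norm.add (gabs.const_mul Cb)).sq)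
    (F := fun n x => ‖fderiv ℝ (F n) x‖ ^ 2) (f := fun x => ‖fderiv ℝ φ x‖ ^ 2)
    (fun n => ((hFd n).continuous_fderiv one_ne_zero).norm.pow 2)
    (fun n x => by rw [abs_pow, abs_norm]; exact pow_le_pow_left₀ (norm_nonneg _) (hDb n x) 2)
    (fun x => by
      simp only [hFder]
      have h2 : Tendsto (fun n => φ x • (t n • fderiv ℝ b (t n • x))) atTop
          (𝓝 (φ x • ((0 : ℝ) • fderiv ℝ b (0 : EE d)))) :=
        ((htl.smul ((hbc.continuous_fderiv one_ne_zero).tendsto _ |>.comp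
          (htl.smul_const x |>.trans (by simp)))).const_smul _)
      have := (((hχl x).smul_const (fderiv ℝ φ x)).add h2).norm.pow 2
      simpa using this)
  refine le_of_tendsto_of_tendsto (l2.sub (l1.pow 2)) (l3.const_mul (5 / 4 * v))
    (Eventually.of_forall fun n => ?_)
  have h := poincare_compact hV hv hv1 (hFd n) (hFs n) (v • c)
  simpa [pE_eq_ex, smul_smul, inv_mul_cancel₀ hv.ne'] using h

/-- Integration by parts against the tilted weight. -/
lemma ex_ibp (hV : Admissible V) (hv : 0 < v) (c u : EE d) {f : EE d → ℝ}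
    (hf : ContDiff ℝ 1 f) (hg : Gr f) (hd : Gr (fun x => fderiv ℝ f x u))
    (hfg : Gr fun x => f x * ⟪gradient V x + v⁻¹ • x - c, u⟫) :
    ex V v c (fun x => fderiv ℝ f x u) =
      ex V v c (fun x => f x * ⟪gradient V x + v⁻¹ • x - c, u⟫) := by
  simp only [ex, lap]
  congr 1
  set W : EE d → ℝ := fun x => Real.exp ⟪c, x⟫ * w0 V v x with hW
  have hWd : ∀ x, HasFDerivAt W (-(W x) • innerSL ℝ (gradient V x + v⁻¹ • x - c)) x := fun x => by
    have h1 : HasFDerivAt (fun x : EE d => ⟪c, x⟫) (innerSL ℝ c) x :=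
      (innerSL ℝ c).hasFDerivAt
    have h2 := ((inv_grad_hasDeriv hV x).neg.sub
      (((hasFDerivAt_id x).norm_sq).mul_const (2 * v)⁻¹)).exp
    simp only [hW, w0, div_eq_mul_inv]
    refine (h1.exp.mul h2).congr_fderiv ?_
    ext w
    simp only [add_apply, smul_apply, neg_apply, sub_apply, Pi.sub_apply, Pi.neg_apply, innerSL_apply_apply, id_eq,
      ContinuousLinearMap.comp_id, inner_sub_left, inner_add_left, real_inner_smul_left,
      smul_eq_mul, nsmul_eq_mul]
    field_simp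
    ring
  have e1 : ∀ x, fderiv ℝ W x u * f x = -(W x * (f x * ⟪gradient V x + v⁻¹ • x - c, u⟫)) :=
    fun x => by
      rw [(hWd x).fderiv]
      simp only [smul_apply, innerSL_apply_apply, smul_eq_mul]
      ring
  have i1 := tilt_integrable hV hv hfg c
  have i2 := tilt_integrable hV hv hd c
  have i3 := tilt_integrable hV hv hg c
  simp only [smul_eq_mul] at i1 i2 i3 ⊢
  have h := integral_mul_fderiv_eq_neg_fderiv_mul_of_integrable (μ := volume) (v := u)
    (f := W) (g := f) ((i1.neg).congr (ae_of_all _ fun x => (e1 x).symm)) i2 i3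
    (fun x _ => (hWd x).differentiableAt) (fun x _ => hf.differentiable one_ne_zero x)
  rw [h, ← integral_neg]
  refine integral_congr_ae (ae_of_all _ fun x => ?_)
  show -(fderiv ℝ W x u * f x) = W x * _
  rw [e1, neg_neg]

end Vale.Agent.P347.Zero
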