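import Vale.Agent.P347.Zero.ProgTurn

/-!
Programs for the backward sweep and the correction.
-/

open MeasureTheory ProbabilityTheory
open scoped RealInnerProductSpace ENNReal

namespace Vale.Agent.P347.Zero

variable {d : ℕ} {Env : Type} [MeasurableSpace Env] {X : Ctx d Env} {P : Par} {S : ℝ} {N : ℕ}
  {x : (EE d → ℝ) → Env → EE d} {kx : ℝ} {Qx : ℕ}

/-- A drift at a point of the backward sweep counts as one evaluation. -/
lemma Inner.drift_one (h : Inner d P S N) (hx : Lin X P.σI (16 * P.EI) x P.κp 1 1 kx Qx)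
    (hkx : kx ≤ 4 * P.A) {v : ℝ} (h1 : P.s / 4 ≤ v) (h2 : v ≤ P.s) :
    Lin X P.σI (16 * P.EI) (fun V w => Dv V v (x V w)) 0 0 0 1 (N * Qx) := by
  have ho := h.ok
  have hσ := ho.σI_pos
  have hA := ho.A_le
  have hA0 := (Par.A_facts ho).2.1
  have hE := ho.EI_nonneg
  obtain ⟨hv, hvS, hc⟩ := h.scale h1 h2
  have hp : Val X x (P.c * Real.sqrt P.s / 2) 3 (64 * P.EI * P.A) 7 Qx := by
    refine Val.mono hx ?_ ?_ ?_ ?_ le_rfl
    · nlinarith [ho.noise, mul_le_mul_of_nonneg_left hkx hσ.le, mul_nonneg hσ.le hA0.le]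
    · linarith
    · calc 16 * P.EI * kx ≤ 16 * P.EI * (4 * P.A) := mul_le_mul_of_nonneg_left hkx (by positivity)
        _ = _ := by ring
    · linarith
  refine (hp.eval h.drift hv hvS (h.eval v h1 h2) hc hσ.le hE).mono ?_ ?_ ?_ ?_ le_rfl
  · linarith
  · norm_num
  · nlinarith [mul_le_mul_of_nonneg_left hA hE]
  · norm_num

lemma Inner.back_scale (h : Inner d P S N) (j : Fin P.cfg.G.n) :
    P.s / 2 ≤ backScale P.cfg P.s j ∧ backScale P.cfg P.s j ≤ P.s := by
  have hs := h.ok.s_pos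
  have hn0 := h.ok.gOk.node_nonneg j
  have h2 : (backLen P.s * P.cfg.G.node j) ^ 2 ≤ P.s / 2 := by
    rw [mul_pow, backLen, Real.sq_sqrt (by positivity)]
    exact mul_le_of_le_one_right (by positivity) (pow_le_one₀ hn0 (h.ok.gOk.node_le j))
  unfold backScale
  exact ⟨by linarith, by linarith [sq_nonneg (backLen P.s * P.cfg.G.node j)]⟩

lemma Inner.backW_le (h : Inner d P S N) (i : Fin P.cfg.G.n) :
    (∑ j, |backW P.cfg P.s i j| ≤ 2 * P.C * backLen P.s) ∧
      ∑ j, |backW P.cfg P.s i j * (backLen P.s * P.cfg.G.node j)| ≤ P.C * P.s := by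
  have ho := h.ok
  have hr : 0 ≤ backLen P.s := Real.sqrt_nonneg _
  have hw : ∑ j, |backW P.cfg P.s i j| ≤ 2 * P.C * backLen P.s := by
    simp only [backW, abs_mul, abs_of_nonneg hr, ← Finset.mul_sum]
    rw [mul_comm (2 * P.C) (backLen P.s)]
    refine mul_le_mul_of_nonneg_left ?_ hr
    refine (Finset.sum_le_sum fun j _ => abs_sub _ _).trans ?_
    rw [Finset.sum_add_distrib]
    linarith [ho.gOk.tot_abs, ho.gOk.w_abs i]
  refine ⟨hw, ?_⟩
  calc ∑ j, |backW P.cfg P.s i j * (backLen P.s * P.cfg.G.node j)|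
      ≤ ∑ j, |backW P.cfg P.s i j| * backLen P.s := Finset.sum_le_sum fun j _ => by
        rw [abs_mul]
        refine mul_le_mul_of_nonneg_left ?_ (abs_nonneg _)
        rw [abs_of_nonneg (mul_nonneg hr (ho.gOk.node_nonneg j))]
        exact mul_le_of_le_one_right hr (ho.gOk.node_le j)
    _ ≤ 2 * P.C * backLen P.s * backLen P.s := by
        rw [← Finset.sum_mul]; exact mul_le_mul_of_nonneg_right hw hr
    _ = P.C * P.s := by
        rw [mul_assoc (2 * P.C), backLen, Real.mul_self_sqrt (by linarith [ho.s_pos])]; ring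

/-- The weight of a backward point. -/
noncomputable def Par.pointK (P : Par) : ℝ := 2 * (P.C * P.s * (1 + P.C / (P.σ * P.t₀)))

/-- The weight of a backward auxiliary vector. -/
noncomputable def Par.auxK (P : Par) : ℝ :=
  2 / P.σ + 4 * P.C ^ 3 * P.s / (P.σ ^ 2 * P.cfg.a * P.t₀)

lemma Par.back_K {P : Par} (h : P.Ok) :
    0 < P.pointK ∧ P.pointK ≤ 4 * P.A ∧ 0 < P.auxK ∧
    P.pointK + P.cfg.τ * Real.sqrt P.s *
      (P.turnK P.auxK + P.C * P.cfg.τ * Real.sqrt P.s) ≤ 4 * P.A ∧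
    P.pointK + P.cfg.τ * Real.sqrt P.s *
      (P.auxK + P.C * P.cfg.τ * Real.sqrt P.s) ≤ 4 * P.A := by
  have := h.one_le; have := h.s_pos; have := h.σ_pos; have := h.τ_pos; have := h.a_pos
  have := Par.t₀_pos h
  obtain ⟨h1, h2, h3⟩ := Par.A_facts h
  have ht : 0 ≤ P.cfg.τ * Real.sqrt P.s := by positivity
  have hk : P.auxK ≤ 4 * (2 / P.σ + P.C ^ 3 * P.s / (P.σ ^ 2 * P.cfg.a * P.t₀)) := by
    have : 0 ≤ 2 / P.σ := by positivity
    unfold Par.auxK
    rw [mul_assoc 4 (P.C ^ 3), mul_div_assoc]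
    linarith
  have h4 : 0 ≤ P.C ^ 2 * P.cfg.a / P.t₀ := by positivity
  have e : P.turnK P.auxK = P.auxK + 2 * (P.C ^ 2 * P.cfg.a / P.t₀) := by
    unfold Par.turnK; ring
  refine ⟨?_, ?_, ?_, ?_, ?_⟩
  · unfold Par.pointK; positivity
  · unfold Par.pointK; linarith
  · unfold Par.auxK; positivity
  · refine le_trans (add_le_add ?_ (mul_le_mul_of_nonneg_left ?_ ht)) h3
    · unfold Par.pointK; linarith
    · linarith
  · refine le_trans (add_le_add ?_ (mul_le_mul_of_nonneg_left ?_ ht)) h3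
    · unfold Par.pointK; linarith
    · linarith

/-- The exponent of one backward round. -/
def backExp (c : Cfg) : ℕ := (c.k + 2) * (c.k + 1) + 1

variable {p : (EE d → ℝ) → Env → EE d} {Qp : ℕ} {Z ηs : Env → EE d}
  {ζ : Env → Fin P.cfg.G.n → EE d}

/-- The data of a backward sweep. -/
structure BackEnv (X : Ctx d Env) (P : Par) (p : (EE d → ℝ) → Env → EE d) (Qp : ℕ)
    (Z ηs : Env → EE d) (ζ : Env → Fin P.cfg.G.n → EE d) : Prop where
  input : Lin X P.σI (16 * P.EI) p P.κp 1 1 0 Qp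
  Z_meas : Measurable Z
  η_meas : Measurable ηs
  ζ_meas : ∀ j, Measurable fun w => ζ w j
  Z_size : ∀ V, Admissible V → ∀ w, ‖Z w‖ ≤ X.base V w
  η_size : ∀ V, Admissible V → ∀ w, ‖ηs w‖ ≤ X.base V w
  ζ_size : ∀ j, ∀ V, Admissible V → ∀ w, ‖ζ w j‖ ≤ X.base V w

/-- A round of the backward sweep, points. -/
lemma Inner.back_point (h : Inner d P S N) (he : BackEnv X P p Qp Z ηs ζ)
    {xs es : Fin P.cfg.G.n → (EE d → ℝ) → Env → EE d} {B : ℕ} (hB : Qp + 2 ≤ B)
    (hx : ∀ j, Lin X P.σI (16 * P.EI) (xs j) P.κp 1 1 P.pointK B)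
    (he' : ∀ j, Lin X P.σI (16 * P.EI) (es j) 0 0 1 P.auxK B) (i : Fin P.cfg.G.n) :
    Lin X P.σI (16 * P.EI) (fun V w => P.cfg.G.node i • Z w + (1 - P.cfg.G.node i) • p V w +
      (backLen P.s * P.cfg.G.node i) • ∑ j, backW P.cfg P.s i j •
        (Dv V (backScale P.cfg P.s j) (xs j V w) -
          P.σ⁻¹ • leaf V P.cfg (backScale P.cfg P.s j) (xs j V w) (es j V w)))
      P.κp 1 1 P.pointK (roundCost P.cfg N ^ backExp P.cfg * B) := by
  have ho := h.ok
  have hσI := ho.σI_pos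
  have hg : 0 ≤ 16 * P.EI := by linarith [ho.EI_nonneg]
  have hC : 0 < P.C := by linarith [ho.one_le]
  have ht₀ := Par.t₀_pos ho
  have hσ := ho.σ_pos
  have hs := ho.s_pos
  obtain ⟨hp0, hp4, ha0, -, hk⟩ := Par.back_K ho
  have hr : 0 < backLen P.s := Real.sqrt_pos.2 (half_pos hs)
  set L := roundCost P.cfg N ^ (P.cfg.k + 1) * (B + B + 1) with hL
  have hin : ∀ j, Lin X P.σI (16 * P.EI) (fun V w => Dv V (backScale P.cfg P.s j) (xs j V w) -
      P.σ⁻¹ • leaf V P.cfg (backScale P.cfg P.s j) (xs j V w) (es j V w)) 0 0 0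
      (1 + P.σ⁻¹ * (P.C / P.t₀)) (N * B + L) := fun j => by
    obtain ⟨h1, h2⟩ := h.back_scale j
    have hl : Lin X P.σI (16 * P.EI) (fun V w => leaf V P.cfg (backScale P.cfg P.s j) (xs j V w)
        (es j V w)) 0 0 0 (P.C / P.t₀) L :=
      Val.mono (h.leaf_prog hσI ho.EI_nonneg h.eval (hx j) (he' j) hp0.le ha0.le hk h1 h2) le_rfl
        le_rfl (mul_le_mul_of_nonneg_right (Par.gain_inner ho) (by positivity)) le_rfl le_rfl
    refine (((h.drift_one (hx j) hp4 (by linarith) h2).add (hl.smul (-P.σ⁻¹)) hσI (by simp)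
      (by positivity)).congr fun V _ w => ?_).mono hσI.le hg (by simp) (by simp) (by simp) ?_ le_rfl
    · rw [neg_smul]; exact (sub_eq_add_neg _ _).symm
    · rw [abs_neg, abs_of_pos (inv_pos.2 hσ)]
  have hsum := lin_sum hin hσI hg (by positivity) (h.backW_le i).1 (by positivity)
  have hS : Lin X P.σI (16 * P.EI) (fun V w => (backLen P.s * P.cfg.G.node i) • ∑ j,
      backW P.cfg P.s i j • (Dv V (backScale P.cfg P.s j) (xs j V w) -
        P.σ⁻¹ • leaf V P.cfg (backScale P.cfg P.s j) (xs j V w) (es j V w))) 0 0 0 P.pointK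
      (P.cfg.G.n * (N * B + L) + 1) := by
    refine (hsum.smul (backLen P.s * P.cfg.G.node i)).mono hσI.le hg (by simp) (by simp) (by simp)
      ?_ (le_of_eq (by rw [Fintype.card_fin]))
    rw [abs_of_nonneg (mul_nonneg hr.le (ho.gOk.node_nonneg i))]
    refine (mul_le_mul_of_nonneg_right (mul_le_of_le_one_right hr.le (ho.gOk.node_le i))
      (by positivity)).trans (le_of_eq ?_)
    have e : backLen P.s * backLen P.s = P.s / 2 := Real.mul_self_sqrt (by positivity)
    calc backLen P.s * (2 * (2 * P.C * backLen P.s) * (1 + P.σ⁻¹ * (P.C / P.t₀)))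
        = 4 * P.C * (backLen P.s * backLen P.s) * (1 + P.C / (P.σ * P.t₀)) := by ring
      _ = P.pointK := by rw [e, Par.pointK]; ring
  have hn0 := ho.gOk.node_nonneg i
  have hn1 := ho.gOk.node_le i
  have h1n : |1 - P.cfg.G.node i| = 1 - P.cfg.G.node i := abs_of_nonneg (by linarith)
  have hZ : Lin X P.σI (16 * P.EI) (fun _ w => P.cfg.G.node i • Z w) 0 0 (P.cfg.G.node i) 0 1 :=
    ((lin_num he.Z_meas he.Z_size).smul _).mono hσI.le hg (by simp) (by simp)
      (by rw [abs_of_nonneg hn0, mul_one]) (by simp) le_rfl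
  refine (((hS.add (he.input.smul (1 - P.cfg.G.node i)) hσI ?_ ?_).add hZ hσI ?_ ?_).congr
    fun V _ w => ?_).mono hσI.le hg ?_ ?_ ?_ ?_ ?_
  · have := ho.κp_nonneg; positivity
  · simpa using hp0
  · have := ho.κp_nonneg; positivity
  · simpa using hp0
  · abel
  · rw [h1n]; nlinarith [ho.κp_nonneg]
  · rw [h1n]; linarith
  · rw [h1n]; linarith
  · simp
  · have hW : 1 ≤ roundCost P.cfg N ^ (P.cfg.k + 1) := Nat.one_le_pow _ _ (roundCost_pos _ _)
    have hmono : roundCost P.cfg N ^ (P.cfg.k + 1) * roundCost P.cfg N ≤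
        roundCost P.cfg N ^ backExp P.cfg := by
      rw [← pow_succ]
      exact Nat.pow_le_pow_right (roundCost_pos _ _) (by unfold backExp; nlinarith)
    refine le_trans ?_ (Nat.mul_le_mul_right B hmono)
    set T := roundCost P.cfg N ^ (P.cfg.k + 1) with hT
    calc P.cfg.G.n * (N * B + L) + 1 + Qp + 1
        ≤ P.cfg.G.n * (T * (N * B) + T * (B + B + B)) + T * B := by
          rw [hL]
          have h1 : Qp + 2 ≤ T * B := hB.trans (Nat.le_mul_of_pos_left _ hW)
          have h2 : N * B ≤ T * (N * B) := Nat.le_mul_of_pos_left _ hW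
          have h3 : T * (B + B + 1) ≤ T * (B + B + B) := Nat.mul_le_mul_left _ (by omega)
          have := Nat.mul_le_mul_left P.cfg.G.n (Nat.add_le_add h2 h3)
          omega
      _ = T * ((P.cfg.G.n * N + 3 * P.cfg.G.n + 1) * B) := by ring
      _ ≤ T * (roundCost P.cfg N * B) :=
          Nat.mul_le_mul_left _ (Nat.mul_le_mul_right _ (by rw [roundCost]; nlinarith))
      _ = _ := by ring

/-- A round of the backward sweep, auxiliary vectors. -/
lemma Inner.back_aux (h : Inner d P S N) (he : BackEnv X P p Qp Z ηs ζ)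
    {xs es : Fin P.cfg.G.n → (EE d → ℝ) → Env → EE d} {B : ℕ} (hB : Qp + 2 ≤ B)
    (hx : ∀ j, Lin X P.σI (16 * P.EI) (xs j) P.κp 1 1 P.pointK B)
    (he' : ∀ j, Lin X P.σI (16 * P.EI) (es j) 0 0 1 P.auxK B) (i : Fin P.cfg.G.n) :
    Lin X P.σI (16 * P.EI) (fun V w => ηs w +
      P.σ⁻¹ • (Dv V (P.s / 2) (Z w) - Dv V (backScale P.cfg P.s i) (xs i V w)) -
      (P.σ ^ 2)⁻¹ • ∑ j, (backW P.cfg P.s i j * (backLen P.s * P.cfg.G.node j)) •
        sq2 V P.cfg (backScale P.cfg P.s j) (xs j V w) (es j V w) (ζ w j))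
      0 0 1 P.auxK (roundCost P.cfg N ^ backExp P.cfg * B) := by
  have ho := h.ok
  have hσI := ho.σI_pos
  have hg : 0 ≤ 16 * P.EI := by linarith [ho.EI_nonneg]
  have hC : 0 < P.C := by linarith [ho.one_le]
  have ht₀ := Par.t₀_pos ho
  have ha := ho.a_pos
  have hσ := ho.σ_pos
  have hs := ho.s_pos
  obtain ⟨hp0, hp4, ha0, hk, -⟩ := Par.back_K ho
  have hA := (Par.A_facts ho).2.1
  set D := roundCost P.cfg N ^ ((P.cfg.k + 2) * (P.cfg.k + 1)) * (B + B + 1) with hD
  have hsq : ∀ j, Lin X P.σI (16 * P.EI) (fun V w =>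
      sq2 V P.cfg (backScale P.cfg P.s j) (xs j V w) (es j V w) (ζ w j)) 0 0 0
      (2 * (P.C / P.cfg.a) * (P.C / P.t₀)) D := fun j =>
    Val.mono (h.sq2_prog hσI ho.EI_nonneg h.eval (hx j) (he' j) (he.ζ_meas j) (he.ζ_size j) hp0.le
      ha0.le hk (h.back_scale j).1 (h.back_scale j).2) le_rfl le_rfl
      (mul_le_mul_of_nonneg_right (Par.gain_inner ho) (by positivity)) le_rfl le_rfl
  have hsum := (lin_sum hsq hσI hg (by positivity) (h.backW_le i).2 (by positivity)).smul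
    (-(P.σ ^ 2)⁻¹)
  have hZ : Lin X P.σI (16 * P.EI) (fun V w => Dv V (P.s / 2) (Z w)) 0 0 0 1 (N * 1) :=
    h.drift_one ((lin_num he.Z_meas he.Z_size).mono hσI.le hg ho.κp_nonneg zero_le_one le_rfl le_rfl
      le_rfl) (by linarith) (by linarith) (by linarith)
  have hX := h.drift_one (hx i) hp4 (le_trans (by linarith) (h.back_scale i).1) (h.back_scale i).2
  have hdiff := ((hZ.add (hX.smul (-1)) hσI (by simp) (by norm_num)).smul P.σ⁻¹)
  refine ((((lin_num he.η_meas he.η_size).add hdiff hσI (by simp) ?_).add hsum hσI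
    (by simp) ?_).congr fun V _ w => ?_).mono hσI.le hg (by simp) (by simp) (by simp) ?_ ?_
  · rw [zero_add, abs_of_pos (inv_pos.2 hσ)]; positivity
  · rw [zero_add, abs_of_pos (inv_pos.2 hσ)]; positivity
  · simp only [neg_smul, one_smul, ← sub_eq_add_neg]
  · refine le_of_eq ?_
    rw [abs_neg, abs_one, abs_neg, abs_of_pos (inv_pos.2 hσ),
      abs_of_pos (inv_pos.2 (pow_pos hσ 2)), Par.auxK]
    ring
  · set T := roundCost P.cfg N ^ ((P.cfg.k + 2) * (P.cfg.k + 1)) with hT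
    have hW : 1 ≤ T := Nat.one_le_pow _ _ (roundCost_pos _ _)
    rw [Fintype.card_fin, backExp, pow_succ, ← hT]
    calc 1 + (N * 1 + N * B) + (P.cfg.G.n * D + 1)
        ≤ T * B + (T * (N * B) + T * (N * B)) + (P.cfg.G.n * (T * (B + B + B)) + T * B) := by
          rw [hD]
          have h1 : 1 ≤ T * B := le_trans (by omega : 1 ≤ B) (Nat.le_mul_of_pos_left _ hW)
          have h2 : N * B ≤ T * (N * B) := Nat.le_mul_of_pos_left _ hW
          have h3 : N * 1 ≤ N * B := Nat.mul_le_mul_left _ (by omega)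
          have h4 : T * (B + B + 1) ≤ T * (B + B + B) := Nat.mul_le_mul_left _ (by omega)
          have := Nat.mul_le_mul_left P.cfg.G.n h4
          omega
      _ = T * ((2 * N + 3 * P.cfg.G.n + 2) * B) := by ring
      _ ≤ T * (roundCost P.cfg N * B) :=
          Nat.mul_le_mul_left _ (Nat.mul_le_mul_right _ (by rw [roundCost]; nlinarith))
      _ = _ := by ring

/-- All rounds of the backward sweep. -/
lemma Inner.back_rounds (h : Inner d P S N) (he : BackEnv X P p Qp Z ηs ζ) :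
    ∀ (n : ℕ) (i : Fin P.cfg.G.n),
      Lin X P.σI (16 * P.EI) (fun V w => (((backF V P.cfg P.s P.σ (p V w) (Z w) (ηs w) (ζ w))^[n]
          fun i => (P.cfg.G.node i • Z w + (1 - P.cfg.G.node i) • p V w, ηs w)) i).1)
        P.κp 1 1 P.pointK (roundCost P.cfg N ^ (backExp P.cfg * n) * (Qp + 2)) ∧
      Lin X P.σI (16 * P.EI) (fun V w => (((backF V P.cfg P.s P.σ (p V w) (Z w) (ηs w) (ζ w))^[n]
          fun i => (P.cfg.G.node i • Z w + (1 - P.cfg.G.node i) • p V w, ηs w)) i).2)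
        0 0 1 P.auxK (roundCost P.cfg N ^ (backExp P.cfg * n) * (Qp + 2)) := by
  have ho := h.ok
  have hσI := ho.σI_pos
  have hg : 0 ≤ 16 * P.EI := by linarith [ho.EI_nonneg]
  obtain ⟨hp0, -, ha0, -, -⟩ := Par.back_K ho
  intro n
  induction n with
  | zero =>
    intro i
    have hn0 := ho.gOk.node_nonneg i
    have h1n : |1 - P.cfg.G.node i| = 1 - P.cfg.G.node i :=
      abs_of_nonneg (by linarith [ho.gOk.node_le i])
    simp only [Function.iterate_zero, id_eq, Nat.mul_zero, pow_zero, one_mul]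
    have hp : Lin X P.σI (16 * P.EI) p P.κp 1 1 P.pointK Qp :=
      he.input.mono hσI.le hg le_rfl le_rfl le_rfl hp0.le le_rfl
    refine ⟨?_, (lin_num he.η_meas he.η_size).mono hσI.le hg le_rfl le_rfl le_rfl ha0.le (by omega)⟩
    have hpos : 0 < |1 - P.cfg.G.node i| * P.pointK ∨ P.cfg.G.node i = 1 := by
      rcases eq_or_lt_of_le (ho.gOk.node_le i) with e | e
      · exact Or.inr e
      · rw [h1n]; exact Or.inl (mul_pos (by linarith) hp0)
    rcases hpos with hpos | e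
    · refine ((((lin_num he.Z_meas he.Z_size).smul (P.cfg.G.node i)).add
        (hp.smul (1 - P.cfg.G.node i)) hσI ?_ (by simpa using hpos)).congr fun V _ w => rfl).mono
          hσI.le hg ?_ ?_ ?_ ?_ (by omega)
      · have := ho.κp_nonneg; positivity
      · rw [h1n]; nlinarith [ho.κp_nonneg]
      · rw [h1n]; linarith
      · rw [h1n, abs_of_nonneg hn0]; linarith
      · rw [h1n]; nlinarith
    · refine (Lin.congr (lin_num he.Z_meas he.Z_size) fun V _ w => ?_).mono hσI.le hg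
        ho.κp_nonneg zero_le_one le_rfl hp0.le (by omega)
      simp [e]
  | succ n ih =>
    intro i
    have hB : Qp + 2 ≤ roundCost P.cfg N ^ (backExp P.cfg * n) * (Qp + 2) :=
      Nat.le_mul_of_pos_left _ (Nat.one_le_pow _ _ (roundCost_pos _ _))
    have hc : roundCost P.cfg N ^ backExp P.cfg * (roundCost P.cfg N ^ (backExp P.cfg * n) * (Qp + 2))
        = roundCost P.cfg N ^ (backExp P.cfg * (n + 1)) * (Qp + 2) := by
      rw [← mul_assoc, ← pow_add]; ring_nf
    have h1 := h.back_point he hB (fun j => (ih j).1) (fun j => (ih j).2) i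
    have h2 := h.back_aux he hB (fun j => (ih j).1) (fun j => (ih j).2) i
    rw [hc] at h1 h2
    exact ⟨h1.congr fun V _ w => by rw [Function.iterate_succ_apply']; rfl,
      h2.congr fun V _ w => by rw [Function.iterate_succ_apply']; rfl⟩

/-- The correction, with evaluations of noise σO and error EO at the outer positions. -/
theorem Inner.qSem_prog (h : Inner d P S N)
    (hO : ∀ v, P.s / 4 ≤ v → v ≤ P.s → Eval d v P.c P.σO P.EO N)
    (he : BackEnv X P p Qp Z ηs ζ) :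
    Val X (fun V w => qSem V P.cfg P.s P.σ (p V w) (Z w) (ηs w) (ζ w)) (4 * P.σO * P.AQ)
      (18 * P.AQ) (8 * P.γQ) (48 * P.AQ)
      (roundCost P.cfg N ^ (backExp P.cfg * (P.cfg.k + 1)) * (Qp + 2)) := by
  have ho := h.ok
  have hσO := ho.σO_pos
  have hC : 0 < P.C := by linarith [ho.one_le]
  have ht₀ := Par.t₀_pos ho
  have ha := ho.a_pos
  have hσ := ho.σ_pos
  have hs := ho.s_pos
  have hr : 0 ≤ backLen P.s := Real.sqrt_nonneg _
  obtain ⟨hp0, -, ha0, hk, -⟩ := Par.back_K ho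
  obtain ⟨hg0, -⟩ := Par.gain_ge ho ho.EO_nonneg
  set B := roundCost P.cfg N ^ (backExp P.cfg * P.cfg.k) * (Qp + 2) with hB
  have hBge : Qp + 2 ≤ B := Nat.le_mul_of_pos_left _ (Nat.one_le_pow _ _ (roundCost_pos _ _))
  have hw : ∑ j, |backLen P.s * P.cfg.G.tot j * (backLen P.s * P.cfg.G.node j)| ≤
      P.C * P.s / 2 := by
    calc ∑ j, |backLen P.s * P.cfg.G.tot j * (backLen P.s * P.cfg.G.node j)|
        ≤ ∑ j, |P.cfg.G.tot j| * backLen P.s ^ 2 := Finset.sum_le_sum fun j _ => by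
          rw [abs_mul, abs_mul, abs_of_nonneg hr,
            abs_of_nonneg (mul_nonneg hr (ho.gOk.node_nonneg j))]
          nlinarith [mul_le_of_le_one_right hr (ho.gOk.node_le j), abs_nonneg (P.cfg.G.tot j),
            mul_nonneg hr (abs_nonneg (P.cfg.G.tot j))]
      _ ≤ P.C * backLen P.s ^ 2 := by
          rw [← Finset.sum_mul]
          exact mul_le_mul_of_nonneg_right ho.gOk.tot_abs (sq_nonneg _)
      _ = _ := by rw [backLen, Real.sq_sqrt (by positivity)]; ring
  have hsum := lin_sum (fun j => h.sq2_prog hσO ho.EO_nonneg hO (h.back_rounds he P.cfg.k j).1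
    (h.back_rounds he P.cfg.k j).2 (he.ζ_meas j) (he.ζ_size j) hp0.le ha0.le hk
    (h.back_scale j).1 (h.back_scale j).2) hσO hg0 (by positivity) hw (by positivity)
  have hfin : Val X (fun V w => qSem V P.cfg P.s P.σ (p V w) (Z w) (ηs w) (ζ w)) _ _ _ _ _ :=
    Val.congr (hsum.smul P.σ⁻¹) fun V _ w => rfl
  have e : |P.σ⁻¹| * (2 * (P.C * P.s / 2) * (2 * (P.C / P.cfg.a) * (P.C / P.t₀))) = 2 * P.AQ := by
    rw [abs_of_pos (inv_pos.2 hσ), Par.AQ]; ring
  have hAQ : 0 ≤ P.AQ := by unfold Par.AQ; positivity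
  refine hfin.mono ?_ ?_ ?_ ?_ ?_
  · rw [e]; linarith
  · rw [e]; linarith
  · rw [e, Par.γQ, Par.gain]
    nlinarith [mul_nonneg ho.EO_nonneg hAQ, mul_nonneg (mul_nonneg ho.EI_nonneg
      (Par.A_facts ho).2.1.le) hAQ]
  · rw [e]; linarith
  · have hexp : roundCost P.cfg N ^ (backExp P.cfg * (P.cfg.k + 1)) * (Qp + 2) =
        roundCost P.cfg N ^ ((P.cfg.k + 2) * (P.cfg.k + 1)) * (roundCost P.cfg N * B) := by
      rw [hB, ← mul_assoc, ← mul_assoc, ← pow_succ, ← pow_add]; unfold backExp; ring_nf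
    rw [hexp, Fintype.card_fin]
    set T := roundCost P.cfg N ^ ((P.cfg.k + 2) * (P.cfg.k + 1))
    have hT : 1 ≤ T := Nat.one_le_pow _ _ (roundCost_pos _ _)
    calc P.cfg.G.n * (T * (B + B + 1)) + 1 ≤ P.cfg.G.n * (T * (B + B + B)) + T * B := by
          have h1 : 1 ≤ T * B := le_trans (by omega : 1 ≤ B) (Nat.le_mul_of_pos_left _ hT)
          have := Nat.mul_le_mul_left P.cfg.G.n
            (Nat.mul_le_mul_left T (by omega : B + B + 1 ≤ B + B + B))
          omega
      _ = T * ((3 * P.cfg.G.n + 1) * B) := by ring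
      _ ≤ _ := Nat.mul_le_mul_left _ (Nat.mul_le_mul_right _ (by rw [roundCost]; nlinarith))

end Vale.Agent.P347.Zero
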