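import Vale.Agent.P347.Zero.Lin

/-!
Programs for the derivative evaluation and the forward sweep.
-/

open MeasureTheory ProbabilityTheory
open scoped RealInnerProductSpace ENNReal

namespace Vale.Agent.P347.Zero

variable {d : ℕ}

/-- The standing assumptions of the programs: numerical conditions and the inner evaluations. -/
structure Inner (d : ℕ) (P : Par) (S : ℝ) (N : ℕ) : Prop where
  ok : P.Ok
  drift : DriftAll d S
  s_le : P.s ≤ S
  eval : ∀ v, P.s / 4 ≤ v → v ≤ P.s → Eval d v P.c P.σI P.EI N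

/-- The cost factor of one round. -/
def roundCost (c : Cfg) (N : ℕ) : ℕ := 4 * (c.G.n + c.L.n + 3) * (N + 1)

lemma roundCost_pos (c : Cfg) (N : ℕ) : 1 ≤ roundCost c N :=
  Nat.one_le_iff_ne_zero.2 (by simp [roundCost])

lemma Par.t₀_pos {P : Par} (h : P.Ok) : 0 < P.t₀ := by
  have := h.τ_pos; have := h.s_pos
  unfold Par.t₀; positivity

lemma Par.A_facts {P : Par} (h : P.Ok) :
    P.C * P.s * (1 + P.C / (P.σ * P.t₀)) ≤ P.A ∧ 0 < P.A ∧
    P.C * P.s * (1 + P.C / (P.σ * P.t₀)) * 2 + P.cfg.τ * Real.sqrt P.s *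
      (4 * (2 / P.σ + P.C ^ 3 * P.s / (P.σ ^ 2 * P.cfg.a * P.t₀)) +
        4 * (P.C ^ 2 * P.cfg.a / P.t₀) + P.C * P.cfg.τ * Real.sqrt P.s) ≤ 4 * P.A := by
  have := h.one_le; have := h.s_pos; have := h.σ_pos; have := h.τ_pos; have := h.a_pos
  have := Par.t₀_pos h
  set u := P.C * P.s * (1 + P.C / (P.σ * P.t₀)) with hu
  set t := P.cfg.τ * Real.sqrt P.s
  have h1 : 0 < u := by positivity
  have h2 : 0 ≤ 2 / P.σ + P.C ^ 3 * P.s / (P.σ ^ 2 * P.cfg.a * P.t₀) := by positivity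
  have h3 : 0 ≤ P.C ^ 2 * P.cfg.a / P.t₀ := by positivity
  have h4 : 0 ≤ P.C * P.cfg.τ * Real.sqrt P.s := by positivity
  have ht : 0 ≤ t := by positivity
  have hA : P.A = u + t * (2 / P.σ + P.C ^ 3 * P.s / (P.σ ^ 2 * P.cfg.a * P.t₀) +
      P.C ^ 2 * P.cfg.a / P.t₀ + P.C * P.cfg.τ * Real.sqrt P.s) := rfl
  refine ⟨?_, ?_, ?_⟩ <;> rw [hA] <;>
    nlinarith [mul_nonneg ht h2, mul_nonneg ht h3, mul_nonneg ht h4]

lemma Par.gain_ge {P : Par} (h : P.Ok) {E : ℝ} (hE : 0 ≤ E) :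
    0 ≤ P.gain E ∧ 8 * E + 3 * (64 * P.EI * P.A) ≤ P.gain E := by
  have := (Par.A_facts h).2.1
  have := h.EI_nonneg
  have := mul_nonneg h.EI_nonneg (Par.A_facts h).2.1.le
  unfold Par.gain
  exact ⟨by positivity, by linarith⟩

lemma Par.gain_inner {P : Par} (h : P.Ok) : P.gain P.EI ≤ 16 * P.EI := by
  unfold Par.gain
  nlinarith [h.A_le, h.EI_nonneg]

variable {Env : Type} [MeasurableSpace Env] {X : Ctx d Env} {P : Par} {S : ℝ} {N : ℕ}
  {x u : (EE d → ℝ) → Env → EE d} {kx ku : ℝ} {Qx Qu : ℕ}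

/-- A point fit for an evaluation. -/
lemma Inner.point (h : Inner d P S N)
    (hx : Lin X P.σI (16 * P.EI) x P.κp 1 1 kx Qx)
    (hu : Lin X P.σI (16 * P.EI) u 0 0 1 ku Qu) {r : ℝ}
    (hr : |r| ≤ P.cfg.τ * Real.sqrt P.s ∨ (|r| ≤ 1 ∧ kx + |r| * ku ≤ 4 * P.A))
    (hk : kx + P.cfg.τ * Real.sqrt P.s * ku ≤ 4 * P.A) (_hkx : 0 ≤ kx) (hku : 0 ≤ ku) :
    Val X (fun V w => x V w + r • u V w) (P.c * Real.sqrt P.s / 2) 3 (64 * P.EI * P.A) 7
      (Qx + Qu) := by
  have ho := h.ok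
  obtain ⟨-, hA, -⟩ := Par.A_facts ho
  have hσ := ho.σI_pos
  have hEI : 0 ≤ 16 * P.EI := by linarith [ho.EI_nonneg]
  have ht : P.cfg.τ * Real.sqrt P.s ≤ 1 := mul_le_one₀ (by linarith [ho.τ_le]) (Real.sqrt_nonneg _)
    (Real.sqrt_le_one.2 ho.s_le)
  have hr1 : |r| ≤ 1 ∧ kx + |r| * ku ≤ 4 * P.A := by
    rcases hr with hr | hr
    · exact ⟨hr.trans ht, le_trans (add_le_add le_rfl (mul_le_mul_of_nonneg_right hr hku)) hk⟩
    · exact hr
  have hu' : Lin X P.σI (16 * P.EI) (fun V w => r • u V w) 0 0 1 (4 * P.A - kx) Qu :=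
    (hu.smul r).mono hσ.le hEI (by simp) (by simp) (by simpa using hr1.1) (by linarith) le_rfl
  have hsum := hx.add hu' hσ (by linarith [ho.κp_nonneg]) (by linarith)
  have hA' := ho.A_le
  refine Val.mono hsum ?_ ?_ ?_ ?_ le_rfl
  · have := ho.noise; nlinarith [mul_nonneg hσ.le hA.le]
  · linarith
  · rw [add_sub_cancel]; linarith
  · linarith

lemma Inner.scale (h : Inner d P S N) {v : ℝ} (h1 : P.s / 4 ≤ v) (h2 : v ≤ P.s) :
    0 ≤ v ∧ v ≤ S ∧ P.c * Real.sqrt P.s / 2 ≤ P.c * Real.sqrt v := by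
  have hs := h.ok.s_pos
  refine ⟨by linarith, h2.trans h.s_le, ?_⟩
  rw [mul_div_assoc]
  refine mul_le_mul_of_nonneg_left ?_ h.ok.c_pos.le
  rw [Real.le_sqrt (by positivity) (by linarith), div_pow, Real.sq_sqrt hs.le]
  linarith

/-! ### The derivative evaluation -/

lemma Inner.leaf_scale (h : Inner d P S N) {v : ℝ} (hv : P.s / 2 ≤ v) (hv' : v ≤ P.s)
    (j : Fin P.cfg.L.n) :
    (P.s / 4 ≤ v - (leafStep P.cfg v * P.cfg.L.node j) ^ 2 ∧
      v - (leafStep P.cfg v * P.cfg.L.node j) ^ 2 ≤ P.s) ∧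
    0 < leafStep P.cfg v ∧ P.t₀ ≤ leafStep P.cfg v ∧
    |leafStep P.cfg v * P.cfg.L.node j| ≤ P.cfg.τ * Real.sqrt P.s := by
  have ho := h.ok
  have hs := ho.s_pos
  have hτ := ho.τ_pos
  have hv0 : 0 < v := by linarith
  have ht : 0 < leafStep P.cfg v := mul_pos hτ (Real.sqrt_pos.2 hv0)
  have hn0 := ho.lOk.node_nonneg j
  have hn1 := ho.lOk.node_le j
  have h2 : (leafStep P.cfg v * P.cfg.L.node j) ^ 2 ≤ v / 4 := by
    rw [mul_pow, leafStep, mul_pow, Real.sq_sqrt hv0.le]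
    have e1 : P.cfg.τ ^ 2 ≤ 1 / 4 := by nlinarith [ho.τ_le]
    calc P.cfg.τ ^ 2 * v * P.cfg.L.node j ^ 2 ≤ P.cfg.τ ^ 2 * v * 1 :=
          mul_le_mul_of_nonneg_left (pow_le_one₀ hn0 hn1) (by positivity)
      _ ≤ 1 / 4 * v := by rw [mul_one]; exact mul_le_mul_of_nonneg_right e1 hv0.le
      _ = v / 4 := by ring
  refine ⟨⟨by linarith, by linarith [sq_nonneg (leafStep P.cfg v * P.cfg.L.node j)]⟩, ht, ?_, ?_⟩
  · rw [Par.t₀, mul_div_assoc, leafStep]
    refine mul_le_mul_of_nonneg_left ?_ hτ.le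
    rw [Real.le_sqrt (by positivity) hv0.le, div_pow, Real.sq_sqrt hs.le]
    linarith
  · rw [abs_of_nonneg (mul_nonneg ht.le hn0)]
    refine (mul_le_of_le_one_right ht.le hn1).trans ?_
    exact mul_le_mul_of_nonneg_left (Real.sqrt_le_sqrt hv') hτ.le

variable {Xd : (EE d → ℝ) → Env → EE d} {kd : ℝ} {QX : ℕ}

/-- The rounds of a derivative evaluation. -/
lemma Inner.leaf_rounds (h : Inner d P S N) (hx : Lin X P.σI (16 * P.EI) x P.κp 1 1 kx Qx)
    (hX : Lin X P.σI (16 * P.EI) Xd 0 0 1 kd QX) (hkx : 0 ≤ kx) (hkd : 0 ≤ kd)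
    (hk : kx + P.cfg.τ * Real.sqrt P.s * (kd + P.C * P.cfg.τ * Real.sqrt P.s) ≤ 4 * P.A)
    {v : ℝ} (hv : P.s / 2 ≤ v) (hv' : v ≤ P.s) :
    ∀ (n : ℕ) (i : Fin P.cfg.L.n), Lin X P.σI (16 * P.EI)
      (fun V w => ((leafF V P.cfg v (x V w) (Xd V w))^[n] fun _ => Xd V w) i) 0 0 1
      (kd + P.C * P.cfg.τ * Real.sqrt P.s) (roundCost P.cfg N ^ n * (Qx + QX + 1)) := by
  have ho := h.ok
  have hs := ho.s_pos
  have hτ := ho.τ_pos
  have hC := ho.one_le
  have hσ := ho.σI_pos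
  have hg : 0 ≤ 16 * P.EI := by linarith [ho.EI_nonneg]
  obtain ⟨-, hA, -⟩ := Par.A_facts ho
  set T := P.C * P.cfg.τ * Real.sqrt P.s with hT
  have hT0 : 0 < T := by positivity
  intro n
  induction n with
  | zero =>
    intro i
    simp only [Function.iterate_zero, id_eq]
    exact hX.mono hσ.le hg le_rfl le_rfl le_rfl (by linarith) (by simp only [pow_zero, one_mul]; omega)
  | succ n ih =>
    intro i
    set B := roundCost P.cfg N ^ n * (Qx + QX + 1) with hB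
    have hBge : Qx + QX + 1 ≤ B := Nat.le_mul_of_pos_left _ (pow_pos (roundCost_pos _ _) _)
    have hsum := lin_sum_eval (X := X) (v := fun j => v - (leafStep P.cfg v * P.cfg.L.node j) ^ 2)
      (w := fun j => -(leafStep P.cfg v * P.cfg.L.W i j)) (W := T)
      (pt := fun j V w => x V w + (leafStep P.cfg v * P.cfg.L.node j) •
        ((leafF V P.cfg v (x V w) (Xd V w))^[n] fun _ => Xd V w) j) (Q := Qx + B) (c := P.c)
      (G := 64 * P.EI * P.A) (g := 16 * P.EI) h.drift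
      (fun j => (h.scale (h.leaf_scale hv hv' j).1.1 (h.leaf_scale hv hv' j).1.2).1)
      (fun j => (h.scale (h.leaf_scale hv hv' j).1.1 (h.leaf_scale hv hv' j).1.2).2.1)
      (fun j => h.eval _ (h.leaf_scale hv hv' j).1.1 (h.leaf_scale hv hv' j).1.2) hσ ho.EI_nonneg
      (by have := ho.EI_nonneg; positivity) (by nlinarith [ho.A_le, ho.EI_nonneg])
      (fun j => ⟨_, (h.scale (h.leaf_scale hv hv' j).1.1 (h.leaf_scale hv hv' j).1.2).2.2,
        h.point hx (ih j) (Or.inl (h.leaf_scale hv hv' j).2.2.2) hk hkx (by linarith)⟩)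
      (by
        simp only [abs_neg, abs_mul, ← Finset.mul_sum]
        have ht := (h.leaf_scale hv hv' i).2.1
        rw [abs_of_pos ht, hT, mul_assoc P.C, mul_comm P.C]
        exact mul_le_mul (mul_le_mul_of_nonneg_left (Real.sqrt_le_sqrt hv') hτ.le)
          (ho.lOk.w_abs i) (Finset.sum_nonneg fun j _ => abs_nonneg _) (by positivity))
      hT0
    refine ((hX.add hsum hσ (by simp) (by linarith)).congr fun V _ w => ?_).mono hσ.le hg
      (by simp) (by simp) (by simp) le_rfl ?_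
    · rw [Function.iterate_succ_apply']
      simp only [leafF, neg_smul, Finset.sum_neg_distrib]
      exact (sub_eq_add_neg _ _).symm
    · rw [pow_succ, mul_comm (roundCost P.cfg N ^ n), mul_assoc, ← hB, Fintype.card_fin, roundCost]
      calc QX + (P.cfg.L.n * (N * (Qx + B)) + 1) ≤ B + (P.cfg.L.n * (N * (B + B)) + B) := by
            gcongr <;> omega
        _ = (2 * (P.cfg.L.n * N) + 2) * B := by ring
        _ ≤ _ := Nat.mul_le_mul_right _ (by nlinarith)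

/-- The derivative evaluation, with the last evaluations of noise σ and error E. -/
lemma Inner.leaf_prog (h : Inner d P S N) {σ E : ℝ} (hσ : 0 < σ) (hE0 : 0 ≤ E)
    (hE : ∀ v, P.s / 4 ≤ v → v ≤ P.s → Eval d v P.c σ E N)
    (hx : Lin X P.σI (16 * P.EI) x P.κp 1 1 kx Qx)
    (hX : Lin X P.σI (16 * P.EI) Xd 0 0 1 kd QX) (hkx : 0 ≤ kx) (hkd : 0 ≤ kd)
    (hk : kx + P.cfg.τ * Real.sqrt P.s * (kd + P.C * P.cfg.τ * Real.sqrt P.s) ≤ 4 * P.A)
    {v : ℝ} (hv : P.s / 2 ≤ v) (hv' : v ≤ P.s) :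
    Lin X σ (P.gain E) (fun V w => leaf V P.cfg v (x V w) (Xd V w)) 0 0 0 (P.C / P.t₀)
      (roundCost P.cfg N ^ (P.cfg.k + 1) * (Qx + QX + 1)) := by
  have ho := h.ok
  have hC := ho.one_le
  have ht₀ := Par.t₀_pos ho
  obtain ⟨hg0, hg⟩ := Par.gain_ge ho hE0
  obtain ⟨-, hA, -⟩ := Par.A_facts ho
  have hk0 : 0 ≤ kd + P.C * P.cfg.τ * Real.sqrt P.s := by have := ho.τ_pos; positivity
  set B := roundCost P.cfg N ^ P.cfg.k * (Qx + QX + 1) with hB
  have hBge : Qx + QX + 1 ≤ B := Nat.le_mul_of_pos_left _ (pow_pos (roundCost_pos _ _) _)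
  have hsum := lin_sum_eval (X := X) (v := fun j => v - (leafStep P.cfg v * P.cfg.L.node j) ^ 2)
    (w := fun j => P.cfg.L.der j / leafStep P.cfg v) (W := P.C / P.t₀)
    (pt := fun j V w => x V w + (leafStep P.cfg v * P.cfg.L.node j) •
      ((leafF V P.cfg v (x V w) (Xd V w))^[P.cfg.k] fun _ => Xd V w) j) (Q := Qx + B) (c := P.c)
    (G := 64 * P.EI * P.A) (g := P.gain E) h.drift
    (fun j => (h.scale (h.leaf_scale hv hv' j).1.1 (h.leaf_scale hv hv' j).1.2).1)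
    (fun j => (h.scale (h.leaf_scale hv hv' j).1.1 (h.leaf_scale hv hv' j).1.2).2.1)
    (fun j => hE _ (h.leaf_scale hv hv' j).1.1 (h.leaf_scale hv hv' j).1.2) hσ hE0
    (by have := ho.EI_nonneg; positivity) hg
    (fun j => ⟨_, (h.scale (h.leaf_scale hv hv' j).1.1 (h.leaf_scale hv hv' j).1.2).2.2,
      h.point hx (h.leaf_rounds hx hX hkx hkd hk hv hv' P.cfg.k j)
        (Or.inl (h.leaf_scale hv hv' j).2.2.2) hk hkx hk0⟩)
    (by
      have hv0 : 0 < v := by linarith [ho.s_pos]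
      have ht : 0 < leafStep P.cfg v := mul_pos ho.τ_pos (Real.sqrt_pos.2 hv0)
      have ht0 : P.t₀ ≤ leafStep P.cfg v := by
        rw [Par.t₀, mul_div_assoc, leafStep]
        refine mul_le_mul_of_nonneg_left ?_ ho.τ_pos.le
        rw [Real.le_sqrt (div_nonneg (Real.sqrt_nonneg _) two_pos.le) hv0.le, div_pow,
          Real.sq_sqrt ho.s_pos.le]
        linarith
      simp only [abs_div, abs_of_pos ht, ← Finset.sum_div]
      exact div_le_div₀ (by linarith) ho.lOk.der_abs ht₀ ht0)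
    (by positivity)
  refine (hsum.congr fun V _ w => rfl).mono hσ.le hg0 le_rfl le_rfl le_rfl le_rfl ?_
  rw [pow_succ, mul_comm (roundCost P.cfg N ^ P.cfg.k), mul_assoc, ← hB, Fintype.card_fin,
    roundCost]
  calc P.cfg.L.n * (N * (Qx + B)) + 1 ≤ P.cfg.L.n * (N * (B + B)) + B := by gcongr <;> omega
    _ = (2 * (P.cfg.L.n * N) + 1) * B := by ring
    _ ≤ _ := Nat.mul_le_mul_right _ (by nlinarith)

/-! ### The forward sweep -/

lemma Inner.fwd_scale (h : Inner d P S N) (j : Fin P.cfg.G.n) :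
    (P.s / 4 ≤ P.s - (fwdLen P.s * P.cfg.G.node j) ^ 2 ∧
      P.s - (fwdLen P.s * P.cfg.G.node j) ^ 2 ≤ P.s) ∧
    |fwdLen P.s * P.cfg.G.node j| ≤ fwdLen P.s := by
  have hs := h.ok.s_pos
  have hn0 := h.ok.gOk.node_nonneg j
  have hn1 := h.ok.gOk.node_le j
  have h2 : (fwdLen P.s * P.cfg.G.node j) ^ 2 ≤ 3 * P.s / 4 := by
    rw [mul_pow, fwdLen, Real.sq_sqrt (by positivity)]
    exact mul_le_of_le_one_right (by positivity) (pow_le_one₀ hn0 hn1)
  refine ⟨⟨by linarith, by linarith [sq_nonneg (fwdLen P.s * P.cfg.G.node j)]⟩, ?_⟩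
  rw [fwdLen, abs_of_nonneg (mul_nonneg (Real.sqrt_nonneg _) hn0)]
  exact mul_le_of_le_one_right (Real.sqrt_nonneg _) hn1

/-- One sum of the forward sweep. -/
lemma Inner.fwd_sum (h : Inner d P S N) (hy : Lin X P.σI (16 * P.EI) x P.κp 1 1 0 Qx)
    {w : Fin P.cfg.G.n → ℝ} (hw : ∑ j, |w j| ≤ P.C) {B : ℕ}
    {u : Fin P.cfg.G.n → (EE d → ℝ) → Env → EE d}
    (hu : ∀ j, Lin X P.σI (16 * P.EI) (u j) 0 0 1 (P.C * fwdLen P.s) B) :
    Lin X P.σI (16 * P.EI) (fun V z => ∑ j, (fwdLen P.s * w j) •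
      Dv V (P.s - (fwdLen P.s * P.cfg.G.node j) ^ 2)
        (x V z + (fwdLen P.s * P.cfg.G.node j) • u j V z)) 0 0 0
      (P.C * fwdLen P.s) (P.cfg.G.n * (N * (Qx + B)) + 1) := by
  have ho := h.ok
  have hs := ho.s_pos
  have hC := ho.one_le
  obtain ⟨hA1, hA, hA3⟩ := Par.A_facts ho
  have hL : 0 < fwdLen P.s := Real.sqrt_pos.2 (by positivity)
  have hku : 0 ≤ P.C * fwdLen P.s := by positivity
  have hq : fwdLen P.s ^ 2 ≤ P.s := by rw [fwdLen, Real.sq_sqrt (by positivity)]; linarith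
  have hCs : P.C * P.s ≤ P.A := by
    refine le_trans (le_mul_of_one_le_right (by positivity) ?_) hA1
    have := Par.t₀_pos ho; have := ho.σ_pos
    exact le_add_of_nonneg_right (by positivity)
  have h1 : fwdLen P.s * (P.C * fwdLen P.s) ≤ P.A := by
    calc fwdLen P.s * (P.C * fwdLen P.s) = P.C * fwdLen P.s ^ 2 := by ring
      _ ≤ P.C * P.s := mul_le_mul_of_nonneg_left hq (by linarith)
      _ ≤ _ := hCs
  have h2 : P.cfg.τ * Real.sqrt P.s * (P.C * fwdLen P.s) ≤ P.A := by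
    refine le_trans ?_ hCs
    calc P.cfg.τ * Real.sqrt P.s * (P.C * fwdLen P.s)
        ≤ 1 * Real.sqrt P.s * (P.C * Real.sqrt P.s) := by
          refine mul_le_mul (mul_le_mul_of_nonneg_right (by linarith [ho.τ_le]) (Real.sqrt_nonneg _))
            (mul_le_mul_of_nonneg_left (Real.sqrt_le_sqrt (by linarith)) (by linarith)) hku
            (by positivity)
      _ = P.C * P.s := by
          rw [one_mul, mul_left_comm, Real.mul_self_sqrt hs.le]
  have hsum := lin_sum_eval (X := X) (v := fun j => P.s - (fwdLen P.s * P.cfg.G.node j) ^ 2)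
    (w := fun j => fwdLen P.s * w j) (W := P.C * fwdLen P.s)
    (pt := fun j V z => x V z + (fwdLen P.s * P.cfg.G.node j) • u j V z) (Q := Qx + B) (c := P.c)
    (G := 64 * P.EI * P.A) (g := 16 * P.EI) h.drift
    (fun j => (h.scale (h.fwd_scale j).1.1 (h.fwd_scale j).1.2).1)
    (fun j => (h.scale (h.fwd_scale j).1.1 (h.fwd_scale j).1.2).2.1)
    (fun j => h.eval _ (h.fwd_scale j).1.1 (h.fwd_scale j).1.2) ho.σI_pos ho.EI_nonneg
    (by have := ho.EI_nonneg; positivity) (by nlinarith [ho.A_le, ho.EI_nonneg])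
    (fun j => ⟨_, (h.scale (h.fwd_scale j).1.1 (h.fwd_scale j).1.2).2.2,
      h.point hy (hu j) (Or.inr ⟨(h.fwd_scale j).2.trans
        (Real.sqrt_le_one.2 (by linarith [ho.s_le])), by
          have := mul_le_mul_of_nonneg_right (h.fwd_scale j).2 hku
          linarith⟩) (by linarith) le_rfl hku⟩)
    ((abs_smul_weights hw).trans_eq (by rw [abs_of_pos hL, mul_comm]))
    (by positivity)
  exact hsum.mono ho.σI_pos.le (by linarith [ho.EI_nonneg]) le_rfl le_rfl le_rfl le_rfl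
    (le_of_eq (by rw [Fintype.card_fin]))

/-- The end of the forward sweep. -/
lemma Inner.fwd_prog (h : Inner d P S N) (hy : Lin X P.σI (16 * P.EI) x P.κp 1 1 0 Qx)
    (hW : Lin X P.σI (16 * P.EI) Xd 0 0 1 0 QX) :
    Lin X P.σI (16 * P.EI) (fun V z => fwdEnd V P.cfg P.s (x V z) (Xd V z)) 0 0 1
      (P.C * fwdLen P.s) (roundCost P.cfg N ^ (P.cfg.k + 1) * (Qx + QX + 1)) := by
  have ho := h.ok
  have hσ := ho.σI_pos
  have hg : 0 ≤ 16 * P.EI := by linarith [ho.EI_nonneg]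
  have hL : 0 < fwdLen P.s := Real.sqrt_pos.2 (by linarith [ho.s_pos])
  have hku : 0 < P.C * fwdLen P.s := mul_pos (by linarith [ho.one_le]) hL
  have hstep : ∀ B : ℕ, Qx + QX + 1 ≤ B →
      QX + (P.cfg.G.n * (N * (Qx + B)) + 1) ≤ roundCost P.cfg N * B := fun B hB => by
    calc QX + (P.cfg.G.n * (N * (Qx + B)) + 1) ≤ B + (P.cfg.G.n * (N * (B + B)) + B) := by
          gcongr <;> omega
      _ = (2 * (P.cfg.G.n * N) + 2) * B := by ring
      _ ≤ _ := Nat.mul_le_mul_right _ (by rw [roundCost]; nlinarith)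
  have hit : ∀ (n : ℕ) (i : Fin P.cfg.G.n), Lin X P.σI (16 * P.EI)
      (fun V z => ((fwdF V P.cfg P.s (x V z) (Xd V z))^[n] fun _ => Xd V z) i) 0 0 1
      (P.C * fwdLen P.s) (roundCost P.cfg N ^ n * (Qx + QX + 1)) := by
    intro n
    induction n with
    | zero =>
      intro i
      simp only [Function.iterate_zero, id_eq]
      exact hW.mono hσ.le hg le_rfl le_rfl le_rfl hku.le (by simp only [pow_zero, one_mul]; omega)
    | succ n ih =>
      intro i
      have hs := h.fwd_sum hy (w := fun j => -P.cfg.G.W i j)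
        (by simp only [abs_neg]; exact ho.gOk.w_abs i) ih
      refine ((hW.add hs hσ (by simp) (by linarith)).congr fun V _ z => ?_).mono hσ.le hg
        (by simp) (by simp) (by simp) (by simp) ?_
      · rw [Function.iterate_succ_apply']
        simp only [fwdF, mul_neg, neg_smul, Finset.sum_neg_distrib]
        exact (sub_eq_add_neg _ _).symm
      · refine (hstep _ (Nat.le_mul_of_pos_left _ (pow_pos (roundCost_pos _ _) _))).trans (le_of_eq ?_)
        rw [pow_succ]; ring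
  have hs := h.fwd_sum hy (w := fun j => -P.cfg.G.tot j)
    (by simp only [abs_neg]; exact ho.gOk.tot_abs) (hit P.cfg.k)
  refine ((hW.add hs hσ (by simp) (by linarith)).congr fun V _ z => ?_).mono hσ.le hg
    (by simp) (by simp) (by simp) (by simp) ?_
  · simp only [fwdEnd, fwdOut, mul_neg, neg_smul, Finset.sum_neg_distrib]
    exact (sub_eq_add_neg _ _).symm
  · refine (hstep _ (Nat.le_mul_of_pos_left _ (pow_pos (roundCost_pos _ _) _))).trans (le_of_eq ?_)
    rw [pow_succ]; ring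

end Vale.Agent.P347.Zero
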