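import Vale.Agent.P347.Zero.ProgLeaf

/-!
Programs for the rotation and the squared derivative.
-/

open MeasureTheory ProbabilityTheory
open scoped RealInnerProductSpace ENNReal

namespace Vale.Agent.P347.Zero

variable {d : ℕ} {Env : Type} [MeasurableSpace Env] {X : Ctx d Env} {P : Par} {S : ℝ} {N : ℕ}
  {x η : (EE d → ℝ) → Env → EE d} {ζ : Env → EE d} {kx kη : ℝ} {Qx Qη : ℕ}

/-- The weight of a turned vector. -/
noncomputable def Par.turnK (P : Par) (kη : ℝ) : ℝ := kη + 2 * (P.C * P.cfg.a) * (P.C / P.t₀)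

/-- The rounds of the rotation. -/
lemma Inner.turn_rounds (h : Inner d P S N) (hx : Lin X P.σI (16 * P.EI) x P.κp 1 1 kx Qx)
    (hη : Lin X P.σI (16 * P.EI) η 0 0 1 kη Qη) (hζ : Measurable ζ)
    (hζs : ∀ V, Admissible V → ∀ w, ‖ζ w‖ ≤ X.base V w) (hkx : 0 ≤ kx) (hkη : 0 ≤ kη)
    (hk : kx + P.cfg.τ * Real.sqrt P.s * (P.turnK kη + P.C * P.cfg.τ * Real.sqrt P.s) ≤ 4 * P.A)
    {v : ℝ} (hv : P.s / 2 ≤ v) (hv' : v ≤ P.s) :
    ∀ (n : ℕ) (i : Fin P.cfg.L.n),
      Lin X P.σI (16 * P.EI)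
        (fun V w => (((turnF V P.cfg v (x V w) (η V w) (ζ w))^[n]
          fun _ => (ζ w, η V w)) i).1) 0 0 1 (P.turnK kη)
        (roundCost P.cfg N ^ ((P.cfg.k + 2) * n) * (Qx + Qη + 1)) ∧
      Lin X P.σI (16 * P.EI)
        (fun V w => (((turnF V P.cfg v (x V w) (η V w) (ζ w))^[n]
          fun _ => (ζ w, η V w)) i).2) 0 0 1 (P.turnK kη)
        (roundCost P.cfg N ^ ((P.cfg.k + 2) * n) * (Qx + Qη + 1)) := by
  have ho := h.ok
  have hσ := ho.σI_pos
  have hg : 0 ≤ 16 * P.EI := by linarith [ho.EI_nonneg]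
  have hC : 0 < P.C := by linarith [ho.one_le]
  have ha := ho.a_pos
  have ht₀ := Par.t₀_pos ho
  have hK : kη < P.turnK kη := by
    unfold Par.turnK; exact lt_add_of_pos_right _ (by positivity)
  intro n
  induction n with
  | zero =>
    intro i
    simp only [Function.iterate_zero, id_eq, Nat.mul_zero, pow_zero, one_mul]
    exact ⟨(lin_num hζ hζs).mono hσ.le hg le_rfl le_rfl le_rfl (by linarith) (by omega),
      hη.mono hσ.le hg le_rfl le_rfl le_rfl hK.le (by omega)⟩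
  | succ n ih =>
    intro i
    set B := roundCost P.cfg N ^ ((P.cfg.k + 2) * n) * (Qx + Qη + 1) with hB
    have hBge : Qx + Qη + 1 ≤ B := Nat.le_mul_of_pos_left _ (pow_pos (roundCost_pos _ _) _)
    set D := roundCost P.cfg N ^ (P.cfg.k + 1) * (Qx + B + 1) with hD
    have hDge : 1 ≤ D := Nat.one_le_iff_ne_zero.2
      (Nat.mul_ne_zero (pow_pos (roundCost_pos _ _) _).ne' (by omega))
    have hle := fun (j : Fin P.cfg.L.n) (u : (EE d → ℝ) → Env → EE d)
      (hu : Lin X P.σI (16 * P.EI) u 0 0 1 (P.turnK kη) B) =>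
      (h.leaf_prog hσ ho.EI_nonneg h.eval hx hu hkx (by linarith) hk hv hv').mono hσ.le
        (Par.gain_ge ho ho.EI_nonneg).1 le_rfl le_rfl le_rfl le_rfl (le_refl D)
    have hsum : ∀ (f : Fin P.cfg.L.n → (EE d → ℝ) → Env → EE d) (w : Fin P.cfg.L.n → ℝ),
        (∀ j, Lin X P.σI (16 * P.EI) (f j) 0 0 1 (P.turnK kη) B) →
        ∑ j, |w j| ≤ P.C * P.cfg.a →
        Lin X P.σI (16 * P.EI) (fun V z => ∑ j, w j • leaf V P.cfg v (x V z) (f j V z)) 0 0 0
          (2 * (P.C * P.cfg.a) * (P.C / P.t₀)) (P.cfg.L.n * D + 1) := fun f w hf hw => by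
      refine (lin_sum (fun j => ?_) hσ hg (div_pos hC ht₀) hw (mul_pos hC ha)).mono hσ.le hg
        le_rfl le_rfl le_rfl le_rfl (le_of_eq (by rw [Fintype.card_fin]))
      exact Val.mono (hle j _ (hf j)) le_rfl le_rfl
        (mul_le_mul_of_nonneg_right (Par.gain_inner ho) (by positivity)) le_rfl le_rfl
    have hwt : ∀ w : Fin P.cfg.L.n → ℝ, ∑ j, |w j| ≤ P.C → ∑ j, |P.cfg.a * w j| ≤ P.C * P.cfg.a :=
      fun w hw => (abs_smul_weights hw).trans_eq (by rw [abs_of_pos ha, mul_comm])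
    have hcost : Qx + Qη + 1 + (P.cfg.L.n * D + 1) ≤
        roundCost P.cfg N ^ ((P.cfg.k + 2) * (n + 1)) * (Qx + Qη + 1) := by
      have e : roundCost P.cfg N ^ ((P.cfg.k + 2) * (n + 1)) * (Qx + Qη + 1) =
          roundCost P.cfg N ^ (P.cfg.k + 1) * (roundCost P.cfg N * B) := by
        rw [hB, ← mul_assoc, ← mul_assoc, ← pow_succ, ← pow_add]; ring_nf
      rw [e]
      have hp : 1 ≤ roundCost P.cfg N ^ (P.cfg.k + 1) := Nat.one_le_pow _ _ (roundCost_pos _ _)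
      calc Qx + Qη + 1 + (P.cfg.L.n * D + 1)
          ≤ roundCost P.cfg N ^ (P.cfg.k + 1) * B + (P.cfg.L.n *
              (roundCost P.cfg N ^ (P.cfg.k + 1) * (B + B)) +
              roundCost P.cfg N ^ (P.cfg.k + 1) * B) := by
            refine Nat.add_le_add (hBge.trans (Nat.le_mul_of_pos_left _ hp))
              (Nat.add_le_add (Nat.mul_le_mul_left _ (Nat.mul_le_mul_left _ (by omega))) ?_)
            calc 1 ≤ B := by omega
              _ ≤ _ := Nat.le_mul_of_pos_left _ hp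
        _ = roundCost P.cfg N ^ (P.cfg.k + 1) * ((2 * P.cfg.L.n + 2) * B) := by ring
        _ ≤ _ := Nat.mul_le_mul_left _ (Nat.mul_le_mul_right _ (by rw [roundCost]; nlinarith))
    have hadd : ∀ {p q : (EE d → ℝ) → Env → EE d} {kp : ℝ} {Qp : ℕ},
        Lin X P.σI (16 * P.EI) p 0 0 1 kp Qp → 0 ≤ kp → kp ≤ kη → Qp ≤ Qx + Qη + 1 →
        Lin X P.σI (16 * P.EI) q 0 0 0 (2 * (P.C * P.cfg.a) * (P.C / P.t₀))
          (P.cfg.L.n * D + 1) →
        Lin X P.σI (16 * P.EI) (fun V w => p V w + q V w) 0 0 1 (P.turnK kη)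
          (roundCost P.cfg N ^ ((P.cfg.k + 2) * (n + 1)) * (Qx + Qη + 1)) := by
      intro p q kp Qp hp hkp hkp' hQ hq
      refine (hp.add hq hσ (by simp) ?_).mono hσ.le hg (by simp) (by simp) (by simp) ?_
        (le_trans (Nat.add_le_add hQ le_rfl) hcost)
      · have : 0 < 2 * (P.C * P.cfg.a) * (P.C / P.t₀) := by positivity
        linarith
      · unfold Par.turnK; linarith
    refine ⟨(hadd (lin_num hζ hζs) le_rfl hkη (by omega) (hsum (fun j => _)
      (fun j => P.cfg.a * P.cfg.L.W i j) (fun j => (ih j).2) (hwt _ (ho.lOk.w_abs i)))).congr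
        fun V _ w => ?_,
      (hadd hη hkη le_rfl (by omega) (hsum (fun j => _)
      (fun j => -(P.cfg.a * P.cfg.L.W i j)) (fun j => (ih j).1) (by
        simp only [abs_neg]; exact hwt _ (ho.lOk.w_abs i)))).congr fun V _ w => ?_⟩
    · rw [Function.iterate_succ_apply']; rfl
    · rw [Function.iterate_succ_apply']
      simp only [turnF, neg_smul, Finset.sum_neg_distrib]
      exact (sub_eq_add_neg _ _).symm

/-- The squared derivative, with the last evaluations of noise σ and error E. -/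
lemma Inner.sq2_prog (h : Inner d P S N) {σ E : ℝ} (hσ : 0 < σ) (hE0 : 0 ≤ E)
    (hE : ∀ v, P.s / 4 ≤ v → v ≤ P.s → Eval d v P.c σ E N)
    (hx : Lin X P.σI (16 * P.EI) x P.κp 1 1 kx Qx)
    (hη : Lin X P.σI (16 * P.EI) η 0 0 1 kη Qη) (hζ : Measurable ζ)
    (hζs : ∀ V, Admissible V → ∀ w, ‖ζ w‖ ≤ X.base V w) (hkx : 0 ≤ kx) (hkη : 0 ≤ kη)
    (hk : kx + P.cfg.τ * Real.sqrt P.s * (P.turnK kη + P.C * P.cfg.τ * Real.sqrt P.s) ≤ 4 * P.A)
    {v : ℝ} (hv : P.s / 2 ≤ v) (hv' : v ≤ P.s) :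
    Lin X σ (P.gain E) (fun V w => sq2 V P.cfg v (x V w) (η V w) (ζ w)) 0 0 0
      (2 * (P.C / P.cfg.a) * (P.C / P.t₀))
      (roundCost P.cfg N ^ ((P.cfg.k + 2) * (P.cfg.k + 1)) * (Qx + Qη + 1)) := by
  have ho := h.ok
  have hC : 0 < P.C := by linarith [ho.one_le]
  have ha := ho.a_pos
  have ht₀ := Par.t₀_pos ho
  have hg0 := (Par.gain_ge ho hE0).1
  have hK : 0 ≤ P.turnK kη := by unfold Par.turnK; positivity
  set B := roundCost P.cfg N ^ ((P.cfg.k + 2) * P.cfg.k) * (Qx + Qη + 1) with hB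
  have hBge : Qx + Qη + 1 ≤ B := Nat.le_mul_of_pos_left _ (pow_pos (roundCost_pos _ _) _)
  have hs := lin_sum (w := fun j => P.cfg.L.der j / P.cfg.a) (W := P.C / P.cfg.a)
    (fun j => h.leaf_prog hσ hE0 hE hx
      (h.turn_rounds hx hη hζ hζs hkx hkη hk hv hv' P.cfg.k j).1 hkx hK hk hv hv')
    hσ hg0 (div_pos hC ht₀) (by
      simp only [abs_div, abs_of_pos ha, ← Finset.sum_div]
      gcongr; exact ho.lOk.der_abs) (div_pos hC ha)
  refine (hs.congr fun V _ w => rfl).mono hσ.le hg0 le_rfl le_rfl le_rfl le_rfl ?_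
  have e : roundCost P.cfg N ^ ((P.cfg.k + 2) * (P.cfg.k + 1)) * (Qx + Qη + 1) =
      roundCost P.cfg N ^ (P.cfg.k + 1) * (roundCost P.cfg N * B) := by
    rw [hB, ← mul_assoc, ← mul_assoc, ← pow_succ, ← pow_add]; ring_nf
  rw [e, Fintype.card_fin]
  have hp : 1 ≤ roundCost P.cfg N ^ (P.cfg.k + 1) := Nat.one_le_pow _ _ (roundCost_pos _ _)
  calc P.cfg.L.n * (roundCost P.cfg N ^ (P.cfg.k + 1) * (Qx + B + 1)) + 1
      ≤ P.cfg.L.n * (roundCost P.cfg N ^ (P.cfg.k + 1) * (B + B)) +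
        roundCost P.cfg N ^ (P.cfg.k + 1) * B := by
        refine Nat.add_le_add (Nat.mul_le_mul_left _ (Nat.mul_le_mul_left _ (by omega))) ?_
        calc 1 ≤ B := by omega
          _ ≤ _ := Nat.le_mul_of_pos_left _ hp
    _ = roundCost P.cfg N ^ (P.cfg.k + 1) * ((2 * P.cfg.L.n + 1) * B) := by ring
    _ ≤ _ := Nat.mul_le_mul_left _ (Nat.mul_le_mul_right _ (by rw [roundCost]; nlinarith))

end Vale.Agent.P347.Zero
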