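import Mathlib

/-!
Composite Lagrange rules on equally spaced nodes: all partial integrals and the derivative at 0 of
a path with m derivatives, with errors controlled by the integral of the m-th one, and the passage
from a bound on each time slice to a bound on that integral.
-/

open MeasureTheory Set
open scoped Nat

namespace Vale.Agent.P347.Zero

/-- Coefficients on the nodes 0, ..., m-1 with prescribed moments. -/
lemma exists_coef (m : ℕ) (b : ℕ → ℝ) :
    ∃ c : Fin m → ℝ, ∀ k < m, ∑ i, c i * (i : ℝ) ^ k = b k := by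
  have hinj : Function.Injective fun i : Fin m => (i : ℝ) := fun i j h => by
    have : (i : ℕ) = j := Nat.cast_injective (R := ℝ) h
    exact Fin.ext this
  set M := Matrix.vandermonde fun i : Fin m => (i : ℝ) with hM
  have hdet : IsUnit M.det := isUnit_iff_ne_zero.2 (Matrix.det_vandermonde_ne_zero_iff.2 hinj)
  refine ⟨Matrix.vecMul (fun k : Fin m => b k) M⁻¹, fun k hk => ?_⟩
  have h := congrFun (show Matrix.vecMul (Matrix.vecMul (fun k : Fin m => b k) M⁻¹) M =
      fun k : Fin m => b k by
    rw [Matrix.vecMul_vecMul, Matrix.nonsing_inv_mul _ hdet, Matrix.vecMul_one]) ⟨k, hk⟩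
  simpa [Matrix.vecMul, dotProduct, hM, Matrix.vandermonde] using h

variable {E : Type*} [NormedAddCommGroup E] [NormedSpace ℝ E]

/-- The k-th derivative minus its Taylor polynomial of degree m-k-1 at a. -/
noncomputable def taylorRem (F : ℕ → ℝ → E) (m : ℕ) (a : ℝ) (k : ℕ) (s : ℝ) : E :=
  F k (a + s) - ∑ i ∈ Finset.range (m - k), (s ^ i / (i ! : ℝ)) • F (k + i) a

/-- A chain of derivatives on an interval. -/
def Chain (F : ℕ → ℝ → E) (m : ℕ) (a b : ℝ) : Prop :=
  (∀ k < m, ∀ t ∈ Icc a b, HasDerivWithinAt (F k) (F (k + 1) t) (Icc a b) t) ∧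
    ContinuousOn (F m) (Icc a b)

lemma Chain.mono {F : ℕ → ℝ → E} {m : ℕ} {a b a' b' : ℝ} (h : Chain F m a b) (ha : a ≤ a')
    (hb : b' ≤ b) : Chain F m a' b' :=
  ⟨fun k hk t ht => (h.1 k hk t ⟨ha.trans ht.1, ht.2.trans hb⟩).mono (Icc_subset_Icc ha hb),
    h.2.mono (Icc_subset_Icc ha hb)⟩

lemma taylorRem_zero (F : ℕ → ℝ → E) {m : ℕ} (a : ℝ) {k : ℕ} (hk : k < m) :
    taylorRem F m a k 0 = 0 := by
  obtain ⟨n, hn⟩ : ∃ n, m - k = n + 1 := ⟨m - k - 1, by omega⟩
  simp [taylorRem, hn, Finset.sum_range_succ']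

lemma taylorRem_deriv {F : ℕ → ℝ → E} {m : ℕ} {a T : ℝ} (h : Chain F m a (a + T)) {k : ℕ}
    (hk : k < m) {s : ℝ} (hs : s ∈ Icc 0 T) :
    HasDerivWithinAt (taylorRem F m a k) (taylorRem F m a (k + 1) s) (Icc 0 T) s := by
  obtain ⟨n, hn⟩ : ∃ n, m - k = n + 1 := ⟨m - k - 1, by omega⟩
  have hn' : m - (k + 1) = n := by omega
  have h1 : HasDerivWithinAt (fun u : ℝ => F k (a + u)) (F (k + 1) (a + s)) (Icc 0 T) s := by
    have := (h.1 k hk (a + s) ⟨by linarith [hs.1], by linarith [hs.2]⟩).scomp s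
      ((hasDerivAt_id s).const_add a).hasDerivWithinAt
      (fun u (hu : u ∈ Icc 0 T) => ⟨by linarith [hu.1], by linarith [hu.2]⟩)
    simpa [Function.comp_def] using this
  have h2 : HasDerivAt (fun u : ℝ => ∑ i ∈ Finset.range (m - k), (u ^ i / (i ! : ℝ)) • F (k + i) a)
      (∑ i ∈ Finset.range n, (s ^ i / (i ! : ℝ)) • F (k + 1 + i) a) s := by
    simp only [hn, Finset.sum_range_succ', pow_zero, Nat.factorial_zero]
    refine HasDerivAt.add_const _ (HasDerivAt.fun_sum fun i _ => ?_)
    have e : k + (i + 1) = k + 1 + i := by omega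
    rw [e]
    refine ((hasDerivAt_pow (i + 1) s).div_const _).congr_deriv ?_ |>.smul_const _
    rw [Nat.factorial_succ]
    push_cast
    field_simp
  simp only [taylorRem, hn']
  exact h1.sub h2.hasDerivWithinAt

lemma taylorRem_bound [CompleteSpace E] {F : ℕ → ℝ → E} {m : ℕ} {a T : ℝ} (hT : 0 ≤ T)
    (h : Chain F m a (a + T)) :
    ∀ j k, k + j + 1 = m → ∀ s ∈ Icc 0 T,
      ‖taylorRem F m a k s‖ ≤ T ^ j * ∫ t in a..a + T, ‖F m t‖ := by
  set I := ∫ t in a..a + T, ‖F m t‖
  have hI : 0 ≤ I := intervalIntegral.integral_nonneg (by linarith) fun t _ => norm_nonneg _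
  intro j
  induction j with
  | zero =>
    intro k hk s hs
    have hk' : m - k = 1 := by omega
    have hk1 : k + 1 = m := by omega
    have hsub : Icc a (a + s) ⊆ Icc a (a + T) := Icc_subset_Icc le_rfl (by linarith [hs.2])
    have hint : IntervalIntegrable (F m) volume a (a + s) :=
      (h.2.mono hsub).intervalIntegrable_of_Icc (by linarith [hs.1])
    have e : ∫ t in a..a + s, F m t = F k (a + s) - F k a := by
      refine intervalIntegral.integral_eq_sub_of_hasDerivAt_of_le (by linarith [hs.1])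
        (fun t ht => ((h.1 k (by omega) t (hsub ht)).continuousWithinAt).mono hsub) (fun t ht => ?_)
        hint
      have := h.1 k (by omega) t (hsub (Ioo_subset_Icc_self ht))
      rw [hk1] at this
      exact this.hasDerivAt (Icc_mem_nhds ht.1 (lt_of_lt_of_le ht.2 (by linarith [hs.2])))
    simp only [taylorRem, hk', Finset.sum_range_one, pow_zero, Nat.factorial_zero, Nat.cast_one,
      div_one, one_smul, add_zero, one_mul, ← e]
    refine (intervalIntegral.norm_integral_le_integral_norm (by linarith [hs.1])).trans ?_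
    exact intervalIntegral.integral_mono_interval le_rfl (by linarith [hs.1]) (by linarith [hs.2])
      (Filter.Eventually.of_forall fun t => norm_nonneg _)
      ((h.2.norm).intervalIntegrable_of_Icc (by linarith))
  | succ j ih =>
    intro k hk s hs
    have := norm_image_sub_le_of_norm_deriv_le_segment' (f := taylorRem F m a k)
      (f' := taylorRem F m a (k + 1)) (C := T ^ j * I) (a := 0) (b := T)
      (fun u hu => taylorRem_deriv h (by omega) hu)
      (fun u hu => ih (k + 1) (by omega) u (Ico_subset_Icc_self hu)) s hs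
    rw [taylorRem_zero F a (by omega), sub_zero, sub_zero] at this
    refine this.trans ?_
    rw [pow_succ, mul_right_comm]
    exact mul_le_mul_of_nonneg_right (mul_le_mul_of_nonneg_left hs.2 (by positivity)) hI

/-- One piece: the integral over the first j steps from the values at the m nodes. -/
lemma piece_rule [CompleteSpace E] {F : ℕ → ℝ → E} {m : ℕ} {a h : ℝ} (hm : 1 ≤ m) (hh : 0 ≤ h)
    (hF : Chain F m a (a + m * h)) {j : ℕ} (hj : j ≤ m) {c : Fin m → ℝ}
    (hc : ∀ k < m, ∑ i, c i * (i : ℝ) ^ k = (j : ℝ) ^ (k + 1) / (k + 1)) :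
    ‖(∫ t in a..a + j * h, F 0 t) - h • ∑ i : Fin m, c i • F 0 (a + i * h)‖ ≤
      (m + ∑ i, |c i|) * h * (m * h) ^ (m - 1) * ∫ t in a..a + m * h, ‖F m t‖ := by
  set T := (m : ℝ) * h with hTd
  set I := ∫ t in a..a + T, ‖F m t‖
  have hT : 0 ≤ T := by positivity
  have hI : 0 ≤ I := intervalIntegral.integral_nonneg (by linarith) fun t _ => norm_nonneg _
  set rem := taylorRem F m a 0 with hrem
  have hb : ∀ s ∈ Icc 0 T, ‖rem s‖ ≤ T ^ (m - 1) * I :=
    taylorRem_bound hT hF (m - 1) 0 (by omega)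
  have hjT : (j : ℝ) * h ≤ T := by
    rw [hTd]; gcongr
  have hjh : 0 ≤ (j : ℝ) * h := by positivity
  set P := fun s : ℝ => ∑ k ∈ Finset.range m, (s ^ k / (k ! : ℝ)) • F k a with hP
  have hsplit : ∀ s, F 0 (a + s) = P s + rem s := fun s => by
    simp [hrem, taylorRem, hP]
  have hPc : Continuous P := by fun_prop
  have hremc : ContinuousOn rem (Icc 0 T) := fun s hs =>
    (taylorRem_deriv hF (by omega) hs).continuousWithinAt
  have e1 : ∫ t in a..a + j * h, F 0 t = (∫ s in (0:ℝ)..j * h, P s) + ∫ s in (0:ℝ)..j * h, rem s := by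
    rw [← intervalIntegral.integral_add (hPc.intervalIntegrable _ _)
      ((hremc.mono (Icc_subset_Icc le_rfl hjT)).intervalIntegrable_of_Icc hjh)]
    have := intervalIntegral.integral_comp_add_left (F 0) (a := 0) (b := (j : ℝ) * h) a
    simp only [add_zero] at this
    rw [← this]
    exact intervalIntegral.integral_congr fun s _ => hsplit s
  have e2 : ∫ s in (0:ℝ)..j * h, P s = h • ∑ i : Fin m, c i • P (i * h) := by
    simp only [hP]
    rw [intervalIntegral.integral_finsetSum fun k _ =>
      (Continuous.intervalIntegrable (by fun_prop) _ _)]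
    simp only [intervalIntegral.integral_smul_const, intervalIntegral.integral_div, integral_pow,
      Finset.smul_sum, smul_smul]
    rw [Finset.sum_comm]
    refine Finset.sum_congr rfl fun k hk => ?_
    rw [← Finset.sum_smul]
    congr 1
    have hz : (0 : ℝ) ^ (k + 1) = 0 := zero_pow (Nat.succ_ne_zero k)
    rw [hz, sub_zero]
    calc ((j : ℝ) * h) ^ (k + 1) / (k + 1) / (k ! : ℝ)
        = h * ((j : ℝ) ^ (k + 1) / (k + 1)) * (h ^ k / (k ! : ℝ)) := by
          rw [mul_pow, pow_succ h]; ring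
      _ = _ := by
          rw [← hc k (Finset.mem_range.1 hk), Finset.mul_sum, Finset.sum_mul]
          refine Finset.sum_congr rfl fun i _ => ?_
          rw [mul_pow]; ring
  have e3 : (∫ t in a..a + j * h, F 0 t) - h • ∑ i : Fin m, c i • F 0 (a + i * h) =
      (∫ s in (0:ℝ)..j * h, rem s) - h • ∑ i : Fin m, c i • rem (i * h) := by
    rw [e1, e2]
    simp only [hsplit, smul_add, Finset.sum_add_distrib]
    abel
  rw [e3]
  refine (norm_sub_le _ _).trans ?_
  have b1 : ‖∫ s in (0:ℝ)..j * h, rem s‖ ≤ T * (T ^ (m - 1) * I) := by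
    refine (intervalIntegral.norm_integral_le_of_norm_le_const fun s hs => hb s ?_).trans ?_
    · rw [uIoc_of_le hjh] at hs
      exact ⟨hs.1.le, hs.2.trans hjT⟩
    · rw [sub_zero, abs_of_nonneg hjh, mul_comm]
      exact mul_le_mul_of_nonneg_right hjT (by positivity)
  have b2 : ‖h • ∑ i : Fin m, c i • rem (i * h)‖ ≤ h * ((∑ i, |c i|) * (T ^ (m - 1) * I)) := by
    rw [norm_smul, Real.norm_eq_abs, abs_of_nonneg hh]
    refine mul_le_mul_of_nonneg_left ((norm_sum_le _ _).trans ?_) hh
    rw [Finset.sum_mul]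
    refine Finset.sum_le_sum fun i _ => ?_
    rw [norm_smul, Real.norm_eq_abs]
    refine mul_le_mul_of_nonneg_left (hb _ ⟨by positivity, ?_⟩) (abs_nonneg _)
    rw [hTd]; gcongr; exact_mod_cast i.2.le
  refine (add_le_add b1 b2).trans (le_of_eq ?_)
  rw [hTd]; ring

/-- All partial integrals on the grid `R i / (N m)`. -/
theorem quad_path (m : ℕ) (hm : 1 ≤ m) :
    ∃ C : ℝ, 0 ≤ C ∧ ∀ N : ℕ, 1 ≤ N → ∃ w : Fin (N * m + 1) → Fin (N * m + 1) → ℝ,
      (∀ j, ∑ i, |w j i| ≤ C) ∧
      ∀ {E : Type} [NormedAddCommGroup E] [NormedSpace ℝ E] [CompleteSpace E]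
        (F : ℕ → ℝ → E) (R : ℝ), 0 ≤ R → Chain F m 0 R → ∀ j : Fin (N * m + 1),
        ‖(∫ t in (0:ℝ)..R * j / (N * m : ℕ), F 0 t) -
            R • ∑ i, w j i • F 0 (R * i / (N * m : ℕ))‖ ≤
          C * (R / N) ^ m * ∫ t in (0:ℝ)..R, ‖F m t‖ := by
  choose c hc using fun j : ℕ => exists_coef m fun k => (j : ℝ) ^ (k + 1) / (k + 1)
  set S := ∑ j ∈ Finset.range (m + 1), ∑ i, |c j i| with hS
  have hS0 : 0 ≤ S := Finset.sum_nonneg fun j _ => Finset.sum_nonneg fun i _ => abs_nonneg _
  refine ⟨(m : ℝ) + S, by positivity, fun N hN => ?_⟩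
  have hm0 : (0 : ℝ) < m := by exact_mod_cast hm
  have hN0 : (0 : ℝ) < N := by exact_mod_cast hN
  set jj := fun (j p : ℕ) => min m (j - p * m)
  have hjj : ∀ j p, jj j p < m + 1 := fun j p => Nat.lt_succ_of_le (min_le_left _ _)
  have hidx : ∀ (p : Fin N) (k : Fin m), (p : ℕ) * m + k < N * m + 1 := fun p k => by
    have : ((p : ℕ) + 1) * m ≤ N * m := Nat.mul_le_mul_right m p.2
    have := k.2
    rw [add_mul, one_mul] at *
    omega
  set w : Fin (N * m + 1) → Fin (N * m + 1) → ℝ := fun j i =>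
    ((N * m : ℕ) : ℝ)⁻¹ * ∑ p : Fin N, ∑ k : Fin m,
      if (i : ℕ) = p * m + k then c (jj j p) k else 0 with hw
  refine ⟨w, fun j => ?_, fun {E} _ _ _ F R hR hF j => ?_⟩
  · have hbound : ∀ p : Fin N, ∑ k, |c (jj j p) k| ≤ S := fun p =>
      Finset.single_le_sum (f := fun q => ∑ k, |c q k|)
        (fun q _ => Finset.sum_nonneg fun i _ => abs_nonneg _) (Finset.mem_range.2 (hjj _ _))
    calc ∑ i, |w j i| ≤ ∑ i : Fin (N * m + 1), ((N * m : ℕ) : ℝ)⁻¹ * ∑ p : Fin N, ∑ k : Fin m,
          if (i : ℕ) = p * m + k then |c (jj j p) k| else 0 := by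
          refine Finset.sum_le_sum fun i _ => ?_
          rw [hw, abs_mul, abs_of_nonneg (by positivity : (0:ℝ) ≤ ((N * m : ℕ) : ℝ)⁻¹)]
          refine mul_le_mul_of_nonneg_left ((Finset.abs_sum_le_sum_abs _ _).trans
            (Finset.sum_le_sum fun p _ => (Finset.abs_sum_le_sum_abs _ _).trans
              (le_of_eq (Finset.sum_congr rfl fun k _ => ?_)))) (by positivity)
          split_ifs <;> simp
      _ = ((N * m : ℕ) : ℝ)⁻¹ * ∑ p : Fin N, ∑ k : Fin m, |c (jj j p) k| := by
          rw [← Finset.mul_sum, Finset.sum_comm]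
          refine congrArg _ (Finset.sum_congr rfl fun p _ => ?_)
          rw [Finset.sum_comm]
          refine Finset.sum_congr rfl fun k _ => ?_
          rw [Finset.sum_eq_single ⟨_, hidx p k⟩]
          · simp
          · exact fun i _ hi => if_neg fun h => hi (Fin.ext h)
          · simp
      _ ≤ ((N * m : ℕ) : ℝ)⁻¹ * ((N : ℝ) * S) := by
          refine mul_le_mul_of_nonneg_left ((Finset.sum_le_sum fun p _ => hbound p).trans
            (le_of_eq ?_)) (by positivity)
          simp
      _ ≤ (m : ℝ) + S := by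
          push_cast
          calc ((N : ℝ) * m)⁻¹ * ((N : ℝ) * S) = (m : ℝ)⁻¹ * S := by field_simp
            _ ≤ 1 * S := by
                gcongr
                exact inv_le_one_of_one_le₀ (by exact_mod_cast hm)
            _ ≤ _ := by linarith
  · set h := R / (N * m : ℕ) with hhd
    have hh : 0 ≤ h := by positivity
    have hT : (m : ℝ) * h = R / N := by
      rw [hhd]; push_cast; field_simp
    have hNh : ((N * m : ℕ) : ℝ) * h = R := by
      rw [hhd]; push_cast; field_simp
    have hnode : ∀ i : ℕ, R * i / (N * m : ℕ) = i * h := fun i => by rw [hhd]; ring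
    simp only [hnode]
    have hsum : R • ∑ i, w j i • F 0 ((i : ℕ) * h) =
        ∑ p : Fin N, h • ∑ k : Fin m, c (jj j p) k • F 0 ((p : ℕ) * m * h + k * h) := by
      have e : ∀ i : Fin (N * m + 1), R • (w j i • F 0 ((i : ℕ) * h)) =
          ∑ p : Fin N, ∑ k : Fin m, if (i : ℕ) = p * m + k then
            h • c (jj j p) k • F 0 ((i : ℕ) * h) else 0 := fun i => by
        rw [hw, smul_smul, ← mul_assoc, ← div_eq_mul_inv, ← hhd, ← smul_smul, Finset.sum_smul,
          Finset.smul_sum]
        refine Finset.sum_congr rfl fun p _ => ?_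
        rw [Finset.sum_smul, Finset.smul_sum]
        refine Finset.sum_congr rfl fun k _ => ?_
        split_ifs <;> simp
      rw [Finset.smul_sum, Finset.sum_congr rfl fun i _ => e i, Finset.sum_comm]
      refine Finset.sum_congr rfl fun p _ => ?_
      rw [Finset.sum_comm, Finset.smul_sum]
      refine Finset.sum_congr rfl fun k _ => ?_
      rw [Finset.sum_eq_single ⟨_, hidx p k⟩]
      · rw [if_pos rfl]; congr 3; push_cast; ring
      · exact fun i _ hi => if_neg fun h => hi (Fin.ext h)
      · simp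
    rw [hsum]
    have hsub : ∀ p : ℕ, p < N → Chain F m (p * m * h) (p * m * h + m * h) := fun p hp => by
      refine hF.mono (by positivity) ?_
      rw [← hNh]
      have h1 : (p : ℝ) + 1 ≤ N := by exact_mod_cast hp
      have := mul_le_mul_of_nonneg_right h1 (by positivity : (0:ℝ) ≤ m * h)
      push_cast
      linarith
    have hcF : ∀ x y : ℝ, 0 ≤ x → x ≤ y → y ≤ R → ∀ G : ℝ → E, ContinuousOn G (Icc 0 R) →
        IntervalIntegrable G volume x y := fun x y hx hxy hy G hG =>
      (hG.mono (Icc_subset_Icc hx hy)).intervalIntegrable_of_Icc hxy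
    have hF0 : ContinuousOn (F 0) (Icc 0 R) := fun t ht =>
      (hF.1 0 (by omega) t ht).continuousWithinAt
    have hle : ∀ i : ℕ, i ≤ N * m → (i : ℝ) * h ≤ R := fun i hi => by
      rw [← hNh]; gcongr
    -- the partial integral, piece by piece
    have hdec : ∀ n ≤ N, ∫ t in (0:ℝ)..(min (j : ℕ) (n * m) : ℕ) * h, F 0 t =
        ∑ p ∈ Finset.range n, ∫ t in ((p : ℝ) * m * h)..(p * m * h + (jj j p : ℕ) * h), F 0 t := by
      intro n hn
      induction n with
      | zero => simp
      | succ n ih =>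
        rw [Finset.sum_range_succ, ← ih (by omega)]
        have hnm : (n + 1) * m ≤ N * m := Nat.mul_le_mul_right m hn
        rw [add_mul, one_mul] at hnm
        by_cases hjn : (j : ℕ) ≤ n * m
        · have e1 : min (j : ℕ) ((n + 1) * m) = j := by rw [add_mul, one_mul]; omega
          have e2 : min (j : ℕ) (n * m) = j := by omega
          have e3 : jj j n = 0 := by simp only [jj]; omega
          simp [e1, e2, e3]
        · have e2 : min (j : ℕ) (n * m) = n * m := by omega
          have e1 : (min (j : ℕ) ((n + 1) * m) : ℕ) = n * m + jj j n := by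
            simp only [jj]; rw [add_mul, one_mul]; omega
          have e4 : n * m + jj j n ≤ N * m := by simp only [jj]; omega
          rw [e1, e2]
          push_cast
          rw [intervalIntegral.integral_add_adjacent_intervals
            (hcF _ _ le_rfl (by positivity) (by exact_mod_cast hle _ (le_trans (by omega) e4)) _ hF0)
            (hcF _ _ (by positivity) (le_add_of_nonneg_right (by positivity)) (by
              have := hle _ e4; push_cast at this; linarith) _ hF0), add_mul]
    have hj : (min (j : ℕ) (N * m) : ℕ) = j := by have := j.2; omega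
    have hd := hdec N le_rfl
    rw [hj] at hd
    rw [hd, ← Fin.sum_univ_eq_sum_range, ← Finset.sum_sub_distrib]
    refine (norm_sum_le _ _).trans ?_
    have htot : ∫ t in (0:ℝ)..R, ‖F m t‖ =
        ∑ p ∈ Finset.range N, ∫ t in ((p : ℝ) * m * h)..(p * m * h + m * h), ‖F m t‖ := by
      have := intervalIntegral.sum_integral_adjacent_intervals (μ := volume)
        (f := fun t => ‖F m t‖) (a := fun p : ℕ => (p : ℝ) * m * h) (n := N) fun p hp => by
          have h1 : (p : ℝ) * m * h + m * h ≤ R := by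
            have := hle ((p + 1) * m) (Nat.mul_le_mul_right m hp)
            push_cast at this; linarith
          refine ((hF.2.norm).mono (Icc_subset_Icc (by positivity) ?_)).intervalIntegrable_of_Icc ?_
          · push_cast; linarith
          · push_cast; linarith [mul_nonneg hm0.le hh]
      simp only [Nat.cast_zero, zero_mul] at this
      rw [show (N : ℝ) * m * h = R by push_cast at hNh; linarith] at this
      rw [← this]
      exact Finset.sum_congr rfl fun p _ => by push_cast; ring_nf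
    rw [htot, ← Fin.sum_univ_eq_sum_range, Finset.mul_sum]
    refine Finset.sum_le_sum fun p _ => ?_
    refine (piece_rule hm hh (hsub p p.2) (min_le_left _ _) (hc (jj j p))).trans ?_
    refine mul_le_mul_of_nonneg_right ?_
      (intervalIntegral.integral_nonneg (le_add_of_nonneg_right (by positivity))
        fun t _ => norm_nonneg _)
    have hci : ∑ k, |c (jj j p) k| ≤ S :=
      Finset.single_le_sum (f := fun q => ∑ k, |c q k|)
        (fun q _ => Finset.sum_nonneg fun i _ => abs_nonneg _) (Finset.mem_range.2 (hjj _ _))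
    have hhm : h ≤ m * h := le_mul_of_one_le_left hh (by exact_mod_cast hm)
    calc ((m : ℝ) + ∑ k, |c (jj j p) k|) * h * ((m : ℝ) * h) ^ (m - 1)
        ≤ ((m : ℝ) + S) * (m * h) * ((m : ℝ) * h) ^ (m - 1) := by gcongr
      _ = _ := by
          rw [mul_assoc, ← pow_succ', Nat.sub_add_cancel hm, hT]

/-- The derivative at 0 from m nodes. -/
theorem deriv_path (m : ℕ) (hm : 2 ≤ m) :
    ∃ (C : ℝ) (c : Fin m → ℝ), 0 ≤ C ∧ (∑ i, |c i|) ≤ C ∧
      ∀ {E : Type} [NormedAddCommGroup E] [NormedSpace ℝ E] [CompleteSpace E]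
        (F : ℕ → ℝ → E) (t : ℝ), 0 < t → Chain F m 0 (m * t) →
        ‖F 1 0 - t⁻¹ • ∑ i : Fin m, c i • F 0 (i * t)‖ ≤
          C * t ^ (m - 2) * ∫ u in (0:ℝ)..m * t, ‖F m u‖ := by
  obtain ⟨c, hc⟩ := exists_coef m fun k => if k = 1 then 1 else 0
  refine ⟨(∑ i, |c i|) * (1 + (m : ℝ) ^ (m - 1)), c, by positivity, ?_, fun {E} _ _ _ F t ht hF => ?_⟩
  · exact le_mul_of_one_le_right (by positivity) (le_add_of_nonneg_right (by positivity))
  set T := (m : ℝ) * t with hTd
  set I := ∫ u in (0:ℝ)..T, ‖F m u‖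
  have hT : 0 ≤ T := by positivity
  have hI : 0 ≤ I := intervalIntegral.integral_nonneg hT fun u _ => norm_nonneg _
  set rem := taylorRem F m 0 0 with hrem
  have hb : ∀ s ∈ Icc 0 T, ‖rem s‖ ≤ T ^ (m - 1) * I := by
    have := taylorRem_bound (a := 0) hT (by simpa using hF) (m - 1) 0 (by omega)
    simpa using this
  have e : F 1 0 - t⁻¹ • ∑ i : Fin m, c i • F 0 (i * t) = -(t⁻¹ • ∑ i : Fin m, c i • rem (i * t)) := by
    have hs : ∀ s, F 0 s = (∑ k ∈ Finset.range m, (s ^ k / (k ! : ℝ)) • F k 0) + rem s := fun s => by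
      simp [hrem, taylorRem]
    have hp : t⁻¹ • ∑ i : Fin m, c i • ∑ k ∈ Finset.range m,
        (((i : ℝ) * t) ^ k / (k ! : ℝ)) • F k 0 = F 1 0 := by
      simp only [Finset.smul_sum, smul_smul]
      rw [Finset.sum_comm, Finset.sum_eq_single 1]
      · rw [← Finset.sum_smul]
        refine (congrArg (· • F 1 0) ?_).trans (one_smul ℝ _)
        have := hc 1 (by omega)
        simp only [pow_one, if_true] at this
        simp only [pow_one, Nat.factorial_one, Nat.cast_one, div_one]
        rw [Finset.sum_congr rfl fun i _ => show t⁻¹ * (c i * ((i : ℝ) * t)) = c i * i by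
          field_simp, this]
      · intro k hk hk1
        rw [← Finset.sum_smul]
        refine (congrArg (· • F k 0) ?_).trans (zero_smul ℝ _)
        have := hc k (Finset.mem_range.1 hk)
        rw [if_neg hk1] at this
        rw [Finset.sum_congr rfl fun i _ =>
          show t⁻¹ * (c i * (((i : ℝ) * t) ^ k / (k ! : ℝ))) =
            t⁻¹ * (t ^ k / (k ! : ℝ)) * (c i * (i : ℝ) ^ k) by rw [mul_pow]; ring,
          ← Finset.mul_sum, this, mul_zero]
      · intro h; exact absurd (Finset.mem_range.2 (by omega)) h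
    conv_lhs => enter [2]; rw [Finset.sum_congr rfl fun i _ => by rw [hs], Finset.sum_congr rfl
      fun i _ => smul_add _ _ _]
    rw [Finset.sum_add_distrib, smul_add, hp]
    abel
  rw [e, norm_neg, norm_smul, Real.norm_eq_abs, abs_of_pos (inv_pos.2 ht)]
  calc t⁻¹ * ‖∑ i : Fin m, c i • rem (i * t)‖
      ≤ t⁻¹ * ((∑ i, |c i|) * (T ^ (m - 1) * I)) := by
        refine mul_le_mul_of_nonneg_left ((norm_sum_le _ _).trans ?_) (inv_nonneg.2 ht.le)
        rw [Finset.sum_mul]
        refine Finset.sum_le_sum fun i _ => ?_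
        rw [norm_smul, Real.norm_eq_abs]
        refine mul_le_mul_of_nonneg_left (hb _ ⟨by positivity, ?_⟩) (abs_nonneg _)
        rw [hTd]; gcongr; exact_mod_cast i.2.le
    _ = (∑ i, |c i|) * (m : ℝ) ^ (m - 1) * t ^ (m - 2) * I := by
        rw [hTd, mul_pow, show t ^ (m - 1) = t ^ (m - 2) * t by rw [← pow_succ]; congr 1; omega]
        field_simp
    _ ≤ _ := by
        gcongr
        linarith

/-- A bound on every time slice controls the time integral in quadratic mean. -/
lemma path_lintegral_sq {Ω : Type*} [MeasurableSpace Ω] (μ : Measure Ω) [SFinite μ] {R B : ℝ}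
    (hR : 0 ≤ R) (g : ℝ → Ω → ℝ) (hg : Measurable (Function.uncurry g))
    (hc : ∀ ω, ContinuousOn (fun t => g t ω) (Icc 0 R))
    (hB : ∀ t ∈ Icc 0 R, ∫⁻ ω, ENNReal.ofReal (g t ω ^ 2) ∂μ ≤ ENNReal.ofReal (B ^ 2)) :
    ∫⁻ ω, ENNReal.ofReal ((∫ t in (0:ℝ)..R, g t ω) ^ 2) ∂μ ≤ ENNReal.ofReal ((R * B) ^ 2) := by
  have h1 : ∀ ω, ENNReal.ofReal ((∫ t in (0:ℝ)..R, g t ω) ^ 2) ≤
      ENNReal.ofReal R * ∫⁻ t in Ioc 0 R, ENNReal.ofReal (g t ω ^ 2) := fun ω => by
    have hi : IntegrableOn (fun t => g t ω) (Ioc 0 R) volume :=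
      ((hc ω).integrableOn_Icc).mono_set Ioc_subset_Icc_self
    have hi2 : IntegrableOn (fun t => g t ω ^ 2) (Ioc 0 R) volume :=
      (((hc ω).pow 2).integrableOn_Icc).mono_set Ioc_subset_Icc_self
    rw [intervalIntegral.integral_of_le hR, ← ofReal_integral_eq_lintegral_ofReal hi2
      (Filter.Eventually.of_forall fun t => sq_nonneg _), ← ENNReal.ofReal_mul hR]
    refine ENNReal.ofReal_le_ofReal ?_
    have hq : 0 ≤ ∫ t in Ioc 0 R, (R * g t ω - ∫ u in Ioc 0 R, g u ω) ^ 2 :=
      integral_nonneg fun t => sq_nonneg _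
    set A := ∫ u in Ioc 0 R, g u ω
    have hvol : (volume : Measure ℝ).real (Ioc 0 R) = R := by
      simp [Measure.real, hR]
    have e : ∫ t in Ioc 0 R, (R * g t ω - A) ^ 2 =
        R ^ 2 * (∫ t in Ioc 0 R, g t ω ^ 2) - 2 * R * A * A + R * A ^ 2 := by
      simp only [sub_sq, mul_pow]
      rw [integral_add, integral_sub, integral_const_mul, setIntegral_const, smul_eq_mul, hvol]
      · have : (fun t => 2 * (R * g t ω) * A) = fun t => (2 * R * A) * g t ω := funext fun t => by ring
        rw [this, integral_const_mul]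
      · exact hi2.const_mul _
      · exact ((hi.const_mul R).const_mul 2).mul_const A
      · exact (hi2.const_mul _).sub (((hi.const_mul R).const_mul 2).mul_const A)
      · exact integrableOn_const (by simp)
    rw [e] at hq
    rcases hR.eq_or_lt with hR' | hR'
    · have : A = 0 := by simp [A, ← hR']
      rw [this, ← hR']; simp
    · nlinarith
  refine (lintegral_mono h1).trans ?_
  rw [lintegral_const_mul' _ _ ENNReal.ofReal_ne_top, lintegral_lintegral_swap
    (by
      have : Measurable fun p : Ω × ℝ => g p.2 p.1 := hg.comp measurable_swap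
      exact (ENNReal.measurable_ofReal.comp (this.pow_const 2)).aemeasurable)]
  calc ENNReal.ofReal R * ∫⁻ t in Ioc 0 R, ∫⁻ ω, ENNReal.ofReal (g t ω ^ 2) ∂μ
      ≤ ENNReal.ofReal R * ∫⁻ _ in Ioc 0 R, ENNReal.ofReal (B ^ 2) :=
        mul_le_mul' le_rfl (lintegral_mono_ae ((ae_restrict_iff' measurableSet_Ioc).2
          (Filter.Eventually.of_forall fun t ht => hB t (Ioc_subset_Icc_self ht))))
    _ = _ := by
        rw [setLIntegral_const, Real.volume_Ioc, sub_zero, ← ENNReal.ofReal_mul' hR,
          ← ENNReal.ofReal_mul hR]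
        congr 1; ring

end Vale.Agent.P347.Zero
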