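import Vale.Agent.P347.Zero.FwdExists
import Vale.Agent.P347.Zero.Growth

/-!
The exact rotated scale flow, run backwards from the end point.
-/

open MeasureTheory ProbabilityTheory Set Filter
open scoped RealInnerProductSpace Topology ContDiff NNReal

namespace Vale.Agent.P347.Zero

variable {d : ℕ} {V : EE d → ℝ} {s R : ℝ}

lemma opTrace_prod {E F : Type*} [NormedAddCommGroup E] [NormedSpace ℝ E] [FiniteDimensional ℝ E]
    [NormedAddCommGroup F] [NormedSpace ℝ F] [FiniteDimensional ℝ F] (A : E × F →L[ℝ] E × F) :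
    opTrace A = opTrace ((ContinuousLinearMap.fst ℝ E F).comp (A.comp (ContinuousLinearMap.inl ℝ E F)))
      + opTrace ((ContinuousLinearMap.snd ℝ E F).comp (A.comp (ContinuousLinearMap.inr ℝ E F))) := by
  simp only [opTrace]
  set B : E × F →ₗ[ℝ] E × F := (A : E × F →ₗ[ℝ] E × F)
  have e : B = (B ∘ₗ LinearMap.inl ℝ E F) ∘ₗ LinearMap.fst ℝ E F +
      (B ∘ₗ LinearMap.inr ℝ E F) ∘ₗ LinearMap.snd ℝ E F := by
    refine LinearMap.ext fun z => ?_
    simp only [LinearMap.add_apply, LinearMap.comp_apply, LinearMap.fst_apply, LinearMap.snd_apply,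
      LinearMap.inl_apply, LinearMap.inr_apply, ← map_add]
    simp
  conv_lhs => rw [e]
  rw [map_add, LinearMap.trace_comp_comm' (LinearMap.fst ℝ E F),
    LinearMap.trace_comp_comm' (LinearMap.snd ℝ E F)]
  rfl

lemma contDiffAt_hess2 (hV : Admissible V) {p : ℝ × EE d} (hp : 0 < p.1) :
    ContDiffAt ℝ (⊤ : ℕ∞) (fun p : ℝ × EE d => hess2 V p.1 p.2) p :=
  ContDiffAt.fderiv (f := fun p : ℝ × EE d => Dv V p.1) (g := Prod.snd)
    ((contDiffAt_Dv hV (p := (p.1, p.2)) hp).comp (f := fun q : (ℝ × EE d) × EE d => (q.1.1, q.2))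
      (p, p.2) (by fun_prop)) contDiffAt_snd le_rfl

lemma contDiffAt_lapD (hV : Admissible V) {p : ℝ × EE d} (hp : 0 < p.1) :
    ContDiffAt ℝ (⊤ : ℕ∞) (fun p : ℝ × EE d => lapD V p.1 p.2) p := by
  refine ContDiffAt.sum fun i _ => ?_
  refine ContDiffAt.clm_apply ?_ contDiffAt_const
  exact ContDiffAt.fderiv
    (f := fun (p : ℝ × EE d) z => hess2 V p.1 z (EuclideanSpace.single i (1 : ℝ))) (g := Prod.snd)
    (((contDiffAt_hess2 hV (p := (p.1, p.2)) hp).comp
      (f := fun q : (ℝ × EE d) × EE d => (q.1.1, q.2)) (p, p.2) (by fun_prop)).clm_apply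
        contDiffAt_const) contDiffAt_snd le_rfl

lemma contDiffAt_rotField (hV : Admissible V) (y : EE d) (σ : ℝ) {p : ℝ × EE d × EE d}
    (hp : 0 < s - p.1 ^ 2) :
    ContDiffAt ℝ (⊤ : ℕ∞) (fun p : ℝ × EE d × EE d => rotField V s y σ p.1 p.2) p := by
  set m := fun p : ℝ × EE d × EE d => (s - p.1 ^ 2, y + p.1 • p.2.1)
  have hm : ContDiffAt ℝ (⊤ : ℕ∞) m p := by fun_prop
  have h0 : 0 < (m p).1 := hp
  have hD := (contDiffAt_Dv hV h0).comp p hm
  have hH := (contDiffAt_hess2 hV h0).comp p hm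
  have hL := (contDiffAt_lapD hV h0).comp p hm
  have h1 : ContDiffAt ℝ (⊤ : ℕ∞) (fun p : ℝ × EE d × EE d => p.1) p := contDiffAt_fst
  have h2 : ContDiffAt ℝ (⊤ : ℕ∞) (fun p : ℝ × EE d × EE d => p.2.1) p := by fun_prop
  have h3 : ContDiffAt ℝ (⊤ : ℕ∞) (fun p : ℝ × EE d × EE d => p.2.2) p := by fun_prop
  exact (hD.neg.add ((hH.clm_apply h3).const_smul σ⁻¹)).prodMk
    (((h1.smul hL).sub (hH.clm_apply (h2.add (h1.smul hD)))).const_smul σ⁻¹)

/-- The rotated field run backwards from time R. -/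
noncomputable def rotBack (V : EE d → ℝ) (s : ℝ) (y : EE d) (σ R t : ℝ) (z : EE d × EE d) :
    EE d × EE d :=
  -(rotField V s y σ (clamp R (R - t)) z)

lemma rotBack_eq {y : EE d} {σ t : ℝ} (ht : t ∈ Icc 0 R) :
    rotBack V s y σ R t = fun z => -(rotField V s y σ (R - t) z) := by
  funext z
  rw [rotBack, clamp_eq ⟨by linarith [ht.2], by linarith [ht.1]⟩]

/-- The density along the backward flow. -/
noncomputable def rotDens (V : EE d → ℝ) (s : ℝ) (y : EE d) (R t : ℝ) (z : EE d × EE d) : ℝ :=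
  qd V s y (R - t) z.1 * gdens d z.2

lemma rotDens_fderiv (hV : Admissible V) (y : EE d) {t : ℝ} (hu : 0 < s - (R - t) ^ 2)
    (z : EE d × EE d) :
    ∃ (Lq : ℝ × EE d →L[ℝ] ℝ) (L : ℝ × EE d × EE d →L[ℝ] ℝ),
      HasFDerivAt (Function.uncurry (qd V s y)) Lq (R - t, z.1) ∧
      HasFDerivAt (Function.uncurry (rotDens V s y R)) L (t, z) ∧
      ∀ (a : ℝ) (w : EE d × EE d), L (a, w) =
        gdens d z.2 * Lq (-a, w.1) - qd V s y (R - t) z.1 * gdens d z.2 * ⟪z.2, w.2⟫ := by
  obtain ⟨Lq, hq, -⟩ := qd_fderiv hV (s := s) (r := R - t) hu y z.1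
  obtain ⟨Lg, hg, hgv⟩ := gdens_fderiv z.2
  have hA : HasFDerivAt (fun p : ℝ × EE d × EE d => p.1)
      (ContinuousLinearMap.fst ℝ ℝ (EE d × EE d)) (t, z) := hasFDerivAt_fst
  have hB : HasFDerivAt (fun p : ℝ × EE d × EE d => p.2)
      (ContinuousLinearMap.snd ℝ ℝ (EE d × EE d)) (t, z) := hasFDerivAt_snd
  have h1 := hq.comp (f := fun p : ℝ × EE d × EE d => (R - p.1, p.2.1)) (t, z)
    ((hA.const_sub R).prodMk hB.fst)
  have h2 := hg.comp (f := fun p : ℝ × EE d × EE d => p.2.2) (t, z) hB.snd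
  refine ⟨Lq, _, hq, (h1.fun_mul h2), fun a w => ?_⟩
  simp [hgv, Function.uncurry]
  ring

/-- The backward rotated field satisfies the hypotheses of the transport theorem. -/
lemma rot_growthTransport (hV : Admissible V) (hf : FlowReg V s) (hs : 0 < s) (hs1 : s ≤ 1 / 16)
    (hR0 : 0 ≤ R) (hR : R ^ 2 ≤ 3 * s / 4) (y : EE d) {σ : ℝ} (hσ : 0 < σ) :
    ∃ A, GrowthTransport (rotBack V s y σ R) (rotDens V s y R) A R := by
  obtain ⟨L, hL⟩ := hf.lap
  set a := 3 * ‖y‖ + 4 * Real.sqrt d
  set A := a + 3 + σ⁻¹ * (|L| + 4 + 2 * (a + 3))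
  have ha : 0 ≤ a := by positivity
  have hA : 0 ≤ A := by positivity
  have hR1 : R ≤ 1 := by linarith [len_le_one hs1 hR0 hR]
  have hr : ∀ t ∈ Icc 0 R, R - t ∈ Icc 0 R := fun t ht =>
    ⟨by linarith [ht.2], by linarith [ht.1]⟩
  have hpos : ∀ t ∈ Icc 0 R, 0 < s - (R - t) ^ 2 := fun t ht => by
    linarith [(scale_bounds hR (hr t ht)).1]
  have hsm : ∀ t ∈ Icc 0 R, ∀ z, ContDiffAt ℝ (⊤ : ℕ∞)
      (fun q : ℝ × EE d × EE d => -(rotField V s y σ (R - q.1) q.2)) (t, z) := fun t ht z =>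
    ((contDiffAt_rotField hV y σ (p := (R - t, z)) (hpos t ht)).comp
      (f := fun q : ℝ × EE d × EE d => (R - q.1, q.2)) (t, z) (by fun_prop)).neg
  refine ⟨A,
    { nonneg := hR0
      A_nonneg := hA
      cont := ?_
      growth := fun t z => ?_
      diff := fun t ht z => ?_
      dbound := fun ρ => ?_
      pdiff := fun t ht z => ?_
      decay := ?_
      eqn := fun t ht z => ?_
      pos := fun t _ z => mul_nonneg (qd_nonneg hV hs y _ _) (gdens_nonneg _) }⟩
  · refine continuous_iff_continuousAt.2 fun q => ContinuousAt.neg ?_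
    have h1 := scale_bounds hR (clamp_mem hR0 (R - q.1))
    exact (contDiffAt_rotField hV y σ (s := s) (p := (clamp R (R - q.1), q.2))
      (by show 0 < s - clamp R (R - q.1) ^ 2; linarith [h1.1])).continuousAt.comp
        (f := fun q : ℝ × EE d × EE d => (clamp R (R - q.1), q.2)) (by fun_prop)
  · rw [rotBack, norm_neg]
    set r := clamp R (R - t)
    obtain ⟨h1, h2⟩ := scale_bounds hR (clamp_mem hR0 (R - t))
    have hr0 : 0 ≤ r := (clamp_mem hR0 _).1
    have hr1 : r ≤ 1 := (clamp_mem hR0 _).2.trans hR1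
    have hu : 0 < s - r ^ 2 := by linarith
    set N := ‖z‖
    have hz1 : ‖z.1‖ ≤ N := norm_fst_le z
    have hz2 : ‖z.2‖ ≤ N := norm_snd_le z
    have hD : ‖Dv V (s - r ^ 2) (y + r • z.1)‖ ≤ (a + 3) * (1 + N) := by
      refine (norm_Dv_le_affine hV hu (by linarith) _).trans ?_
      have h3 : ‖y + r • z.1‖ ≤ ‖y‖ + N := (norm_add_le _ _).trans (add_le_add le_rfl (by
        rw [norm_smul, Real.norm_eq_abs, abs_of_nonneg hr0]
        exact (mul_le_of_le_one_left (norm_nonneg _) hr1).trans hz1))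
      have h4 : 0 ≤ a * N := by positivity
      simp only [a] at h4 ⊢
      nlinarith
    have hH := hf.nrm _ hu h2 (y + r • z.1)
    have hN : 0 ≤ N := norm_nonneg _
    rw [rotField, Prod.norm_def, max_le_iff]
    constructor
    · refine (norm_add_le _ _).trans ?_
      rw [fwdField, norm_neg, norm_smul, Real.norm_eq_abs, abs_of_pos (inv_pos.2 hσ)]
      have h5 : σ⁻¹ * ‖hess2 V (s - r ^ 2) (y + r • z.1) z.2‖ ≤
          σ⁻¹ * (|L| + 4 + 2 * (a + 3)) * (1 + N) := by
        rw [mul_assoc]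
        refine mul_le_mul_of_nonneg_left ((hH _).trans ?_) (inv_pos.2 hσ).le
        nlinarith [abs_nonneg L]
      simp only [A]
      linarith
    · rw [norm_smul, Real.norm_eq_abs, abs_of_pos (inv_pos.2 hσ)]
      have h5 : ‖r • lapD V (s - r ^ 2) (y + r • z.1) - hess2 V (s - r ^ 2) (y + r • z.1)
          (z.1 + r • Dv V (s - r ^ 2) (y + r • z.1))‖ ≤
          (|L| + 4 + 2 * (a + 3)) * (1 + N) := by
        refine (norm_sub_le _ _).trans ?_
        have h6 : ‖r • lapD V (s - r ^ 2) (y + r • z.1)‖ ≤ |L| := by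
          rw [norm_smul, Real.norm_eq_abs, abs_of_nonneg hr0]
          exact (mul_le_of_le_one_left (norm_nonneg _) hr1).trans ((hL _ h1 h2 _).trans (le_abs_self L))
        have h7 : ‖z.1 + r • Dv V (s - r ^ 2) (y + r • z.1)‖ ≤ N + (a + 3) * (1 + N) :=
          (norm_add_le _ _).trans (add_le_add hz1 (by
            rw [norm_smul, Real.norm_eq_abs, abs_of_nonneg hr0]
            exact (mul_le_of_le_one_left (norm_nonneg _) hr1).trans hD))
        have h8 := (hH _).trans (mul_le_mul_of_nonneg_left h7 zero_le_two)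
        nlinarith [abs_nonneg L]
      have h9 : 0 ≤ (a + 3) * (1 + N) := by positivity
      have h10 := mul_le_mul_of_nonneg_left h5 (inv_pos.2 hσ).le
      simp only [A]
      linarith
  · rw [rotBack_eq ht]
    exact ((hsm t ht z).differentiableAt (by simp)).comp z
      (f := fun z : EE d × EE d => (t, z)) (by fun_prop)
  · obtain ⟨C, hC⟩ := (isCompact_Icc.prod (isCompact_closedBall (0 : EE d × EE d) ρ))
      |>.exists_bound_of_continuousOn (s := Icc 0 R ×ˢ Metric.closedBall 0 ρ)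
        (f := fun q : ℝ × EE d × EE d => fderiv ℝ (fun z => -(rotField V s y σ (R - q.1) z)) q.2)
        (fun q hq => ((ContDiffAt.fderiv
          (f := fun (q : ℝ × EE d × EE d) z => -(rotField V s y σ (R - q.1) z)) (g := Prod.snd)
          (m := (0 : ℕ∞)) (((hsm q.1 hq.1 q.2)).comp
            (f := fun w : (ℝ × EE d × EE d) × EE d × EE d => (w.1.1, w.2)) (q, q.2) (by fun_prop))
          contDiffAt_snd (by simp)).continuousAt).continuousWithinAt)
    refine ⟨C, fun t ht x hx => ?_⟩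
    rw [rotBack_eq ht]
    exact hC (t, x) ⟨ht, by simpa using hx⟩
  · obtain ⟨Lq, L', -, h, -⟩ := rotDens_fderiv hV y (hpos t ht) z
    exact h.differentiableAt
  · obtain ⟨C, hC0, hC⟩ := qd_decay hV hf hs hs1 hR0 hR y
    set G := ((Real.pi / (1 / 2)) ^ ((d : ℝ) / 2))⁻¹ * Real.exp 5 with hG
    refine ⟨C * G, 1, one_pos, fun t ht z => ?_⟩
    obtain ⟨h1, h2⟩ := hC (R - t) (hr t ht) z.1
    have hg : gdens d z.2 * (1 + ‖z.2‖) ^ 2 ≤ G * Real.exp (-‖z.2‖) := by
      have h3 := exp_poly_le (norm_nonneg z.2)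
      rw [gdens, hG, mul_assoc, mul_assoc]
      refine mul_le_mul_of_nonneg_left ?_ (by positivity)
      linarith
    have he : Real.exp (-‖z.1‖) * Real.exp (-‖z.2‖) ≤ Real.exp (-1 * ‖z‖) := by
      rw [← Real.exp_add, neg_one_mul, Real.exp_le_exp, Prod.norm_def]
      have := max_le_add_of_nonneg (norm_nonneg z.1) (norm_nonneg z.2)
      linarith
    have hg0 := gdens_nonneg (d := d) z.2
    have hq0 := qd_nonneg hV hs y (R - t) z.1
    have hone : (1 : ℝ) ≤ (1 + ‖z.2‖) ^ 2 :=
      one_le_pow₀ (le_add_of_nonneg_right (norm_nonneg _))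
    have hone' : (1 : ℝ) ≤ (1 + ‖z.1‖) ^ 2 :=
      one_le_pow₀ (le_add_of_nonneg_right (norm_nonneg _))
    have hG0 : 0 ≤ G := by positivity
    have hfin : C * Real.exp (-‖z.1‖) * (G * Real.exp (-‖z.2‖)) ≤ C * G * Real.exp (-1 * ‖z‖) := by
      rw [mul_mul_mul_comm]; exact mul_le_mul_of_nonneg_left he (mul_nonneg hC0 hG0)
    refine ⟨?_, ?_⟩
    · rw [rotDens, abs_of_nonneg (mul_nonneg hq0 hg0)]
      exact (mul_le_mul ((le_mul_of_one_le_right hq0 hone').trans h1)
        ((le_mul_of_one_le_right hg0 hone).trans hg) hg0 (by positivity)).trans hfin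
    · obtain ⟨Lq, L', hLq, h, hv⟩ := rotDens_fderiv hV y (hpos t ht) z
      rw [hLq.fderiv] at h2
      rw [h.fderiv]
      refine ContinuousLinearMap.opNorm_le_bound _ (by positivity) ?_
      rintro ⟨b, w⟩
      rw [hv, Real.norm_eq_abs]
      set N := ‖(b, w)‖
      have hN : 0 ≤ N := norm_nonneg _
      have h3 : |Lq (-b, w.1)| ≤ C * Real.exp (-‖z.1‖) * N := by
        rw [← Real.norm_eq_abs]
        refine (Lq.le_opNorm _).trans (mul_le_mul h2 ?_ (norm_nonneg _) (by positivity))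
        simp only [N, Prod.norm_def, norm_neg]
        exact max_le_max le_rfl (le_max_left _ _)
      have h4 : |⟪z.2, w.2⟫| ≤ ‖z.2‖ * N := (abs_real_inner_le_norm _ _).trans
        (mul_le_mul_of_nonneg_left ((norm_snd_le w).trans (norm_snd_le (b, w))) (norm_nonneg _))
      refine (abs_sub _ _).trans ?_
      rw [abs_mul, abs_mul, abs_of_nonneg hg0, abs_of_nonneg (mul_nonneg hq0 hg0)]
      have h5 := mul_le_mul_of_nonneg_left h3 hg0
      have h6 := mul_le_mul ((le_mul_of_one_le_right hq0 hone').trans h1)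
        (mul_le_mul_of_nonneg_left h4 hg0) (by positivity) (by positivity)
      have h7 : gdens d z.2 * (1 + ‖z.2‖) ≤ G * Real.exp (-‖z.2‖) :=
        le_trans (mul_le_mul_of_nonneg_left (by nlinarith [norm_nonneg z.2]) hg0) hg
      have h8 := mul_le_mul_of_nonneg_left h7 (by positivity : 0 ≤ C * Real.exp (-‖z.1‖) * N)
      have h9 := mul_le_mul_of_nonneg_right hfin hN
      linarith
  · -- the continuity equation
    set r := R - t with hrdef
    have hu : 0 < s - r ^ 2 := hpos t ht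
    have h2 : s - r ^ 2 ≤ s := (scale_bounds hR (hr t ht)).2
    obtain ⟨Lq, L', hLq, h, hv⟩ := rotDens_fderiv hV y (hpos t ht) z
    obtain ⟨Lq', hLq', hqv⟩ := qd_fderiv hV hu y z.1
    rw [← hrdef] at hLq hv
    cases hLq.unique hLq'
    have hw : ∀ z : EE d × EE d, rotBack V s y σ R t z = -(rotField V s y σ r z) := fun z => by
      rw [rotBack_eq ht]
    set J := fderiv ℝ (fun x => hess2 V (s - r ^ 2) x z.2) (y + r • z.1)
    have hH2 : ∀ v : EE d, DifferentiableAt ℝ (fun x => hess2 V (s - r ^ 2) x v) (y + r • z.1) :=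
      fun v => ((((contDiffAt_hess2 hV (p := (s - r ^ 2, y + r • z.1)) hu).comp (y + r • z.1)
        (f := fun x : EE d => (s - r ^ 2, x)) (by fun_prop)).clm_apply
          contDiffAt_const).differentiableAt (by simp))
    have hJ : ∑ i, ⟪J (Calc.ev i), Calc.ev i⟫ = ⟪z.2, lapD V (s - r ^ 2) (y + r • z.1)⟫ := by
      rw [lapD, inner_sum]
      refine Finset.sum_congr rfl fun i _ => ?_
      have e : (fun x => ⟪hess2 V (s - r ^ 2) x z.2, Calc.ev i⟫) =
          fun x => ⟪z.2, hess2 V (s - r ^ 2) x (Calc.ev i)⟫ :=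
        funext fun x => hf.sym _ hu h2 x _ _
      have e2 := congrArg (fun f => fderiv ℝ f (y + r • z.1) (Calc.ev i)) e
      simp only [fderiv_inner_apply ℝ (hH2 _) (differentiableAt_const _),
        fderiv_inner_apply ℝ (differentiableAt_const _) (hH2 _), fderiv_fun_const, Pi.zero_apply,
        zero_apply, inner_zero_right, inner_zero_left, zero_add, add_zero] at e2
      exact e2
    have hdiff : DifferentiableAt ℝ (fun w => -(rotField V s y σ r w)) z :=
      ((hsm t ht z).differentiableAt (by simp)).comp z (f := fun z : EE d × EE d => (t, z))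
        (by fun_prop)
    have hmap : HasFDerivAt (fun ξ : EE d => y + r • ξ) (r • ContinuousLinearMap.id ℝ (EE d))
        z.1 := ((hasFDerivAt_id z.1).const_smul r).const_add y
    have htr : opTrace (fderiv ℝ (rotBack V s y σ R t) z) =
        r * (∑ i, ⟪hess2 V (s - r ^ 2) (y + r • z.1) (Calc.ev i), Calc.ev i⟫) -
          σ⁻¹ * (r * ⟪z.2, lapD V (s - r ^ 2) (y + r • z.1)⟫) := by
      rw [rotBack_eq ht, opTrace_prod]
      have e1 : (ContinuousLinearMap.fst ℝ (EE d) (EE d)).comp
          ((fderiv ℝ (fun w => -(rotField V s y σ r w)) z).comp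
            (ContinuousLinearMap.inl ℝ (EE d) (EE d))) =
          r • hess2 V (s - r ^ 2) (y + r • z.1) - σ⁻¹ • (r • J) := by
        have hl : HasFDerivAt (fun ξ : EE d => ((-(rotField V s y σ r (ξ, z.2))).1 : EE d))
            ((ContinuousLinearMap.fst ℝ (EE d) (EE d)).comp
              ((fderiv ℝ (fun w => -(rotField V s y σ r w)) z).comp
                (ContinuousLinearMap.inl ℝ (EE d) (EE d)))) z.1 :=
          (ContinuousLinearMap.fst ℝ (EE d) (EE d)).hasFDerivAt.comp z.1
            (hdiff.hasFDerivAt.comp (f := fun ξ : EE d => (ξ, z.2)) z.1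
              (hasFDerivAt_prodMk_left z.1 z.2))
        refine hl.unique ?_
        refine ((((differentiableAt_Dv hV hu (y + r • z.1)).hasFDerivAt.comp z.1 hmap).sub
          ((((hH2 z.2).hasFDerivAt.comp z.1 hmap)).const_smul σ⁻¹)).congr_fderiv
            ?_).congr_of_eventuallyEq (Eventually.of_forall fun ξ => ?_)
        · ext1 w; simp [hess2, J]
        · simp [rotField, fwdField]; abel
      have e2 : (ContinuousLinearMap.snd ℝ (EE d) (EE d)).comp
          ((fderiv ℝ (fun w => -(rotField V s y σ r w)) z).comp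
            (ContinuousLinearMap.inr ℝ (EE d) (EE d))) = 0 := by
        have hl : HasFDerivAt (fun η : EE d => ((-(rotField V s y σ r (z.1, η))).2 : EE d))
            ((ContinuousLinearMap.snd ℝ (EE d) (EE d)).comp
              ((fderiv ℝ (fun w => -(rotField V s y σ r w)) z).comp
                (ContinuousLinearMap.inr ℝ (EE d) (EE d)))) z.2 :=
          (ContinuousLinearMap.snd ℝ (EE d) (EE d)).hasFDerivAt.comp z.2
            (hdiff.hasFDerivAt.comp (f := fun η : EE d => (z.1, η)) z.2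
              (hasFDerivAt_prodMk_right z.1 z.2))
        refine hl.unique ?_
        simp only [rotField, Prod.neg_mk]
        exact hasFDerivAt_const _ _
      rw [e1, e2, opTrace_eq_sum, opTrace_eq_sum, ← hJ]
      simp only [sub_apply, smul_apply, inner_sub_left,
        real_inner_smul_left, Finset.sum_sub_distrib, ← Finset.mul_sum, zero_apply,
        inner_zero_left, Finset.sum_const_zero, add_zero]
    rw [ContEq, h.fderiv, hv, hqv, htr, hw, rotDens, ← hrdef]
    simp only [rotField, fwdField, Prod.neg_mk, inner_neg_right, inner_add_right, inner_sub_right,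
      real_inner_smul_right, neg_neg, neg_add, neg_smul, one_smul]
    rw [map_add, map_smul, inner_add_right, real_inner_smul_right]
    have s1 := hf.sym _ hu h2 (y + r • z.1) z.2 z.1
    have s2 := hf.sym _ hu h2 (y + r • z.1) z.2 (Dv V (s - r ^ 2) (y + r • z.1))
    rw [real_inner_comm z.1 (hess2 V (s - r ^ 2) (y + r • z.1) z.2)] at s1
    rw [real_inner_comm (Dv V (s - r ^ 2) (y + r • z.1)) (hess2 V (s - r ^ 2) (y + r • z.1) z.2)]
      at s2
    rw [real_inner_comm z.1 (Dv V (s - r ^ 2) (y + r • z.1)), real_inner_self_eq_norm_sq]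
    linear_combination (qd V s y r z.1 * gdens d z.2 * σ⁻¹) * s1 +
      (qd V s y r z.1 * gdens d z.2 * σ⁻¹ * r) * s2

/-- The rotated flow exists. -/
theorem exists_rot (hV : Admissible V) (hf : FlowReg V s) (hs : 0 < s) (hs1 : s ≤ 1 / 16)
    (hR0 : 0 ≤ R) (hR : R ^ 2 ≤ 3 * s / 4) (y : EE d) {σ : ℝ} (hσ : 0 < σ) :
    ∃ Φ, IsRot V s y σ R Φ := by
  obtain ⟨A, h⟩ := rot_growthTransport hV hf hs hs1 hR0 hR y hσ
  have : (volume : Measure (EE d × EE d)).IsAddHaarMeasure := by
    rw [Measure.volume_eq_prod]; infer_instance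
  obtain ⟨Ψ, hΨ0, hΨ, hΨc, hΨl⟩ := h.exists_flow
  have hr : ∀ r ∈ Icc 0 R, R - r ∈ Icc 0 R := fun r hr =>
    ⟨by linarith [hr.2], by linarith [hr.1]⟩
  have hlaw : ∀ r ∈ Icc 0 R, (post V s y r).prod (gam d) =
      (volume : Measure (EE d × EE d)).withDensity
        fun z => ENNReal.ofReal (qd V s y r z.1 * gdens d z.2) := fun r hr' => by
    have hu : 0 < s - r ^ 2 := by linarith [(scale_bounds hR hr').1]
    have hqm : Measurable (qd V s y r) := by
      refine (continuous_iff_continuousAt.2 fun x => ?_).measurable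
      obtain ⟨L, hL, -⟩ := qd_fderiv hV hu y x
      exact hL.continuousAt.comp (f := fun z => (r, z)) (by fun_prop)
    rw [post_eq_qd hV hu y, show gam d = (volume : Measure (EE d)).withDensity
        (fun x => ENNReal.ofReal (gdens d x)) from gam_withDensity,
      prod_withDensity hqm.ennreal_ofReal continuous_gdens.measurable.ennreal_ofReal,
      ← Measure.volume_eq_prod]
    simp only [ENNReal.ofReal_mul (qd_nonneg hV hs y r _)]
  refine ⟨fun r z => Ψ (R - r) z, fun z => by simp [hΨ0], fun z r hr' => ?_,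
    fun r hr' => (hΨc _ (hr r hr')).measurable, fun r hr' => ?_⟩
  · have h1 := (hΨ z (R - r) (hr r hr')).scomp r ((hasDerivWithinAt_id r (Icc 0 R)).const_sub R)
      (fun u hu => hr u hu)
    rw [rotBack_eq (hr r hr')] at h1
    simpa [Function.comp_def] using h1
  · have h1 := hΨl (R - r) (hr r hr')
    simp only [rotDens, sub_zero, sub_sub_cancel] at h1
    rw [hlaw R (right_mem_Icc.2 hR0), hlaw r hr']
    exact h1

end Vale.Agent.P347.Zero
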