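import Vale.Agent.P347.Zero.StepDefs
import Vale.Agent.P347.Zero.EvalBase
import Vale.Agent.P347.Zero.Bridge.Exact

/-!
The semantic identity at every admissible potential, with an explicit error factor.
-/

open MeasureTheory ProbabilityTheory Set
open scoped RealInnerProductSpace ENNReal

namespace Vale.Agent.P347.Zero

/-- The error factor of a derivative evaluation at scales at least s/4. -/
noncomputable def semLeafE (c : Cfg) (C κ s : ℝ) (m : ℕ) : ℝ :=
  9 * C * (c.L.n + 1) * (4 * C * c.τ ^ (m - 1) / s) + 24 * C ^ 2 * κ ^ c.k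

/-- The error factor of a squared derivative evaluation at scales at least s/4. -/
noncomputable def semSqE (c : Cfg) (C κ s : ℝ) (m : ℕ) : ℝ :=
  32 * C ^ 3 * (c.L.n + 1) / c.a *
    (semLeafE c C κ s m + 16 * C * (2 * c.a) ^ (m - 2) + κ ^ c.k)

/-- The quadrature error factor of the sweeps with nodes at spacing 1/N. -/
noncomputable def semQuadE (C s : ℝ) (m N : ℕ) : ℝ := C * ((N : ℝ))⁻¹ ^ m / s ^ 2

/-- The error factor of the semantic identity. -/
noncomputable def semE (c : Cfg) (C κ s σ l : ℝ) (m N : ℕ) : ℝ :=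
  (2 + 4 * corrLip c C s σ l) *
      (9 * C * (c.G.n + 1) * semQuadE C s m N + 24 * C ^ 2 * κ ^ c.k) +
    (semQuadE C s m N + C * backLen s ^ 2 / σ * (c.G.n * (semSqE c C κ s m * (1 + C))) +
      corrLip c C s σ l *
        (κ ^ c.k * (1 + backLen s * C + l + c.G.n * (C + l)) +
         2 * (c.G.n * (semQuadE C s m N + l * semQuadE C s m N) +
          2 * C * backLen s ^ 2 / σ * (c.G.n * (semLeafE c C κ s m * (1 + C))) +
          2 * C * backLen s ^ 2 * l / σ ^ 2 * (c.G.n * (semSqE c C κ s m * (1 + C))))))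

variable {d : ℕ}

lemma semLeafE_nonneg {c : Cfg} {C κ s : ℝ} {m : ℕ} (hC : 0 ≤ C) (hκ : 0 ≤ κ) (hs : 0 < s)
    (hτ : 0 ≤ c.τ) : 0 ≤ semLeafE c C κ s m := by unfold semLeafE; positivity

lemma semSqE_nonneg {c : Cfg} {C κ s : ℝ} {m : ℕ} (hC : 0 ≤ C) (hκ : 0 ≤ κ) (hs : 0 < s)
    (hτ : 0 ≤ c.τ) (ha : 0 ≤ c.a) : 0 ≤ semSqE c C κ s m := by
  have := semLeafE_nonneg (m := m) hC hκ hs hτ
  unfold semSqE; positivity

/-- The error budget is affine in the point. -/
lemma semBudget_le {c : Cfg} {C κ s σ l : ℝ} {m N : ℕ} (hC : 1 ≤ C) (hκ : 0 ≤ κ) (hs : 0 < s)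
    (hσ : 0 < σ) (hl : 0 ≤ l) (hτ : 0 ≤ c.τ) (ha : 0 < c.a) {D yn sd : ℝ} (hy : 0 ≤ yn)
    (hsd : 0 ≤ sd) (hD : D = sd + yn) :
    (2 + 4 * corrLip c C s σ l) *
        (9 * C * (c.G.n + 1) * (semQuadE C s m N * sd) +
          4 * C ^ 2 * 3 * κ ^ c.k * (yn + 2 * sd)) +
      rotBudget c C κ s σ l (semQuadE C s m N * sd) (C * D) yn sd
        (semLeafE c C κ s m * sd) (semLeafE c C κ s m)
        (semSqE c C κ s m * sd) (semSqE c C κ s m) ≤
    semE c C κ s σ l m N * (sd + yn) := by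
  rw [← hD]
  have hC0 : 0 ≤ C := by linarith
  have hr : 0 ≤ backLen s := Real.sqrt_nonneg _
  have hq : 0 ≤ semQuadE C s m N := by unfold semQuadE; positivity
  have he := semLeafE_nonneg (c := c) (m := m) hC0 hκ hs hτ
  have hf := semSqE_nonneg (c := c) (m := m) hC0 hκ hs hτ ha.le
  have hL : 0 ≤ corrLip c C s σ l := by unfold corrLip; positivity
  have hn : (0 : ℝ) ≤ c.G.n := Nat.cast_nonneg _
  have hp : 0 ≤ κ ^ c.k := pow_nonneg hκ _
  have hD0 : 0 ≤ D := by linarith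
  have h1 : semQuadE C s m N * sd ≤ semQuadE C s m N * D :=
    mul_le_mul_of_nonneg_left (by linarith) hq
  have h2 : semLeafE c C κ s m * sd + semLeafE c C κ s m * (C * D) ≤
      semLeafE c C κ s m * (1 + C) * D := by
    have := mul_le_mul_of_nonneg_left (show sd ≤ D by linarith) he
    linarith
  have h3 : semSqE c C κ s m * sd + semSqE c C κ s m * (C * D) ≤
      semSqE c C κ s m * (1 + C) * D := by
    have := mul_le_mul_of_nonneg_left (show sd ≤ D by linarith) hf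
    linarith
  have h4 : yn + 2 * sd ≤ 2 * D := by linarith
  have h5 : yn + backLen s * (C * D) + l * sd + c.G.n * (C * D + l * sd) ≤
      (1 + backLen s * C + l + c.G.n * (C + l)) * D := by
    have := mul_le_mul_of_nonneg_left (show sd ≤ D by linarith) hl
    nlinarith [mul_le_mul_of_nonneg_left this hn]
  set q := semQuadE C s m N
  set e := semLeafE c C κ s m
  set f := semSqE c C κ s m
  set L := corrLip c C s σ l
  unfold rotBudget semE
  calc (2 + 4 * L) * (9 * C * (c.G.n + 1) * (q * sd) + 4 * C ^ 2 * 3 * κ ^ c.k * (yn + 2 * sd)) +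
      (q * sd + C * backLen s ^ 2 / σ * (c.G.n * (f * sd + f * (C * D))) +
        L * (κ ^ c.k * (yn + backLen s * (C * D) + l * sd + c.G.n * (C * D + l * sd)) +
          2 * (c.G.n * (q * sd + l * (q * sd)) +
            2 * C * backLen s ^ 2 / σ * (c.G.n * (e * sd + e * (C * D))) +
            2 * C * backLen s ^ 2 * l / σ ^ 2 * (c.G.n * (f * sd + f * (C * D))))))
      ≤ (2 + 4 * L) * (9 * C * (c.G.n + 1) * (q * D) + 4 * C ^ 2 * 3 * κ ^ c.k * (2 * D)) +
      (q * D + C * backLen s ^ 2 / σ * (c.G.n * (f * (1 + C) * D)) +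
        L * (κ ^ c.k * ((1 + backLen s * C + l + c.G.n * (C + l)) * D) +
          2 * (c.G.n * (q * D + l * (q * D)) +
            2 * C * backLen s ^ 2 / σ * (c.G.n * (e * (1 + C) * D)) +
            2 * C * backLen s ^ 2 * l / σ ^ 2 * (c.G.n * (f * (1 + C) * D))))) := by gcongr
    _ = _ := by ring

/-- Rules for which the semantic identity holds at every scale and every admissible potential. -/
theorem semBound_of_rules (m : ℕ) (hm : 2 ≤ m) :
    ∃ C₀, 1 ≤ C₀ ∧ ∃ L : Rule, L.n = m + 1 ∧ L.Ok C₀ ∧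
      ∀ N : ℕ, 1 ≤ N → ∃ G : Rule, G.n = N * m + 1 ∧ G.Ok C₀ ∧
        ∀ (d : ℕ) (c : Cfg), c.G = G → c.L = L → ∀ S C κ s σ l : ℝ, C₀ ≤ C → S ≤ 1 / 32 →
          (∀ V : EE d → ℝ, Admissible V → SemOk V c S C κ) → BackOk c S C κ s σ l →
          Real.sqrt s ≤ σ → SemBound d c s σ (semE c C κ s σ l m N) := by
  obtain ⟨C₀, hC₀, L, hLn, hLok, hacc, hG⟩ := rules_accurate m hm
  refine ⟨C₀, hC₀, L, hLn, hLok, fun N hN => ?_⟩
  obtain ⟨G, hGn, hGok, hrule⟩ := hG N hN
  refine ⟨G, hGn, hGok, fun d c hcG hcL S C κ s σ l hCC hS hsem hb hσ V hV => ?_⟩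
  have h := hsem V hV
  have hC := h.one_le
  have hκ := h.κ_nonneg
  have hτ := h.τ_pos
  have hτ2 : c.τ ≤ 1 / 2 := by nlinarith [h.τ_small, h.κ_le, h.one_le]
  have hs := hb.s_pos
  have hs1 : s ≤ 1 / 32 := hb.s_le.trans hS
  obtain ⟨hleaf, hexact⟩ := hrule hV c hcG hcL
  have hAcc : c.L.Acc d m C := fun F T hT hT1 hF => by
    rw [hcL]
    obtain ⟨h1, h2⟩ := hacc d F T hT hT1 hF
    have : C₀ * T ^ (m - 2) * (∫ t in (0:ℝ)..T, ‖F m t‖) ≤
        C * T ^ (m - 2) * ∫ t in (0:ℝ)..T, ‖F m t‖ :=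
      mul_le_mul_of_nonneg_right (mul_le_mul_of_nonneg_right hCC (pow_nonneg hT.le _))
        (intervalIntegral.integral_nonneg hT.le fun t _ => norm_nonneg _)
    exact ⟨fun i => (h1 i).trans this, h2.trans this⟩
  have hgrow : ∀ w, 0 ≤ w → w ≤ S → ∀ x : EE d, ‖Dv V w x‖ ≤ 3 * (‖x‖ + Real.sqrt d) :=
    (driftAll hS V hV).2
  set e := semLeafE c C κ s m with hed
  set f := semSqE c C κ s m with hfd
  have he0 : 0 ≤ e := semLeafE_nonneg (by linarith) hκ hs hτ.le
  have hf0 : 0 ≤ f := semSqE_nonneg (by linarith) hκ hs hτ.le h.a_pos.le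
  have hsd := Real.sqrt_nonneg (d : ℝ)
  have hone : ∀ v, s / 4 ≤ v → v ≤ s → ∀ x : EE d,
      eLpNorm (fun X => leaf V c v x X - hess2 V v x X) 2 (gam d) ≤
        ENNReal.ofReal (e * Real.sqrt d + e * ‖x‖) := fun v hv4 hvs x => by
    have hv : 0 < v := by linarith
    have hok : LeafOk V c v (ENNReal.ofReal (4 * C * c.τ ^ (m - 1) / s * Real.sqrt d)) := by
      intro x
      obtain ⟨Ξ, hΞ, h1, h2⟩ := hleaf hτ hτ2 v hv (hvs.trans hs1) x
      have hle : C₀ * c.τ ^ (m - 1) * Real.sqrt d / v ≤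
          4 * C * c.τ ^ (m - 1) / s * Real.sqrt d := by
        calc C₀ * c.τ ^ (m - 1) * Real.sqrt d / v ≤ C * c.τ ^ (m - 1) * Real.sqrt d / (s / 4) := by
              gcongr
          _ = _ := by field_simp
      exact ⟨Ξ, hΞ, fun i => (h1 i).trans (ENNReal.ofReal_le_ofReal hle),
        h2.trans (ENNReal.ofReal_le_ofReal hle)⟩
    refine (leaf_err h hv (hvs.trans hb.s_le) (by positivity) (by norm_num) hgrow hok x).trans
      (ENNReal.ofReal_le_ofReal ?_)
    have : 0 ≤ C ^ 2 * κ ^ c.k * ‖x‖ := by positivity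
    have : 0 ≤ 9 * C * (c.L.n + 1) * (4 * C * c.τ ^ (m - 1) / s) * ‖x‖ := by positivity
    simp only [hed, semLeafE]
    linarith
  have he : EvalOk V c s (e * Real.sqrt d) e (f * Real.sqrt d) f :=
    { e₀_nonneg := by positivity
      e₁_nonneg := he0
      f₀_nonneg := by positivity
      f₁_nonneg := hf0
      one := hone
      two := fun v hv4 hvs x => by
        refine (sq2_err h (by linarith) (hvs.trans hb.s_le) hm hAcc (by positivity)
          (R := 16 * C * (2 * c.a) ^ (m - 2) * Real.sqrt d) le_rfl x (hone v hv4 hvs x)).trans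
          (ENNReal.ofReal_le_ofReal ?_)
        have ha := h.a_pos
        have h1 : 0 ≤ 32 * C ^ 3 * (c.L.n + 1) / c.a *
            (16 * C * (2 * c.a) ^ (m - 2) + κ ^ c.k) * ‖x‖ := by positivity
        calc 32 * C ^ 3 * (c.L.n + 1) / c.a * (e * Real.sqrt d + e * ‖x‖ +
              16 * C * (2 * c.a) ^ (m - 2) * Real.sqrt d + κ ^ c.k * Real.sqrt d)
            ≤ 32 * C ^ 3 * (c.L.n + 1) / c.a * (e * Real.sqrt d + e * ‖x‖ +
              16 * C * (2 * c.a) ^ (m - 2) * Real.sqrt d + κ ^ c.k * Real.sqrt d) +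
              32 * C ^ 3 * (c.L.n + 1) / c.a *
                (16 * C * (2 * c.a) ^ (m - 2) + κ ^ c.k) * ‖x‖ := le_add_of_nonneg_right h1
          _ = f * Real.sqrt d + f * ‖x‖ := by simp only [hfd, semSqE, ← hed]; ring }
  obtain ⟨ξ, Φ, hflow, hcE, hcη⟩ := exists_exact hV hs (by linarith) hb.σ_pos
  have hp : Measurable fun q : EE d × (EE d × EE d) × EE d => (backLen s)⁻¹ •
      ((2 / 3 * fwdLen s) • ξ q.1 (fwdLen s) q.2.1.1 + Real.sqrt (s / 6) • q.2.1.2) :=
    (((hcE.measurable.comp (measurable_fst.prodMk measurable_snd.fst.fst)).const_smul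
      (2 / 3 * fwdLen s)).add (measurable_snd.fst.snd.const_smul (Real.sqrt (s / 6)))).const_smul
        (backLen s)⁻¹
  refine ⟨fun q => (Φ q.1 0 ((backLen s)⁻¹ • ((2 / 3 * fwdLen s) • ξ q.1 (fwdLen s) q.2.1.1 +
      Real.sqrt (s / 6) • q.2.1.2), q.2.2)).2,
    hcη.measurable.comp (measurable_fst.prodMk (hp.prodMk measurable_snd.snd)), fun y => ?_⟩
  obtain ⟨hfwd, hrot⟩ := hexact s hs hs1 y
  have hq : ENNReal.ofReal (C₀ * ((N : ℝ))⁻¹ ^ m * Real.sqrt d / s ^ 2) ≤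
      ENNReal.ofReal (semQuadE C s m N * Real.sqrt d) := ENNReal.ofReal_le_ofReal (by
    unfold semQuadE
    rw [div_mul_eq_mul_div]
    gcongr)
  have hq1 : ENNReal.ofReal (C₀ * ((N : ℝ))⁻¹ ^ m * Real.sqrt d) ≤
      ENNReal.ofReal (C₀ * ((N : ℝ))⁻¹ ^ m * Real.sqrt d / s ^ 2) := ENNReal.ofReal_le_ofReal
    (le_div_self (by positivity) (pow_pos hs 2) (pow_le_one₀ hs.le (by linarith)))
  have hM : ENNReal.ofReal (C₀ * (Real.sqrt d + ‖y‖)) ≤
      ENNReal.ofReal (C * (Real.sqrt d + ‖y‖)) := ENNReal.ofReal_le_ofReal (by gcongr)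
  have hfwd' := (hfwd _ (hflow y).1).mono (hq1.trans hq)
  obtain ⟨u, hu, hlaw, hm0, hn, e1, e2, e3⟩ := (hrot σ hσ _ (hflow y).2).mono hq
  have hrot' : RotAt V c s σ y (ENNReal.ofReal (semQuadE C s m N * Real.sqrt d))
      (ENNReal.ofReal (C * (Real.sqrt d + ‖y‖))) (fun w => (Φ y 0 w).2) :=
    ⟨u, hu, hlaw, hm0.trans hM, fun i => by
      obtain ⟨ν, a, b, cc⟩ := hn i
      exact ⟨ν, a, b.trans hM, cc⟩, e1, e2, e3⟩
  have hq0 : 0 ≤ semQuadE C s m N * Real.sqrt d := by unfold semQuadE; positivity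
  obtain ⟨hl, hE⟩ := sem_err h hb he (G₀ := 3) hq0 (by positivity) (by norm_num) hgrow
    (hcE.measurable.comp (measurable_const.prodMk measurable_id) : Measurable (ξ y (fwdLen s)))
    (hcη.measurable.comp (measurable_const.prodMk measurable_id) :
      Measurable fun w => (Φ y 0 w).2) hfwd' hrot'
  exact ⟨hl, hE.trans (ENNReal.ofReal_le_ofReal (semBudget_le hC hκ hs hb.σ_pos hb.l_pos.le
    hτ.le h.a_pos (norm_nonneg y) hsd rfl))⟩

end Vale.Agent.P347.Zero
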