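import Vale.Agent.P347.Zero.Rotation
import Vale.Agent.P347.Zero.SemLeaf

/-!
The square of the derivative by a rotation: Lipschitz bounds and accuracy.
-/

open MeasureTheory ProbabilityTheory
open scoped RealInnerProductSpace ENNReal

namespace Vale.Agent.P347.Zero

variable {d : ℕ} {V : EE d → ℝ} {c : Cfg} {S C κ : ℝ}

/-- The Lipschitz constant of a derivative evaluation in the base point. -/
noncomputable def leafLip (c : Cfg) (C v : ℝ) : ℝ := 3 * C / (c.τ * Real.sqrt v)

lemma turnF_lip (h : SemOk V c S C κ) {v : ℝ} (hv : 0 < v) (hvS : v ≤ S) (x x' η η' ζ : EE d)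
    (u u' : Fin c.L.n → EE d × EE d) :
    ‖turnF V c v x η ζ u - turnF V c v x' η' ζ u'‖ ≤
      ‖η - η'‖ + c.a * C * leafLip c C v * ‖x - x'‖ + 4 * c.a * C ^ 2 * ‖u - u'‖ ∧
    ∀ i, ‖(turnF V c v x η ζ u i).1 - (turnF V c v x' η' ζ u' i).1‖ ≤
      c.a * C * leafLip c C v * ‖x - x'‖ + 4 * c.a * C ^ 2 * ‖u - u'‖ := by
  have hC := h.one_le
  have ha := h.a_pos
  have hl : 0 ≤ leafLip c C v := by have := h.τ_pos; unfold leafLip; positivity
  have hb : ∀ i (f : EE d × EE d → EE d), (∀ p q, ‖f p - f q‖ ≤ ‖p - q‖) →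
      ‖(∑ j, (c.a * c.L.W i j) • leaf V c v x (f (u j))) -
        ∑ j, (c.a * c.L.W i j) • leaf V c v x' (f (u' j))‖ ≤
      c.a * C * leafLip c C v * ‖x - x'‖ + 4 * c.a * C ^ 2 * ‖u - u'‖ := fun i f hf => by
    rw [← Finset.sum_sub_distrib]
    simp only [← smul_sub]
    refine (norm_wsum_le (M := leafLip c C v * ‖x - x'‖ + 4 * C * ‖u - u'‖)
      ((abs_smul_weights (h.lOk.w_abs i)).trans_eq (by rw [abs_of_pos ha])) (fun j => ?_)
      (by positivity)).trans (le_of_eq (by ring))
    refine (leaf_lip h hv hvS _ _ _ _).trans (add_le_add le_rfl ?_)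
    exact mul_le_mul_of_nonneg_left ((hf _ _).trans (norm_le_pi_norm (u - u') j)) (by positivity)
  have hone : ∀ i, ‖(turnF V c v x η ζ u i).1 - (turnF V c v x' η' ζ u' i).1‖ ≤
      c.a * C * leafLip c C v * ‖x - x'‖ + 4 * c.a * C ^ 2 * ‖u - u'‖ := fun i => by
    simp only [turnF, add_sub_add_left_eq_sub]
    exact hb i Prod.snd fun p q => norm_snd_le (p - q)
  refine ⟨(pi_norm_le_iff_of_nonneg (by positivity)).2 fun i => ?_, hone⟩
  refine max_le ((hone i).trans (by linarith [norm_nonneg (η - η')])) ?_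
  simp only [Pi.sub_apply, Prod.snd_sub, turnF]
  rw [sub_sub_sub_comm]
  refine (norm_sub_le _ _).trans (le_trans (add_le_add le_rfl ?_) (le_of_eq (add_assoc _ _ _).symm))
  exact hb i Prod.fst fun p q => norm_fst_le (p - q)

/-- The rotated standard vectors, first components. -/
lemma turn_lip (h : SemOk V c S C κ) {v : ℝ} (hv : 0 < v) (hvS : v ≤ S) (x x' η η' ζ : EE d)
    (j : Fin c.L.n) :
    ‖(turn V c v x η ζ j).1 - (turn V c v x' η' ζ j).1‖ ≤
      2 * c.a * C * leafLip c C v * ‖x - x'‖ + 8 * c.a * C ^ 2 * ‖η - η'‖ := by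
  have hC := h.one_le
  have ha := h.a_pos
  have hl : 0 ≤ leafLip c C v := by have := h.τ_pos; unfold leafLip; positivity
  have hκ := h.κ_le
  have hsm := h.a_small
  set b := 2 * (‖η - η'‖ + c.a * C * leafLip c C v * ‖x - x'‖) with hb
  have hb0 : 0 ≤ b := by positivity
  have hall : ∀ k : ℕ, ‖(turnF V c v x η ζ)^[k] (fun _ => (ζ, η)) -
      (turnF V c v x' η' ζ)^[k] (fun _ => (ζ, η'))‖ ≤ b :=
    iterate_close (fun u u' => (turnF_lip h hv hvS x x' η η' ζ u u').1) (by positivity)
      (by nlinarith) ((pi_norm_le_iff_of_nonneg hb0).2 fun _ => max_le (by simpa using hb0) (by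
        simp only [Pi.sub_apply, Prod.snd_sub, hb]
        nlinarith [norm_nonneg (η - η'), mul_nonneg (mul_nonneg (mul_nonneg ha.le
          (by linarith : 0 ≤ C)) hl) (norm_nonneg (x - x'))]))
  unfold turn
  rcases hk : c.k with _ | k
  · simp only [Function.iterate_zero, id_eq, sub_self, norm_zero]; positivity
  · rw [Function.iterate_succ_apply', Function.iterate_succ_apply']
    refine ((turnF_lip h hv hvS x x' η η' ζ _ _).2 j).trans ?_
    have := mul_le_mul_of_nonneg_left (hall k) (by positivity : 0 ≤ 4 * c.a * C ^ 2)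
    rw [hb] at this
    nlinarith [mul_nonneg (mul_nonneg (mul_nonneg ha.le (by linarith : 0 ≤ C)) hl)
      (norm_nonneg (x - x'))]

lemma sq2_weights (h : SemOk V c S C κ) : ∑ j, |c.L.der j / c.a| ≤ C / c.a := by
  simp only [abs_div, abs_of_pos h.a_pos, ← Finset.sum_div]
  have := h.a_pos
  gcongr; exact h.lOk.der_abs

/-- The squared derivative is Lipschitz. -/
lemma sq2_lip (h : SemOk V c S C κ) {v : ℝ} (hv : 0 < v) (hvS : v ≤ S) (x x' η η' ζ : EE d) :
    ‖sq2 V c v x η ζ - sq2 V c v x' η' ζ‖ ≤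
      6 * C ^ 2 / (c.a * c.τ * Real.sqrt v) * ‖x - x'‖ + 32 * C ^ 4 * ‖η - η'‖ := by
  have hC := h.one_le
  have ha := h.a_pos
  have hτ := h.τ_pos
  have hl : 0 ≤ leafLip c C v := by unfold leafLip; positivity
  simp only [sq2, ← Finset.sum_sub_distrib, ← smul_sub]
  refine (norm_wsum_le (M := leafLip c C v * ‖x - x'‖ + 4 * C *
      (2 * c.a * C * leafLip c C v * ‖x - x'‖ + 8 * c.a * C ^ 2 * ‖η - η'‖))
    (sq2_weights h) (fun j => ?_) (by positivity)).trans ?_
  · refine (leaf_lip h hv hvS _ _ _ _).trans (add_le_add le_rfl ?_)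
    exact mul_le_mul_of_nonneg_left (turn_lip h hv hvS x x' η η' ζ j) (by positivity)
  · have h8 : 8 * c.a * C ^ 2 ≤ 1 := by linarith [h.a_small, h.κ_le]
    have e : 6 * C ^ 2 / (c.a * c.τ * Real.sqrt v) = C / c.a * (2 * leafLip c C v) := by
      unfold leafLip; field_simp; ring
    rw [e]
    calc C / c.a * (leafLip c C v * ‖x - x'‖ + 4 * C *
          (2 * c.a * C * leafLip c C v * ‖x - x'‖ + 8 * c.a * C ^ 2 * ‖η - η'‖))
        = C / c.a * leafLip c C v * (1 + 8 * c.a * C ^ 2) * ‖x - x'‖ +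
          32 * C ^ 4 * ‖η - η'‖ := by field_simp; ring
      _ ≤ C / c.a * leafLip c C v * (1 + 1) * ‖x - x'‖ + 32 * C ^ 4 * ‖η - η'‖ := by gcongr
      _ = _ := by ring

lemma turnF_continuous (h : SemOk V c S C κ) {v : ℝ} (hv : 0 < v) (hvS : v ≤ S)
    {T : Type} [TopologicalSpace T] {f g k : T → EE d} {u : T → Fin c.L.n → EE d × EE d}
    (hf : Continuous f) (hg : Continuous g) (hk : Continuous k) (hu : Continuous u) :
    Continuous fun t => turnF V c v (f t) (g t) (k t) (u t) := by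
  have hl := leaf_continuous h hv hvS
  have hc : ∀ j, Continuous fun t => u t j := fun j => (continuous_apply j).comp hu
  exact continuous_pi fun i =>
    (hk.add (continuous_finsetSum _ fun j _ =>
      (hl.comp (hf.prodMk (hc j).snd)).const_smul (c.a * c.L.W i j))).prodMk
    (hg.sub (continuous_finsetSum _ fun j _ =>
      (hl.comp (hf.prodMk (hc j).fst)).const_smul (c.a * c.L.W i j)))

lemma sq2_continuous (h : SemOk V c S C κ) {v : ℝ} (hv : 0 < v) (hvS : v ≤ S) :
    Continuous fun p : EE d × EE d × EE d => sq2 V c v p.1 p.2.1 p.2.2 := by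
  have hl := leaf_continuous h hv hvS
  have h21 : Continuous fun p : EE d × EE d × EE d => p.2.1 := continuous_fst.comp continuous_snd
  have h22 : Continuous fun p : EE d × EE d × EE d => p.2.2 := continuous_snd.comp continuous_snd
  have hit : ∀ k : ℕ, Continuous fun p : EE d × EE d × EE d =>
      (turnF V c v p.1 p.2.1 p.2.2)^[k] fun _ => (p.2.2, p.2.1) := fun k => by
    induction k with
    | zero => exact continuous_pi fun _ => h22.prodMk h21
    | succ k ih =>
      simp only [Function.iterate_succ_apply']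
      exact turnF_continuous h hv hvS continuous_fst h21 h22 ih
  exact continuous_finsetSum _ fun j _ => (hl.comp (continuous_fst.prodMk
    ((continuous_apply j).comp (hit c.k)).fst)).const_smul (c.L.der j / c.a)

/-- The exact rotated vectors at the nodes. -/
noncomputable def rotNodes (c : Cfg) (b : OrthonormalBasis (Fin d) ℝ (EE d)) (l : Fin d → ℝ)
    (p : EE d × EE d) (j : Fin c.L.n) : EE d × EE d :=
  (rotU b l p.2 p.1 (c.a * c.L.node j), rotU b l p.1 (-p.2) (c.a * c.L.node j))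

lemma rotNodes_facts (c : Cfg) (b : OrthonormalBasis (Fin d) ℝ (EE d)) (l : Fin d → ℝ)
    (j : Fin c.L.n) :
    (Continuous (fun p => (rotNodes c b l p j).1) ∧
      ((gam d).prod (gam d)).map (fun p => (rotNodes c b l p j).1) = gam d) ∧
    (Continuous (fun p => (rotNodes c b l p j).2) ∧
      ((gam d).prod (gam d)).map (fun p => (rotNodes c b l p j).2) = gam d) := by
  have hc := rotU_continuous b l (c.a * c.L.node j)
  have h1 : Continuous fun p : EE d × EE d => (p.2, p.1) := by fun_prop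
  have h2 : Continuous fun p : EE d × EE d => (p.1, -p.2) := by fun_prop
  refine ⟨⟨hc.comp h1, ?_⟩, ⟨hc.comp h2, ?_⟩⟩
  · conv_rhs => rw [← rotU_law b l (c.a * c.L.node j), ← Measure.prod_swap]
    rw [Measure.map_map hc.measurable measurable_swap]
    rfl
  · have hn : (gam d).map (fun z => -z) = gam d := by
      have := stdGaussian_map (LinearIsometryEquiv.neg ℝ (E := EE d))
      simpa using this
    conv_rhs => rw [← rotU_law b l (c.a * c.L.node j)]
    conv_rhs => rw [show (gam d).prod (gam d) = ((gam d).map id).prod ((gam d).map fun z => -z) by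
      rw [Measure.map_id, hn], Measure.map_prod_map _ _ measurable_id measurable_neg]
    rw [Measure.map_map hc.measurable (measurable_id.prodMap measurable_neg)]
    rfl

/-- The total derivative error along the exact rotation. -/
noncomputable def rotDefect (V : EE d → ℝ) (c : Cfg) (v : ℝ) (x : EE d)
    (b : OrthonormalBasis (Fin d) ℝ (EE d)) (l : Fin d → ℝ) (p : EE d × EE d) : ℝ :=
  ∑ j, (‖leaf V c v x (rotNodes c b l p j).1 - hess2 V v x (rotNodes c b l p j).1‖ +
    ‖leaf V c v x (rotNodes c b l p j).2 - hess2 V v x (rotNodes c b l p j).2‖)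

lemma rotDefect_L2 (h : SemOk V c S C κ) {v : ℝ} (hv : 0 < v) (hvS : v ≤ S) {e : ℝ} (he : 0 ≤ e)
    (x : EE d) (b : OrthonormalBasis (Fin d) ℝ (EE d)) (l : Fin d → ℝ)
    (herr : eLpNorm (fun X => leaf V c v x X - hess2 V v x X) 2 (gam d) ≤ ENNReal.ofReal e) :
    Measurable (rotDefect V c v x b l) ∧
      eLpNorm (rotDefect V c v x b l) 2 ((gam d).prod (gam d)) ≤
        ENNReal.ofReal (2 * c.L.n * e) := by
  let D : EE d → EE d := fun X => leaf V c v x X - hess2 V v x X
  have hDc : Continuous D :=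
    ((leaf_continuous h hv hvS).comp (continuous_const.prodMk continuous_id)).sub
      (hess2 V v x).continuous
  have one : ∀ (f : EE d × EE d → EE d), Continuous f →
      ((gam d).prod (gam d)).map f = gam d → Measurable (fun p => ‖D (f p)‖) ∧
      eLpNorm (fun p => ‖D (f p)‖) 2 ((gam d).prod (gam d)) ≤ ENNReal.ofReal e := fun f hf hlaw => by
    refine ⟨(hDc.comp hf).norm.measurable, ?_⟩
    rw [eLpNorm_norm]
    refine le_trans (le_of_eq ?_) herr
    conv_rhs => rw [← hlaw, eLpNorm_map_measure hDc.aestronglyMeasurable hf.aemeasurable]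
    rfl
  have hj : ∀ j, Measurable (fun p => ‖D (rotNodes c b l p j).1‖ + ‖D (rotNodes c b l p j).2‖) ∧
      eLpNorm (fun p => ‖D (rotNodes c b l p j).1‖ + ‖D (rotNodes c b l p j).2‖) 2
        ((gam d).prod (gam d)) ≤ ENNReal.ofReal (2 * e) := fun j => by
    obtain ⟨⟨c1, l1⟩, ⟨c2, l2⟩⟩ := rotNodes_facts c b l j
    refine ⟨(one _ c1 l1).1.add (one _ c2 l2).1, ?_⟩
    refine (eLpNorm_add_le (one _ c1 l1).1.aestronglyMeasurable
      (one _ c2 l2).1.aestronglyMeasurable one_le_two).trans ?_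
    rw [two_mul, ENNReal.ofReal_add he he]
    exact add_le_add (one _ c1 l1).2 (one _ c2 l2).2
  have hsum : rotDefect V c v x b l =
      ∑ j, fun p => ‖D (rotNodes c b l p j).1‖ + ‖D (rotNodes c b l p j).2‖ := by
    ext p; simp [rotDefect, D]
  refine ⟨?_, ?_⟩
  · exact Finset.measurable_sum _ fun j _ => (hj j).1
  · rw [hsum]
    refine (eLpNorm_sum_le (fun j _ => (hj j).1.aestronglyMeasurable) one_le_two).trans ?_
    refine (Finset.sum_le_sum fun j _ => (hj j).2).trans (le_of_eq ?_)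
    rw [Finset.sum_const, Finset.card_univ, Fintype.card_fin, nsmul_eq_mul,
      ← ENNReal.ofReal_natCast, ← ENNReal.ofReal_mul (by positivity)]
    congr 1; ring

lemma rot_residual (h : SemOk V c S C κ) {v : ℝ} {m : ℕ} (hm : 2 ≤ m) (hR : c.L.Acc d m C)
    (x : EE d) (b : OrthonormalBasis (Fin d) ℝ (EE d)) (l : Fin d → ℝ) (hl : ∀ i, |l i| ≤ 2)
    (hP : ∀ q, hess2 V v x q = diag b l q) (p : EE d × EE d) :
    ‖turnF V c v x p.1 p.2 (rotNodes c b l p) - rotNodes c b l p‖ ≤
      C * 2 ^ 3 * (2 * c.a) ^ (m - 2) * (‖p.1‖ + ‖p.2‖) +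
        c.a * C * rotDefect V c v x b l p := by
  have hC := h.one_le
  have ha := h.a_pos
  have hds : 0 ≤ rotDefect V c v x b l p := Finset.sum_nonneg fun j _ => by positivity
  have hD1 : ∀ j, ‖leaf V c v x (rotNodes c b l p j).1 - hess2 V v x (rotNodes c b l p j).1‖ +
      ‖leaf V c v x (rotNodes c b l p j).2 - hess2 V v x (rotNodes c b l p j).2‖ ≤
      rotDefect V c v x b l p := fun j =>
    Finset.single_le_sum (f := fun j =>
      ‖leaf V c v x (rotNodes c b l p j).1 - hess2 V v x (rotNodes c b l p j).1‖ +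
      ‖leaf V c v x (rotNodes c b l p j).2 - hess2 V v x (rotNodes c b l p j).2‖)
      (fun j _ => by positivity) (Finset.mem_univ j)
  have hrule := fun q q' : EE d => rotU_rule b l hR hm (by linarith) ha h.a_le two_pos.le hl q q'
  refine (pi_norm_le_iff_of_nonneg (by positivity)).2 fun i => max_le ?_ ?_
  · have e1 : (turnF V c v x p.1 p.2 (rotNodes c b l p) i).1 - (rotNodes c b l p i).1 =
        ((∑ j, (c.a * c.L.W i j) • diag b l (rotU b l p.1 (-p.2) (c.a * c.L.node j))) -
          (rotU b l p.2 p.1 (c.a * c.L.node i) - p.2)) +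
        ∑ j, (c.a * c.L.W i j) •
          (leaf V c v x (rotNodes c b l p j).2 - hess2 V v x (rotNodes c b l p j).2) := by
      simp only [turnF, rotNodes, smul_sub, Finset.sum_sub_distrib, hP]; abel
    simp only [Pi.sub_apply, Prod.fst_sub]
    rw [e1]
    refine (norm_add_le _ _).trans (add_le_add ?_ ?_)
    · refine ((hrule p.2 p.1).1 i).trans (le_of_eq ?_)
      ring
    · exact norm_wsum_le ((abs_smul_weights (h.lOk.w_abs i)).trans_eq (by rw [abs_of_pos ha]))
        (fun j => le_trans (le_add_of_nonneg_left (norm_nonneg _)) (hD1 j)) hds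
  · have e2 : (turnF V c v x p.1 p.2 (rotNodes c b l p) i).2 - (rotNodes c b l p i).2 =
        ((∑ j, (c.a * c.L.W i j) • diag b l (rotU b l (-p.2) (-p.1) (c.a * c.L.node j))) -
          (rotU b l p.1 (-p.2) (c.a * c.L.node i) - p.1)) -
        ∑ j, (c.a * c.L.W i j) •
          (leaf V c v x (rotNodes c b l p j).1 - hess2 V v x (rotNodes c b l p j).1) := by
      have hneg : ∀ r, rotU b l (-p.2) (-p.1) r = -rotU b l p.2 p.1 r := fun r => by
        simp [rotU, add_comm]
      simp only [turnF, rotNodes, smul_sub, Finset.sum_sub_distrib, hP, hneg, map_neg, smul_neg,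
        Finset.sum_neg_distrib]
      abel
    simp only [Pi.sub_apply, Prod.snd_sub]
    rw [e2]
    refine (norm_sub_le _ _).trans (add_le_add ?_ ?_)
    · refine ((hrule p.1 (-p.2)).1 i).trans (le_of_eq ?_)
      rw [norm_neg]
    · exact norm_wsum_le ((abs_smul_weights (h.lOk.w_abs i)).trans_eq (by rw [abs_of_pos ha]))
        (fun j => le_trans (le_add_of_nonneg_right (norm_nonneg _)) (hD1 j)) hds

lemma sq2_point (h : SemOk V c S C κ) {v : ℝ} (hv : 0 < v) (hvS : v ≤ S) {m : ℕ} (hm : 2 ≤ m)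
    (hR : c.L.Acc d m C) (x : EE d) (b : OrthonormalBasis (Fin d) ℝ (EE d)) (l : Fin d → ℝ)
    (hl : ∀ i, |l i| ≤ 2) (hP : ∀ q, hess2 V v x q = diag b l q) (p : EE d × EE d) :
    ‖sq2 V c v x p.1 p.2 - hess2 V v x (hess2 V v x p.1)‖ ≤
      16 * C ^ 3 / c.a * rotDefect V c v x b l p +
        16 * C ^ 3 / c.a * (C * 2 ^ 3 * (2 * c.a) ^ (m - 2) + κ ^ c.k) * (‖p.1‖ + ‖p.2‖) := by
  have hC := h.one_le
  have ha := h.a_pos
  have ha1 := h.a_le
  have hκ := h.κ_nonneg
  set Sz := ‖p.1‖ + ‖p.2‖ with hSzd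
  set Ds := rotDefect V c v x b l p with hDsd
  set Q := C * 2 ^ 3 * (2 * c.a) ^ (m - 2) with hQ
  have hSz0 : 0 ≤ Sz := by positivity
  have hDs0 : 0 ≤ Ds := Finset.sum_nonneg fun j _ => by positivity
  have hQ0 : 0 ≤ Q := by positivity
  have hres := rot_residual h hm hR x b l hl hP p
  have hstart : ‖(fun _ : Fin c.L.n => (p.2, p.1)) - rotNodes c b l p‖ ≤ 2 * Sz := by
    refine (norm_sub_le _ _).trans ((add_le_add ?_ ?_).trans_eq (two_mul Sz).symm)
    · exact (pi_norm_le_iff_of_nonneg hSz0).2 fun _ =>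
        max_le (le_add_of_nonneg_left (norm_nonneg _)) (le_add_of_nonneg_right (norm_nonneg _))
    · refine (pi_norm_le_iff_of_nonneg hSz0).2 fun j => max_le ?_ ?_
      · exact (rotU_bound b l p.2 p.1 _).trans_eq (add_comm _ _)
      · exact (rotU_bound b l p.1 (-p.2) _).trans_eq (by rw [norm_neg])
  have hgeo := iterate_geom (F := turnF V c v x p.1 p.2) (κ := κ)
    (fun w w' => ((turnF_lip h hv hvS x x p.1 p.1 p.2 w w').1).trans (by
      simp only [sub_self, norm_zero, mul_zero, zero_add]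
      gcongr; nlinarith [h.a_small])) hκ h.κ_le (fun _ => (p.2, p.1)) (rotNodes c b l p) c.k
  have hgeo' : ‖turn V c v x p.1 p.2 - rotNodes c b l p‖ ≤
      κ ^ c.k * (2 * Sz) + 2 * (Q * Sz + c.a * C * Ds) :=
    hgeo.trans (add_le_add (mul_le_mul_of_nonneg_left hstart (pow_nonneg hκ _))
      (mul_le_mul_of_nonneg_left hres two_pos.le))
  have hrule := rotU_rule b l hR hm (by linarith : (0:ℝ) ≤ C) ha ha1 two_pos.le hl p.2 p.1
  have e3 : sq2 V c v x p.1 p.2 - hess2 V v x (hess2 V v x p.1) =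
      (∑ j, (c.L.der j / c.a) •
          (leaf V c v x (turn V c v x p.1 p.2 j).1 - leaf V c v x (rotNodes c b l p j).1)) +
        (∑ j, (c.L.der j / c.a) •
          (leaf V c v x (rotNodes c b l p j).1 - hess2 V v x (rotNodes c b l p j).1)) +
        ((∑ j, (c.L.der j / c.a) • diag b l (rotU b l p.2 p.1 (c.a * c.L.node j))) -
          diag b l (diag b l p.1)) := by
    simp only [sq2, rotNodes, smul_sub, Finset.sum_sub_distrib, hP]; abel
  rw [e3]
  refine norm_add₃_le.trans ?_
  refine (add_le_add (add_le_add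
    (norm_wsum_le (M := 4 * C * (κ ^ c.k * (2 * Sz) + 2 * (Q * Sz + c.a * C * Ds)))
      (sq2_weights h) (fun j => ?_) (by positivity))
    (norm_wsum_le (M := Ds) (sq2_weights h) (fun j => ?_) hDs0))
    hrule.2).trans ?_
  · refine (leaf_lip h hv hvS _ _ _ _).trans ?_
    simp only [sub_self, norm_zero, mul_zero, zero_add]
    exact mul_le_mul_of_nonneg_left (le_trans ((norm_fst_le _).trans
      (norm_le_pi_norm (turn V c v x p.1 p.2 - rotNodes c b l p) j)) hgeo') (by positivity)
  · refine le_trans (le_add_of_nonneg_right (norm_nonneg _)) (Finset.single_le_sum (f := fun j =>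
      ‖leaf V c v x (rotNodes c b l p j).1 - hess2 V v x (rotNodes c b l p j).1‖ +
      ‖leaf V c v x (rotNodes c b l p j).2 - hess2 V v x (rotNodes c b l p j).2‖)
      (fun j _ => by positivity) (Finset.mem_univ j))
  · have hQS : C * 2 ^ 3 * (2 * c.a) ^ (m - 2) * (‖p.2‖ + ‖p.1‖) = Q * Sz := by
      simp only [hQ, hSzd]; ring
    have h1 : Q * Sz ≤ C ^ 3 / c.a * (Q * Sz) := by
      refine le_mul_of_one_le_left (by positivity) ?_
      rw [one_le_div ha]; nlinarith [one_le_pow₀ hC (n := 3)]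
    have h2 : C / c.a * Ds + 8 * C ^ 3 * Ds ≤ 16 * C ^ 3 / c.a * Ds := by
      rw [← add_mul]
      refine mul_le_mul_of_nonneg_right ?_ hDs0
      rw [le_div_iff₀ ha, add_mul, div_mul_cancel₀ _ ha.ne']
      nlinarith [mul_le_mul_of_nonneg_left ha1 (by positivity : 0 ≤ 8 * C ^ 3),
        le_self_pow₀ hC (three_ne_zero : (3 : ℕ) ≠ 0)]
    have h4 : 8 * C ^ 2 / c.a * (κ ^ c.k * Sz + Q * Sz) ≤
        8 * C ^ 3 / c.a * (κ ^ c.k * Sz + Q * Sz) := by
      gcongr
      · norm_num
    have e5 : C / c.a * (4 * C * (κ ^ c.k * (2 * Sz) + 2 * (Q * Sz + c.a * C * Ds))) =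
        8 * C ^ 2 / c.a * (κ ^ c.k * Sz + Q * Sz) + 8 * C ^ 3 * Ds := by
      field_simp; ring
    have : 0 ≤ C ^ 3 / c.a * (κ ^ c.k * Sz) := by positivity
    have : 0 ≤ C ^ 3 / c.a * (Q * Sz) := by positivity
    rw [hQS, e5]
    ring_nf at *
    linarith

/-- The squared derivative is accurate at a point with a bound e on its derivative evaluation. -/
theorem sq2_err (h : SemOk V c S C κ) {v : ℝ} (hv : 0 < v) (hvS : v ≤ S) {m : ℕ} (hm : 2 ≤ m)
    (hR : c.L.Acc d m C) {e R : ℝ} (he : 0 ≤ e)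
    (hrot : 16 * C * (2 * c.a) ^ (m - 2) * Real.sqrt d ≤ R) (x : EE d)
    (herr : eLpNorm (fun X => leaf V c v x X - hess2 V v x X) 2 (gam d) ≤ ENNReal.ofReal e) :
    eLpNorm (fun p : EE d × EE d => sq2 V c v x p.1 p.2 - hess2 V v x (hess2 V v x p.1)) 2
        ((gam d).prod (gam d)) ≤
      ENNReal.ofReal (32 * C ^ 3 * (c.L.n + 1) / c.a * (e + R + κ ^ c.k * Real.sqrt d)) := by
  obtain ⟨b, l, hl, hP⟩ := exists_diag (hess2 V v x) (h.drift.sym v hv hvS x)
    (h.drift.nrm v hv hvS x)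
  have hC := h.one_le
  have ha := h.a_pos
  have hκ := h.κ_nonneg
  have hR0 : 0 ≤ R := le_trans (by positivity) hrot
  obtain ⟨mD, bD⟩ := rotDefect_L2 h hv hvS he x b l herr
  have bS : eLpNorm (fun p : EE d × EE d => ‖p.1‖ + ‖p.2‖) 2 ((gam d).prod (gam d)) ≤
      ENNReal.ofReal (2 * Real.sqrt d) := by
    refine (eLpNorm_add_le measurable_fst.norm.aestronglyMeasurable
      measurable_snd.norm.aestronglyMeasurable one_le_two).trans ?_
    rw [two_mul, ENNReal.ofReal_add (by positivity) (by positivity)]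
    refine add_le_add ?_ ?_
    · rw [eLpNorm_norm, ← eLp_gam]
      exact (eLpNorm_comp_measurePreserving (g := (id : EE d → EE d))
        measurable_id.aestronglyMeasurable
        (measurePreserving_fst (μ := gam d) (ν := gam d))).le
    · rw [eLpNorm_norm, ← eLp_gam]
      exact (eLpNorm_comp_measurePreserving (g := (id : EE d → EE d))
        measurable_id.aestronglyMeasurable
        (measurePreserving_snd (μ := gam d) (ν := gam d))).le
  set Q := C * 2 ^ 3 * (2 * c.a) ^ (m - 2) with hQ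
  refine (eLp_le₃ (g₁ := rotDefect V c v x b l) (g₂ := fun p => ‖p.1‖ + ‖p.2‖)
    (g₃ := fun _ => (0 : ℝ)) (a := 16 * C ^ 3 / c.a)
    (b := 16 * C ^ 3 / c.a * (Q + κ ^ c.k)) (c := 0) (r₁ := 2 * c.L.n * e)
    (r₂ := 2 * Real.sqrt d) (r₃ := 0) (by positivity) (by positivity) le_rfl (by positivity)
    (by positivity) le_rfl mD.aestronglyMeasurable
    (measurable_fst.norm.add measurable_snd.norm).aestronglyMeasurable aestronglyMeasurable_const
    bD bS (by simp) fun p => ?_).trans (ENNReal.ofReal_le_ofReal ?_)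
  · simp only [zero_mul, add_zero]
    have hn : 0 ≤ rotDefect V c v x b l p := Finset.sum_nonneg fun j _ => by positivity
    rw [Real.norm_of_nonneg hn, Real.norm_of_nonneg (by positivity : 0 ≤ ‖p.1‖ + ‖p.2‖)]
    exact sq2_point h hv hvS hm hR x b l hl hP p
  · have hQR : 2 * (Q * Real.sqrt d) ≤ R := le_trans (le_of_eq (by rw [hQ]; ring)) hrot
    calc 16 * C ^ 3 / c.a * (2 * c.L.n * e) +
          16 * C ^ 3 / c.a * (Q + κ ^ c.k) * (2 * Real.sqrt d) + 0 * 0
        = 32 * C ^ 3 / c.a * (c.L.n * e + (Q * Real.sqrt d + κ ^ c.k * Real.sqrt d)) := by ring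
      _ ≤ 32 * C ^ 3 / c.a * ((c.L.n + 1) * (e + R + κ ^ c.k * Real.sqrt d)) := by
          refine mul_le_mul_of_nonneg_left ?_ (by positivity)
          nlinarith [mul_nonneg (Nat.cast_nonneg c.L.n : (0:ℝ) ≤ c.L.n)
            (by positivity : 0 ≤ R + κ ^ c.k * Real.sqrt d), Real.sqrt_nonneg (d : ℝ),
            (by positivity : 0 ≤ Q * Real.sqrt d)]
      _ = _ := by ring

end Vale.Agent.P347.Zero
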