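import Vale.Agent.P347.Zero.StepErr

/-!
One step: from evaluations at lower parameters and one at half the scale, one at the scale.
-/

open MeasureTheory ProbabilityTheory
open scoped RealInnerProductSpace ENNReal

namespace Vale.Agent.P347.Zero

variable {d : ℕ} {P : Par} {S : ℝ} {N : ℕ} {Env : Type} [MeasurableSpace Env] {ι : Type} [Fintype ι]

/-- The size of the environment of the correction. -/
noncomputable def stepBase (P : Par) (p : (EE d → ℝ) → Env → EE d) (V : EE d → ℝ)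
    (u : (Env × ((Unit ⊕ ι) ⊕ (Unit ⊕ Fin P.cfg.G.n) → EE d)) × EE d) : ℝ :=
  Real.sqrt d + ‖p V u.1.1‖ + ‖u.2‖ + ‖auxPart u.1.2‖ + ‖rotPart u.1.2‖

/-- The vector absorbed by a step. -/
noncomputable def stepVec (P : Par) (p : (EE d → ℝ) → Env → EE d) (V : EE d → ℝ)
    (u : (Env × ((Unit ⊕ ι) ⊕ (Unit ⊕ Fin P.cfg.G.n) → EE d)) × EE d) : EE d :=
  Dv V (P.s / 2) u.2 +
    (-1 : ℝ) • qSem V P.cfg P.s P.σ (p V u.1.1) u.2 (auxPart u.1.2) (rotPart u.1.2) +
    P.σ • auxPart u.1.2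

omit [Fintype ι] in
/-- The simulation of the absorbed vector. -/
lemma Inner.step_vec (h : Inner d P S N) {p : (EE d → ℝ) → Env → EE d} {κ : ℝ} {q : ℕ}
    {e : (EE d → ℝ) → Env → ℝ≥0∞} (hκ : |κ| ≤ P.κp)
    (hpm : ∀ V, Admissible V → Measurable (p V)) (hsim : Sim p κ q e)
    (hO : ∀ v, P.s / 4 ≤ v → v ≤ P.s → Eval d v P.c P.σO P.EO N) {c₂ σ₂ σ₃ E : ℝ} {N₂ : ℕ}
    (hσ₂ : 0 < σ₂) (hσ₃ : 8 * P.σO * P.AQ ≤ σ₃) (hE : 0 ≤ E) (hc₂ : 0 ≤ c₂)
    (hchild : Eval d (P.s / 2) c₂ σ₂ E N₂) :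
    ∃ qr, qr + 2 ≤ N₂ + roundCost P.cfg N ^ (backExp P.cfg * (P.cfg.k + 1)) * 3 * (q + 1) ∧
      (∀ V, Admissible V → Measurable (stepVec (ι := ι) P p V)) ∧
      Sim (stepVec (ι := ι) P p) (Real.sqrt (σ₂ ^ 2 + σ₃ ^ 2)) qr (fun V u =>
        ENNReal.ofReal (E * (Real.sqrt d + ‖u.2‖) + 8 * P.γQ * stepBase P p V u) +
          ENNReal.ofReal (18 * P.AQ) * e V u.1.1) := by
  have ho := h.ok
  have hσI := ho.σI_pos
  have hg : 0 ≤ 16 * P.EI := by linarith [ho.EI_nonneg]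
  have hAQ : 0 < P.AQ := by
    have := Par.t₀_pos ho; have := ho.s_pos; have := ho.σ_pos; have := ho.a_pos; have := ho.one_le
    unfold Par.AQ; positivity
  obtain ⟨-, mR, mA, mZ⟩ := parts_measurable (d := d) (ι := ι) (n := P.cfg.G.n)
  let X : Ctx d ((Env × ((Unit ⊕ ι) ⊕ (Unit ⊕ Fin P.cfg.G.n) → EE d)) × EE d) :=
    { base := stepBase P p
      err := fun V u => e V u.1.1
      cost := q
      base_ge := fun V u => by
        unfold stepBase
        linarith [norm_nonneg (p V u.1.1), norm_nonneg u.2, norm_nonneg (auxPart u.1.2),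
          norm_nonneg (rotPart u.1.2)] }
  have hbase : ∀ V u, ‖p V u.1.1‖ ≤ X.base V u ∧ ‖u.2‖ ≤ X.base V u ∧
      ‖auxPart u.1.2‖ ≤ X.base V u ∧ ∀ j, ‖rotPart u.1.2 j‖ ≤ X.base V u := fun V u => by
    have hd := Real.sqrt_nonneg (d : ℝ)
    have h1 := norm_nonneg (p V u.1.1); have h2 := norm_nonneg u.2
    have h3 := norm_nonneg (auxPart u.1.2); have h4 := norm_nonneg (rotPart u.1.2)
    simp only [X, stepBase]
    exact ⟨by linarith, by linarith, by linarith, fun j => by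
      linarith [norm_le_pi_norm (rotPart u.1.2) j]⟩
  have hin : Lin X P.σI (16 * P.EI) (fun V u => p V u.1.1) P.κp 1 1 0 1 := by
    refine ⟨⟨q, κ, by simpa using hκ, by simp [X], (hsim.pre (π := fun u => u.1.1)
      (measurable_fst.comp measurable_fst)).congr (fun _ _ _ => rfl) fun V _ u => ?_⟩,
      fun V hV => (hpm V hV).comp (measurable_fst.comp measurable_fst),
      fun V hV u => by simpa using (hbase V u).1, by norm_num, by norm_num, by norm_num⟩
    simp [X]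
  have he : BackEnv X P (fun V u => p V u.1.1) 1 (fun u => u.2) (fun u => auxPart u.1.2)
      (fun u => rotPart u.1.2) :=
    ⟨hin, measurable_snd, mA.comp (measurable_snd.comp measurable_fst),
      fun j => (measurable_pi_apply j).comp (mZ.comp (measurable_snd.comp measurable_fst)),
      fun V _ u => (hbase V u).2.1, fun V _ u => (hbase V u).2.2.1,
      fun j V _ u => (hbase V u).2.2.2 j⟩
  have hQ := h.qSem_prog hO he
  obtain ⟨q₃, k₃, hk₃, hq₃, hs₃⟩ := hQ.sim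
  obtain ⟨q₂, hq₂, hs₂⟩ := hchild ((Env × ((Unit ⊕ ι) ⊕ (Unit ⊕ Fin P.cfg.G.n) → EE d)) × EE d)
    (fun _ u => u.2) 0 0 (fun _ _ => 0) (by rw [abs_zero]; positivity)
    (fun _ _ => measurable_snd) (sim_num measurable_snd 0)
  have hσO := ho.σO_pos
  have h3pos : 0 < σ₃ := lt_of_lt_of_le (by positivity) hσ₃
  have hK : 0 < Real.sqrt (σ₂ ^ 2 + σ₃ ^ 2) := Real.sqrt_pos.2 (by positivity)
  have hQ3 := (hs₃.smul (-1)).noise (κ' := σ₃) (by
    rw [neg_one_mul, abs_neg]; nlinarith [mul_pos hσO hAQ]) h3pos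
  have hsum := ((hs₂.add hQ3 (Real.sq_sqrt (by positivity)) hK.ne').add
    (sim_num (f := fun u : (Env × ((Unit ⊕ ι) ⊕ (Unit ⊕ Fin P.cfg.G.n) → EE d)) × EE d =>
      P.σ • auxPart u.1.2) ((mA.comp (measurable_snd.comp measurable_fst)).const_smul P.σ) 0)
    (κ := Real.sqrt (σ₂ ^ 2 + σ₃ ^ 2)) (by ring) hK.ne')
  refine ⟨q₂ + q₃ + 0, ?_, fun V hV => ?_, hsum.congr (fun V _ u => rfl) fun V hV u => ?_⟩
  · have : q₂ + 1 ≤ N₂ := by simpa using hq₂
    have : q₃ + 1 ≤ roundCost P.cfg N ^ (backExp P.cfg * (P.cfg.k + 1)) * 3 * (q + 1) := hq₃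
    omega
  · have hDs := Dv_continuous (h.drift V hV).1 (by linarith [ho.s_pos] : 0 ≤ P.s / 2)
      (by linarith [ho.s_pos, h.s_le])
    exact ((hDs.measurable.comp measurable_snd).add ((hQ.meas V hV).const_smul (-1 : ℝ))).add
      ((mA.comp (measurable_snd.comp measurable_fst)).const_smul P.σ)
  · have hγ : 0 ≤ 8 * P.γQ := hQ.γ_nonneg
    have hb : 0 ≤ stepBase P p V u := X.base_nonneg V u
    simp only [X, enorm_neg, enorm_one, one_mul, mul_zero, add_zero]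
    rw [ENNReal.ofReal_add (by positivity) (mul_nonneg hγ hb)]
    exact le_of_eq (add_assoc _ _ _).symm

/-- The midpoint program at a simulated input. -/
lemma Inner.step_mid (h : Inner d P S N) {p : (EE d → ℝ) → Env → EE d} {κ : ℝ} {q : ℕ}
    {e : (EE d → ℝ) → Env → ℝ≥0∞} (hκ : |κ| ≤ P.κp)
    (hpm : ∀ V, Admissible V → Measurable (p V)) (hsim : Sim p κ q e) :
    ∃ qz, qz + 1 ≤ (1 + roundCost P.cfg N ^ (P.cfg.k + 1) * (1 + 1 + 1)) * (q + 1) ∧
      Sim (fun V (z : Env × EE d) => p V z.1 + (2 / 3 * fwdLen P.s) •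
          fwdEnd V P.cfg P.s (p V z.1) z.2) (Real.sqrt (P.s / 6)) qz
        (fun V z => ENNReal.ofReal (16 * P.EI * P.A * (Real.sqrt d + ‖p V z.1‖ + ‖z.2‖)) +
          ENNReal.ofReal (1 + 9 * P.A) * e V z.1) ∧
      ∀ V, Admissible V → Measurable (fun z : Env × EE d => fwdEnd V P.cfg P.s (p V z.1) z.2) ∧
        ∀ w W, ‖fwdEnd V P.cfg P.s (p V w) W‖ ≤
          (1 + 24 * (P.C * fwdLen P.s)) * (Real.sqrt d + ‖p V w‖ + ‖W‖) := by
  have ho := h.ok
  let X : Ctx d (Env × EE d) :=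
    { base := fun V z => Real.sqrt d + ‖p V z.1‖ + ‖z.2‖
      err := fun V z => e V z.1
      cost := q
      base_ge := fun V z => by linarith [norm_nonneg (p V z.1), norm_nonneg z.2] }
  have hy : Lin X P.σI (16 * P.EI) (fun V z => p V z.1) P.κp 1 1 0 1 := by
    refine ⟨⟨q, κ, by simpa using hκ, by simp [X], (hsim.pre measurable_fst).congr
      (fun _ _ _ => rfl) fun V _ u => by simp [X]⟩,
      fun V hV => (hpm V hV).comp measurable_fst, fun V hV u => ?_, by norm_num, by norm_num,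
      by norm_num⟩
    simp only [X, mul_zero, add_zero, one_mul]
    linarith [Real.sqrt_nonneg (d : ℝ), norm_nonneg u.2]
  have hW : Lin X P.σI (16 * P.EI) (fun _ z => z.2) 0 0 1 0 1 :=
    lin_num (X := X) measurable_snd fun V _ z => by
      show ‖z.2‖ ≤ Real.sqrt d + ‖p V z.1‖ + ‖z.2‖
      linarith [Real.sqrt_nonneg (d : ℝ), norm_nonneg (p V z.1)]
  have hF := h.fwd_prog hy hW
  obtain ⟨qz, k, hk, hq, hs⟩ := (h.mid_prog hy hW).sim
  refine ⟨qz, hq, (hs.noise (hk.trans (noise_le_bridge ho))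
    (Real.sqrt_pos.2 (by linarith [ho.s_pos]))).congr (fun _ _ _ => rfl) fun _ _ _ => le_rfl,
    fun V hV => ⟨hF.meas V hV, fun w W => hF.size V hV (w, W)⟩⟩

/-- The real bookkeeping of a step. -/
lemma step_total {E Esem A EI C r g n B d₀ m : ℝ} (hE : 0 ≤ E) (hE1 : E ≤ 1 / 10) (hg : 0 ≤ g)
    (hg1 : g ≤ 1 / 100) (hEI : 0 ≤ EI) (hA : 0 ≤ A) (hn : 0 ≤ n) (hB : 0 ≤ B) (hd : d₀ ≤ B)
    (hm1 : m ≤ 6 * B) (hm2 : d₀ + m ≤ B * (1 + 100 * C * r)) :
    (2.04 + (E + 8 * g)) * (16 * EI * A * (2 * B)) +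
        (E * (d₀ + m) + 8 * g * (B + m + d₀ + n * d₀)) + Esem * B ≤
      (E * (1 + 100 * C * r + 100 * EI * A) + 100 * (n + 3) * g + 100 * EI * A + Esem) * B := by
  have hX : 0 ≤ EI * A * B := by positivity
  have t1 := mul_le_mul_of_nonneg_left hm2 hE
  have h5 : B + m + d₀ + n * d₀ ≤ (n + 9) * B := by
    linarith only [mul_le_mul_of_nonneg_left hd hn, hd, hm1, hB]
  have t2 := mul_le_mul_of_nonneg_left h5 (by positivity : 0 ≤ 8 * g)
  have t3 : (2.04 + (E + 8 * g)) * (32 * (EI * A * B)) ≤ 3 * (32 * (EI * A * B)) :=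
    mul_le_mul_of_nonneg_right (by linarith only [hE1, hg1]) (by positivity)
  have t4 : 0 ≤ E * (100 * EI * A) * B := by positivity
  have t5 : 0 ≤ g * n * B := by positivity
  have t6 : 0 ≤ g * B := by positivity
  linarith only [t1, t2, t3, t4, t5, t6, hX]

/-- The error of a step at one input. -/
lemma Inner.step_bound (h : Inner d P S N) {κ l E Esem : ℝ} {V : EE d → ℝ} (_hV : Admissible V)
    (hsem : SemOk V P.cfg S P.C κ) (hb : BackOk P.cfg S P.C κ P.s P.σ l)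
    (hL : corrLip P.cfg P.C P.s P.σ l ≤ 1 / 100) (hAQ : P.AQ ≤ 1 / 100) (hγQ : P.γQ ≤ 1 / 100)
    (hγ0 : 0 ≤ P.γQ) (hE : 0 ≤ E) (hE1 : E ≤ 1 / 10) (hEs : 0 ≤ Esem)
    {η₀ : EE d × (EE d × EE d) × EE d → EE d} (hη : Measurable η₀) {y : EE d}
    (hη₀ : eLpNorm (fun ω : ((EE d × EE d) × EE d) × (Fin P.cfg.G.n → EE d) =>
          P.σ • ω.1.2 + Dv V (P.s / 2) (midPoint V P.cfg P.s y ω.1.1.1 ω.1.1.2) -
            qSem V P.cfg P.s P.σ y (midPoint V P.cfg P.s y ω.1.1.1 ω.1.1.2) ω.1.2 ω.2 -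
            Dv V P.s y - P.σ • η₀ (y, ω.1)) 2
          ((((gam d).prod (gam d)).prod (gam d)).prod (noise d (Fin P.cfg.G.n))) ≤
        ENNReal.ofReal (Esem * (Real.sqrt d + ‖y‖)))
    {Yz Nz : EE d → (ι → EE d) → EE d} (hYm : Measurable (Function.uncurry Yz))
    (hNm : Measurable (Function.uncurry Nz)) (hNl : ∀ W, (noise d ι).map (Nz W) = gam d)
    (hFm : Measurable fun W => fwdEnd V P.cfg P.s y W)
    (hFs : ∀ W, ‖fwdEnd V P.cfg P.s y W‖ ≤
      (1 + 24 * (P.C * fwdLen P.s)) * (Real.sqrt d + ‖y‖ + ‖W‖)) {e : ℝ≥0∞}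
    (hYe : ∀ W, eLpNorm (fun r => Yz W r - (y + (2 / 3 * fwdLen P.s) • fwdEnd V P.cfg P.s y W) -
        Real.sqrt (P.s / 6) • Nz W r) 2 (noise d ι) ≤
      ENNReal.ofReal (16 * P.EI * P.A * (Real.sqrt d + ‖y‖ + ‖W‖)) +
        ENNReal.ofReal (1 + 9 * P.A) * e) :
    eLpNorm (fun ω : (Unit ⊕ ι) ⊕ (Unit ⊕ Fin P.cfg.G.n) → EE d =>
        (Dv V (P.s / 2) (Yz (wPart ω) (restPart ω)) + (-1 : ℝ) • qSem V P.cfg P.s P.σ y
          (Yz (wPart ω) (restPart ω)) (auxPart ω) (rotPart ω) + P.σ • auxPart ω) - Dv V P.s y -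
          P.σ • η₀ (y, (wPart ω, Nz (wPart ω) (restPart ω)), auxPart ω)) 2
        (noise d ((Unit ⊕ ι) ⊕ (Unit ⊕ Fin P.cfg.G.n))) +
      eLpNorm (fun ω : (Unit ⊕ ι) ⊕ (Unit ⊕ Fin P.cfg.G.n) → EE d =>
        ENNReal.ofReal (E * (Real.sqrt d + ‖Yz (wPart ω) (restPart ω)‖) + 8 * P.γQ *
          (Real.sqrt d + ‖y‖ + ‖Yz (wPart ω) (restPart ω)‖ + ‖auxPart ω‖ + ‖rotPart ω‖)) +
          ENNReal.ofReal (18 * P.AQ) * e) 2 (noise d ((Unit ⊕ ι) ⊕ (Unit ⊕ Fin P.cfg.G.n))) ≤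
      ENNReal.ofReal (stepErr P E Esem * (Real.sqrt d + ‖y‖)) + 3 * e := by
  have ho := h.ok
  obtain ⟨-, hA, -⟩ := Par.A_facts ho
  have hA1 := ho.A_le
  have hEI := ho.EI_nonneg
  have hC := ho.one_le
  have hs := ho.s_pos
  set B₀ := Real.sqrt d + ‖y‖ with hB₀
  have hd0 : Real.sqrt d ≤ B₀ := by linarith [norm_nonneg y]
  have hy0 : ‖y‖ ≤ B₀ := by linarith [Real.sqrt_nonneg (d : ℝ)]
  have hB : 0 ≤ B₀ := by linarith [norm_nonneg y, Real.sqrt_nonneg (d : ℝ)]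
  obtain ⟨mW, mR, mA, mZ⟩ := parts_measurable (d := d) (ι := ι) (n := P.cfg.G.n)
  obtain ⟨sW, sN, sA, sZ⟩ := pack_sizes (n := P.cfg.G.n) hNm hNl
  set L := fwdLen P.s with hLd
  have hL0 : 0 ≤ L := Real.sqrt_nonneg _
  have hL1 : L ≤ Real.sqrt P.s := fwdLen_le hs.le
  have hs1 : Real.sqrt P.s ≤ 1 := Real.sqrt_le_one.2 ho.s_le
  have hs6 : Real.sqrt (P.s / 6) ≤ Real.sqrt P.s := Real.sqrt_le_sqrt (by linarith)
  let Md : EE d × (ι → EE d) → EE d := fun z =>
    y + (2 / 3 * L) • fwdEnd V P.cfg P.s y z.1 + Real.sqrt (P.s / 6) • Nz z.1 z.2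
  have hMdm : Measurable Md :=
    ((measurable_const.add ((hFm.comp measurable_fst).const_smul (2 / 3 * L))).add
      (hNm.const_smul (Real.sqrt (P.s / 6))) :)
  have hD : eLpNorm (fun ω : (Unit ⊕ ι) ⊕ (Unit ⊕ Fin P.cfg.G.n) → EE d =>
      ‖Yz (wPart ω) (restPart ω) - Md (wPart ω, restPart ω)‖) 2
      (noise d ((Unit ⊕ ι) ⊕ (Unit ⊕ Fin P.cfg.G.n))) ≤
      ENNReal.ofReal (16 * P.EI * P.A * (2 * B₀)) + ENNReal.ofReal (1 + 9 * P.A) * e := by
    rw [eLpNorm_norm]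
    refine (fwd_defect (f := fun z => Yz z.1 z.2 - Md z) (γ := 16 * P.EI * P.A) (B := B₀)
      (hYm.sub hMdm) (by positivity) hB fun W => ?_).trans
        (add_le_add (ENNReal.ofReal_le_ofReal ?_) le_rfl)
    · refine le_trans (le_of_eq ?_) (hYe W)
      congr 1
      funext r
      simp only [Md]; abel
    · refine mul_le_mul_of_nonneg_left ?_ (by positivity); linarith
  have hDm : AEStronglyMeasurable (fun ω : (Unit ⊕ ι) ⊕ (Unit ⊕ Fin P.cfg.G.n) → EE d =>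
      ‖Yz (wPart ω) (restPart ω) - Md (wPart ω, restPart ω)‖)
      (noise d ((Unit ⊕ ι) ⊕ (Unit ⊕ Fin P.cfg.G.n))) :=
    (((hYm.sub hMdm).comp (mW.prodMk mR)).norm).aestronglyMeasurable
  -- the semantic part
  have hΦ := noise_pack (n := P.cfg.G.n) hNm hNl
  have mq := qSem_continuous hsem hb y
  have mD2 : Continuous (Dv V (P.s / 2)) :=
    Dv_continuous hsem.drift (by linarith) (by linarith [h.s_le])
  have mm : Measurable fun p : EE d × EE d => midPoint V P.cfg P.s y p.1 p.2 :=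
    ((measurable_const.add ((hFm.comp measurable_fst).const_smul (2 / 3 * L))).add
      (measurable_snd.const_smul (Real.sqrt (P.s / 6))) :)
  have hS := (L2Le.of_norm
    (f := fun ω : ((EE d × EE d) × EE d) × (Fin P.cfg.G.n → EE d) =>
          P.σ • ω.1.2 + Dv V (P.s / 2) (midPoint V P.cfg P.s y ω.1.1.1 ω.1.1.2) -
            qSem V P.cfg P.s P.σ y (midPoint V P.cfg P.s y ω.1.1.1 ω.1.1.2) ω.1.2 ω.2 -
            Dv V P.s y - P.σ • η₀ (y, ω.1))
    (((((measurable_fst.snd.const_smul P.σ).add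
      (mD2.measurable.fun_comp (mm.fun_comp measurable_fst.fst))).sub
      (mq.measurable.fun_comp ((mm.fun_comp measurable_fst.fst).prodMk
        (measurable_fst.snd.prodMk measurable_snd)))).sub measurable_const).sub
      ((hη.fun_comp (measurable_const.prodMk measurable_fst)).const_smul P.σ)).aestronglyMeasurable
    (by positivity) hη₀).comp hΦ
  -- the size of the environment of the correction
  have hLC : 24 * (L * (P.C * L)) ≤ 24 * P.A :=
    mul_le_mul_of_nonneg_left (Par.fwdK_le ho) (by norm_num)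
  have hmid : ∀ ω : (Unit ⊕ ι) ⊕ (Unit ⊕ Fin P.cfg.G.n) → EE d,
      ‖Md (wPart ω, restPart ω)‖ ≤ ‖y‖ + L * (1 + 24 * (P.C * L)) * (B₀ + ‖wPart ω‖) +
        Real.sqrt (P.s / 6) * ‖Nz (wPart ω) (restPart ω)‖ := fun ω => by
    refine norm_add₃_le.trans (add_le_add (add_le_add le_rfl ?_) ?_)
    · rw [norm_smul, Real.norm_of_nonneg (by positivity), mul_assoc L]
      refine mul_le_mul ?_ (hFs _) (norm_nonneg _) hL0
      linarith
    · rw [norm_smul, Real.norm_of_nonneg (Real.sqrt_nonneg _)]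
  have hmidL2 : L2Le (noise d ((Unit ⊕ ι) ⊕ (Unit ⊕ Fin P.cfg.G.n)))
      (fun ω => ‖y‖ + L * (1 + 24 * (P.C * L)) * (B₀ + ‖wPart ω‖) +
        Real.sqrt (P.s / 6) * ‖Nz (wPart ω) (restPart ω)‖)
      (‖y‖ + L * (1 + 24 * (P.C * L)) * (B₀ + Real.sqrt d) +
        Real.sqrt (P.s / 6) * Real.sqrt d) :=
    ((L2Le.const (norm_nonneg y)).add (((L2Le.const hB).add sW).mul (by positivity))).add
      (sN.mul (Real.sqrt_nonneg _))
  set m := ‖y‖ + L * (1 + 24 * (P.C * L)) * (B₀ + Real.sqrt d) +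
    Real.sqrt (P.s / 6) * Real.sqrt d with hm
  have hm1 : m ≤ 6 * B₀ := by
    have h1 : L * (1 + 24 * (P.C * L)) ≤ 2 := by nlinarith
    have h2 := mul_le_mul h1 (by linarith : B₀ + Real.sqrt d ≤ 2 * B₀) (by positivity) two_pos.le
    have h3 := mul_le_mul (hs6.trans hs1) hd0 (Real.sqrt_nonneg _) zero_le_one
    rw [hm]; linarith
  have hm2 : Real.sqrt d + m ≤ B₀ * (1 + 100 * P.C * Real.sqrt P.s) := by
    have h1 : L * (1 + 24 * (P.C * L)) ≤ Real.sqrt P.s * (25 * P.C) := by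
      refine mul_le_mul hL1 ?_ (by positivity) (Real.sqrt_nonneg _)
      nlinarith [mul_le_mul_of_nonneg_left (hL1.trans hs1) (by linarith : (0:ℝ) ≤ 24 * P.C)]
    have h2 := mul_le_mul h1 (by linarith : B₀ + Real.sqrt d ≤ 2 * B₀) (by positivity)
      (by positivity)
    have h3 := mul_le_mul hs6 hd0 (Real.sqrt_nonneg _) (Real.sqrt_nonneg _)
    have h4 := mul_le_mul_of_nonneg_right hC (mul_nonneg (Real.sqrt_nonneg P.s) hB)
    rw [hm]; nlinarith
  have hG : L2Le (noise d ((Unit ⊕ ι) ⊕ (Unit ⊕ Fin P.cfg.G.n))) _ _ :=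
    (((L2Le.const (Real.sqrt_nonneg (d : ℝ))).add hmidL2).mul hE).add
      ((((((L2Le.const hB).add hmidL2).add sA)).add sZ).mul (c := 8 * P.γQ) (by positivity))
  have hAQ0 : 0 ≤ P.AQ := by
    have := Par.t₀_pos ho; have := ho.σ_pos; have := ho.a_pos
    unfold Par.AQ; positivity
  refine step_error (S := _) (D := fun ω =>
      ‖Yz (wPart ω) (restPart ω) - Md (wPart ω, restPart ω)‖) (c := E + 8 * P.γQ)
    (k := 18 * P.AQ)
    hDm (fun ω => norm_nonneg _) hS hG (fun ω => ?_) (fun ω => ?_) hD (by positivity)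
    (by positivity) (by positivity) (by positivity) ?_ ?_
  · have hlip := (qSem_lip hsem hb y (Yz (wPart ω) (restPart ω)) (Md (wPart ω, restPart ω))
      (auxPart ω) (rotPart ω)).trans (mul_le_mul_of_nonneg_right
        (mul_le_mul_of_nonneg_left hL (by norm_num : (0:ℝ) ≤ 4)) (norm_nonneg _))
    have hdl := hsem.drift.lip (P.s / 2) (by linarith) (by linarith [h.s_le])
      (Yz (wPart ω) (restPart ω)) (Md (wPart ω, restPart ω))
    have hmd : midPoint V P.cfg P.s y (wPart ω) (Nz (wPart ω) (restPart ω)) =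
        Md (wPart ω, restPart ω) := rfl
    show _ ≤ ‖P.σ • auxPart ω + Dv V (P.s / 2) (midPoint V P.cfg P.s y (wPart ω)
        (Nz (wPart ω) (restPart ω))) - qSem V P.cfg P.s P.σ y (midPoint V P.cfg P.s y (wPart ω)
        (Nz (wPart ω) (restPart ω))) (auxPart ω) (rotPart ω) - Dv V P.s y -
        P.σ • η₀ (y, (wPart ω, Nz (wPart ω) (restPart ω)), auxPart ω)‖ + _
    rw [hmd]
    generalize Dv V (P.s / 2) (Yz (wPart ω) (restPart ω)) = a at hdl ⊢
    generalize Dv V (P.s / 2) (Md (wPart ω, restPart ω)) = a' at hdl ⊢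
    generalize qSem V P.cfg P.s P.σ y (Yz (wPart ω) (restPart ω)) (auxPart ω) (rotPart ω) = b
      at hlip ⊢
    generalize qSem V P.cfg P.s P.σ y (Md (wPart ω, restPart ω)) (auxPart ω) (rotPart ω) = b'
      at hlip ⊢
    generalize Dv V P.s y = x₀
    generalize P.σ • η₀ (y, (wPart ω, Nz (wPart ω) (restPart ω)), auxPart ω) = η₁
    generalize P.σ • auxPart ω = u
    rw [show a + (-1 : ℝ) • b + u - x₀ - η₁ = (u + a' - b' - x₀ - η₁) + ((a - a') - (b - b')) by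
      rw [neg_one_smul]; abel]
    refine (norm_add_le _ _).trans (add_le_add le_rfl ((norm_sub_le _ _).trans ?_))
    linarith
  · refine add_le_add (ENNReal.ofReal_le_ofReal ?_) le_rfl
    have h1 := norm_le_insert' (Yz (wPart ω) (restPart ω)) (Md (wPart ω, restPart ω))
    have h2 := hmid ω
    have h3 := norm_nonneg y
    simp only [hB₀] at *
    nlinarith [mul_nonneg hE (norm_nonneg (Yz (wPart ω) (restPart ω) -
      Md (wPart ω, restPart ω))), mul_nonneg hγ0 (norm_nonneg (Yz (wPart ω) (restPart ω) -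
      Md (wPart ω, restPart ω)))]
  · nlinarith
  · exact step_total (A := P.A) (EI := P.EI) (C := P.C) (r := Real.sqrt P.s) (g := P.γQ)
      (n := P.cfg.G.n) hE hE1 hγ0 hγQ hEI hA.le (Nat.cast_nonneg _) hB hd0 hm1 hm2

lemma step_cost_le (c : Cfg) (N : ℕ) {q qz qr N₂ : ℕ}
    (hz : qz + 1 ≤ (1 + roundCost c N ^ (c.k + 1) * (1 + 1 + 1)) * (q + 1))
    (hr : qr + 2 ≤ N₂ + roundCost c N ^ (backExp c * (c.k + 1)) * 3 * (q + 1)) :
    qz + qr + 1 ≤ (N₂ + stepCost c N) * (q + 1) := by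
  have h1 := cost_pow_le c N (e := c.k + 1) (by nlinarith [sq_nonneg c.k])
  have h2 := cost_pow_le c N (e := backExp c * (c.k + 1)) (by unfold backExp; nlinarith [sq_nonneg c.k])
  have h3 : 1 ≤ roundCost c N ^ (c.k + 1) := Nat.one_le_pow _ _ (roundCost_pos _ _)
  have h4 : 1 + roundCost c N ^ (c.k + 1) * (1 + 1 + 1) +
      roundCost c N ^ (backExp c * (c.k + 1)) * 3 ≤ stepCost c N := by
    show _ ≤ 3 * roundCost c N ^ ((c.k + 4) ^ 3)
    omega
  have h5 : N₂ ≤ N₂ * (q + 1) := Nat.le_mul_of_pos_right _ (Nat.succ_pos q)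
  have h6 := Nat.mul_le_mul_right (q + 1) h4
  rw [add_mul] at h6 ⊢
  omega

/-- One step. -/
theorem stepRule (d : ℕ) : StepRule d := by
  classical
  intro P S κ l NI N₂ c₂ σ₂ σ₃ σout E Esem hP hsS hD hsem hb hL hAQ hγQ hσ₂ hσ₃ hσ hσpos hE hE1
    hEs hc₂ hS hI hO hchild Env _ p κ' q e hκ hpm hsim
  have h : Inner d P S NI := ⟨hP, hD, hsS, hI⟩
  have hκ' : |κ'| ≤ P.κp := hκ.trans_eq (div_mul_cancel₀ _ (Real.sqrt_pos.2 hP.s_pos).ne')
  obtain ⟨qz, hqz, hsimZ, hF⟩ := h.step_mid hκ' hpm hsim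
  obtain ⟨ιZ, hιZ, Y, Nn, hY, hN⟩ := hsimZ
  obtain ⟨qr, hqr, hrm, hr⟩ := h.step_vec (ι := ιZ) hκ' hpm hsim hO hσ₂ hσ₃ hE hc₂ hchild
  let pre : Env × ((Unit ⊕ ιZ) ⊕ (Unit ⊕ Fin P.cfg.G.n) → EE d) → (Env × EE d) × (ιZ → EE d) :=
    fun z => ((z.1, wPart z.2), restPart z.2)
  obtain ⟨mW, mR, mA, mZ⟩ := parts_measurable (d := d) (ι := ιZ) (n := P.cfg.G.n)
  have hpre : Measurable pre :=
    (measurable_fst.prodMk (mW.comp measurable_snd)).prodMk (mR.comp measurable_snd)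
  choose η₀ hη₀m hη₀ using hS
  let ηc : (EE d → ℝ) → Env × ((Unit ⊕ ιZ) ⊕ (Unit ⊕ Fin P.cfg.G.n) → EE d) → EE d :=
    fun V z => if hV : Admissible V then
      η₀ V hV (p V z.1, (wPart z.2, Nn V (pre z)), auxPart z.2) else 0
  have hηc : ∀ V, Admissible V → Measurable (ηc V) ∧
      ∀ w, (noise d ((Unit ⊕ ιZ) ⊕ (Unit ⊕ Fin P.cfg.G.n))).map (fun ω => ηc V (w, ω)) = gam d := by
    intro V hV
    have e : ηc V = fun z => η₀ V hV (p V z.1, (wPart z.2, Nn V (pre z)), auxPart z.2) := by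
      funext z; simp only [ηc, dif_pos hV]
    refine ⟨?_, fun w => ?_⟩
    · rw [e]
      exact (hη₀m V hV).fun_comp (((hpm V hV).comp measurable_fst).prodMk
        (((mW.comp measurable_snd).prodMk (((hN V hV).1).comp hpre)).prodMk
          (mA.comp measurable_snd)))
    · rw [e]
      have hG : Measurable (Function.uncurry fun (W : EE d) (r : ιZ → EE d) => Nn V ((w, W), r)) :=
        (hN V hV).1.fun_comp ((measurable_const.prodMk measurable_fst).prodMk measurable_snd)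
      have hΦ := (measurePreserving_fst (μ := ((gam d).prod (gam d)).prod (gam d))
        (ν := noise d (Fin P.cfg.G.n))).comp
        (noise_pack (n := P.cfg.G.n) hG fun W => ((hN V hV).2 (w, W)).1)
      have hη' : Measurable fun z => η₀ V hV (p V w, z) :=
        (hη₀m V hV).fun_comp (measurable_const.prodMk measurable_id)
      refine Eq.trans ?_ ((hη₀ V hV (p V w)).1)
      rw [← hΦ.map_eq, Measure.map_map hη' hΦ.measurable]
      rfl
  have hZ : Sched.Comp qz (fun V z => Y V (pre z)) := Sched.comp_pre hY hpre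
  have hout := sim_absorb hZ hr hrm hηc (fun V w => Dv V P.s (p V w))
    (σ := σout) (s := P.σ) (by rw [Real.sq_sqrt (by positivity)]; linarith) hσpos.ne'
  refine ⟨qz + qr, step_cost_le P.cfg NI hqz hqr, hout.congr (fun _ _ _ => rfl) fun V hV w => ?_⟩
  have hγ0 : 0 ≤ P.γQ := by
    have := Par.t₀_pos hP; have := hP.s_pos; have := hP.σ_pos; have := hP.a_pos
    have := hP.one_le; have := hP.EI_nonneg; have := hP.EO_nonneg
    have := (Par.A_facts hP).2.1
    unfold Par.γQ Par.AQ; positivity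
  simp only [stepVec, stepBase, ηc, dif_pos hV, pre]
  exact h.step_bound (ι := ιZ) hV (hsem V hV) hb hL hAQ hγQ hγ0 hE hE1 hEs (hη₀m V hV)
    (hη₀ V hV (p V w)).2 (Yz := fun W r => Y V ((w, W), r)) (Nz := fun W r => Nn V ((w, W), r))
    ((comp_meas hY hV).fun_comp ((measurable_const.prodMk measurable_fst).prodMk measurable_snd))
    ((hN V hV).1.fun_comp ((measurable_const.prodMk measurable_fst).prodMk measurable_snd))
    (fun W => ((hN V hV).2 (w, W)).1)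
    ((hF V hV).1.fun_comp (measurable_const.prodMk measurable_id)) ((hF V hV).2 w)
    (fun W => ((hN V hV).2 (w, W)).2)

end Vale.Agent.P347.Zero
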