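import Vale.Agent.P347.Zero.MidProg

/-!
The error of one step at a fixed input.
-/

open MeasureTheory ProbabilityTheory
open scoped RealInnerProductSpace ENNReal

namespace Vale.Agent.P347.Zero

variable {d : ℕ} {ι : Type} [Fintype ι] {n : ℕ}

/-- The Gaussian of the forward sweep. -/
def wPart (ω : (Unit ⊕ ι) ⊕ (Unit ⊕ Fin n) → EE d) : EE d := ω (Sum.inl (Sum.inl ()))

/-- The other vectors of the midpoint program. -/
def restPart (ω : (Unit ⊕ ι) ⊕ (Unit ⊕ Fin n) → EE d) : ι → EE d :=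
  fun i => ω (Sum.inl (Sum.inr i))

/-- The auxiliary standard vector. -/
def auxPart (ω : (Unit ⊕ ι) ⊕ (Unit ⊕ Fin n) → EE d) : EE d := ω (Sum.inr (Sum.inl ()))

/-- The vectors of the rotations. -/
def rotPart (ω : (Unit ⊕ ι) ⊕ (Unit ⊕ Fin n) → EE d) : Fin n → EE d :=
  fun j => ω (Sum.inr (Sum.inr j))

omit [Fintype ι] in
lemma parts_measurable :
    Measurable (wPart (d := d) (ι := ι) (n := n)) ∧
    Measurable (restPart (d := d) (ι := ι) (n := n)) ∧
    Measurable (auxPart (d := d) (ι := ι) (n := n)) ∧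
    Measurable (rotPart (d := d) (ι := ι) (n := n)) := by
  unfold wPart restPart auxPart rotPart
  exact ⟨by fun_prop, by fun_prop, by fun_prop, by fun_prop⟩

lemma parts_fwd : MeasurePreserving
    (fun ω : (Unit ⊕ ι) ⊕ (Unit ⊕ Fin n) → EE d => (wPart ω, restPart ω))
    (noise d ((Unit ⊕ ι) ⊕ (Unit ⊕ Fin n))) ((gam d).prod (noise d ι)) :=
  (noise_head (d := d) ι).comp ((measurePreserving_fst
    (μ := noise d (Unit ⊕ ι)) (ν := noise d (Unit ⊕ Fin n))).comp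
    (measurePreserving_sumPiEquivProdPi
      (X := fun _ : (Unit ⊕ ι) ⊕ (Unit ⊕ Fin n) => EE d) fun _ => gam d))

lemma size_parts {μ : Measure (EE d)} (hμ : μ = gam d) :
    L2Le μ (fun x : EE d => ‖x‖) (Real.sqrt d) := by
  subst hμ
  exact L2Le.of_norm (f := (id : EE d → EE d)) measurable_id.aestronglyMeasurable
    (Real.sqrt_nonneg _) eLp_gam.le

lemma pack_sizes {G : EE d → (ι → EE d) → EE d} (hG : Measurable (Function.uncurry G))
    (hlaw : ∀ W, (noise d ι).map (G W) = gam d) :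
    L2Le (noise d ((Unit ⊕ ι) ⊕ (Unit ⊕ Fin n))) (fun ω => ‖wPart (d := d) ω‖) (Real.sqrt d) ∧
    L2Le (noise d ((Unit ⊕ ι) ⊕ (Unit ⊕ Fin n)))
      (fun ω => ‖G (wPart ω) (restPart ω)‖) (Real.sqrt d) ∧
    L2Le (noise d ((Unit ⊕ ι) ⊕ (Unit ⊕ Fin n))) (fun ω => ‖auxPart (d := d) ω‖) (Real.sqrt d) ∧
    L2Le (noise d ((Unit ⊕ ι) ⊕ (Unit ⊕ Fin n))) (fun ω => ‖rotPart (d := d) ω‖)
      (n * Real.sqrt d) := by
  have hg := size_parts (d := d) rfl
  have hp := noise_pack (n := n) hG hlaw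
  have h1 := ((hg.comp (measurePreserving_fst (ν := gam d))).comp
    ((measurePreserving_fst (μ := (gam d).prod (gam d)) (ν := gam d)).comp
      ((measurePreserving_fst (μ := ((gam d).prod (gam d)).prod (gam d))
        (ν := noise d (Fin n))).comp hp)))
  have h2 := ((hg.comp (measurePreserving_snd (μ := gam d))).comp
    ((measurePreserving_fst (μ := (gam d).prod (gam d)) (ν := gam d)).comp
      ((measurePreserving_fst (μ := ((gam d).prod (gam d)).prod (gam d))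
        (ν := noise d (Fin n))).comp hp)))
  have h3 := (hg.comp ((measurePreserving_snd (μ := (gam d).prod (gam d))).comp
      ((measurePreserving_fst (μ := ((gam d).prod (gam d)).prod (gam d))
        (ν := noise d (Fin n))).comp hp)))
  have h4 : L2Le (noise d (Fin n)) (fun z : Fin n → EE d => ‖z‖) (n * Real.sqrt d) := by
    refine L2Le.of_norm (f := (id : (Fin n → EE d) → Fin n → EE d))
      measurable_id.aestronglyMeasurable (by positivity) ?_
    refine (eLp_pi_le fun i => (measurable_pi_apply i).aestronglyMeasurable).trans ?_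
    refine (Finset.sum_le_sum fun i _ => le_of_eq (b := ENNReal.ofReal (Real.sqrt d)) ?_).trans
      (le_of_eq ?_)
    · rw [← eLp_gam]
      exact eLpNorm_comp_measurePreserving (g := (id : EE d → EE d))
        measurable_id.aestronglyMeasurable (measurePreserving_eval (fun _ : Fin n => gam d) i)
    · simp [ENNReal.ofReal_mul]
  exact ⟨h1, h2, h3, h4.comp ((measurePreserving_snd
    (μ := ((gam d).prod (gam d)).prod (gam d))).comp hp)⟩

/-- The forward error at a fixed input, averaged. -/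
lemma fwd_defect {f : EE d × (ι → EE d) → EE d} {γ : ℝ} {B : ℝ} {K : ℝ≥0∞}
    (hf : Measurable f) (hγ : 0 ≤ γ) (hB : 0 ≤ B)
    (herr : ∀ W, eLpNorm (fun r => f (W, r)) 2 (noise d ι) ≤
      ENNReal.ofReal (γ * (B + ‖W‖)) + K) :
    eLpNorm (fun ω : (Unit ⊕ ι) ⊕ (Unit ⊕ Fin n) → EE d => f (wPart ω, restPart ω)) 2
        (noise d ((Unit ⊕ ι) ⊕ (Unit ⊕ Fin n))) ≤
      ENNReal.ofReal (γ * (B + Real.sqrt d)) + K := by
  refine le_trans (le_of_eq ?_) ((eLpNorm_prod_le (μ := gam d) hf herr).trans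
    (eLp_ofReal_add (((L2Le.const hB).add (size_parts (d := d) rfl)).mul hγ) K))
  exact eLpNorm_comp_measurePreserving (g := f) hf.aestronglyMeasurable (parts_fwd (n := n))

/-- The total error of a step at a fixed input. -/
lemma step_error {r η : ((Unit ⊕ ι) ⊕ (Unit ⊕ Fin n) → EE d) → EE d}
    {er : ((Unit ⊕ ι) ⊕ (Unit ⊕ Fin n) → EE d) → ℝ≥0∞}
    {D S G : ((Unit ⊕ ι) ⊕ (Unit ⊕ Fin n) → EE d) → ℝ} {σ a b c k g Esem T : ℝ} {x : EE d}
    {e : ℝ≥0∞}
    (hDm : AEStronglyMeasurable D (noise d ((Unit ⊕ ι) ⊕ (Unit ⊕ Fin n)))) (hD0 : ∀ ω, 0 ≤ D ω)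
    (hS : L2Le (noise d ((Unit ⊕ ι) ⊕ (Unit ⊕ Fin n))) S Esem)
    (hG : L2Le (noise d ((Unit ⊕ ι) ⊕ (Unit ⊕ Fin n))) G g)
    (hr : ∀ ω, ‖r ω - x - σ • η ω‖ ≤ S ω + 2.04 * D ω)
    (her : ∀ ω, er ω ≤ ENNReal.ofReal (G ω + c * D ω) + ENNReal.ofReal k * e)
    (hD : eLpNorm D 2 (noise d ((Unit ⊕ ι) ⊕ (Unit ⊕ Fin n))) ≤
      ENNReal.ofReal a + ENNReal.ofReal b * e)
    (ha : 0 ≤ a) (hb : 0 ≤ b) (hc : 0 ≤ c) (hk : 0 ≤ k)
    (hcoef : (2.04 + c) * b + k ≤ 3) (htot : (2.04 + c) * a + g + Esem ≤ T) :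
    eLpNorm (fun ω => r ω - x - σ • η ω) 2 (noise d ((Unit ⊕ ι) ⊕ (Unit ⊕ Fin n))) +
      eLpNorm er 2 (noise d ((Unit ⊕ ι) ⊕ (Unit ⊕ Fin n))) ≤ ENNReal.ofReal T + 3 * e := by
  refine le_trans (add_le_add ?_ (eLp_mixed hG hDm hD0 hc hD her))
    (step_budget ha hG.r_nonneg hb hc hk hS.r_nonneg hcoef htot)
  refine (eLpNorm_mono_real hr).trans ?_
  refine (eLpNorm_add_le hS.meas (hDm.const_mul _) one_le_two).trans ?_
  rw [add_comm]
  refine add_le_add ?_ hS.bound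
  refine (eLpNorm_const_smul_le (c := (2.04 : ℝ)) (f := D) (p := 2)
    (μ := noise d ((Unit ⊕ ι) ⊕ (Unit ⊕ Fin n)))).trans ?_
  rw [Real.enorm_eq_ofReal (by norm_num)]
  exact mul_le_mul_right hD _

end Vale.Agent.P347.Zero
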