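import Vale.Agent.P347.Zero.ProgBack

/-!
Randomness and error bookkeeping of one step.
-/

open MeasureTheory ProbabilityTheory
open scoped RealInnerProductSpace ENNReal

namespace Vale.Agent.P347.Zero

variable {d : ℕ}

/-- Splitting one fresh vector off the others. -/
lemma noise_head (ι : Type) [Fintype ι] :
    MeasurePreserving (fun ω : Unit ⊕ ι → EE d => (ω (Sum.inl ()), fun i => ω (Sum.inr i)))
      (noise d (Unit ⊕ ι)) ((gam d).prod (noise d ι)) :=
  ((measurePreserving_eval (fun _ : Unit => gam d) ()).prod (MeasurePreserving.id _)).comp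
    (measurePreserving_sumPiEquivProdPi (X := fun _ : Unit ⊕ ι => EE d) fun _ => gam d)

/-- The fresh vectors of one step as independent standard vectors. -/
lemma noise_pack {ι : Type} [Fintype ι] {n : ℕ} {G : EE d → (ι → EE d) → EE d}
    (hG : Measurable (Function.uncurry G)) (hlaw : ∀ W, (noise d ι).map (G W) = gam d) :
    MeasurePreserving (fun ω : (Unit ⊕ ι) ⊕ (Unit ⊕ Fin n) → EE d =>
        (((ω (Sum.inl (Sum.inl ())), G (ω (Sum.inl (Sum.inl ()))) fun i => ω (Sum.inl (Sum.inr i))),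
          ω (Sum.inr (Sum.inl ()))), fun j => ω (Sum.inr (Sum.inr j))))
      (noise d ((Unit ⊕ ι) ⊕ (Unit ⊕ Fin n)))
      ((((gam d).prod (gam d)).prod (gam d)).prod (noise d (Fin n))) := by
  have hsplit := measurePreserving_sumPiEquivProdPi
    (X := fun _ : (Unit ⊕ ι) ⊕ (Unit ⊕ Fin n) => EE d) fun _ => gam d
  have hskew : MeasurePreserving (fun p : EE d × (ι → EE d) => (id p.1, G p.1 p.2))
      ((gam d).prod (noise d ι)) ((gam d).prod (gam d)) :=
    (MeasurePreserving.id (gam d)).skew_product hG (ae_of_all _ hlaw)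
  have h1 := hskew.comp (noise_head (d := d) ι)
  have h2 := (h1.prod (noise_head (d := d) (Fin n))).comp hsplit
  exact (MeasurePreserving.symm _ (measurePreserving_prodAssoc ((gam d).prod (gam d)) (gam d)
    (noise d (Fin n)))).comp h2

variable {α : Type} [MeasurableSpace α] {μ : Measure α}

lemma eLpNorm_ofReal {G : α → ℝ} (hG : ∀ a, 0 ≤ G a) :
    eLpNorm (fun a => ENNReal.ofReal (G a)) 2 μ = eLpNorm G 2 μ :=
  eLpNorm_congr_enorm_ae (ae_of_all _ fun a => by rw [Real.enorm_eq_ofReal (hG a), enorm_eq_self])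

/-- A real part plus a constant part. -/
lemma eLp_ofReal_add [IsProbabilityMeasure μ] {G : α → ℝ} {g : ℝ} (hG : L2Le μ G g) (K : ℝ≥0∞) :
    eLpNorm (fun a => ENNReal.ofReal (G a) + K) 2 μ ≤ ENNReal.ofReal g + K := by
  refine (eLpNorm_add_le (f := fun a => ENNReal.ofReal (G a)) (g := fun _ => K)
    (ENNReal.measurable_ofReal.comp_aemeasurable hG.meas.aemeasurable).aestronglyMeasurable
    aestronglyMeasurable_const one_le_two).trans (add_le_add ?_ ?_)
  · rw [eLpNorm_ofReal hG.nonneg]; exact hG.bound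
  · rw [eLpNorm_const' _ two_ne_zero ENNReal.ofNat_ne_top, measure_univ, ENNReal.one_rpow,
      mul_one, enorm_eq_self]

/-- A bound by a real part, a multiple of another size and a constant part. -/
lemma eLp_mixed [IsProbabilityMeasure μ] {f : α → ℝ≥0∞} {G D : α → ℝ} {g c : ℝ} {U K : ℝ≥0∞}
    (hG : L2Le μ G g) (hD : AEStronglyMeasurable D μ) (hD0 : ∀ a, 0 ≤ D a) (hc : 0 ≤ c)
    (hU : eLpNorm D 2 μ ≤ U)
    (h : ∀ a, f a ≤ ENNReal.ofReal (G a + c * D a) + K) :
    eLpNorm f 2 μ ≤ ENNReal.ofReal g + ENNReal.ofReal c * U + K := by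
  have hm : AEStronglyMeasurable (fun a => ENNReal.ofReal (G a + c * D a)) μ :=
    (ENNReal.measurable_ofReal.comp_aemeasurable
      (hG.meas.aemeasurable.add (hD.aemeasurable.const_mul c))).aestronglyMeasurable
  refine (eLpNorm_mono_enorm fun a => ?_).trans ((eLpNorm_add_le
    (f := fun a => ENNReal.ofReal (G a + c * D a)) (g := fun _ => K) hm aestronglyMeasurable_const
    one_le_two).trans (add_le_add ?_ ?_))
  · rw [enorm_eq_self, enorm_eq_self]; exact h a
  · rw [eLpNorm_ofReal fun a => add_nonneg (hG.nonneg a) (mul_nonneg hc (hD0 a))]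
    refine (eLpNorm_add_le hG.meas (hD.const_mul c) one_le_two).trans (add_le_add hG.bound ?_)
    refine (eLpNorm_const_smul_le (c := c) (f := D) (p := 2) (μ := μ)).trans ?_
    rw [Real.enorm_eq_ofReal hc]
    exact mul_le_mul_right hU _
  · rw [eLpNorm_const' _ two_ne_zero ENNReal.ofNat_ne_top, measure_univ, ENNReal.one_rpow,
      mul_one, enorm_eq_self]

/-- The final bookkeeping of one step. -/
lemma step_budget {a g b c k Esem T : ℝ} {e : ℝ≥0∞} (ha : 0 ≤ a) (hg : 0 ≤ g) (hb : 0 ≤ b)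
    (hc : 0 ≤ c) (hk : 0 ≤ k) (hE : 0 ≤ Esem)
    (hcoef : (2.04 + c) * b + k ≤ 3) (htot : (2.04 + c) * a + g + Esem ≤ T) :
    ENNReal.ofReal 2.04 * (ENNReal.ofReal a + ENNReal.ofReal b * e) + ENNReal.ofReal Esem +
      (ENNReal.ofReal g + ENNReal.ofReal c * (ENNReal.ofReal a + ENNReal.ofReal b * e) +
        ENNReal.ofReal k * e) ≤ ENNReal.ofReal T + 3 * e := by
  have e1 : ENNReal.ofReal 2.04 * (ENNReal.ofReal a + ENNReal.ofReal b * e) + ENNReal.ofReal Esem +
      (ENNReal.ofReal g + ENNReal.ofReal c * (ENNReal.ofReal a + ENNReal.ofReal b * e) +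
        ENNReal.ofReal k * e) =
      ENNReal.ofReal ((2.04 + c) * a + g + Esem) + ENNReal.ofReal ((2.04 + c) * b + k) * e := by
    rw [ENNReal.ofReal_add (by positivity : 0 ≤ (2.04 + c) * a + g) hE,
      ENNReal.ofReal_add (by positivity : 0 ≤ (2.04 + c) * a) hg,
      ENNReal.ofReal_add (by positivity : 0 ≤ (2.04 + c) * b) hk,
      ENNReal.ofReal_mul (by positivity : (0:ℝ) ≤ 2.04 + c),
      ENNReal.ofReal_mul (by positivity : (0:ℝ) ≤ 2.04 + c),
      ENNReal.ofReal_add (by norm_num : (0:ℝ) ≤ 2.04) hc]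
    ring
  rw [e1]
  refine add_le_add (ENNReal.ofReal_le_ofReal htot) (mul_le_mul_left ?_ e)
  rw [← ENNReal.ofReal_ofNat]
  exact ENNReal.ofReal_le_ofReal hcoef

end Vale.Agent.P347.Zero
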